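import Vale.Agent.P022E.Two.Solv
import Vale.Agent.P022K.GW.Defs

/-!
# P022K, block CH: the tame structure of a decomposition group at any prime `l`

`WMod l U g`: the order of `g` modulo `U` is a power of `l`.
-/

set_option linter.all false

open NumberField

noncomputable section

namespace Vale.Agent.P022K.CH.Loc

open Vale.Agent.P022 Vale.Agent.P022.H443 Vale.Agent.P022D.W
open Vale.Agent.P027M.S (Inert)
open Vale.Agent.P022E.GW (Ov Fb)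

/-- `g` has order a power of `l` modulo `U` -/
def WMod {G : Type*} [Group G] (l : ℕ) (U : Subgroup G) (g : G) : Prop := ∃ n, g ^ l ^ n ∈ U

section

variable {G : Type*} [Group G] {l : ℕ} {U V : Subgroup G} {g : G}

theorem WMod.mono (h : U ≤ V) (hg : WMod l U g) : WMod l V g := hg.imp fun _ hm => h hm

theorem WMod.conj [hn : U.Normal] (hg : WMod l U g) (h : G) : WMod l U (h * g * h⁻¹) :=
  hg.imp fun _ hm => by rw [conj_pow]; exact hn.conj_mem _ hm h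

theorem WMod.mul_mem [hn : U.Normal] {u : G} (hg : WMod l U g) (hu : u ∈ U) :
    WMod l U (g * u) := by
  obtain ⟨m, e⟩ := hg
  refine ⟨m, (QuotientGroup.eq_one_iff _).1 ?_⟩
  have h2 : (QuotientGroup.mk' U) u = 1 := (QuotientGroup.eq_one_iff u).2 hu
  change (QuotientGroup.mk' U) ((g * u) ^ l ^ m) = 1
  rw [map_pow, map_mul, h2, mul_one, ← map_pow]
  exact (QuotientGroup.eq_one_iff _).2 e

end

/-- the tame character at finite level -/
theorem chi_data (U : Subgroup GQ) [hn : U.Normal] (hU : IsOpen (U : Set GQ))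
    {ℓ : ℕ} {P : Ideal (𝓞 Qb)} (h : Ov ℓ P) :
    ∃ (k : Type) (_ : CommRing k) (_ : IsDomain k) (χ : inP P →* k), (Set.range χ).Finite ∧
      (∀ g, χ g = 1 ↔ WMod ℓ U (g : GQ)) ∧
      ∀ σ : GQ, Fb ℓ P σ → ∀ τ ∈ inP P, WMod ℓ U (σ * τ * σ⁻¹ * (τ ^ ℓ)⁻¹) := by
  obtain ⟨hℓ, hP, hPℓ⟩ := h
  let f := QuotientGroup.mk' U
  have hfk : f.ker = U := QuotientGroup.ker_mk' U
  have hf : IsOpen (f.ker : Set GQ) := by rw [hfk]; exact hU
  have := galQb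
  have := cut_fin hf
  have := cut_gal hf
  have : NumberField (cut f) :=
    { to_charZero := inferInstance, to_finiteDimensional := inferInstance }
  let j : cut f →+* Qb := algebraMap (cut f) Qb
  let m : 𝓞 (cut f) →+* 𝓞 Qb := RingOfIntegers.mapRingHom j
  let q : GQ →* (cut f ≃ₐ[ℚ] cut f) := AlgEquiv.restrictNormalHom (cut f)
  have hq : ∀ (g : GQ) (x : cut f), ((q g x : cut f) : Qb) = g x := fun g x =>
    AlgEquiv.restrictNormal_commutes g (cut f) x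
  have hm : ∀ (g : GQ) (x : 𝓞 (cut f)), m (q g • x) = g • m x := by
    intro g x
    apply RingOfIntegers.ext
    exact hq g _
  have hker : ∀ g, q g = 1 ↔ g ∈ U := by
    intro g
    have e : g ∈ U ↔ g ∈ (cut f).fixingSubgroup := by rw [cut_fix hf, hfk]
    rw [e, IntermediateField.mem_fixingSubgroup_iff]
    constructor
    · intro h x hx
      have h1 := hq g ⟨x, hx⟩
      rw [h] at h1
      exact h1.symm
    · intro h
      apply AlgEquiv.ext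
      intro x
      apply Subtype.ext
      rw [hq]
      exact h x x.2
  have hQp : (P.comap m).IsPrime := Ideal.comap_isPrime m P
  have := faithful_ringOfIntegers (cut f)
  have hQl : (ℓ : 𝓞 (cut f)) ∈ P.comap m := by
    rw [Ideal.mem_comap, map_natCast]; exact hPℓ
  have hQ0 : P.comap m ≠ ⊥ := by
    intro h
    rw [h, Ideal.mem_bot] at hQl
    exact hℓ.ne_zero (by exact_mod_cast hQl)
  have hin : ∀ g : GQ, InP P g → InI (P.comap m) (q g) := by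
    intro g hg x
    rw [Ideal.mem_comap, map_sub, hm]
    exact hg _
  have hodd : ∀ g : GQ, InI1 (P.comap m) (q g) → WMod ℓ U g := by
    intro g hg
    obtain ⟨n, e⟩ := P022E.Two.Solv.wild_p (G := cut f ≃ₐ[ℚ] cut f) hQl ⟨q g, hg⟩
    exact ⟨n, (hker _).1 (by rw [map_pow]; exact congrArg Subtype.val e)⟩
  obtain ⟨χ, hχ⟩ := exists_chi (G := cut f ≃ₐ[ℚ] cut f) hQ0
  let q' : inP P →* (inert (P.comap m) : Subgroup (cut f ≃ₐ[ℚ] cut f)) :=
    (q.comp (inP P).subtype).codRestrict _ fun g => hin g g.2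
  have hd := Ideal.Quotient.isDomain (P.comap m)
  refine ⟨_, inferInstance, hd, χ.comp q', ?_, fun g => ⟨fun hg => hodd g (hχ (q' g) hg), ?_⟩, ?_⟩
  · refine Set.Finite.subset (Set.finite_range χ) ?_
    rintro _ ⟨g, rfl⟩
    exact ⟨q' g, rfl⟩
  · rintro ⟨n, hg⟩
    have h1 : q' (g ^ ℓ ^ n) = 1 := Subtype.ext ((hker _).2 hg)
    have h2 : (χ.comp q') g ^ ℓ ^ n = 1 := by
      rw [← map_pow, MonoidHom.comp_apply, h1, map_one]
    haveI : Fact ℓ.Prime := ⟨hℓ⟩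
    haveI : CharP (𝓞 (cut f) ⧸ P.comap m) ℓ := (CharP.charP_iff_prime_eq_zero hℓ).2 (by
      rw [← map_natCast (Ideal.Quotient.mk _), Ideal.Quotient.eq_zero_iff_mem]; exact hQl)
    have h3 : ((χ.comp q') g - 1) ^ ℓ ^ n = 0 := by rw [sub_pow_char_pow, h2, one_pow, sub_self]
    exact sub_eq_zero.1 (pow_eq_zero_iff (pow_ne_zero n hℓ.ne_zero) |>.1 h3)
  · intro σ hσ τ hτ
    apply hodd
    rw [map_mul, map_mul, map_mul, map_inv, map_inv, map_pow]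
    refine rel_in1 hQ0 hℓ.ne_zero (fun x => ?_) (hin τ hτ)
    rw [Ideal.mem_comap, map_sub, hm, map_pow]
    exact hσ _

section

variable {ℓ : ℕ} {P : Ideal (𝓞 Qb)}

theorem cyc_level (U : Subgroup GQ) [hn : U.Normal] (hU : IsOpen (U : Set GQ)) (h : Ov ℓ P) :
    ∃ τ ∈ inP P, ∀ g ∈ inP P, ∃ n : ℕ, WMod ℓ U ((τ ^ n)⁻¹ * g) := by
  obtain ⟨k, _, _, χ, hfin, h1, -⟩ := chi_data U hU h
  let χ' := χ.toHomUnits
  have hfin' : Finite χ'.range := by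
    have := hfin.to_subtype
    refine Finite.of_injective (β := Set.range χ)
      (fun x => ⟨(x.1 : k), by obtain ⟨g, hg⟩ := x.2; exact ⟨g, by rw [← hg]; rfl⟩⟩) ?_
    intro x y h
    exact Subtype.ext (Units.ext (Subtype.ext_iff.1 h))
  have hc : IsCyclic χ'.range := isCyclic_of_injective_ringHom
    ((Units.coeHom k).comp χ'.range.subtype) (fun x y h => Subtype.ext (Units.ext h))
  obtain ⟨⟨_, τ, rfl⟩, hτ⟩ := IsCyclic.exists_monoid_generator (α := χ'.range)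
  refine ⟨τ, τ.2, fun g hg => ?_⟩
  obtain ⟨n, hn⟩ := hτ ⟨χ' ⟨g, hg⟩, _, rfl⟩
  have hn' : χ' τ ^ n = χ' ⟨g, hg⟩ := congrArg Subtype.val hn
  refine ⟨n, (h1 ((τ ^ n)⁻¹ * ⟨g, hg⟩)).1 ?_⟩
  have : χ' ((τ ^ n)⁻¹ * ⟨g, hg⟩) = 1 := by rw [map_mul, map_inv, map_pow, hn', inv_mul_cancel]
  exact congrArg Units.val this

theorem exists_tau (h : Ov ℓ P) :
    ∃ τ ∈ inP P, ∀ U : Subgroup GQ, U.Normal → IsOpen (U : Set GQ) →
      ∀ g ∈ inP P, ∃ n : ℕ, WMod ℓ U ((τ ^ n)⁻¹ * g) := by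
  have := galQb
  let ι := {N : Subgroup GQ // N.Normal ∧ IsOpen (N : Set GQ)}
  let C : ι → Set GQ := fun N =>
    {τ | τ ∈ inP P ∧ ∀ g ∈ inP P, ∃ n : ℕ, WMod ℓ N.1 ((τ ^ n)⁻¹ * g)}
  have hcl : ∀ N, IsClosed (C N) := by
    intro N
    have hn := N.2.1
    have e : C N = (inP P : Set GQ) ∩
      {τ | ∀ g ∈ inP P, ∃ n : ℕ, WMod ℓ N.1 ((τ ^ n)⁻¹ * g)} := rfl
    rw [e]
    refine (isClosed_inP P).inter (isClosed_of_right N.2.2 fun τ hτ n hn' g hg => ?_)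
    obtain ⟨m, hm⟩ := hτ g hg
    refine ⟨m, ?_⟩
    have h1 : ((τ ^ m)⁻¹ * g)⁻¹ * (((τ * n) ^ m)⁻¹ * g) ∈ N.1 := by
      refine (QuotientGroup.eq_one_iff _).1 ?_
      have h2 : (QuotientGroup.mk' N.1) n = 1 := (QuotientGroup.eq_one_iff n).2 hn'
      change (QuotientGroup.mk' N.1) _ = 1
      simp only [map_mul, map_inv, map_pow, h2, mul_one, inv_mul_cancel]
    have h3 := hm.mul_mem h1
    rwa [mul_inv_cancel_left] at h3
  have hne : ∀ N, (C N).Nonempty := by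
    intro N
    have hn := N.2.1
    exact cyc_level N.1 N.2.2 h
  have hdir : Directed (fun s t : Set GQ => s ⊇ t) C := by
    intro M N
    have := M.2.1
    have := N.2.1
    refine ⟨⟨M.1 ⊓ N.1, inferInstance, M.2.2.inter N.2.2⟩, ?_, ?_⟩
    · rintro τ ⟨h1, h2⟩
      exact ⟨h1, fun g hg => (h2 g hg).imp fun n hn => hn.mono inf_le_left⟩
    · rintro τ ⟨h1, h2⟩
      exact ⟨h1, fun g hg => (h2 g hg).imp fun n hn => hn.mono inf_le_right⟩
  have hnon : Nonempty ι := ⟨⟨⊤, inferInstance, isOpen_univ⟩⟩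
  obtain ⟨τ, hτ⟩ := IsCompact.nonempty_iInter_of_directed_nonempty_isCompact_isClosed C hdir hne
    (fun N => (hcl N).isCompact) hcl
  rw [Set.mem_iInter] at hτ
  exact ⟨τ, (hτ (Classical.choice hnon)).1, fun N h1 h2 => (hτ ⟨N, h1, h2⟩).2⟩

end

/-- the tame structure modulo `U`: `D` decomposition group, `I` inertia group, `N` the part which
is wild modulo `U` -/
structure Tm {G : Type*} [Group G] (l : ℕ) (D I N U : Subgroup G) (τ φ : G) : Prop where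
  ID : I ≤ D
  NI : N ≤ I
  tau : τ ∈ I
  phi : φ ∈ D
  cjI : ∀ g ∈ D, ∀ s ∈ I, g * s * g⁻¹ ∈ I
  cjN : ∀ g ∈ D, ∀ p ∈ N, g * p * g⁻¹ ∈ N
  wild : ∀ p ∈ N, ∃ n, p ^ l ^ n ∈ U
  cyc : ∀ s ∈ I, ∃ k : ℕ, ∃ p ∈ N, s = τ ^ k * p
  rel : ∀ s ∈ I, ∃ p ∈ N, φ * s * φ⁻¹ = p * s ^ l
  gen : ∀ g ∈ D, ∃ k : ℕ, ∃ s ∈ I, ∃ u ∈ U, g = u * φ ^ k * s

theorem Tm.mono {G : Type*} [Group G] {l : ℕ} {D I N U V : Subgroup G} {τ φ : G}
    (h : Tm l D I N U τ φ) (hV : U ≤ V) : Tm l D I N V τ φ :=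
  ⟨h.ID, h.NI, h.tau, h.phi, h.cjI, h.cjN, fun p hp => (h.wild p hp).imp fun _ m => hV m, h.cyc,
    h.rel, fun g hg => by
      obtain ⟨k, s, hs, u, hu, e⟩ := h.gen g hg
      exact ⟨k, s, hs, u, hV hu, e⟩⟩

/-- the tame structure modulo every open subgroup -/
def TmA {G : Type*} [Group G] [TopologicalSpace G] (l : ℕ) (D I : Subgroup G) (τ φ : G) : Prop :=
  ∀ U : Subgroup G, IsOpen (U : Set G) → ∃ N, Tm l D I N U τ φ

/-- **The tame structure** at any prime: one `τ` for all finite quotients, any Frobenius `φ`. -/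
theorem tame {ℓ : ℕ} {P : Ideal (𝓞 Qb)} (hP : Ov ℓ P) :
    ∃ τ ∈ inP P, ∀ φ : GQ, Fb ℓ P φ → TmA ℓ (dec P) (inP P) τ φ := by
  obtain ⟨τ, hτ, h⟩ := exists_tau hP
  refine ⟨τ, hτ, fun φ hφ V hV => ?_⟩
  have := galQb
  haveI : Finite (GQ ⧸ V) := V.quotient_finite_of_isOpen hV
  haveI : V.FiniteIndex := Subgroup.finiteIndex_of_finite_quotient
  let U := V.normalCore
  have hUo : IsOpen (U : Set GQ) :=
    Subgroup.isOpen_of_isClosed_of_finiteIndex _ (V.normalCore_isClosed (V.isClosed_of_isOpen hV))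
  obtain ⟨k, _, _, χ, -, h1, h4⟩ := chi_data U hUo hP
  let N : Subgroup GQ := χ.toHomUnits.ker.map (inP P).subtype
  have hN : ∀ g, g ∈ N ↔ g ∈ inP P ∧ WMod ℓ U g := fun g => by
    constructor
    · rintro ⟨g, hg, rfl⟩
      exact ⟨g.2, (h1 g).1 (congrArg Units.val hg)⟩
    · rintro ⟨a, b⟩
      exact ⟨⟨g, a⟩, Units.ext ((h1 ⟨g, a⟩).2 b), rfl⟩
  have hφd := phi_mem hP.1 hP.2.1 hφ
  refine ⟨N, Tm.mono ⟨inP_le_dec, fun g hg => ((hN g).1 hg).1, hτ, hφd,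
    fun g hg s hs => conj_inP hg hs, fun g hg p hp => ?_, fun p hp => ((hN p).1 hp).2,
    fun s hs => ?_, fun s hs => ?_, fun g hg => ?_⟩ V.normalCore_le⟩
  · rw [hN] at hp ⊢
    exact ⟨conj_inP hg hp.1, hp.2.conj g⟩
  · obtain ⟨n, hn⟩ := h U inferInstance hUo s hs
    exact ⟨n, _, (hN _).2 ⟨(inP P).mul_mem ((inP P).inv_mem ((inP P).pow_mem hτ n)) hs, hn⟩,
      by group⟩
  · exact ⟨_, (hN _).2 ⟨(inP P).mul_mem (conj_inP hφd hs)
      ((inP P).inv_mem ((inP P).pow_mem hs ℓ)), h4 φ hφ s hs⟩, by group⟩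
  · obtain ⟨k, s, u, hs, hu, e⟩ := dec_gen hP.1 hP.2.1 hP.2.2 hφ hg U hUo
    exact ⟨k, s, hs, u, hu, e⟩

/-- the tame structure in a group `G` embedded as an open subgroup in which `l` splits at `P` -/
theorem tameI {G : Type} [Group G] [TopologicalSpace G] {ι : G →* GQ}
    (hι : Topology.IsOpenEmbedding ι) {ℓ : ℕ} {P : Ideal (𝓞 Qb)} (hP : Ov ℓ P)
    (hD : dec P ≤ ι.range) : ∃ τ φ₀ : G, Fb ℓ P (ι φ₀) ∧ ∀ φ : G, Fb ℓ P (ι φ) →
      TmA ℓ ((dec P).comap ι) ((inP P).comap ι) τ φ := by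
  obtain ⟨τ, hτ, h⟩ := tame hP
  obtain ⟨φ₀, hφ₀⟩ := exists_phi hP.1 hP.2.1 hP.2.2
  obtain ⟨τ, rfl⟩ := hD (inP_le_dec hτ)
  obtain ⟨φ₀, rfl⟩ := hD (phi_mem hP.1 hP.2.1 hφ₀)
  refine ⟨τ, φ₀, hφ₀, fun φ hφ U hU => ?_⟩
  obtain ⟨N, t⟩ := h _ hφ (U.map ι) (hι.isOpenMap _ hU)
  have inj := hι.injective
  refine ⟨N.comap ι, fun g hg => t.ID hg, fun g hg => t.NI hg, t.tau, t.phi, fun g hg s hs => ?_,
    fun g hg s hs => ?_, fun p hp => ?_, fun s hs => ?_, fun s hs => ?_, fun g hg => ?_⟩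
  · simpa [Subgroup.mem_comap] using t.cjI _ hg _ hs
  · simpa [Subgroup.mem_comap] using t.cjN _ hg _ hs
  · obtain ⟨n, u, hu, e⟩ := t.wild _ hp
    exact ⟨n, by rwa [← inj (e.trans (map_pow ι p _).symm)]⟩
  · obtain ⟨k, p, hp, e⟩ := t.cyc _ hs
    obtain ⟨p, rfl⟩ := hD (t.ID (t.NI hp))
    exact ⟨k, p, hp, inj (by rw [e, map_mul, map_pow])⟩
  · obtain ⟨p, hp, e⟩ := t.rel _ hs
    obtain ⟨p, rfl⟩ := hD (t.ID (t.NI hp))
    exact ⟨p, hp, inj (by simp only [map_mul, map_pow, map_inv, e])⟩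
  · obtain ⟨k, s, hs, _, ⟨u, hu, rfl⟩, e⟩ := t.gen _ hg
    obtain ⟨s, rfl⟩ := hD (t.ID hs)
    exact ⟨k, s, hs, u, hu, inj (by simp only [map_mul, map_pow, e])⟩

theorem mem_inP {P : Ideal (𝓞 Qb)} {g : GQ} : g ∈ inP P ↔ Inert P g := Iff.rfl

end Vale.Agent.P022K.CH.Loc
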