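import Vale.Agent.P022K.CH.Bas

/-!
# P022K, block CH: the interfaces of the chain with the last guard at `3`

`S` is a set of odd primes.  Over the fields `X` the level is maximal at `2`; over `ℚ` the level is
`insert 2 S`, arbitrary at `2`.  `AutQ m S L a` may be read with the eigenvalues `a l` at almost
all primes `l`.
-/

set_option autoImplicit false

open NumberField IsDedekindDomain Matrix

noncomputable section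

namespace Vale.Agent.P022K.CH

open Vale.Agent.P022 Vale.Agent.P022.C
open Vale.Agent.P022.H443 (inP)
open Vale.Agent.P022D.W (dec)
open Vale.Agent.P022E.GW (Ov Fb)
open Vale.Agent.P022K.Glue (Dsj Spans)

/-- a finite set of odd primes -/
def Od (S : Finset ℕ) : Prop := ∀ l ∈ S, l.Prime ∧ l ≠ 2

/-- not Eisenstein -/
def NE (S : Finset ℕ) (a : ℕ → Qb) : Prop := ∀ l ∉ S, l.Prime → a l ^ 2 ≠ ((l : Qb) + 1) ^ 2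

open Classical in
/-- the character of the two dimensional representation of `PGL₂(𝔽₃) = S₄` -/
def cth (g : GL (Fin 2) (ZMod 3)) : Qb :=
  if (g : Matrix (Fin 2) (Fin 2) (ZMod 3)).det = 1 then (if g ^ 4 = 1 then 2 else -1) else 0

section

variable {p : ℕ} [Fact p.Prime]

/-- finite non scalar inertia of order prime to `p` -/
def Tp (r : GQ →* GL (Fin 2) (Cp p)) (l : ℕ) : Prop :=
  Fn r l ∧ ∃ n : ℕ, ¬ p ∣ n ∧ ∀ P, Ov l P → ∀ s ∈ inP P, r s ^ n = 1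

/-- the reduction is adequate on `Γ` -/
def Adq (r : GQ →* GL (Fin 2) (Cp p)) (Γ : Subgroup GQ) : Prop := ∃ ρ, Rs r ρ ∧
  Spans (fun g => (ρ g : Matrix (Fin 2) (Fin 2) (Kp p))) (Γ ⊓ Gz p : Subgroup GQ) ∧
  (7 ≤ p ∨ ∃ s ∈ Γ ⊓ Gz p, ρ s ^ 16 = -1)

/-- the reduction is not Eisenstein over any cyclotomic field -/
def Nes (r : GQ →* GL (Fin 2) (Cp p)) : Prop :=
  ∀ N : ℕ, 0 < N → ∃ g ∈ Gz N, ¬ ‖tr r g ^ 2 - 4‖ < 1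

end

/-- `A` holds for a large family of fields which are split at `Z` -/
def FamZ {R : Type} [CommRing R] (S Z : Finset ℕ) (l0 : ℕ) (r : GQ →* GL (Fin 2) R)
    (A : Fd → Prop) : Prop := Fam S l0 r fun X => Spl X.H Z → A X

/-- the residual representation we start from: `S` consists of the odd ramified primes and the
guards `Q₁`, `Q₂` -/
structure DatB (ρ : GQ →* GL (Fin 2) (Kp 2)) (S : Finset ℕ) (Q₁ Q₂ : ℕ) : Prop where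
  opn : IsOpen {g | ρ g = 1}
  det : ∀ g, dt ρ g = 1
  big : ¬ Group.IsSolvable ρ.range
  od : Od S
  mem₁ : Q₁ ∈ S
  mem₂ : Q₂ ∈ S
  ne : Q₁ ≠ Q₂
  mod₁ : 32 ∣ Q₁ + 1
  mod₂ : 32 ∣ Q₂ + 1
  thr₁ : 3 ∣ Q₁ - 1
  thr₂ : 3 ∣ Q₂ + 1
  one₁ : ∀ l ∈ S, l ≠ Q₁ → l ≠ Q₂ → l ∣ Q₁ - 1
  one₂ : ∀ l ∈ S, l ≠ Q₂ → l ≠ 3 → l ∣ Q₂ - 1
  unr : Unr ρ (insert 2 ((S.erase Q₁).erase Q₂))
  ram : ∀ l ∈ S, l ≠ Q₁ → l ≠ Q₂ → ¬ St.UnrAt ρ l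
  frob : ∀ Q, Q = Q₁ ∨ Q = Q₂ → ∀ P φ, Ov Q P → Fb Q P φ → ρ φ ≠ 1 ∧ ρ φ ^ 2 = 1

/-- the primes where the level has to be controlled -/
def CtlB (ρ : GQ →* GL (Fin 2) (Kp 2)) (Q₁ Q₂ l : ℕ) : Prop :=
  l ≠ 2 ∧ (l = Q₁ ∨ l = Q₂ ∨ ∀ g, St.IsDec l g → tr ρ g = 0)

namespace Thy

variable (A : Thy)

/-- a seed for `r` over `X`: a form whose representation is congruent to `r` and kills the kernel
of `r` on the inertia groups away from `p` -/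
def AutS {p : ℕ} [Fact p.Prime] (ι : Qb →+* Cp p) (S : Finset ℕ) (L : Lv)
    (r : GQ →* GL (Fin 2) (Cp p)) (X : Fd) : Prop :=
  ∃ m b ρ, A.Aut X m S L b ∧ Lg ι X S b ρ ∧ (∀ g : X.H, ‖tr ρ g - tr r g‖ < 1) ∧
    ∀ l ∈ S, l ≠ p → ∀ P, Ov l P → ∀ s g : X.H, s.1 ∈ inP P → r s = 1 → tr ρ (s * g) = tr ρ g

/-- **THE** (CH): the type `cth` -/
def THE : Prop := ∀ X m S L b, A.Aut X m S L b → 3 ∈ S → L 3 = some cth →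
  ∀ (p : ℕ) [Fact p.Prime] (ι : Qb →+* Cp p) ρ, 5 ≤ p → Lg ι X S b ρ →
  ∀ P, Ov 3 P → dec P ≤ X.H → below X.j P ≠ X.v0.asIdeal →
    (∀ s g : X.H, s.1 ∈ inP P → tr ρ (s ^ 4 * g) = tr ρ g) ∧
    (∃ U : Subgroup GQ, IsOpen (U : Set GQ) ∧ ∀ s g : X.H, s.1 ∈ U ⊓ inP P →
      tr ρ (s * g) = tr ρ g) ∧
    ∃ s : X.H, s.1 ∈ inP P ∧ tr ρ s = 0

/-- **RAM** (RM): the eigenvalues are not Eisenstein -/
def RAM : Prop := ∀ X m S L b, A.Aut X m S L b → ∀ l P (w : X.Pl), Ov l P →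
  below X.j P = w.asIdeal → X.Sph S l P → dec P ≤ X.H → b w ^ 2 ≠ ((l : Qb) + 1) ^ 2

/-- **FIRB** (PM, F0, RT, WB, O2): the first lift -/
def FIRB : Prop := ∀ ρ S Q₁ Q₂, DatB ρ S Q₁ Q₂ → ∃ (ι : Qb →+* Cp 2)
  (r : GQ →* GL (Fin 2) (Cp 2)) (m : ℕ) (L : Lv), Rep r ∧ Rs r ρ ∧ Unr r (insert 2 S) ∧
    (∀ l ∈ S, Fn r l) ∧ Ex r Q₁ 32 16 ∧ Ex r Q₂ 32 16 ∧
    (∀ l ∈ S, CtlB ρ Q₁ Q₂ l → ∃ c, L l = some c ∧ A.Prin l c) ∧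
    (∀ l ∈ S, ¬ CtlB ρ Q₁ Q₂ l → L l = none) ∧ Fam S Q₂ r (A.AutR ι m S L r)

/-- **MOV5** (RT, WB): the prime `p ≥ 5` leaves the level -/
def MOV5 : Prop := ∀ (p : ℕ) [Fact p.Prime] (ι : Qb →+* Cp p) (S : Finset ℕ) (L : Lv) (l0 : ℕ)
  (r : GQ →* GL (Fin 2) (Cp p)), 5 ≤ p → Od S → p ∈ S → l0 ∈ S → l0 ≠ p → Rep r → Unr r S →
  (∀ l ∈ S, l ≠ p → Tp r l) →
  (∃ X : Fd, X.H.Normal ∧ Spl X.H S ∧ X.Ok S l0 r ∧ Adq r X.H ∧ A.AutS ι S L r X) →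
  ∃ m r', Rep r' ∧ Cg r r' ∧ Unr r' S ∧ (∀ l ∈ S, l ≠ p → Sk r r' l) ∧
    ∀ X : Fd, Spl X.H {p} → X.Ok S l0 r → Adq r X.H → A.AutS ι S L r X →
      A.AutR ι m (S.erase p) L r' X

/-- **MOV3** (RT, WB): the type `cth` is installed at `3` -/
def MOV3 : Prop := ∀ [Fact (Nat.Prime 3)] (ι : Qb →+* Cp 3) (S : Finset ℕ) (L : Lv) (l0 : ℕ)
  (r : GQ →* GL (Fin 2) (Cp 3)), Od S → l0 ∈ S → l0 ≠ 3 → Rep r → Unr r (insert 3 S) →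
  (∀ l ∈ S, l ≠ 3 → Tp r l) →
  (∃ X : Fd, X.H.Normal ∧ Spl X.H (insert 3 S) ∧ X.Ok S l0 r ∧ Adq r X.H ∧ A.AutS ι S L r X) →
  ∃ m r', Rep r' ∧ Cg r r' ∧ Unr r' (insert 3 S) ∧ (∀ l ∈ S, l ≠ 3 → Sk r r' l) ∧
    ∀ X : Fd, Spl X.H {3} → X.Ok S l0 r → Adq r X.H → A.AutS ι S L r X →
      A.AutR ι m (insert 3 S) (Function.update L 3 (some cth)) r' X

/-- **PMB** (PM, F0, RT): potential modularity before the last move -/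
def PMB : Prop := ∀ (p : ℕ) [Fact p.Prime] (ι : Qb →+* Cp p) (r : GQ →* GL (Fin 2) (Cp p)),
  7 ≤ p → Rep r → Unr r {3, p} → Fn r 3 → Ex r 3 4 2 → Gd r 3 →
  Fam {3, p} 3 r (A.AutM ι {3, p} Lv.non r)

/-- **CLB** (QT): classical forms give classes on the modular tower -/
def CLB : Prop := ∀ m a, NE {3} a → ClW m {2, 3} a → A.AutQ m {2, 3} Lv.non a

/-- **BACB** (RT, WB): modularity lifting over `ℚ` at an odd prime; the types `L'` away from `p`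
are carried, the weight and the type at `p` come from the field `X` -/
def BACB : Prop := ∀ (p : ℕ) [Fact p.Prime] (ι : Qb →+* Cp p) (S : Finset ℕ) (L L' : Lv)
  (r r' : GQ →* GL (Fin 2) (Cp p)) (a a' : ℕ → Qb) (m m' l0 : ℕ) (X : Fd), p ≠ 2 → Od S →
  Rep r → Rep r' → Cg r r' → Unr r (insert p S) → Unr r' (insert p S) →
  (∀ l ∈ S, l ≠ p → Tp r l ∧ Sk r r' l) → Adq r ⊤ → Nes r → Sys ι r (insert p S) a →
  Sys ι r' (insert p S) a' → NE (insert p S) a → NE (insert p S) a' →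
  l0 ∈ S → Spl X.H (insert p S) → X.Ok S l0 r → (∃ P, Ov p P ∧ below X.j P ≠ X.v0.asIdeal) →
  A.AutR ι m S L r X → L' 2 = none → (p ∈ S → L' p = L p) →
  (p ∈ S → ∀ c, L p = some c → A.Prin p c) →
  A.AutQ m' (insert 2 (insert p S)) (Function.update L' p none) a' → A.AutQ m (insert 2 S) L' a

/-- **LEVB** (CH): level control -/
def LEVB : Prop := ∀ ρ S Q₁ Q₂ (ι : Qb →+* Cp 2) (m : ℕ) (L : Lv) (a : ℕ → Qb), DatB ρ S Q₁ Q₂ →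
  (∃ l ∈ S, l ≠ Q₁ ∧ l ≠ Q₂) → (∀ l ∈ S, CtlB ρ Q₁ Q₂ l → ∃ c, L l = some c ∧ A.Prin l c) →
  (∀ l ∈ insert 2 S, ¬ CtlB ρ Q₁ Q₂ l → L l = none) →
  (∀ l ∉ insert 2 S, ∀ P φ, Ov l P → Fb l P φ → ‖ι (a l)‖ ≤ 1 ∧ red (ι (a l)) = tr ρ φ) →
  A.AutQ m (insert 2 S) L a → St.Serre ρ

/-- **SYB** (CH): compatible systems -/
def SYB : Prop := ∀ (p : ℕ) [Fact p.Prime] (ι : Qb →+* Cp p) (S Z : Finset ℕ) (L : Lv)
  (l0 m : ℕ) (r : GQ →* GL (Fin 2) (Cp p)), Od S → Z ⊆ S → l0 ∈ S → Rep r → Unr r (insert p S) →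
  (p ∈ S → p ∈ Z) → (∀ l ∈ S, l ∉ Z → Fn r l) → FamZ S Z l0 r (A.AutR ι m S L r) →
  ∃ a, Alg S a ∧ NE S a ∧ Sys ι r (insert p S) a ∧ ∀ (q : ℕ) [Fact q.Prime] (μ : Qb →+* Cp q),
    ∃ r' : GQ →* GL (Fin 2) (Cp q), Rep r' ∧ Unr r' (insert q S) ∧ Sys μ r' (insert q S) a ∧
    (∀ l ∈ S, l ∉ Z → l ≠ q → Sk r r' l) ∧
    (5 ≤ q → 3 ∈ S → l0 ≠ 3 → L 3 = some cth → Fn r' 3 ∧ Ex r' 3 4 2) ∧
    FamZ S Z l0 r' (A.AutR μ m S L r')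

/-- **SEED** (CH): seeds -/
def SEED : Prop := ∀ (p : ℕ) [Fact p.Prime] (ι : Qb →+* Cp p) (S : Finset ℕ) (L : Lv) (l0 : ℕ)
  (r : GQ →* GL (Fin 2) (Cp p)) (X : Fd), Rep r → (∀ m, A.AutR ι m S L r X → A.AutS ι S L r X) ∧
  (p ≠ 2 → Od S → X.Ok S l0 r → Adq r X.H → (∀ l ∈ S, l ≠ p → Fn r l ∧ ¬ p ∣ l ^ 2 - 1) →
    A.AutM ι S L r X → A.AutS ι S L r X)

end Thy

/-- **ENDB** (library, EN, WB, UC): the end point -/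
def ENDB : Prop := ∀ (ι : Qb →+* Cp 2) (r : GQ →* GL (Fin 2) (Cp 2)) (a : ℕ → Qb), Rep r →
  Unr r {2, 3} → Fn r 3 → Ex r 3 4 2 → Sys ι r {2, 3} a → Alg {3} a → NE {3} a → Cl {2, 3} a

/-- **PRI**: the order of the image of inertia -/
def PRI : Prop := ∀ (p : ℕ) [Fact p.Prime] (r : GQ →* GL (Fin 2) (Cp p)) (l : ℕ), p ≠ 2 →
  l ≠ p → Rep r → Fn r l → ¬ p ∣ l ^ 2 - 1 → Tp r l

/-- **GR3**: the guard at `3` -/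
def GR3 : Prop := ∀ (p : ℕ) [Fact p.Prime] (r : GQ →* GL (Fin 2) (Cp p)), 12 ∣ p + 1 → Rep r →
  Fn r 3 → Ex r 3 4 2 → Gd r 3

/-- **NES**: guards make the reduction non Eisenstein -/
def NES : Prop := ∀ (p : ℕ) [Fact p.Prime] (r : GQ →* GL (Fin 2) (Cp p)) (l : ℕ), p ≠ 2 →
  l.Prime → Rep r → Gd r l → (Ex r l 32 16 ∨ (l = 3 ∧ Unr r {3, p})) → Nes r

/-- **EXB**: a family contains Galois fields -/
def EXB : Prop := ∀ (R : Type) [CommRing R] (S : Finset ℕ) (l0 : ℕ) (r : GQ →* GL (Fin 2) R)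
  (A : Fd → Prop), Od S → l0 ∈ S → Fam S l0 r A → ∀ (U : Subgroup GQ) (T : Finset ℕ), U.Normal →
  IsOpen (U : Set GQ) → ∃ X : Fd, X.H.Normal ∧ Spl X.H (S ∪ T) ∧ Dsj X.H U ∧ X.Ok S l0 r ∧ A X ∧
    ∀ l : ℕ, l.Prime → ∃ P, Ov l P ∧ below X.j P ≠ X.v0.asIdeal

/-- **QEB**: the choice of the guards -/
def QEB : Prop := ∀ ρ : GQ →* GL (Fin 2) (Kp 2), IsOpen {g | ρ g = 1} → (∀ g, dt ρ g = 1) →
  ¬ Group.IsSolvable ρ.range → ∃ S Q₁ Q₂, DatB ρ S Q₁ Q₂ ∧ ∃ l ∈ S, l ≠ Q₁ ∧ l ≠ Q₂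

end Vale.Agent.P022K.CH
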