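import Vale.Agent.P022K.CH.Defs

/-!
# P022K, block CH: the interfaces of the chain

`Aut X m S L b`: `b` is the system of eigenvalues of the operators `T_w` (at the places with
`X.Sph S`) on a non zero class of parallel weight `2 m + 2` on the adjoint tower of a quaternion
algebra over `X.F` which is ramified exactly at `X.v0` and at all real places but one.  The level
is maximal at the places with `X.Sph S`, arbitrary at `X.v0`, and given by `L l` at the other places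
(they are of degree one over a prime `l ∈ S`).  `AutQ m S L a` is the same for `GL₂` over `ℚ`.
-/

set_option autoImplicit false

open NumberField IsDedekindDomain Matrix

noncomputable section

namespace Vale.Agent.P022K.CH

open Vale.Agent.P022 Vale.Agent.P022.C
open Vale.Agent.P022.H443 (inP)
open Vale.Agent.P022D.W (dec)
open Vale.Agent.P022E.GW (Ov Fb)
open Vale.Agent.P022K.Glue (Dsj Spans)

/-- the automorphic predicates -/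
structure Thy where
  Aut : (X : Fd) → ℕ → Finset ℕ → Lv → (X.Pl → Qb) → Prop
  AutQ : ℕ → Finset ℕ → Lv → (ℕ → Qb) → Prop
  Prin : (l : ℕ) → (GL (Fin 2) (ZMod l) → Qb) → Prop

/-- a finite set of primes which contains `2` -/
def Ps (S : Finset ℕ) : Prop := 2 ∈ S ∧ ∀ l ∈ S, l.Prime

/-- the residual representation we start from: `S` consists of `2`, the odd ramified primes and the
guard `Q` -/
structure Dat (ρ : GQ →* GL (Fin 2) (Kp 2)) (S : Finset ℕ) (Q : ℕ) : Prop where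
  opn : IsOpen {g | ρ g = 1}
  det : ∀ g, dt ρ g = 1
  big : ¬ Group.IsSolvable ρ.range
  ps : Ps S
  mem : Q ∈ S
  mod : 32 ∣ Q + 1
  one : ∀ l ∈ S, l ≠ 2 → l ≠ Q → l ∣ Q - 1
  unr : Unr ρ (S.erase Q)
  ram : ∀ l ∈ S, l ≠ 2 → l ≠ Q → ¬ St.UnrAt ρ l
  frob : ∀ P φ, Ov Q P → Fb Q P φ → ρ φ ≠ 1 ∧ ρ φ ^ 2 = 1

/-- the primes where the level has to be controlled -/
def Ctl (ρ : GQ →* GL (Fin 2) (Kp 2)) (Q l : ℕ) : Prop :=
  l ≠ 2 ∧ (l = Q ∨ ∀ g, St.IsDec l g → tr ρ g = 0)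

namespace Thy

variable (A : Thy)

section

variable {p : ℕ} [Fact p.Prime] (ι : Qb →+* Cp p)

/-- `r` is automorphic over `X` -/
def AutR (m : ℕ) (S : Finset ℕ) (L : Lv) (r : GQ →* GL (Fin 2) (Cp p)) (X : Fd) : Prop :=
  ∃ b, A.Aut X m S L b ∧ Mt ι X b r

/-- the reduction of `r` is automorphic over `X` -/
def AutM (S : Finset ℕ) (L : Lv) (r : GQ →* GL (Fin 2) (Cp p)) (X : Fd) : Prop :=
  ∃ m b, A.Aut X m S L b ∧ Mm ι X b r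

end

/-- the local behaviour of `ρ` at the places with maximal level -/
def Lg {p : ℕ} [Fact p.Prime] (ι : Qb →+* Cp p) (X : Fd) (S : Finset ℕ) (b : X.Pl → Qb)
    (ρ : X.H →* GL (Fin 2) (Cp p)) : Prop :=
  Continuous ρ ∧ (∀ g, dt ρ g = eps p g) ∧
    ∀ l P (w : X.Pl), Ov l P → l ≠ p → below X.j P = w.asIdeal → X.Sph S l P →
      (∀ s : X.H, s.1 ∈ inP P → ρ s = 1) ∧ ∀ φ, FrI X.j w P φ → tr ρ φ = ι (b w)

/-- **REP** (F0, FI): Galois representations -/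
def REP : Prop := ∀ X m S L b, A.Aut X m S L b → ∀ (p : ℕ) [Fact p.Prime] (ι : Qb →+* Cp p),
  ∃ ρ, Lg ι X S b ρ

/-- **SGN** (CH): the sign type -/
def SGN : Prop := ∀ X m S L b, A.Aut X m S L b → 2 ∈ S → L 2 = some sgn →
  ∀ (p : ℕ) [Fact p.Prime] (ι : Qb →+* Cp p) ρ, p ≠ 2 → Lg ι X S b ρ →
  ∀ P, Ov 2 P → dec P ≤ X.H → below X.j P ≠ X.v0.asIdeal →
    (∀ s g : X.H, s.1 ∈ inP P → tr ρ (s ^ 3 * g) = tr ρ g) ∧
    (∃ U : Subgroup GQ, IsOpen (U : Set GQ) ∧ ∀ s g : X.H, s.1 ∈ U ⊓ inP P →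
      tr ρ (s * g) = tr ρ g) ∧
    ∃ s : X.H, s.1 ∈ inP P ∧ tr ρ s = -1

/-- **BND** (F0): the eigenvalues -/
def BND : Prop := ∀ m, ∃ C : ℕ, ∀ X S L b, A.Aut X m S L b →
  ∃ (K : IntermediateField ℚ Qb) (_ : FiniteDimensional ℚ K), ∀ l P (w : X.Pl), Ov l P →
    below X.j P = w.asIdeal → X.Sph S l P → dec P ≤ X.H →
    b w ∈ K ∧ IsIntegral ℤ ((l : Qb) ^ C * b w) ∧ ∀ φ : Qb →+* ℂ, ‖φ (b w)‖ ≤ (l : ℝ) ^ C

/-- **FIRST** (PM, F0, RT, WB): the first lift -/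
def FIRST : Prop := ∀ ρ S Q, Dat ρ S Q → ∃ (ι : Qb →+* Cp 2) (r : GQ →* GL (Fin 2) (Cp 2)) (m : ℕ)
  (L : Lv), Rep r ∧ Rs r ρ ∧ Unr r S ∧ (∀ l ∈ S, l ≠ 2 → Fn r l) ∧ Ex r Q 32 16 ∧
    L 2 = some sgn ∧ (∀ l ∈ S, Ctl ρ Q l → ∃ c, L l = some c ∧ A.Prin l c) ∧
    (∀ l ∈ S, l ≠ 2 → ¬ Ctl ρ Q l → L l = none) ∧ Fam S Q r (A.AutR ι m S L r)

/-- **MOVE** (RT, WB): the prime `p` leaves the level -/
def MOVE : Prop := ∀ (p : ℕ) [Fact p.Prime] (ι : Qb →+* Cp p) (S : Finset ℕ) (L : Lv) (l0 : ℕ)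
  (r : GQ →* GL (Fin 2) (Cp p)), p ≠ 2 → Ps S → p ∈ S → l0 ∈ S → l0 ≠ p → Rep r → Unr r S →
  (∀ l ∈ S, l ≠ p → Rg r l) → (p = 3 → L 2 = some sgn ∧ l0 ≠ 2) → Gd r l0 →
  Fam S l0 r (A.AutM ι S L r) →
  ∃ m r', Rep r' ∧ Cg r r' ∧ Unr r' S ∧ (p = 3 → Fn r' 2 ∧ Ex r' 2 3 1) ∧
    Fam (S.erase p) l0 r' (A.AutR ι m (S.erase p) L r')

/-- **MOVE1**: the same, field by field (it implies `MOVE`) -/
def MOVE1 : Prop := ∀ (p : ℕ) [Fact p.Prime] (ι : Qb →+* Cp p) (S : Finset ℕ) (L : Lv) (l0 : ℕ)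
  (r : GQ →* GL (Fin 2) (Cp p)), p ≠ 2 → Ps S → p ∈ S → l0 ∈ S → l0 ≠ p → Rep r → Unr r S →
  (∀ l ∈ S, l ≠ p → Rg r l) → (p = 3 → L 2 = some sgn ∧ l0 ≠ 2) → Gd r l0 →
  (∃ X : Fd, X.H.Normal ∧ Spl X.H S ∧ X.Ok S l0 r ∧ A.AutM ι S L r X) →
  ∃ m r', Rep r' ∧ Cg r r' ∧ Unr r' S ∧ (p = 3 → Fn r' 2 ∧ Ex r' 2 3 1) ∧
    ∀ X : Fd, Spl X.H {p} → X.Ok S l0 r → A.AutM ι S L r X → A.AutR ι m (S.erase p) L r' X

/-- **PMQ** (PM, F0, RT): potential modularity before the last move -/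
def PMQ : Prop := ∀ (p : ℕ) [Fact p.Prime] (ι : Qb →+* Cp p) (r : GQ →* GL (Fin 2) (Cp p)),
  7 ≤ p → Rep r → Unr r {2, p} → Fn r 2 → Ex r 2 3 1 → Gd r 2 →
  Fam {2, p} 2 r (A.AutM ι {2, p} Lv.non r)

/-- **CLQ** (WB, forms side): classical forms give classes on the modular tower -/
def CLQ : Prop := ∀ m S a, Ps S → ClW m S a → A.AutQ m S Lv.non a

/-- **MONO** (definition of `AutQ`): a maximal level is a level -/
def MONO : Prop := ∀ m (S : Finset ℕ) (L : Lv) a p, p ∈ S → A.AutQ m (S.erase p) L a →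
  A.AutQ m S (Function.update L p none) a

/-- **CONG** (definition of `AutQ`): only the types at the primes of `S` matter -/
def CONG : Prop := ∀ m (S : Finset ℕ) (L L' : Lv) a, (∀ l ∈ S, L l = L' l) → A.AutQ m S L a →
  A.AutQ m S L' a

/-- **BACK** (RT, WB): modularity lifting over `ℚ` at an odd prime; the types `L'` away from `p`
are carried, the weight and the type at `p` come from the field `X` -/
def BACK : Prop := ∀ (p : ℕ) [Fact p.Prime] (ι : Qb →+* Cp p) (S : Finset ℕ) (L L' : Lv)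
  (r r' : GQ →* GL (Fin 2) (Cp p)) (a a' : ℕ → Qb) (m m' l0 : ℕ) (X : Fd), p ≠ 2 → Ps S → p ∈ S →
  Rep r → Rep r' → Cg r r' → Unr r S → Unr r' S → (∀ l ∈ S, l ≠ p → Rg r l) →
  (p = 3 → Fn r' 2 ∧ Ex r' 2 3 1) → (∃ l ∈ S, Gd r l) → Sys ι r S a → Sys ι r' S a' →
  l0 ∈ S → Spl X.H S → X.Ok S l0 r → (∃ P, Ov p P ∧ below X.j P ≠ X.v0.asIdeal) →
  A.AutR ι m S L r X → L' p = L p →
  A.AutQ m' S (Function.update L' p none) a' → A.AutQ m S L' a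

/-- **LEVQ** (CH): level control -/
def LEVQ : Prop := ∀ ρ S Q (ι : Qb →+* Cp 2) (m : ℕ) (L : Lv) (a : ℕ → Qb), Dat ρ S Q →
  (∃ l ∈ S, l ≠ 2 ∧ l ≠ Q) → (∀ l ∈ S, Ctl ρ Q l → ∃ c, L l = some c ∧ A.Prin l c) →
  (∀ l ∈ S, ¬ Ctl ρ Q l → L l = none) →
  (∀ l ∉ S, ∀ P φ, Ov l P → Fb l P φ → ‖ι (a l)‖ ≤ 1 ∧ red (ι (a l)) = tr ρ φ) →
  A.AutQ m S L a → St.Serre ρ

end Thy

/-- **END** (library, WB, UC): the end point -/
def END : Prop := ∀ (ι : Qb →+* Cp 2) (r : GQ →* GL (Fin 2) (Cp 2)) (a : ℕ → Qb), Rep r →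
  Unr r {2} → Sys ι r {2} a → Alg {2} a →
  Spans (fun g => (r g : Matrix (Fin 2) (Fin 2) (Cp 2))) Set.univ → Cl {2} a

/-- the goal -/
def SERRE : Prop := ∀ ρ : GQ →* GL (Fin 2) (Kp 2), IsOpen {g | ρ g = 1} →
  ¬ Group.IsSolvable ρ.range → St.Serre ρ

/-! ### rows of the block -/

/-- **RED**: lattices -/
def RED : Prop := ∀ (p : ℕ) [Fact p.Prime] (r : GQ →* GL (Fin 2) (Cp p)), Continuous r →
  ∃ (E : IntermediateField ℚ_[p] (Cp p)) (_ : FiniteDimensional ℚ_[p] E) (g : GL (Fin 2) (Cp p))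
    (r₀ : GQ →* GL (Fin 2) (Op p)), (∀ s, GeneralLinearGroup.map (Op p).subtype (r₀ s) =
      g * r s * g⁻¹) ∧ (∀ s i k, ((r₀ s i k : Op p) : Cp p) ∈ E) ∧
    Rs r ((GeneralLinearGroup.map (IsLocalRing.residue (Op p))).comp r₀)

/-- **RIG**: congruent representations have the same kernel on inertia -/
def RIG : Prop := ∀ (p : ℕ) [Fact p.Prime] (r r' : GQ →* GL (Fin 2) (Cp p)) (l : ℕ), p ≠ 2 →
  l ≠ p → l ≠ 2 → Rep r → Rep r' → Cg r r' → RIrr r ⊤ → Rg r l → Sk r r' l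

/-- **GRD**: the two guards -/
def GRD : Prop := ∀ (p : ℕ) [Fact p.Prime] (r : GQ →* GL (Fin 2) (Cp p)) (l : ℕ), p ≠ 2 →
  l ≠ p → Rep r → Fn r l → (Ex r l 32 16 → 32 ∣ l + 1 → p ∣ l - 1 → Gd r l) ∧
  (l = 2 → Ex r 2 3 1 → 8 ∣ p + 1 → Gd r 2)

/-- **EXF**: a family contains Galois fields -/
def EXF : Prop := ∀ (R : Type) [CommRing R] (S : Finset ℕ) (l0 : ℕ) (r : GQ →* GL (Fin 2) R)
  (A : Fd → Prop), Ps S → l0 ∈ S → Fam S l0 r A → ∀ (U : Subgroup GQ) (T : Finset ℕ), U.Normal →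
  IsOpen (U : Set GQ) → ∃ X : Fd, X.H.Normal ∧ Spl X.H (S ∪ T) ∧ Dsj X.H U ∧ X.Ok S l0 r ∧ A X ∧
    ∀ l ∈ S, ∃ P, Ov l P ∧ below X.j P ≠ X.v0.asIdeal

/-- **QEX**: the choice of the guard -/
def QEX : Prop := ∀ ρ : GQ →* GL (Fin 2) (Kp 2), IsOpen {g | ρ g = 1} → (∀ g, dt ρ g = 1) →
  ¬ Group.IsSolvable ρ.range → ∃ S Q, Dat ρ S Q

/-- **SIX**: a system with values in a number field which is a sum of two `2`-adic characters is a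
sum of two `p`-adic characters -/
def SIX : Prop := ∀ (ι : Qb →+* Cp 2) (χ χ' : GQ →* (Cp 2)ˣ) (a : ℕ → Qb),
  Continuous χ → Continuous χ' → (∀ g, (χ g : Cp 2) * χ' g = eps 2 g) →
  (∀ l P, l ≠ 2 → Ov l P → ∀ s ∈ inP P, χ s = 1) →
  (∀ l P φ, l ≠ 2 → Ov l P → Fb l P φ → (χ φ : Cp 2) + χ' φ = ι (a l)) → Alg {2} a →
  ∀ (p : ℕ) [Fact p.Prime] (μ : Qb →+* Cp p), ∃ ψ ψ' : GQ →* (Cp p)ˣ, Continuous ψ ∧
    Continuous ψ' ∧ ∀ l P φ, l ≠ 2 → l ≠ p → Ov l P → Fb l P φ → (ψ φ : Cp p) + ψ' φ = μ (a l)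

/-- **SYS**: compatible systems -/
def Thy.SYS (A : Thy) : Prop := ∀ (p : ℕ) [Fact p.Prime] (ι : Qb →+* Cp p) (S : Finset ℕ) (L : Lv)
  (l0 m : ℕ) (r : GQ →* GL (Fin 2) (Cp p)), Ps S → l0 ∈ S → Rep r → Unr r (insert p S) →
  (∀ l ∈ S, l ≠ 2 → l ≠ p → Fn r l) → Fam S l0 r (A.AutR ι m S L r) →
  ∃ a, Alg S a ∧ Sys ι r (insert p S) a ∧ ∀ (q : ℕ) [Fact q.Prime] (μ : Qb →+* Cp q),
    (p ∈ S → p = 2 ∨ p = q) → ∃ r' : GQ →* GL (Fin 2) (Cp q), Rep r' ∧ Unr r' (insert q S) ∧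
    Sys μ r' (insert q S) a ∧ (∀ l ∈ S, l ≠ 2 → l ≠ p → l ≠ q → Sk r r' l) ∧
    (q ≠ 2 → l0 ≠ 2 → L 2 = some sgn → Fn r' 2 ∧ Ex r' 2 3 1) ∧
    (Spans (fun g => (r' g : Matrix (Fin 2) (Fin 2) (Cp q))) Set.univ ∨
      ∀ g, r' g 0 1 = 0 ∧ r' g 1 0 = 0) ∧
    Fam S l0 r' (A.AutR μ m S L r')

/-- **TATE**: a representation with non solvable image is ramified at an odd prime -/
def TATE : Prop := ∀ ρ S Q, Dat ρ S Q → ∃ l ∈ S, l ≠ 2 ∧ l ≠ Q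

end Vale.Agent.P022K.CH
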