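import Vale.Agent.P022K.CH.Bas
import Vale.Agent.P022.H297.L3.Inert

/-!
# P022K, block CH: the cyclotomic character `eps`, the groups `Gz`, the reduction map `red`
-/

set_option linter.all false

open NumberField Matrix

noncomputable section

namespace Vale.Agent.P022K.CH

open Vale.Agent.P022 Vale.Agent.P022.H853
open Vale.Agent.P022.H443 (inP galQb isClosed_inP)
open Vale.Agent.P022D.W (dec)
open Vale.Agent.P022E.GW (Ov Fb)

theorem mem_Gz {n : ℕ} [NeZero n] {g : GQ} : g ∈ Gz n ↔ cyc n g = 1 := by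
  refine ⟨fun h => ?_, fun h x hx => ?_⟩
  · have e := cyc_spec g (zt_prim n).pow_eq_one
    rw [h _ (zt_prim n).pow_eq_one] at e
    have := (zt_prim n).isOfFinOrder (NeZero.ne n) |>.pow_eq_pow_iff_modEq.1 (e.symm.trans (pow_one _).symm)
    rw [← (zt_prim n).eq_orderOf] at this
    apply Units.ext
    rw [← ZMod.natCast_zmod_val ((cyc n g : (ZMod n)ˣ) : ZMod n),
      (ZMod.natCast_eq_natCast_iff _ _ _).2 this, Nat.cast_one, Units.val_one]
  · rw [cyc_spec g hx, h, Units.val_one, ZMod.val_one_eq_one_mod, ← pow_eq_pow_mod 1 hx, pow_one]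

theorem Gz_eq (n : ℕ) [NeZero n] : Gz n = (cyc n).ker := Subgroup.ext fun _ => mem_Gz

instance Gz_normal (n : ℕ) [NeZero n] : (Gz n).Normal := by rw [Gz_eq]; infer_instance

theorem Gz_open (n : ℕ) [NeZero n] : IsOpen (Gz n : Set GQ) := by rw [Gz_eq]; exact isOpen_cyc n

theorem not_mem_of_ov {l m : ℕ} {P : Id} (h : Ov l P) (hm : ¬ l ∣ m) : (m : 𝓞 Qb) ∉ P := fun e =>
  hm (by exact_mod_cast H20.dvd_of_mem h.1 h.2.1 h.2.2 (d := (m : ℤ)) (by exact_mod_cast e))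

theorem cyc_pow {l m q : ℕ} [NeZero m] {P : Id} (h : Ov l P) (hm : ¬ l ∣ m) {g : GQ}
    (hg : ∀ x : 𝓞 Qb, g • x - x ^ q ∈ P) : (cyc m g : ZMod m) = q := by
  rw [← ZMod.natCast_zmod_val ((cyc m g : (ZMod m)ˣ) : ZMod m)]
  exact (ZMod.natCast_eq_natCast_iff _ _ _).2
    (cyc_of_pow (m := m) dvd_rfl h.2.1 (not_mem_of_ov h hm) hg)

theorem inP_le_Gz {l m : ℕ} [NeZero m] {P : Id} (h : Ov l P) (hm : ¬ l ∣ m) : inP P ≤ Gz m :=
  fun s hs => mem_Gz.2 (Units.ext (by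
    rw [cyc_pow (q := 1) h hm fun x => by rw [pow_one]; exact hs x, Nat.cast_one, Units.val_one]))

section

variable (p : ℕ) [hp : Fact p.Prime]

/-- the cyclotomic character with values in `ℤ_p` -/
def ez : GQ →* ℤ_[p]ˣ := (cyclotomicCharacter Qb p).comp (MulSemiringAction.toRingAut GQ Qb)

/-- `ℤ_p → ℚ̄_p` -/
def zc : ℤ_[p] →+* Cp p := (algebraMap ℚ_[p] (Cp p)).comp PadicInt.Coe.ringHom

/-- the cyclotomic character as a homomorphism -/
def epsH : GQ →* (Cp p)ˣ := (Units.map (zc p).toMonoidHom).comp (ez p)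

theorem ez_cont : Continuous (ez p) := cyclotomicCharacter.continuous p ℚ Qb

variable {p}

theorem eps_eq (g : GQ) : eps p g = zc p (ez p g) := rfl

theorem epsH_coe (g : GQ) : (epsH p g : Cp p) = eps p g := rfl

theorem norm_zc (x : ℤ_[p]) : ‖zc p x‖ = ‖x‖ := PadicAlgCl.norm_extends p (x : ℚ_[p])

theorem zc_inj : Function.Injective (zc p) :=
  (algebraMap ℚ_[p] (Cp p)).injective.comp Subtype.val_injective

theorem zc_cont : Continuous (zc p) := (AddMonoidHomClass.isometry_of_norm _ norm_zc).continuous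

theorem ez_mod (n : ℕ) (g : GQ) :
    PadicInt.toZModPow n (ez p g : ℤ_[p]) = (cyc (p ^ n) g : ZMod (p ^ n)) := by
  haveI : ∀ i, HasEnoughRootsOfUnity Qb (p ^ i) := fun i => by
    have : NeZero ((p ^ i : ℕ) : Qb) := ⟨by exact_mod_cast (NeZero.ne (p ^ i))⟩
    infer_instance
  have hz := zt_prim (p ^ n)
  have h1 := cyclotomicCharacter.spec p (n := n) (MulSemiringAction.toRingAut GQ Qb g) _
    hz.pow_eq_one
  exact ZMod.val_injective _ (hz.pow_inj (ZMod.val_lt _) (ZMod.val_lt _)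
    (h1.symm.trans (cyc_spec g hz.pow_eq_one)))

theorem eps_one : eps p 1 = 1 := by rw [← epsH_coe, map_one, Units.val_one]

theorem eps_mul (g h : GQ) : eps p (g * h) = eps p g * eps p h := by
  rw [← epsH_coe, map_mul, Units.val_mul]; rfl

theorem eps_pow (g : GQ) (n : ℕ) : eps p (g ^ n) = eps p g ^ n := by
  rw [← epsH_coe, map_pow, Units.val_pow_eq_pow_val]; rfl

theorem eps_inv (g : GQ) : eps p g⁻¹ = (eps p g)⁻¹ := by
  rw [← epsH_coe, map_inv, Units.val_inv_eq_inv_val]; rfl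

theorem eps_ne (g : GQ) : eps p g ≠ 0 := (epsH p g).ne_zero

theorem norm_eps (g : GQ) : ‖eps p g‖ = 1 := (norm_zc _).trans (PadicInt.norm_units _)

theorem eps_cont : Continuous (eps p) := zc_cont.comp (Units.continuous_val.comp (ez_cont p))

theorem epsH_cont : Continuous (epsH p) := Continuous.of_coeHom_comp eps_cont

theorem not_dvd {l : ℕ} (hl : l.Prime) (h : l ≠ p) (n : ℕ) : ¬ l ∣ p ^ n := fun e =>
  h ((Nat.prime_dvd_prime_iff_eq hl hp.out).1 (hl.dvd_of_dvd_pow e))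

/-- an element which acts on the residue field as the `q`-th power -/
theorem eps_of_pow {l q : ℕ} {P : Id} (h : Ov l P) (hl : l ≠ p) {g : GQ}
    (hg : ∀ x : 𝓞 Qb, g • x - x ^ q ∈ P) : eps p g = q := by
  have : (ez p g : ℤ_[p]) = q := PadicInt.ext_of_toZModPow.1 fun n => by
    rw [ez_mod, map_natCast, cyc_pow h (not_dvd h.1 hl n) hg]
  rw [eps_eq, this, map_natCast]

theorem eps_frob {l : ℕ} {P : Id} (h : Ov l P) (hl : l ≠ p) {φ : GQ} (hφ : Fb l P φ) :
    eps p φ = l := eps_of_pow h hl hφ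

theorem eps_inert {l : ℕ} {P : Id} (h : Ov l P) (hl : l ≠ p) {s : GQ} (hs : s ∈ inP P) :
    eps p s = 1 := by
  rw [eps_of_pow (q := 1) h hl fun x => by rw [pow_one]; exact hs x, Nat.cast_one]

theorem eps_conj {c : GQ} (hc : IsConj c) : eps p c = -1 := by
  have : (ez p c : ℤ_[p]) = -1 := PadicInt.ext_of_toZModPow.1 fun n => by
    rw [ez_mod, map_neg, map_one, cyc_conj hc]
  rw [eps_eq, this, map_neg, map_one]

theorem mem_Gz_pow {n : ℕ} {g : GQ} : g ∈ Gz (p ^ n) ↔ ‖eps p g - 1‖ ≤ (p : ℝ) ^ (-n : ℤ) := by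
  rw [mem_Gz, Units.ext_iff, ← ez_mod, eps_eq, ← map_one (zc p), ← map_sub, norm_zc,
    PadicInt.norm_le_pow_iff_mem_span_pow, ← PadicInt.ker_toZModPow, RingHom.mem_ker, map_sub,
    map_one, sub_eq_zero, Units.val_one]

theorem mem_Gz_p {g : GQ} : g ∈ Gz p ↔ ‖eps p g - 1‖ < 1 := by
  have := mem_Gz_pow (p := p) (n := 1) (g := g)
  rw [pow_one] at this
  rw [this, eps_eq, ← map_one (zc p), ← map_sub, norm_zc, PadicInt.norm_le_pow_iff_norm_lt_pow_add_one]
  simp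

/-- the inertia groups at `p` map onto `ℤ_p^×` -/
theorem ez_surj {P : Id} (h : Ov p P) (u : ℤ_[p]ˣ) : ∃ s ∈ inP P, ez p s = u := by
  have := galQb
  have c : IsClosed ((fun g => (ez p g : ℤ_[p])) '' (inP P : Set GQ)) :=
    ((isClosed_inP P).isCompact.image (Units.continuous_val.comp (ez_cont p))).isClosed
  obtain ⟨s, hs, e⟩ : (u : ℤ_[p]) ∈ (fun g => (ez p g : ℤ_[p])) '' (inP P : Set GQ) := by
    rw [← c.closure_eq, Metric.mem_closure_iff]
    intro ε hε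
    obtain ⟨n, hn⟩ := PadicInt.exists_pow_neg_lt p hε
    obtain ⟨s, hs, e⟩ := H297.L3.inert_cyc (m := p ^ n) (m' := 1) hp.out (mul_one _).symm
      (Nat.coprime_one_right p) h.2.1 h.2.2 (Units.map (PadicInt.toZModPow n).toMonoidHom u)
      (Nat.modEq_one)
    refine ⟨_, ⟨s, hs, rfl⟩, lt_of_le_of_lt ?_ hn⟩
    rw [dist_eq_norm, PadicInt.norm_le_pow_iff_mem_span_pow, ← PadicInt.ker_toZModPow,
      RingHom.mem_ker, map_sub, ez_mod, e, sub_eq_zero]
    rfl
  exact ⟨s, hs, Units.ext e⟩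

/-- `eps p` has infinite order on every open subgroup of an inertia group at `p` -/
theorem eps_ram {P : Id} (h : Ov p P) (U : Subgroup GQ) (hU : IsOpen (U : Set GQ)) :
    ∃ s ∈ U ⊓ inP P, ∀ n, n ≠ 0 → eps p s ^ n ≠ 1 := by
  have := galQb
  have hu : IsUnit (1 + p : ℤ_[p]) := PadicInt.isUnit_iff.2 (by
    rw [IsUltrametricDist.norm_add_eq_max_of_norm_ne_norm] <;>
      simp [(PadicInt.norm_p (p := p)) ▸ inv_lt_one_of_one_lt₀ (Nat.one_lt_cast.2 hp.out.one_lt),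
        inv_le_one_of_one_le₀ (Nat.one_le_cast (α := ℝ).2 hp.out.one_le), hp.out.ne_one])
  obtain ⟨s, hs, e⟩ := ez_surj h hu.unit
  haveI : Finite (GQ ⧸ U) := U.quotient_finite_of_isOpen hU
  obtain ⟨N, hN, -, hz⟩ := U.exists_pow_mem_of_index_ne_zero Subgroup.index_ne_zero_of_finite s
  refine ⟨s ^ N, ⟨hz, Subgroup.pow_mem _ hs N⟩, fun n hn z => ?_⟩
  rw [eps_pow, ← pow_mul, eps_eq, e, IsUnit.unit_spec, map_add, map_one, map_natCast] at z
  have : (1 + p) ^ (N * n) = 1 := by exact_mod_cast z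
  rw [Nat.pow_eq_one] at this
  have := hp.out.pos
  have := mul_ne_zero hN.ne' hn
  omega

/-! ### the reduction map -/

theorem norm_Op (x : Op p) : ‖(x : Cp p)‖ ≤ 1 := x.2

theorem range_Op (x : Cp p) : x ∈ (Op p).subtype.range ↔ ‖x‖ ≤ 1 := by
  rw [Subring.range_subtype]; rfl

theorem unit_Op {x : Op p} : IsUnit x ↔ ‖(x : Cp p)‖ = 1 := by
  rw [(Valuation.integer.integers (Valued.v (R := Cp p))).isUnit_iff_valuation_eq_one,
    ← NNReal.coe_inj]
  rfl

theorem red_mk {x : Cp p} (h : ‖x‖ ≤ 1) : red x = IsLocalRing.residue (Op p) ⟨x, h⟩ :=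
  red_coe ⟨x, h⟩

theorem red_sub {x y : Cp p} (hx : ‖x‖ ≤ 1) (hy : ‖y‖ ≤ 1) : red (x - y) = red x - red y := by
  rw [red_mk hx, red_mk hy, ← map_sub, ← red_coe]; rfl

theorem red_int (n : ℤ) : red (n : Cp p) = n := by
  rw [← map_intCast (IsLocalRing.residue (Op p)), ← red_coe]; rfl

theorem red_nat (n : ℕ) : red (n : Cp p) = n := by
  rw [← map_natCast (IsLocalRing.residue (Op p)), ← red_coe]; rfl

theorem norm_nat {n : ℕ} (h : ¬ p ∣ n) : ‖(n : Cp p)‖ = 1 := by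
  rw [← map_natCast (zc p), norm_zc, PadicInt.norm_natCast_eq_one_iff]
  exact hp.out.coprime_iff_not_dvd.2 h

theorem cast_Kp {n : ℕ} : (n : Kp p) ≠ 0 ↔ ¬ p ∣ n := (CharP.cast_eq_zero_iff (Kp p) p n).not

end

end Vale.Agent.P022K.CH
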