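import Vale.Agent.P022K.Glue.Gal
import Vale.Agent.P022D.Loc2.Dec
import Vale.Agent.P022D.W.Tame
import Vale.Agent.P022E.GW.Defs

/-! # P022K, block CH: totally real fields with prescribed local behaviour -/

set_option linter.all false

open NumberField Polynomial
open scoped Pointwise

noncomputable section

namespace Vale.Agent.P022K.CH

open Vale.Agent.P022 Vale.Agent.P022.H916 Vale.Agent.P022.H853 Vale.Agent.P022D.Loc2
open Vale.Agent.P022D.W (dec)
open Vale.Agent.P022E.GW (Ov)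

namespace Fld

theorem mem_dec_smul {P : Ideal (𝓞 Qb)} {g h : GQ} : h ∈ dec (g • P) ↔ g⁻¹ * h * g ∈ dec P := by
  refine ⟨fun a x => ?_, fun a x => ?_⟩
  · have := a (g • x)
    rw [Ideal.mem_pointwise_smul_iff_inv_smul_mem, Ideal.mem_pointwise_smul_iff_inv_smul_mem,
      inv_smul_smul] at this
    rwa [mul_smul, mul_smul]
  · rw [Ideal.mem_pointwise_smul_iff_inv_smul_mem, Ideal.mem_pointwise_smul_iff_inv_smul_mem,
      ← a (g⁻¹ • x), mul_smul, mul_smul, smul_inv_smul]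

theorem ov_smul {l : ℕ} {P : Ideal (𝓞 Qb)} (h : Ov l P) (g : GQ) : Ov l (g • P) := by
  have := h.2.1
  refine ⟨h.1, inferInstance, ?_⟩
  rw [Ideal.mem_pointwise_smul_iff_inv_smul_mem]
  have e : g⁻¹ • (l : 𝓞 Qb) = l := map_natCast (MulSemiringAction.toRingHom GQ (𝓞 Qb) g⁻¹) l
  rw [e]
  exact h.2.2

/-- the primes above `l` are conjugate -/
theorem ov_conj {l : ℕ} {P Q : Ideal (𝓞 Qb)} (h : Ov l P) (h' : Ov l Q) : ∃ g : GQ, Q = g • P := by
  have key : ∀ R : Ideal (𝓞 Qb), Ov l R → ∀ x : 𝓞 ℚ, x ∈ below (algebraMap ℚ Qb) R ↔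
      (l : ℤ) ∣ Rat.ringOfIntegersEquiv x := fun R hR x => by
    obtain ⟨z, rfl⟩ := Rat.ringOfIntegersEquiv.symm.surjective x
    rw [RingEquiv.apply_symm_apply, eq_intCast]
    show RingOfIntegers.mapRingHom _ (z : 𝓞 ℚ) ∈ R ↔ _
    rw [map_intCast]
    refine ⟨H20.dvd_of_mem hR.1 hR.2.1 hR.2.2, fun ⟨k, hk⟩ => ?_⟩
    rw [hk, Int.cast_mul, Int.cast_natCast]
    exact Ideal.mul_mem_right _ _ hR.2.2
  obtain ⟨g, hg⟩ := exists_smul (algebraMap ℚ Qb) h.2.1 h'.2.1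
    (Ideal.ext fun x => (key P h x).trans (key Q h' x).symm)
  exact ⟨g, hg⟩

/-- the absolute value of a prime -/
theorem exists_abs {l : ℕ} {P : Ideal (𝓞 Qb)} (h : Ov l P) : ∃ w : AbsoluteValue Qb ℝ,
    (∀ g ∈ dec P, ∀ x, w (g x) = w x) ∧
    (∀ x, (∀ g ∈ dec P, g x = x) → ∀ ε > 0, ∃ q : ℚ, w (x - q) < ε) ∧
    ∀ q : ℚ, w q = padicNorm l q := by
  have : Fact l.Prime := ⟨h.1⟩
  obtain ⟨s, rfl⟩ := ov_conj ⟨h.1, PP_prime l, p_mem_PP l⟩ h
  let w : AbsoluteValue Qb ℝ := (NormedField.toAbsoluteValue (PadicAlgCl l)).comp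
    (f := (io l).toRingHom.comp (s⁻¹ : GQ).toRingEquiv.toRingHom) (RingHom.injective _)
  have hw : ∀ x, w x = ‖io l (s⁻¹ x)‖ := fun x => rfl
  refine ⟨w, fun g hg x => ?_, fun x hx ε hε => ?_, fun q => ?_⟩
  · obtain ⟨σ, hσ⟩ := (range_jj l _).1 (mem_dec_smul.1 hg)
    have : s⁻¹ (g x) = jj l σ (s⁻¹ x) := by
      rw [hσ, ← AlgEquiv.mul_apply, ← AlgEquiv.mul_apply, mul_inv_cancel_right]
    rw [hw, hw, this, io_jj]
    exact (spectralNorm_eq_of_equiv σ _).symm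
  · obtain ⟨a, ha⟩ := (InfiniteGalois.mem_range_algebraMap_iff_fixed (k := ℚ_[l])
      (io l (s⁻¹ x))).2 fun σ => by
        have := hx (s * jj l σ * s⁻¹) (mem_dec_smul.2 (by
          rw [← mul_assoc, ← mul_assoc, inv_mul_cancel, one_mul, inv_mul_cancel_right]
          exact (range_jj l _).2 ⟨σ, rfl⟩))
        rw [← io_jj]
        conv_rhs => rw [← this, ← AlgEquiv.mul_apply, ← mul_assoc, inv_mul_cancel_left]
        rfl
    obtain ⟨q, hq⟩ := Padic.rat_dense l a hε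
    refine ⟨q, ?_⟩
    rw [hw, map_sub, map_sub, map_ratCast, map_ratCast, ← ha,
      ← map_ratCast (algebraMap ℚ_[l] (PadicAlgCl l)), ← map_sub]
    exact (PadicAlgCl.norm_extends l _).trans_lt hq
  · rw [hw, map_ratCast, map_ratCast, ← map_ratCast (algebraMap ℚ_[l] (PadicAlgCl l))]
    exact (PadicAlgCl.norm_extends l _).trans (Padic.eq_padicNorm q)

/-- approximation of monic polynomials and of their roots -/
theorem apx {ι : Type} [Finite ι] (w : ι → AbsoluteValue Qb ℝ)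
    (wa : ∀ (t : ι → ℚ), ∀ ε > 0, ∃ q : ℚ, ∀ v, w v ((q : Qb) - t v) < ε) {n : ℕ}
    (A : ι → Finset Qb) (hA : ∀ v, (A v).card = n)
    (hc : ∀ v k, ∀ ε > 0, ∃ q : ℚ, w v ((∏ x ∈ A v, (X - C x)).coeff k - q) < ε) {δ : ℝ}
    (hδ : 0 < δ) : ∃ f : ℚ[X], f.Monic ∧ f.natDegree = n ∧
      ∀ v, ∀ x ∈ A v, ∃ y, aeval y f = 0 ∧ w v (y - x) < δ := by
  have := Fintype.ofFinite ι
  let M : ℝ := ∑ v, ∑ x ∈ A v, ∑ k ∈ Finset.range n, w v x ^ k
  have nn : ∀ v x, 0 ≤ ∑ k ∈ Finset.range n, w v x ^ k := fun v x =>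
    Finset.sum_nonneg fun k _ => pow_nonneg ((w v).nonneg x) k
  have M1 : ∀ v, ∀ x ∈ A v, ∑ k ∈ Finset.range n, w v x ^ k ≤ M := fun v x hx =>
    (Finset.single_le_sum (fun x _ => nn v x) hx).trans (Finset.single_le_sum
      (f := fun v => ∑ x ∈ A v, ∑ k ∈ Finset.range n, w v x ^ k)
      (fun v _ => Finset.sum_nonneg fun x _ => nn v x) (Finset.mem_univ v))
  have M0 : 0 ≤ M := Finset.sum_nonneg fun v _ => Finset.sum_nonneg fun x _ => nn v x
  have η0 : 0 < δ ^ n / (2 * (M + 1)) := by positivity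
  choose q hq using fun v k => hc v k _ η0
  choose c hcq using fun k => wa (fun v => q v k) _ η0
  have dg : (∑ i : Fin n, C (c i) * X ^ (i : ℕ) : ℚ[X]).degree < (n : WithBot ℕ) :=
    degree_sum_fin_lt fun i : Fin n => c i
  let f : ℚ[X] := X ^ n + ∑ i : Fin n, C (c i) * X ^ (i : ℕ)
  have f1 : f.Monic := monic_X_pow_add dg
  have f2 : f.natDegree = n := by
    refine natDegree_eq_of_degree_eq_some ?_
    rw [degree_add_eq_left_of_degree_lt (by rwa [degree_X_pow]), degree_X_pow]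
  refine ⟨f, f1, f2, fun v x hx => ?_⟩
  have g1 : (∏ x ∈ A v, (X - C x)).Monic := monic_prod_X_sub_C _ _
  have g2 : (∏ x ∈ A v, (X - C x)).natDegree = n := by
    rw [natDegree_finsetProd_X_sub_C_eq_card, hA]
  have g3 : x ^ n + ∑ k ∈ Finset.range n, (∏ x ∈ A v, (X - C x)).coeff k * x ^ k = 0 := by
    have : eval x (∏ x ∈ A v, (X - C x)) = 0 := by
      rw [eval_prod]
      exact Finset.prod_eq_zero hx (by simp)
    rw [g1.as_sum, g2] at this
    simpa [eval_finsetSum] using this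
  have e1 : aeval x f = ∑ k ∈ Finset.range n,
      ((c k : Qb) - (∏ x ∈ A v, (X - C x)).coeff k) * x ^ k := by
    simp only [f, map_add, map_pow, aeval_X, map_sum, map_mul, aeval_C, eq_ratCast, sub_mul,
      Finset.sum_sub_distrib]
    rw [Fin.sum_univ_eq_sum_range (fun k => (c k : Qb) * x ^ k)]
    linear_combination g3
  have e2 : w v (aeval x f) < δ ^ n := by
    rw [e1]
    refine lt_of_le_of_lt ((w v).sum_le _ _) (lt_of_le_of_lt (Finset.sum_le_sum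
      (g := fun k => δ ^ n / (M + 1) * w v x ^ k) fun k _ => ?_) ?_)
    · rw [map_mul, map_pow]
      refine mul_le_mul_of_nonneg_right ?_ (pow_nonneg ((w v).nonneg x) k)
      refine ((w v).sub_le _ (q v k : Qb) _).trans ?_
      rw [(w v).map_sub (q v k : Qb)]
      refine (add_le_add (hcq k v).le (hq v k).le).trans_eq ?_
      field_simp
      ring
    · rw [← Finset.mul_sum, div_mul_eq_mul_div, div_lt_iff₀ (by positivity)]
      exact mul_lt_mul_of_pos_left ((M1 v x hx).trans_lt (lt_add_one M)) (pow_pos hδ n)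
  by_contra k
  push Not at k
  have sp := IsAlgClosed.splits (f.map (algebraMap ℚ Qb))
  have m := f1.map (algebraMap ℚ Qb)
  rw [aeval_def, ← eval_map, sp.eq_prod_roots_of_monic m, eval_multiset_prod,
    map_multiset_prod, Multiset.map_map, Multiset.map_map] at e2
  refine e2.not_ge ?_
  have cd : ((f.map (algebraMap ℚ Qb)).roots.map fun _ => δ).prod = δ ^ n := by
    rw [Multiset.map_const', Multiset.prod_replicate, ← sp.natDegree_eq_card_roots,
      natDegree_map, f2]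
  rw [← cd]
  refine Multiset.prod_map_le_prod_map₀ _ _ (fun _ _ => hδ.le) fun y hy => ?_
  simp only [Function.comp, eval_sub, eval_X, eval_C]
  rw [(w v).map_sub]
  exact k y (by rw [aeval_def, ← eval_map]; exact (mem_roots m.ne_zero).1 hy)

theorem wa (S : Finset ℕ) (hS : ∀ l ∈ S, l.Prime) (t : Option S → ℚ) {ε : ℝ} (hε : 0 < ε) :
    ∃ q : ℚ, ((|q - t none| : ℚ) : ℝ) < ε ∧ ∀ l : S, (padicNorm l (q - t (some l)) : ℝ) < ε := by
  have i : ∀ l : S, Fact (l : ℕ).Prime := fun l => ⟨hS l l.2⟩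
  let v : Option S → AbsoluteValue ℚ ℝ := fun o =>
    o.elim Rat.AbsoluteValue.real fun l => Rat.AbsoluteValue.padic l
  have lt : ∀ l : S, v (some l) ((l : ℕ) : ℚ) < 1 := fun l => by
    show (padicNorm l ((l : ℕ) : ℚ) : ℝ) < 1
    exact_mod_cast padicNorm.padicNorm_p_lt_one_of_prime
  have d := AbsoluteValue.denseRange_algebraMap_pi (v := v) (fun o => by
    cases o with
    | none =>
      exact ⟨2, two_ne_zero, (Rat.AbsoluteValue.real_eq_abs 2).trans_ne (by norm_num)⟩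
    | some l => exact ⟨(l : ℕ), by exact_mod_cast (hS l l.2).ne_zero, (lt l).ne⟩) (by
    rintro (_ | l) (_ | l') h e
    · exact h rfl
    · exact Rat.AbsoluteValue.not_real_isEquiv_padic _ e
    · exact Rat.AbsoluteValue.not_real_isEquiv_padic _ e.symm
    · have := e.lt_one_iff.1 (lt l)
      have k : (padicNorm l' ((l : ℕ) : ℚ) : ℝ) < 1 := this
      rw [padicNorm.padicNorm_of_prime_of_ne (fun k => h (by rw [Subtype.ext k]))] at k
      simp at k)
  obtain ⟨q, hq⟩ := Metric.denseRange_iff.1 d (fun o => (WithAbs.equiv (v o)).symm (t o)) ε hε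
  have k : ∀ o, v o (q - t o) < ε := fun o => by
    have := (dist_pi_lt_iff hε).1 hq o
    rw [dist_comm, dist_eq_norm] at this
    exact this
  refine ⟨q, ?_, fun l => k (some l)⟩
  exact (Rat.AbsoluteValue.real_eq_abs _).symm.trans_lt (k none)

theorem exists_sep {ι : Type} [Finite ι] (w : ι → AbsoluteValue Qb ℝ) (A : ι → Finset Qb) :
    ∃ δ > 0, ∀ v, ∀ x ∈ A v, ∀ y ∈ A v, w v (x - y) < 2 * δ → x = y := by
  have f : (⋃ v, (fun z : Qb × Qb => w v (z.1 - z.2)) '' (A v ×ˢ A v : Finset (Qb × Qb))).Finite :=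
    Set.finite_iUnion fun v => (Finset.finite_toSet _).image _
  obtain ⟨ε, e1, e2⟩ := Metric.mem_nhds_iff.1
    ((f.subset (Set.diff_subset (t := {0}))).isClosed.isOpen_compl.mem_nhds
      (show (0 : ℝ) ∈ _ᶜ from fun h => h.2 rfl))
  refine ⟨ε / 2, half_pos e1, fun v x hx y hy h => ?_⟩
  by_contra n
  refine e2 (show w v (x - y) ∈ Metric.ball 0 ε from ?_) ⟨Set.mem_iUnion.2 ⟨v, (x, y),
    Finset.mem_coe.2 (Finset.mem_product.2 ⟨hx, hy⟩), rfl⟩, (w v).ne_zero (sub_ne_zero.2 n)⟩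
  rw [mem_ball_zero_iff, Real.norm_of_nonneg ((w v).nonneg _)]
  linarith

theorem fix_coeff {A : Finset Qb} {g : GQ} (h : ∀ x ∈ A, g x ∈ A) (k : ℕ) :
    g ((∏ x ∈ A, (X - C x)).coeff k) = (∏ x ∈ A, (X - C x)).coeff k := by
  have : (∏ x ∈ A, (X - C x)).map (g : Qb →+* Qb) = ∏ x ∈ A, (X - C x) := by
    rw [Polynomial.map_prod]
    exact Finset.prod_bij (fun x _ => g x) h (fun _ _ _ _ e => g.injective e)
      (fun y hy => by
        obtain ⟨x, hx, e⟩ := Finset.surj_on_of_inj_on_of_card_le (fun x _ => g x) h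
          (fun _ _ _ _ e => g.injective e) le_rfl y hy
        exact ⟨x, hx, e.symm⟩) fun x _ => by simp
  conv_rhs => rw [← this, coeff_map]
  rfl

/-- **a finite totally real `G_ℚ`-set with prescribed restrictions to decomposition groups** -/
theorem sets (S : Finset ℕ) (P : ℕ → Ideal (𝓞 Qb)) (hP : ∀ l ∈ S, Ov l (P l)) (n : ℕ)
    (A : ℕ → Finset Qb) (hA : ∀ l ∈ S, (A l).card = n)
    (hs : ∀ l ∈ S, ∀ g ∈ dec (P l), ∀ x ∈ A l, g x ∈ A l) :
    ∃ (R : Finset Qb) (β : ℕ → Qb → Qb), R.card = n ∧ (∀ g : GQ, ∀ x ∈ R, g x ∈ R) ∧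
      (∀ c, IsConj c → ∀ x ∈ R, c x = x) ∧ ∀ l ∈ S, Set.BijOn (β l) (A l) R ∧
        ∀ g ∈ dec (P l), ∀ x ∈ A l, g (β l x) = β l (g x) := by
  classical
  choose w w1 w2 w3 using fun l : S => exists_abs (hP l l.2)
  have := algQ
  let φ : Qb →+* ℂ := (IsAlgClosed.lift : Qb →ₐ[ℚ] ℂ).toRingHom
  let W : Option S → AbsoluteValue Qb ℝ := fun o => o.elim (place φ) w
  let B : Option S → Finset Qb := fun o =>
    o.elim ((Finset.range n).image Nat.cast) fun l => A l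
  have B1 : ∀ o, (B o).card = n := by
    rintro (_ | l)
    · exact (Finset.card_image_of_injective _ Nat.cast_injective).trans (Finset.card_range n)
    · exact hA l l.2
  obtain ⟨δ, d0, d1⟩ := exists_sep W B
  obtain ⟨f, f1, f2, f3⟩ := apx W (fun t ε hε => by
    obtain ⟨q, a, b⟩ := wa S (fun l h => (hP l h).1) t hε
    refine ⟨q, ?_⟩
    rintro (_ | l)
    · show place φ _ < ε
      rwa [← Rat.cast_sub, place_apply, map_ratCast, Complex.norm_ratCast, ← Rat.cast_abs]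
    · show w l _ < ε
      rw [← Rat.cast_sub, w3]
      exact b l) B B1 (by
    rintro (_ | l) k ε hε
    · have := galQ
      obtain ⟨q, hq⟩ := (InfiniteGalois.mem_range_algebraMap_iff_fixed (k := ℚ) (K := Qb)
        _).2 fun g => fix_coeff (A := B none) (g := g) (fun x hx => by
          obtain ⟨m, -, rfl⟩ := Finset.mem_image.1 hx
          rwa [map_natCast]) k
      exact ⟨q, by rw [← hq, eq_ratCast, sub_self, map_zero]; exact hε⟩
    · exact w2 l _ (fun g hg => fix_coeff (hs l l.2 g hg) k) ε hε) d0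
  choose! β b1 b2 using f3
  have m := f1.map (algebraMap ℚ Qb)
  let R := (f.map (algebraMap ℚ Qb)).roots.toFinset
  have mR : ∀ y, y ∈ R ↔ aeval y f = 0 := fun y => by
    rw [Multiset.mem_toFinset, mem_roots m.ne_zero, IsRoot, eval_map, ← aeval_def]
  have cR : R.card ≤ n := (Multiset.toFinset_card_le _).trans
    ((card_roots' _).trans (by rw [natDegree_map, f2]))
  have un : ∀ o, ∀ x ∈ B o, ∀ y ∈ B o, W o (β o y - x) < δ → y = x := fun o x hx y hy h =>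
    d1 o y hy x hx (((W o).sub_le _ (β o y) _).trans_lt (by
      have := b2 o y hy
      rw [(W o).map_sub y]
      linarith))
  have ij : ∀ o, Set.InjOn (β o) (B o) := fun o x hx y hy e =>
    (un o x hx y hy (e ▸ b2 o x hx)).symm
  have sj : ∀ o, ∀ y ∈ R, ∃ x ∈ B o, β o x = y := fun o y hy => by
    obtain ⟨x, hx, e⟩ := Finset.surj_on_of_inj_on_of_card_le (fun x _ => β o x)
      (fun x hx => (mR _).2 (b1 o x hx)) (fun _ _ h h' e => ij o h h' e) (by rwa [B1]) y hy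
    exact ⟨x, hx, e.symm⟩
  have gR : ∀ g : GQ, ∀ x ∈ R, g x ∈ R := fun g x hx => by
    rw [mR, aeval_algHom_apply, (mR x).1 hx, map_zero]
  have rC : ∀ z : ℂ, aeval z f = 0 → ∃ y ∈ R, φ y = z := fun z hz => by
    have e := (IsAlgClosed.splits (f.map (algebraMap ℚ Qb))).roots_map φ
    have : z ∈ ((f.map (algebraMap ℚ Qb)).map φ).roots := by
      rw [mem_roots (m.map φ).ne_zero, Polynomial.map_map, IsRoot, eval_map,
        Subsingleton.elim (φ.comp _) (algebraMap ℚ ℂ), ← aeval_def, hz]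
    rw [e] at this
    obtain ⟨y, hy, rfl⟩ := Multiset.mem_map.1 this
    exact ⟨y, Multiset.mem_toFinset.2 hy, rfl⟩
  have rC' : ∀ (ψ : Qb →+* ℂ), ∀ y ∈ R, aeval (ψ y) f = 0 := fun ψ y hy =>
    (aeval_algHom_apply ψ.toRatAlgHom y f).trans (by rw [(mR y).1 hy, map_zero])
  have re : ∀ y ∈ R, starRingEnd ℂ (φ y) = φ y := fun y hy => by
    obtain ⟨x, hx, rfl⟩ := sj none y hy
    obtain ⟨z, hz, e⟩ := rC _ (rC' ((starRingEnd ℂ).comp φ) _ hy)
    obtain ⟨x', hx', rfl⟩ := sj none z hz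
    have e' : starRingEnd ℂ (φ (β none x)) = φ (β none x') := e.symm
    rw [e', un none x hx x' hx' (lt_of_eq_of_lt ?_ (b2 none x hx))]
    obtain ⟨k, -, rfl⟩ := Finset.mem_image.1 hx
    show place φ _ = place φ _
    rw [place_apply, place_apply, map_sub, map_sub, ← e', map_natCast, ← Complex.norm_conj,
      map_sub, Complex.conj_conj, map_natCast]
  refine ⟨R, fun l => if h : l ∈ S then β (some ⟨l, h⟩) else id, le_antisymm cR ?_, gR,
    fun c ⟨ψ, hψ⟩ x hx => ψ.injective ?_, fun l h => ?_⟩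
  · rw [← B1 none]
    exact Finset.card_le_card_of_injOn _ (fun x hx => (mR _).2 (b1 none x hx)) (ij none)
  · obtain ⟨y, hy, e⟩ := rC _ (rC' ψ x hx)
    rw [hψ, ← e, re y hy]
  · simp only [dif_pos h]
    refine ⟨⟨fun x hx => (mR _).2 (b1 (some ⟨l, h⟩) x hx), ij (some ⟨l, h⟩),
      fun y hy => sj (some ⟨l, h⟩) y hy⟩, fun g hg x hx => ?_⟩
    obtain ⟨y, hy, e⟩ := sj (some ⟨l, h⟩) _ (gR g _ ((mR _).2 (b1 (some ⟨l, h⟩) x hx)))
    rw [← e, un (some ⟨l, h⟩) _ (hs l h g hg x hx) y hy]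
    rw [e, ← map_sub]
    exact (w1 ⟨l, h⟩ g hg _).trans_lt (b2 (some ⟨l, h⟩) x hx)

/-- a totally ramified extension of degree `n` -/
theorem exists_trans {p n : ℕ} [hp : Fact p.Prime] (hn : n ≠ 0) : ∃ A : Finset Qb, A.card = n ∧
    (∀ g : GQ, ∀ x ∈ A, g x ∈ A) ∧ ∀ x ∈ A, ∀ y ∈ A, ∃ g ∈ dec (PP p), g x = y := by
  classical
  have p0 : (p : Qb) ≠ 0 := Nat.cast_ne_zero.2 hp.out.ne_zero
  have n0 := Nat.pos_of_ne_zero hn
  have mA : ∀ x : Qb, x ∈ (X ^ n - C (p : Qb)).roots.toFinset ↔ x ^ n = p := fun x => by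
    rw [Multiset.mem_toFinset, mem_roots (X_pow_sub_C_ne_zero n0 _), IsRoot, eval_sub, eval_pow,
      eval_X, eval_C, sub_eq_zero]
  have m : (X ^ n - C (p : ℤ_[p])).Monic := monic_X_pow_sub_C _ hn
  have ir : Irreducible (X ^ n - C (p : ℤ_[p])) := by
    refine IsEisensteinAt.irreducible (𝓟 := IsLocalRing.maximalIdeal ℤ_[p]) ⟨?_, fun {k} hk => ?_, ?_⟩
      inferInstance m.isPrimitive (by rwa [natDegree_X_pow_sub_C])
    · rw [m.leadingCoeff]
      exact (Ideal.ne_top_iff_one _).1 (IsLocalRing.maximalIdeal.isMaximal _).ne_top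
    · rw [natDegree_X_pow_sub_C] at hk
      rw [coeff_sub, coeff_X_pow, if_neg hk.ne, zero_sub, neg_mem_iff, coeff_C,
        PadicInt.maximalIdeal_eq_span_p]
      split_ifs
      exacts [Ideal.mem_span_singleton_self _, zero_mem _]
    · rw [coeff_sub, coeff_X_pow, if_neg hn.symm, zero_sub, neg_mem_iff, coeff_C_zero,
        PadicInt.maximalIdeal_eq_span_p, Ideal.span_singleton_pow, Ideal.mem_span_singleton]
      intro h
      exact (PadicInt.irreducible_p (p := p)).squarefree p (by rwa [sq] at h) |>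
        (PadicInt.irreducible_p (p := p)).not_isUnit
  have ir' := (m.irreducible_iff_irreducible_map_fraction_map (K := ℚ_[p])).1 ir
  have mp : ∀ x : Qb, x ^ n = p →
      (X ^ n - C (p : ℤ_[p])).map (algebraMap ℤ_[p] ℚ_[p]) = minpoly ℚ_[p] (io p x) := fun x hx =>
    minpoly.eq_of_irreducible_of_monic ir' (by
      have : io p x ^ n = p := by rw [← map_pow, hx, map_natCast]
      simp [this]) (m.map _)
  refine ⟨(X ^ n - C (p : Qb)).roots.toFinset, ?_, fun g x hx => ?_, fun x hx y hy => ?_⟩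
  · rw [Multiset.toFinset_card_of_nodup (nodup_roots (separable_X_pow_sub_C _
      (Nat.cast_ne_zero.2 hn) p0)), ← (IsAlgClosed.splits _).natDegree_eq_card_roots,
      natDegree_X_pow_sub_C]
  · rw [mA, ← map_pow, (mA x).1 hx, map_natCast]
  · have c : IsConjRoot ℚ_[p] (io p y) (io p x) :=
      (mp y ((mA y).1 hy)).symm.trans (mp x ((mA x).1 hx))
    obtain ⟨σ, hσ⟩ := isConjRoot_iff_exists_algEquiv.1 c
    exact ⟨jj p σ, (range_jj p _).2 ⟨σ, rfl⟩, io_inj p ((io_jj p σ x).trans hσ)⟩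

/-- open subgroups are stabilizers -/
theorem exists_prim {V : Subgroup GQ} (hV : IsOpen (V : Set GQ)) :
    ∃ α : Qb, ∀ g : GQ, g α = α ↔ g ∈ V := by
  obtain ⟨F, _, _, j, rfl⟩ := exists_fix V hV
  obtain ⟨θ, hθ⟩ := Field.exists_primitive_element ℚ F
  refine ⟨j θ, fun g => ⟨fun h x => ?_, fun h => h θ⟩⟩
  have := AlgHom.ext_of_adjoin_eq_top (φ₁ := (g : Qb →ₐ[ℚ] Qb).comp j.toRatAlgHom)
    (φ₂ := j.toRatAlgHom) ((IntermediateField.adjoin_simple_toSubalgebra_of_isAlgebraic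
      (Algebra.IsAlgebraic.isAlgebraic θ)).symm.trans (by rw [hθ]; rfl)) (by rintro _ rfl; exact h)
  exact DFunLike.congr_fun this x

/-- an orbit together with enough rational points -/
theorem exists_fill (D : Subgroup GQ) (α : Qb) : ∃ n₀ : ℕ, ∀ n, n₀ ≤ n → ∃ A : Finset Qb,
    A.card = n ∧ α ∈ A ∧ 0 ∈ A ∧ (∀ g ∈ D, ∀ x ∈ A, g x ∈ A) ∧
      ∀ x ∈ A, (∃ g ∈ D, x = g α) ∨ ∀ g : GQ, g x = x := by
  classical
  have := algQ
  have f : {x | ∃ g ∈ D, x = g α}.Finite :=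
    ((minpoly ℚ α).rootSet_finite Qb).subset fun x ⟨g, _, e⟩ => by
      rw [e, mem_rootSet_of_ne (minpoly.ne_zero (Algebra.IsIntegral.isIntegral α)),
        aeval_algHom_apply, minpoly.aeval, map_zero]
  refine ⟨(insert 0 f.toFinset).card, fun n hn => ?_⟩
  obtain ⟨B, B1, B2⟩ := ((Set.infinite_range_of_injective (Nat.cast_injective (R := Qb))).diff
    (insert 0 f.toFinset).finite_toSet).exists_subset_card_eq (n - (insert 0 f.toFinset).card)
  have k : ∀ x ∈ insert 0 f.toFinset ∪ B, (∃ g ∈ D, x = g α) ∨ ∀ g : GQ, g x = x := fun x hx => by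
    rcases Finset.mem_union.1 hx with h | h
    · rcases Finset.mem_insert.1 h with rfl | h
      exacts [Or.inr fun g => map_zero g, Or.inl (f.mem_toFinset.1 h)]
    · obtain ⟨m, rfl⟩ := (B1 h).1
      exact Or.inr fun g => map_natCast g m
  have k' : ∀ g ∈ D, g α ∈ insert 0 f.toFinset ∪ B := fun g hg =>
    Finset.mem_union_left _ (Finset.mem_insert_of_mem (f.mem_toFinset.2 ⟨g, hg, rfl⟩))
  refine ⟨insert 0 f.toFinset ∪ B, ?_, k' 1 (one_mem _),
    Finset.mem_union_left _ (Finset.mem_insert_self _ _), fun g hg x hx => ?_, k⟩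
  · rw [Finset.card_union_of_disjoint (Finset.disjoint_left.2 fun x h h' => (B1 h').2 h), B2]
    omega
  · rcases k x hx with ⟨g', hg', rfl⟩ | h
    · exact k' (g * g') (mul_mem hg hg')
    · rwa [h]

theorem frob_dec {l : ℕ} (hl : l.Prime) {φ : GQ} (h : IsFrob l φ) : ∃ P, Ov l P ∧ φ ∈ dec P := by
  obtain ⟨P, a, b, c⟩ := h
  exact ⟨P, ⟨hl, a, b⟩, mem_of_frob a hl.ne_zero c⟩

theorem dec_le {N : Subgroup GQ} [hN : N.Normal] {l : ℕ} {P Q : Ideal (𝓞 Qb)} (h : Ov l P)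
    (h' : Ov l Q) (e : dec P ≤ N) : dec Q ≤ N := fun x hx => by
  obtain ⟨g, rfl⟩ := ov_conj h h'
  simpa [mul_assoc] using hN.conj_mem _ (e (mem_dec_smul.1 hx)) g

/-- relatively open subgroups of a subgroup are cut out by open subgroups -/
theorem exists_cut {D D' : Subgroup GQ} (h : D' ≤ D)
    (ho : IsOpen ((D'.subgroupOf D : Subgroup D) : Set D)) :
    ∃ V : Subgroup GQ, IsOpen (V : Set GQ) ∧ V ⊓ D = D' := by
  obtain ⟨O, O1, O2⟩ := isOpen_induced_iff.1 ho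
  have m : ∀ x : D, (x : GQ) ∈ O ↔ (x : GQ) ∈ D' := fun x => Set.ext_iff.1 O2 x
  obtain ⟨W, a, b, c⟩ := Glue.exists_normal (O1.mem_nhds ((m 1).2 D'.one_mem))
  refine ⟨D' ⊔ W, Subgroup.isOpen_mono le_sup_right b, le_antisymm (fun x hx => ?_)
    (le_inf le_sup_left h)⟩
  obtain ⟨y, hy, z, hz, rfl⟩ := Subgroup.mem_sup_of_normal_right.1 hx.1
  have : z ∈ D := by simpa using D.mul_mem (D.inv_mem (h hy)) hx.2
  exact mul_mem hy ((m ⟨z, this⟩).1 (c hz))

end Fld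

open Fld in
/-- **FLD**, general form: the degree is any large number -/
theorem fld_gen (U : Subgroup GQ) [U.Normal] (hU : IsOpen (U : Set GQ)) (T : Finset ℕ)
    {l₀ : ℕ} (hT : l₀ ∉ T) {P₀ : Ideal (𝓞 Qb)} (h₀ : Ov l₀ P₀) {V : Subgroup GQ}
    (hV : IsOpen (V : Set GQ)) : ∃ n₀ : ℕ, ∀ n, n₀ ≤ n → ∃ H : Subgroup GQ,
      IsOpen (H : Set GQ) ∧ H.index = n ∧ (∀ c, IsConj c → c ∈ H.normalCore) ∧
      (∀ l ∈ T, ∀ P, Ov l P → dec P ≤ H.normalCore) ∧ H ⊓ dec P₀ = V ⊓ dec P₀ ∧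
      (∃ P₁, Ov l₀ P₁ ∧ dec P₁ ≤ H) ∧ Glue.Dsj H.normalCore U ∧
      ∀ P, Ov l₀ P → dec P ≤ H ∨ ∃ h ∈ H, P = h • P₀ := by
  classical
  obtain ⟨α, hα⟩ := exists_prim hV
  obtain ⟨n₁, h₁⟩ := exists_fill (dec P₀) α
  obtain ⟨n₂, h₂⟩ := exists_fill ⊥ 0
  refine ⟨n₁ + n₂ + 1, fun n hn => ?_⟩
  obtain ⟨A₁, a1, a2, a3, a4, a5⟩ := h₁ n (by omega)
  obtain ⟨A₂, b1, -, -, -, b5⟩ := h₂ n (by omega)
  have b6 : ∀ x ∈ A₂, ∀ g : GQ, g x = x := fun x hx => (b5 x hx).elim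
    (fun ⟨g, _, e⟩ g' => by rw [e, map_zero, map_zero]) id
  obtain ⟨p, p1, p2⟩ := Nat.exists_infinite_primes ((insert l₀ T).sup id + 1)
  have p3 : p ∉ insert l₀ T := fun h => by
    have : p ≤ (insert l₀ T).sup id := Finset.le_sup (f := id) h
    omega
  have : Fact p.Prime := ⟨p2⟩
  obtain ⟨A₃, c1, c2, c3⟩ := exists_trans (p := p) (n := n) (by omega)
  have : Finite (GQ ⧸ U) := U.quotient_finite_of_isOpen hU
  have := Fintype.ofFinite (GQ ⧸ U)
  choose L φ L1 L2 L3 L4 using fun x : GQ ⧸ U => Cheb.cheb U inferInstance hU x.out {l₀, p}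
  let T' := (T ∪ Finset.univ.image L).filter Nat.Prime
  have t1 : ∀ l ∈ T', l ≠ l₀ ∧ l ≠ p := fun l h => by
    rcases Finset.mem_union.1 (Finset.mem_filter.1 h).1 with h | h
    · exact ⟨fun e => hT (e ▸ h), fun e => p3 (Finset.mem_insert_of_mem (e ▸ h))⟩
    · obtain ⟨x, -, rfl⟩ := Finset.mem_image.1 h
      simpa using L2 x
  have t2 : p ≠ l₀ := fun e => p3 (e ▸ Finset.mem_insert_self _ _)
  choose! Q Q1 Q2 using fun (l : ℕ) (h : l.Prime) => exists_prime h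
  obtain ⟨P, e1, e2, e3⟩ : ∃ P : ℕ → Ideal (𝓞 Qb), P l₀ = P₀ ∧ P p = PP p ∧
      ∀ l ∈ T', P l = Q l := ⟨fun l => if l = l₀ then P₀ else if l = p then PP p else Q l,
    if_pos rfl, (if_neg t2).trans (if_pos rfl),
    fun l h => (if_neg (t1 l h).1).trans (if_neg (t1 l h).2)⟩
  obtain ⟨A, f1, f2, f3⟩ : ∃ A : ℕ → Finset Qb, A l₀ = A₁ ∧ A p = A₃ ∧
      ∀ l ∈ T', A l = A₂ := ⟨fun l => if l = l₀ then A₁ else if l = p then A₃ else A₂,
    if_pos rfl, (if_neg t2).trans (if_pos rfl),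
    fun l h => (if_neg (t1 l h).1).trans (if_neg (t1 l h).2)⟩
  have o : ∀ l ∈ T', Ov l (Q l) := fun l h =>
    have := (Finset.mem_filter.1 h).2
    ⟨this, Q1 l this, Q2 l this⟩
  obtain ⟨R, β, r1, r2, r3, r4⟩ := sets (insert l₀ (insert p T')) P
    (by simp only [Finset.forall_mem_insert, e1, e2]
        exact ⟨h₀, ⟨p2, PP_prime p, p_mem_PP p⟩, fun l h => e3 l h ▸ o l h⟩) n A
    (by simp only [Finset.forall_mem_insert, f1, f2]
        exact ⟨a1, c1, fun l h => f3 l h ▸ b1⟩)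
    (by simp only [Finset.forall_mem_insert, e1, e2, f1, f2]
        exact ⟨a4, fun g _ => c2 g, fun l h g _ x hx => by rw [b6 x (f3 l h ▸ hx)]; exact hx⟩)
  simp only [Finset.forall_mem_insert, e1, e2, f1, f2] at r4
  obtain ⟨⟨s1, s2⟩, ⟨s3, s4⟩, s5⟩ := r4
  have tr : ∀ x ∈ R, ∀ y ∈ R, ∃ g : GQ, g x = y := fun x hx y hy => by
    obtain ⟨x', hx', rfl⟩ := s3.surjOn hx
    obtain ⟨y', hy', rfl⟩ := s3.surjOn hy
    obtain ⟨g, hg, rfl⟩ := c3 x' hx' y' hy'
    exact ⟨g, s4 g hg x' hx'⟩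
  have m : β l₀ α ∈ R := s1.mapsTo a2
  let H := MulAction.stabilizer GQ (β l₀ α)
  have mH : ∀ g, g ∈ H ↔ g (β l₀ α) = β l₀ α := fun g => Iff.rfl
  have core : ∀ g : GQ, (∀ x ∈ R, g x = x) → g ∈ H.normalCore := fun g hg b => by
    rw [mH, AlgEquiv.mul_apply, AlgEquiv.mul_apply, hg _ (r2 _ _ m), ← AlgEquiv.mul_apply,
      mul_inv_cancel, AlgEquiv.one_apply]
  have sp : ∀ l ∈ T', ∀ P, Ov l P → dec P ≤ H.normalCore := fun l h P' hP =>
    dec_le (o l h) hP fun g hg => core g fun x hx => by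
      obtain ⟨y, hy, rfl⟩ := (s5 l h).1.surjOn hx
      rw [(s5 l h).2 g (e3 l h ▸ hg) y hy, b6 y (f3 l h ▸ hy)]
  have fx : ∀ (g : GQ), ∀ x ∈ A₁, (∀ g : GQ, g x = x) → g (β l₀ x) = β l₀ α → dec (g • P₀) ≤ H :=
    fun g x hx h e y hy => by
      have := s2 _ (mem_dec_smul.1 hy) x hx
      rw [h, AlgEquiv.mul_apply, AlgEquiv.mul_apply, e] at this
      rw [mH]
      conv_rhs => rw [← e, ← this, ← AlgEquiv.mul_apply g, mul_inv_cancel, AlgEquiv.one_apply]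
  refine ⟨H, stabilizer_isOpen_of_isIntegral _, ?_, fun c hc => core c (r3 c hc),
    fun l h P hP => sp l (Finset.mem_filter.2 ⟨Finset.mem_union_left _ h, hP.1⟩) P hP, ?_, ?_,
    fun g => ?_, fun P hP => ?_⟩
  · rw [MulAction.index_stabilizer, ← r1, ← Set.ncard_coe_finset]
    congr 1
    exact Set.ext fun y => ⟨fun ⟨g, e⟩ => e ▸ r2 g _ m, fun h => tr _ m y h⟩
  · ext g
    refine and_congr_left fun hg => ?_
    refine (mH g).trans (Iff.trans ?_ (hα g))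
    rw [s2 g hg α a2]
    exact s1.injOn.eq_iff (a4 g hg α a2) a2
  · obtain ⟨g, hg⟩ := tr _ (s1.mapsTo a3) _ m
    exact ⟨_, ov_smul h₀ g, fx g 0 a3 (fun g => map_zero g) hg⟩
  · obtain ⟨P, k1, k2⟩ := frob_dec (L1 g) (L3 g)
    refine ⟨φ g, sp _ (Finset.mem_filter.2 ⟨Finset.mem_union_right _
      (Finset.mem_image_of_mem _ (Finset.mem_univ _)), L1 g⟩) P k1 k2, ?_⟩
    have := mul_mem (QuotientGroup.eq.1 (QuotientGroup.out_eq' (g : GQ ⧸ U)).symm) (L4 g)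
    rwa [mul_assoc, mul_inv_cancel_left] at this
  · obtain ⟨g, rfl⟩ := ov_conj h₀ hP
    obtain ⟨x, hx, e⟩ := s1.surjOn (r2 g⁻¹ _ m)
    have e' : g (β l₀ x) = β l₀ α := by
      rw [e, ← AlgEquiv.mul_apply, mul_inv_cancel, AlgEquiv.one_apply]
    rcases a5 x hx with ⟨d, hd, rfl⟩ | h
    · refine Or.inr ⟨g * d, ?_, ?_⟩
      · rw [mH, AlgEquiv.mul_apply, s2 d hd α a2, e']
      · rw [mul_smul]
        congr 1
        ext y
        rw [Ideal.mem_pointwise_smul_iff_inv_smul_mem]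
        exact ((dec P₀).inv_mem hd y).symm
    · exact Or.inl (fx g x hx h e')

/-- **FLD** -/
def FLD : Prop := ∀ (U : Subgroup GQ), U.Normal → IsOpen (U : Set GQ) → ∀ (T : Finset ℕ) (l₀ : ℕ)
  (P₀ : Ideal (𝓞 Qb)) (D' : Subgroup GQ), l₀ ∉ T → Ov l₀ P₀ → D' ≤ dec P₀ →
  IsOpen ((D'.subgroupOf (dec P₀) : Subgroup (dec P₀)) : Set (dec P₀)) →
  ∃ H : Subgroup GQ, IsOpen (H : Set GQ) ∧ (∀ c, IsConj c → c ∈ H) ∧
    (∀ l ∈ T, ∀ P, Ov l P → dec P ≤ H) ∧ H ⊓ dec P₀ = D' ∧ (∃ P₁, Ov l₀ P₁ ∧ dec P₁ ≤ H) ∧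
    H.normalCore ⊔ U = ⊤ ∧ Even H.index

theorem fld : FLD := by
  intro U hn hU T l₀ P₀ D' hT h₀ le o
  obtain ⟨V, V1, V2⟩ := Fld.exists_cut le o
  obtain ⟨n, hn⟩ := fld_gen U hU T hT h₀ V1
  obtain ⟨H, a, b, c, d, e, f, g, -⟩ := hn (2 * n) (by omega)
  refine ⟨H, a, fun x hx => H.normalCore_le (c x hx),
    fun l h P hP => (d l h P hP).trans H.normalCore_le, e.trans V2, f, eq_top_iff.2 fun x _ => ?_,
    b ▸ even_two_mul n⟩
  obtain ⟨y, y1, y2⟩ := g x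
  have := Subgroup.mul_mem_sup y1 (inv_mem y2)
  rwa [mul_inv_rev, inv_inv, mul_inv_cancel_left] at this

end Vale.Agent.P022K.CH
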