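import Vale.Agent.P022K.CH.StB
import Vale.Agent.P022K.CH.Eps
import Vale.Agent.P022K.CH.Fld

/-! # P022K, block CH: the inertia groups generate the Galois group of `ℚ` -/

set_option linter.all false

open NumberField Matrix
open scoped Pointwise

noncomputable section

namespace Vale.Agent.P022K.CH

open Vale.Agent.P022 Vale.Agent.P022.H916
open Vale.Agent.P022.H443 (inP)
open Vale.Agent.P022D.W (dec)
open Vale.Agent.P022E.GW (Ov Fb)
open Vale.Agent.P022K.Glue (Dsj Spans)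

/-- an open normal subgroup which contains all inertia groups is everything -/
theorem mink_nor (U : Subgroup GQ) [hn : U.Normal] (ho : IsOpen (U : Set GQ))
    (h : ∀ l P, Ov l P → inP P ≤ U) : U = ⊤ := by
  have hall : ∀ g : GQ, g ∈ GK (algebraMap ℚ Qb) := fun g x => g.commutes x
  obtain ⟨L, _, _, inst, hG, jL, σ, D, -, hker⟩ := exists_fld (algebraMap ℚ Qb) U ho
    (fun g _ => hall g) fun g _ u hu => hn.conj_mem u hu g
  obtain rfl : inst = DivisionRing.toRatAlgebra := Subsingleton.elim _ _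
  by_cases e : Module.finrank ℚ L = 1
  · have : Subsingleton (L ≃ₐ[ℚ] L) := by
      rw [← IsGalois.card_aut_eq_finrank] at e
      exact (Nat.card_eq_one_iff_unique.1 e).1
    exact eq_top_iff.2 fun g _ => (hker ⟨g, hall g⟩).1 (Subsingleton.elim _ _)
  obtain ⟨l, hl, k⟩ := exists_not_isUnramifiedAt_int_of_isGalois (K := L) (𝒪 := 𝓞 L)
    (lt_of_le_of_ne Module.finrank_pos (Ne.symm e))
  obtain ⟨Q, hQ⟩ := ex_ov hl
  have pr := H20.below_prime jL hQ.2.1
  have m := H20.l_mem_below jL hQ.2.2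
  refine (k _ pr m ?_).elim
  have pl : Prime (l : ℤ) := Nat.prime_iff_prime_int.1 hl
  have lo : (below jL Q).LiesOver (Ideal.span {(l : ℤ)}) :=
    (Ideal.liesOver_span_iff pr.ne_top pl).2 (by simpa using m)
  have mx : (Ideal.span {(l : ℤ)}).IsMaximal :=
    PrincipalIdealRing.isMaximal_of_irreducible pl.irreducible
  have : Finite (ℤ ⧸ Ideal.span {(l : ℤ)}) :=
    Ideal.finiteQuotientOfFreeOfNeBot _ (by simpa using hl.ne_zero)
  rw [← Ideal.ramificationIdx_eq_one_iff,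
    ← Ideal.ramificationIdxIn_eq_ramificationIdx (Ideal.span {(l : ℤ)}) _ (L ≃ₐ[ℚ] L),
    ← Ideal.card_inertia_eq_ramificationIdxIn (G := L ≃ₐ[ℚ] L) _ (below jL Q),
    Subgroup.card_eq_one, eq_bot_iff]
  exact fun s hs => D.inertia_eq_bot hQ.2.1 (fun g hg => (hker g).2 (h l Q hQ hg)) hs

theorem inP_conj {P : Id} {s : GQ} (g : GQ) (h : s ∈ inP P) : g * s * g⁻¹ ∈ inP (g • P) :=
  fun x => by
    rw [Ideal.mem_pointwise_smul_iff_inv_smul_mem, smul_sub, mul_smul, mul_smul, inv_smul_smul]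
    exact h _

theorem mink_top (U : Subgroup GQ) (ho : IsOpen (U : Set GQ)) (h : ∀ l P, Ov l P → inP P ≤ U) :
    U = ⊤ := by
  have := H443.galQb
  haveI : Finite (GQ ⧸ U) := U.quotient_finite_of_isOpen ho
  haveI : U.FiniteIndex := Subgroup.finiteIndex_of_finite_quotient
  exact eq_top_iff.2 ((mink_nor U.normalCore (Subgroup.isOpen_of_isClosed_of_finiteIndex _
    (U.normalCore_isClosed (U.isClosed_of_isOpen ho))) fun l P hP s hs g =>
      h l _ (Fld.ov_smul hP g) (inP_conj g hs)).ge.trans U.normalCore_le)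

/-- a field which is split at `T` is disjoint from the fields which are not ramified outside `T` -/
theorem dsj_spl {H W : Subgroup GQ} [W.Normal] (ho : IsOpen (W : Set GQ)) {T : Finset ℕ}
    (hs : Spl H T) (hu : ∀ l ∉ T, ∀ P, Ov l P → inP P ≤ W) : Dsj H W := fun g => by
  have e := mink_top (H ⊔ W) (Subgroup.isOpen_mono le_sup_right ho) fun l P hP => by
    by_cases k : l ∈ T
    · exact (P022D.W.inP_le_dec.trans (hs l k P hP)).trans le_sup_left
    · exact (hu l k P hP).trans le_sup_right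
  obtain ⟨x, hx, w, hw, rfl⟩ := Subgroup.mem_sup_of_normal_right.1 (e.ge (Subgroup.mem_top g))
  exact ⟨x, hx, by simpa using hw⟩

variable {p : ℕ} [Fact p.Prime] {r : GQ →* GL (Fin 2) (Cp p)}

theorem Rs.one {ρ : GQ →* GL (Fin 2) (Kp p)} (h : Rs r ρ) {T : Set GQ}
    (hs : Spans (fun g => (ρ g : Matrix (Fin 2) (Fin 2) (Kp p))) T) {s : GQ} (e : r s = 1) :
    ρ s = 1 := Units.ext (hs.ext fun x _ => by
  have := h.tr (s * x)
  rw [CH.tr, map_mul, e, one_mul, ← CH.tr, h.tr] at this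
  simpa [CH.tr] using this.symm)

/-- the residual image does not change over a field which is split at the ramified primes -/
theorem Adq.spl (h : Adq r ⊤) {T : Finset ℕ} (hp : p ∈ T) (hu : Unr r T) {H : Subgroup GQ}
    (hs : Spl H T) : Adq r H := by
  haveI : NeZero p := ⟨(Fact.out : p.Prime).ne_zero⟩
  obtain ⟨ρ, a, b, c⟩ := h
  have d : Dsj H (ρ.ker ⊓ Gz p) := dsj_spl (a.opn.inter (Gz_open p)) hs fun l hl P hP s k =>
    ⟨a.one b (hu l hl P hP s k), inP_le_Gz hP (fun e => hl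
      ((Nat.prime_dvd_prime_iff_eq hP.1 (Fact.out : p.Prime)).1 e ▸ hp)) k⟩
  have key : ∀ g ∈ ⊤ ⊓ Gz p, ∃ x ∈ H ⊓ Gz p, ρ x = ρ g := fun g hg => by
    obtain ⟨x, x1, x2, x3⟩ := d g
    refine ⟨x, ⟨x1, by simpa using mul_mem hg.2 x3⟩, ?_⟩
    have : ρ (g⁻¹ * x) = 1 := x2
    rw [map_mul, map_inv, inv_mul_eq_one] at this
    exact this.symm
  refine ⟨ρ, a, b.of_image fun g hg => ?_, c.imp_right fun ⟨s, d, f⟩ => ?_⟩
  · obtain ⟨x, x1, x2⟩ := key g hg
    exact ⟨x, x1, by rw [x2]⟩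
  · obtain ⟨x, x1, x2⟩ := key s d
    exact ⟨x, x1, x2 ▸ f⟩

end Vale.Agent.P022K.CH
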