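import Vale.Agent.P022K.CH.Fld
import Vale.Agent.P022K.Glue.Red
import Vale.Agent.P022.H567.Gch

/-! # P022K, block CH: Weil elements are Frobenius elements of suitable fields; transport of
local types between the members of a system -/

set_option linter.all false

open NumberField IsDedekindDomain Matrix
open scoped Pointwise

noncomputable section

namespace Vale.Agent.P022K.CH

open Vale.Agent.P022 Vale.Agent.P022.H916 Vale.Agent.P022.H853
open Vale.Agent.P022.H443 (inP)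
open Vale.Agent.P022.C (FrI)
open Vale.Agent.P022D.W (dec)
open Vale.Agent.P022E.GW (Ov Fb)
open Vale.Agent.P022K.Glue

/-- `φ` is a Frobenius element at `P` of the field of `H`; the residue field has `l ^ n`
elements -/
def Frb (H : Subgroup GQ) (l n : ℕ) (P : Ideal (𝓞 Qb)) (φ : GQ) : Prop :=
  φ ∈ H ∧ Fb (l ^ n) P φ ∧ ∀ x ∈ H, ∀ f, Fb (l ^ f) P x → n ∣ f

/-- `a` and `b` are the images of one element -/
def Mv {K E E' : Type*} [Field K] [Field E] [Field E'] (lam : K →+* E) (mu : K →+* E') (a : E)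
    (b : E') : Prop := ∃ t, a = lam t ∧ b = mu t

namespace Weil

variable {P : Ideal (𝓞 Qb)} {l : ℕ}

theorem fb_dec (hP : Ov l P) {n : ℕ} {g : GQ} (h : Fb (l ^ n) P g) : g ∈ dec P :=
  mem_of_frob hP.2.1 (pow_ne_zero n hP.1.ne_zero) h

theorem fb_mul {a b : ℕ} {g g' : GQ} (hg : g ∈ dec P) (h : Fb a P g) (h' : Fb b P g') :
    Fb (a * b) P (g * g') := fun x => by
  have h1 := (hg _).2 (h' x)
  rw [smul_sub, ← mul_smul] at h1
  have := P.add_mem h1 (h (x ^ b))
  rwa [sub_add_sub_cancel, ← pow_mul, mul_comm b] at this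

theorem fb_conj {a : ℕ} {g x : GQ} (hg : g ∈ dec P) (h : Fb a P x) : Fb a P (g * x * g⁻¹) :=
  fun y => by
    have := (hg _).2 (h (g⁻¹ • y))
    rwa [smul_sub, smul_pow', smul_inv_smul, ← mul_smul, ← mul_smul] at this

theorem fb_zero {s : GQ} : Fb (l ^ 0) P s ↔ s ∈ inP P := by
  simp only [Fb, pow_zero, pow_one]
  rfl

theorem fb_add (hP : Ov l P) {a b : ℕ} {g g' : GQ} (h : Fb (l ^ a) P g) (h' : Fb (l ^ b) P g') :
    Fb (l ^ (a + b)) P (g * g') := pow_add l a b ▸ fb_mul (fb_dec hP h) h h'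

theorem fb_pow (hP : Ov l P) {a : ℕ} {g : GQ} (h : Fb (l ^ a) P g) (k : ℕ) :
    Fb (l ^ (a * k)) P (g ^ k) := by
  induction k with
  | zero => exact fb_zero.2 (one_mem _)
  | succ k ih => rw [pow_succ g, Nat.mul_succ]; exact fb_add hP ih h

/-- two elements of the same degree differ by an element of the inertia group -/
theorem fb_div (hP : Ov l P) {a : ℕ} {g g' : GQ} (h : Fb (l ^ a) P g) (h' : Fb (l ^ a) P g') :
    g⁻¹ * g' ∈ inP P := fun x => by
  have a1 := P.sub_mem (h' x) (h x)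
  rw [sub_sub_sub_cancel_right] at a1
  have a2 := ((dec P).inv_mem (fb_dec hP h) _).2 a1
  rwa [smul_sub, inv_smul_smul, ← mul_smul] at a2

theorem dvd_of_dvd (hl : 2 ≤ l) {f k : ℕ} (h : l ^ f - 1 ∣ l ^ k - 1) : f ∣ k := by
  have h2 := Nat.pow_sub_one_gcd_pow_sub_one l f k
  rw [Nat.gcd_eq_left h] at h2
  have h3 : l ^ f = l ^ Nat.gcd f k := by
    have := Nat.one_le_pow f l (by omega)
    have := Nat.one_le_pow (Nat.gcd f k) l (by omega)
    omega
  rw [Nat.pow_right_injective hl h3]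
  exact Nat.gcd_dvd_right f k

theorem cop (hl : 2 ≤ l) {N : ℕ} (hN : 0 < N) : (l ^ N - 1).Coprime l := by
  have : l ^ N = l ^ N - 1 + 1 := (Nat.sub_add_cancel (Nat.one_le_pow _ _ (by omega))).symm
  refine Nat.Coprime.of_dvd_right (dvd_pow_self l hN.ne') ?_
  rw [this, Nat.add_sub_cancel]
  simp

theorem modEq_of (hl : 2 ≤ l) {N a b : ℕ} (hN : 0 < N) (h : l ^ a ≡ l ^ b [MOD l ^ N - 1]) :
    a ≡ b [MOD N] := by
  wlog le : a ≤ b generalizing a b
  · exact (this h.symm (by omega)).symm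
  obtain ⟨c, rfl⟩ := Nat.exists_eq_add_of_le le
  rw [pow_add] at h
  conv_lhs at h => rw [← mul_one (l ^ a)]
  have := Nat.ModEq.cancel_left_of_coprime ((cop hl hN).pow_right a) h
  rw [Nat.modEq_iff_dvd' (Nat.one_le_pow _ _ (by omega))] at this
  rw [Nat.modEq_iff_dvd' (Nat.le_add_right a c), Nat.add_sub_cancel_left]
  exact dvd_of_dvd hl this

/-- the degree modulo `N` is read from a cyclotomic character -/
theorem deg_modEq (hP : Ov l P) {N : ℕ} (hN : 0 < N) [NeZero (l ^ N - 1)] {a b : ℕ} {g g' : GQ}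
    (h : Fb (l ^ a) P g) (h' : Fb (l ^ b) P g') (e : cyc (l ^ N - 1) g = cyc (l ^ N - 1) g') :
    a ≡ b [MOD N] := by
  have n : ((l ^ N - 1 : ℕ) : 𝓞 Qb) ∉ P := fun m => by
    have := H20.dvd_of_mem hP.1 hP.2.1 hP.2.2 (d := ((l ^ N - 1 : ℕ) : ℤ)) (by exact_mod_cast m)
    exact (hP.1.coprime_iff_not_dvd.1 (cop hP.1.two_le hN).symm) (Int.natCast_dvd_natCast.1 this)
  exact modEq_of hP.1.two_le hN ((cyc_of_pow dvd_rfl hP.2.1 n h).symm.trans
    (e ▸ cyc_of_pow dvd_rfl hP.2.1 n h'))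

end Weil

open Weil

variable {P : Ideal (𝓞 Qb)} {l n : ℕ} {φ : GQ}

/-- **a Weil element of positive degree is a Frobenius element of a local field which kills any
given finite ramification** -/
theorem weil (hP : Ov l P) (hn : 0 < n) (hφ : Fb (l ^ n) P φ) {U : Subgroup GQ}
    (hU : IsOpen (U : Set GQ)) : ∃ V : Subgroup GQ, IsOpen (V : Set GQ) ∧ Frb V l n P φ ∧
      ∀ s ∈ V, s ∈ inP P → s ∈ U := by
  obtain ⟨C, c1, c2, c3⟩ := exists_normal (hU.mem_nhds U.one_mem)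
  have : Finite (GQ ⧸ C) := C.quotient_finite_of_isOpen c2
  have m0 : 0 < C.index := Nat.pos_of_ne_zero Subgroup.index_ne_zero_of_finite
  have N0 : 0 < n * C.index := Nat.mul_pos hn m0
  have : NeZero (l ^ (n * C.index) - 1) :=
    ⟨Nat.sub_ne_zero_of_lt (Nat.one_lt_pow N0.ne' hP.1.one_lt)⟩
  let W := C ⊓ (cyc (l ^ (n * C.index) - 1)).ker
  have w2 : IsOpen (W : Set GQ) := c2.inter (isOpen_cyc _)
  have : Finite (GQ ⧸ W) := W.quotient_finite_of_isOpen w2
  let V := (Subgroup.zpowers (φ : GQ ⧸ W)).comap (QuotientGroup.mk' W)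
  have key : ∀ x ∈ V, ∀ f, Fb (l ^ f) P x → ∃ k, (φ ^ k)⁻¹ * x ∈ C ∧ n * k ≡ f [MOD n * C.index] :=
    fun x hx f hf => by
      obtain ⟨k, hk⟩ := (mem_powers_iff_mem_zpowers.2 hx : (x : GQ ⧸ W) ∈ Submonoid.powers _)
      have m : (φ ^ k)⁻¹ * x ∈ W := QuotientGroup.eq.1 hk
      refine ⟨k, m.1, deg_modEq hP N0 (fb_pow hP hφ k) hf ?_⟩
      have := MonoidHom.mem_ker.1 m.2
      rwa [map_mul, map_inv, inv_mul_eq_one] at this
  refine ⟨V, Subgroup.isOpen_mono (fun x hx => ?_) w2, ⟨Subgroup.mem_zpowers _, hφ,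
    fun x hx f hf => ?_⟩, fun s hs h => c3 ?_⟩
  · show (x : GQ ⧸ W) ∈ Subgroup.zpowers _
    rw [(QuotientGroup.eq_one_iff x).2 hx]
    exact one_mem _
  · obtain ⟨k, -, b⟩ := key x hx f hf
    exact (Nat.modEq_zero_iff_dvd.1 ((b.of_mul_right _).symm.trans
      (Nat.modEq_zero_iff_dvd.2 (dvd_mul_right n k))))
  · obtain ⟨k, a, b⟩ := key s hs 0 (fb_zero.2 h)
    obtain ⟨c, rfl⟩ := Nat.dvd_of_mul_dvd_mul_left hn (Nat.modEq_zero_iff_dvd.1 b)
    have : φ ^ (C.index * c) ∈ C := pow_mul φ _ c ▸ C.pow_mem (C.pow_index_mem φ) c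
    simpa using C.mul_mem this a

theorem Frb.congr (hP : Ov l P) {H V : Subgroup GQ} (e : H ⊓ dec P = V ⊓ dec P)
    (h : Frb V l n P φ) : Frb H l n P φ :=
  ⟨(e.ge ⟨h.1, fb_dec hP h.2.1⟩).1, h.2.1, fun x hx f hf =>
    h.2.2 x (e.le ⟨hx, fb_dec hP hf⟩).1 f hf⟩

theorem Frb.inf (hP : Ov l P) {H F : Subgroup GQ} (e : dec P ≤ F) (h : Frb H l n P φ) :
    Frb (F ⊓ H) l n P φ :=
  ⟨⟨e (fb_dec hP h.2.1), h.1⟩, h.2.1, fun x hx => h.2.2 x hx.2⟩

section

variable {K : Type} [Field K] [NumberField K] {j : K →+* Qb} {w : HeightOneSpectrum (𝓞 K)}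

theorem norm_pow (hP : Ov l P) (hw : below j P = w.asIdeal) :
    ∃ f, 0 < f ∧ Ideal.absNorm w.asIdeal = l ^ f ∧
      ∀ x ∈ GK j, ∀ k, Fb (l ^ k) P x → f ∣ k := by
  classical
  have hl : (l : 𝓞 K) ∈ w.asIdeal := hw ▸ H20.l_mem_below j hP.2.2
  obtain ⟨f, -, hf⟩ := (Nat.dvd_prime_pow hP.1).1
    (show Ideal.absNorm w.asIdeal ∣ l ^ Module.finrank ℤ (𝓞 K) by
      rw [← Ideal.absNorm_span_natCast]
      exact Ideal.absNorm_dvd_absNorm_of_le ((Ideal.span_singleton_le_iff_mem _).2 hl))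
  refine ⟨f, Nat.pos_of_ne_zero fun e => w.isPrime.ne_top (Ideal.absNorm_eq_one_iff.1
    (by rw [hf, e, pow_zero])), hf, fun a ha k h => dvd_of_dvd hP.1.two_le ?_⟩
  have := w.isMaximal
  let _ : Field (𝓞 K ⧸ w.asIdeal) := Ideal.Quotient.field _
  have hc : Nat.card (𝓞 K ⧸ w.asIdeal) = l ^ f := hf
  have : Finite (𝓞 K ⧸ w.asIdeal) :=
    Nat.finite_of_card_ne_zero (hc ▸ pow_ne_zero f hP.1.ne_zero)
  let _ := Fintype.ofFinite (𝓞 K ⧸ w.asIdeal)
  have h1 := (FiniteField.forall_pow_eq_one_iff (𝓞 K ⧸ w.asIdeal) (l ^ k - 1)).1 fun x => by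
    obtain ⟨y, hy⟩ := Ideal.Quotient.mk_surjective (x : 𝓞 K ⧸ w.asIdeal)
    have a1 := h (RingOfIntegers.mapRingHom j y)
    rw [show a • RingOfIntegers.mapRingHom j y = RingOfIntegers.mapRingHom j y from
      RingOfIntegers.ext (ha (y : K)), ← map_pow, ← map_sub, ← Ideal.mem_comap] at a1
    have a2 := Ideal.Quotient.eq.2 (show y - y ^ l ^ k ∈ w.asIdeal from hw ▸ a1)
    rw [map_pow, hy] at a2
    have a3 : x ^ (l ^ k - 1) * x = 1 * x := by
      rw [← pow_succ, Nat.sub_add_cancel (Nat.one_le_pow _ _ hP.1.pos), one_mul]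
      exact Units.ext a2.symm
    exact mul_right_cancel a3
  rwa [← Nat.card_eq_fintype_card, hc] at h1

theorem Frb.norm (hP : Ov l P) (hw : below j P = w.asIdeal) (h : Frb (GK j) l n P φ) :
    Ideal.absNorm w.asIdeal = l ^ n := by
  obtain ⟨f, -, b, c⟩ := norm_pow hP hw
  obtain ⟨g, hg⟩ := exists_frob j hP.2.1 hP.1 hP.2.2
  rw [hw, b] at hg
  rw [b, Nat.dvd_antisymm (c φ h.1 n h.2.1) (h.2.2 g g.2 f hg)]

theorem Frb.fri (hP : Ov l P) (hw : below j P = w.asIdeal) (h : Frb (GK j) l n P φ) :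
    FrI j w P ⟨φ, h.1⟩ := ⟨hP.2.1, hw, by rw [h.norm hP hw]; exact h.2.1⟩

theorem frb_of_fri (hP : Ov l P) {g : GK j} (h : FrI j w P g) :
    ∃ n, 0 < n ∧ Ideal.absNorm w.asIdeal = l ^ n ∧ Frb (GK j) l n P g := by
  obtain ⟨f, a, b, c⟩ := norm_pow hP h.2.1
  exact ⟨f, a, b, g.2, b ▸ h.2.2, c⟩

/-- the place below a prime -/
theorem exists_below (j : K →+* Qb) (hP : Ov l P) :
    ∃ w : HeightOneSpectrum (𝓞 K), below j P = w.asIdeal :=
  ⟨⟨below j P, H20.below_prime j hP.2.1, fun e => by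
    have h1 := H20.l_mem_below j hP.2.2
    rw [e, Ideal.mem_bot] at h1
    exact hP.1.ne_zero (Nat.cast_eq_zero.1 h1)⟩, rfl⟩

/-- the field of an open subgroup -/
theorem exists_field {H : Subgroup GQ} (hH : IsOpen (H : Set GQ)) (le : H ≤ GK j) :
    ∃ (L : Type) (_ : Field L) (_ : NumberField L) (_ : Algebra K L) (jL : L →+* Qb),
      GK jL = H ∧ jL.comp (algebraMap K L) = j := by
  have := finU H hH
  have : NumberField (FF H) := {}
  refine ⟨FF H, inferInstance, this, (incl j H le).toAlgebra, (IntermediateField.fixedField H).val,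
    ?_, rfl⟩
  have := H443.galQb
  refine Eq.trans ?_ (InfiniteGalois.fixingSubgroup_fixedField ⟨H, H.isClosed_of_isOpen hH⟩)
  ext g
  rw [IntermediateField.mem_fixingSubgroup_iff]
  exact ⟨fun h x hx => h ⟨x, hx⟩, fun h x => h x x.2⟩

/-- the degree of a number field is the index of its group -/
theorem index_GK (j : K →+* Qb) : (GK j).index = Module.finrank ℚ K := by
  have := H443.galQb
  have e : GK j = (j.toRatAlgHom.fieldRange).fixingSubgroup := by
    ext g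
    rw [IntermediateField.mem_fixingSubgroup_iff]
    exact ⟨fun h _ ⟨x, hx⟩ => hx ▸ h x, fun h x => h _ ⟨x, rfl⟩⟩
  rw [e, ← IntermediateField.finrank_eq_fixingSubgroup_index]
  exact (AlgEquiv.ofInjectiveField j.toRatAlgHom).toLinearEquiv.finrank_eq.symm

/-- a field whose group contains the complex conjugations is totally real -/
theorem real_of_conj (h : ∀ c, IsConj c → c ∈ GK j) (ψ : K →+* ℂ) (x : K) : (ψ x).im = 0 := by
  have := H443.galQb
  have := H443.algQb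
  let _ : Algebra K Qb := j.toAlgebra
  let _ : Algebra K ℂ := ψ.toAlgebra
  have : IsScalarTower ℚ K Qb := IsScalarTower.of_algebraMap_eq' (Subsingleton.elim _ _)
  have : Algebra.IsAlgebraic K Qb := Algebra.IsAlgebraic.tower_top (K := ℚ) K
  let Φ : Qb →ₐ[K] ℂ := IsAlgClosed.lift
  let _ : Algebra Qb ℂ := Φ.toRingHom.toAlgebra
  have : IsScalarTower ℚ Qb ℂ := IsScalarTower.of_algebraMap_eq' (Subsingleton.elim _ _)
  let χ : ℂ ≃ₐ[ℚ] ℂ := Complex.conjAe.restrictScalars ℚ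
  have k : ∀ y, Φ (χ.restrictNormal Qb y) = starRingEnd ℂ (Φ y) :=
    AlgEquiv.restrictNormal_commutes χ Qb
  have := k (j x)
  rw [h _ ⟨Φ.toRingHom, k⟩ x, show Φ (j x) = ψ x from Φ.commutes x] at this
  exact Complex.conj_eq_iff_im.1 this.symm

end

section

variable {K E E' : Type*} [Field K] [Field E] [Field E'] {lam : K →+* E} {mu : K →+* E'}

theorem Mv.mul {a b : E} {a' b' : E'} (h : Mv lam mu a a') (k : Mv lam mu b b') :
    Mv lam mu (a * b) (a' * b') := by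
  obtain ⟨s, rfl, rfl⟩ := h
  obtain ⟨t, rfl, rfl⟩ := k
  exact ⟨s * t, (map_mul _ _ _).symm, (map_mul _ _ _).symm⟩

theorem Mv.sub {a b : E} {a' b' : E'} (h : Mv lam mu a a') (k : Mv lam mu b b') :
    Mv lam mu (a - b) (a' - b') := by
  obtain ⟨s, rfl, rfl⟩ := h
  obtain ⟨t, rfl, rfl⟩ := k
  exact ⟨s - t, (map_sub _ _ _).symm, (map_sub _ _ _).symm⟩

theorem Mv.div {a b : E} {a' b' : E'} (h : Mv lam mu a a') (k : Mv lam mu b b') :
    Mv lam mu (a / b) (a' / b') := by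
  obtain ⟨s, rfl, rfl⟩ := h
  obtain ⟨t, rfl, rfl⟩ := k
  exact ⟨s / t, (map_div₀ _ _ _).symm, (map_div₀ _ _ _).symm⟩

theorem Mv.int (z : ℤ) : Mv lam mu z z := ⟨z, (map_intCast _ _).symm, (map_intCast _ _).symm⟩

theorem Mv.symm {a : E} {a' : E'} (h : Mv lam mu a a') : Mv mu lam a' a :=
  h.imp fun _ h => h.symm

theorem Mv.eq_iff {a b : E} {a' b' : E'} (h : Mv lam mu a a') (k : Mv lam mu b b') :
    a = b ↔ a' = b' := by
  obtain ⟨s, rfl, rfl⟩ := h
  obtain ⟨t, rfl, rfl⟩ := k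
  rw [lam.injective.eq_iff, mu.injective.eq_iff]

theorem Mv.left {a : E} {a' b' : E'} (h : Mv lam mu a a') (k : Mv lam mu a b') : a' = b' :=
  (h.eq_iff k).1 rfl

theorem tr_ch (x s : Matrix (Fin 2) (Fin 2) E) :
    x.det * s.trace = x.trace * (x * s).trace - (x * (x * s)).trace := by
  simp only [det_fin_two, trace_fin_two, mul_apply, Fin.sum_univ_two]
  ring

variable {G : Type*} [Group G] {r : G →* Matrix (Fin 2) (Fin 2) E}
  {r' : G →* Matrix (Fin 2) (Fin 2) E'}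

theorem det_ne (r : G →* Matrix (Fin 2) (Fin 2) E) (x : G) : (r x).det ≠ 0 :=
  (((Group.isUnit x).map r).map detMonoidHom).ne_zero

theorem mt_det (h2 : (2 : K) ≠ 0) {x : G} (a : Mv lam mu (r x).trace (r' x).trace)
    (b : Mv lam mu (r (x * x)).trace (r' (x * x)).trace) : Mv lam mu (r x).det (r' x).det := by
  have := ((a.mul a).sub b).div (Mv.int 2)
  rwa [map_mul, map_mul, ← sq (r x).trace, ← sq (r' x).trace, ← two_det, ← two_det, Int.cast_ofNat, Int.cast_ofNat,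
    mul_div_cancel_left₀ _ (by simpa only [map_ofNat] using (map_ne_zero lam).2 h2),
    mul_div_cancel_left₀ _ (by simpa only [map_ofNat] using (map_ne_zero mu).2 h2)] at this

theorem mt_down (h2 : (2 : K) ≠ 0) {x s : G} (a : Mv lam mu (r x).trace (r' x).trace)
    (b : Mv lam mu (r (x * x)).trace (r' (x * x)).trace)
    (c : Mv lam mu (r (x * s)).trace (r' (x * s)).trace)
    (d : Mv lam mu (r (x * (x * s))).trace (r' (x * (x * s))).trace) :
    Mv lam mu (r s).trace (r' s).trace := by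
  have := ((a.mul c).sub d).div (mt_det h2 a b)
  simp only [map_mul] at this
  rwa [← tr_ch, ← tr_ch, mul_div_cancel_left₀ _ (det_ne r x),
    mul_div_cancel_left₀ _ (det_ne r' x)] at this

/-- a unipotent matrix of finite order is trivial -/
theorem eq_one_of {m : Matrix (Fin 2) (Fin 2) E} (h1 : m.trace = 2) (h2 : m.det = 1) {N : ℕ}
    (hN : (N : E) ≠ 0) (h : m ^ N = 1) : m = 1 := by
  have a : (m - 1) * (m - 1) = 0 := by
    rw [trace_fin_two] at h1
    rw [det_fin_two] at h2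
    ext i j
    fin_cases i <;> fin_cases j <;> simp [mul_apply, Fin.sum_univ_two]
    · linear_combination m 0 0 * h1 - h2
    · exact by linear_combination m 0 1 * h1
    · exact by linear_combination m 1 0 * h1
    · linear_combination m 1 1 * h1 - h2
  have b : ∀ k : ℕ, m ^ k = 1 + (k : E) • (m - 1) := fun k => by
    induction k with
    | zero => simp
    | succ k ih =>
      rw [pow_succ, ih, Nat.cast_succ, add_smul, one_smul]
      calc _ = (1 + (k : E) • (m - 1)) * (1 + (m - 1)) := by rw [add_sub_cancel]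
        _ = _ := by
          rw [add_mul, mul_add, mul_add, smul_mul_assoc, smul_mul_assoc, a]
          simp only [one_mul, mul_one, smul_zero, add_zero]
          abel
  rw [b, add_eq_left, smul_eq_zero] at h
  exact sub_eq_zero.1 (h.resolve_left hN)

/-- the kernel of the reduction has no torsion of order prime to the residue characteristic -/
theorem eq_one_of_red {A k ι : Type*} [CommRing A] [CommRing k] [Fintype ι] [DecidableEq ι]
    (π : A →+* k) [IsLocalHom π] {m : Matrix ι ι A} (h1 : m.map π = 1) {N : ℕ}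
    (hN : IsUnit (N : k)) (h : m ^ N = 1) : m = 1 := by
  have a := mul_geom_sum m N
  have b : IsUnit (∑ i ∈ Finset.range N, m ^ i) := by
    rw [isUnit_iff_isUnit_det, ← isUnit_map_iff π, RingHom.map_det, map_sum]
    simp only [map_pow, RingHom.mapMatrix_apply, h1, one_pow, Finset.sum_const, Finset.card_range]
    rw [← Nat.cast_smul_eq_nsmul k, det_smul, det_one, mul_one]
    exact hN.pow _
  rw [h, sub_self] at a
  exact sub_eq_zero.1 (b.mul_left_eq_zero.1 a)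

/-- the kernel of a semisimple representation is read from the traces -/
theorem ker_of_trace (h2 : (2 : E) ≠ 0) {ρ : G →* Matrix (Fin 2) (Fin 2) E} {D : Subgroup G}
    {t : D →* Matrix (Fin 2) (Fin 2) E} (h : Spans ρ D ∨ ∃ χ χ', ρ = dg χ χ')
    (e : ∀ x : D, (t x).trace = (ρ x).trace) {s : D} (hs : t s = 1) : ρ s = 1 := by
  have k : ∀ x : D, (ρ s * ρ x).trace = (1 * ρ x).trace := fun x => by
    rw [← map_mul, one_mul, ← e x, ← Subgroup.coe_mul, ← e, map_mul, hs, one_mul]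
  rcases h with h | ⟨χ, χ', rfl⟩
  · exact h.ext fun x m => k ⟨x, m⟩
  · have a := k 1
    have b := k s
    simp only [← map_mul, one_mul, trace_dg, Subgroup.coe_one, mul_one, map_one, trace_one,
      Fintype.card_fin, Nat.cast_ofNat] at a b
    rw [map_mul, map_mul] at b
    have c : 2 * (χ s - 1) ^ 2 = 0 := by
      linear_combination b - (χ' s - χ s + 1) * a
    have d : χ s = 1 := sub_eq_zero.1 (pow_eq_zero_iff two_ne_zero |>.1
      ((mul_eq_zero.1 c).resolve_left h2))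
    rw [dg_apply, d, show χ' s = 1 by linear_combination a - d, one_fin_two]

end

section

variable {K E E' : Type*} [Field K] [Field E] [Field E'] {lam : K →+* E} {mu : K →+* E'}
  {r : GQ →* Matrix (Fin 2) (Fin 2) E} {r' : GQ →* Matrix (Fin 2) (Fin 2) E'}

/-- the elements of the Weil group at `P` -/
def Wl (l : ℕ) (P : Ideal (𝓞 Qb)) (g : GQ) : Prop :=
  ∃ x a b, Fb (l ^ a) P x ∧ Fb (l ^ b) P (x * g)

theorem wl_of_fb (h : Fb (l ^ n) P φ) : Wl l P φ :=
  ⟨1, 0, n, fb_zero.2 (one_mem _), by rwa [one_mul]⟩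

theorem Wl.dec (hP : Ov l P) {g : GQ} (h : Wl l P g) : g ∈ dec P := by
  obtain ⟨x, a, b, h1, h2⟩ := h
  exact (mul_mem_cancel_left (fb_dec hP h1)).1 (fb_dec hP h2)

theorem Wl.mul (hP : Ov l P) {g g' : GQ} (h : Wl l P g) (h' : Wl l P g') : Wl l P (g * g') := by
  have d := h.dec hP
  obtain ⟨x, a, b, h1, h2⟩ := h
  obtain ⟨y, c, e, h3, h4⟩ := h'
  refine ⟨_, _, b + e, fb_add hP h1 (fb_conj d h3), ?_⟩
  convert fb_add hP h2 h4 using 1
  group

theorem Wl.inv {g : GQ} (h : Wl l P g) : Wl l P g⁻¹ := by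
  obtain ⟨x, a, b, h1, h2⟩ := h
  exact ⟨_, b, a, h2, by rwa [mul_inv_cancel_right]⟩

theorem wl_of_in {s : GQ} (h : s ∈ inP P) : Wl l P s := wl_of_fb (fb_zero.2 h)

/-- traces on the Weil group are determined by the traces in positive degree -/
theorem mt_weil (h2 : (2 : K) ≠ 0) (hP : Ov l P)
    (h : ∀ n φ, 0 < n → Fb (l ^ n) P φ → Mv lam mu (r φ).trace (r' φ).trace) {g : GQ}
    (hg : Wl l P g) : Mv lam mu (r g).trace (r' g).trace := by
  obtain ⟨x, a, b, h1, h3⟩ := hg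
  obtain ⟨y, hy⟩ := P022D.W.exists_phi hP.1 hP.2.1 hP.2.2
  have hy : Fb (l ^ 1) P y := (pow_one l).symm ▸ hy
  have k1 := fb_add hP hy h1
  have k2 := fb_add hP hy h3
  rw [← mul_assoc] at k2
  exact mt_down h2 (h _ _ (by omega) k1) (h _ _ (by omega) (fb_add hP k1 k1))
    (h _ _ (by omega) k2) (h _ _ (by omega) (fb_add hP k1 k2))

/-- the auxiliary fields: totally real, split at `T`, disjoint from `U`, split above `l` except
for the place below `P` -/
structure Aux (U : Subgroup GQ) (T : Finset ℕ) (l : ℕ) (P : Ideal (𝓞 Qb)) (H : Subgroup GQ) :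
    Prop where
  opn : IsOpen (H : Set GQ)
  conj : ∀ c, IsConj c → c ∈ H.normalCore
  spl : ∀ q ∈ T, ∀ Q, Ov q Q → dec Q ≤ H.normalCore
  one : ∃ Q, Ov l Q ∧ dec Q ≤ H
  dsj : Dsj H.normalCore U
  oth : ∀ Q, Ov l Q → dec Q ≤ H ∨ ∃ h ∈ H, Q = h • P

theorem exists_aux (U : Subgroup GQ) [U.Normal] (hU : IsOpen (U : Set GQ)) (T : Finset ℕ)
    (hT : l ∉ T) (hP : Ov l P) {J : Set ℕ} (hJ : J.Infinite) (hn : 0 < n) (hφ : Fb (l ^ n) P φ)
    {W : Subgroup GQ} (hW : IsOpen (W : Set GQ)) : ∃ H, Aux U T l P H ∧ H.index ∈ J ∧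
      Frb H l n P φ ∧ ∀ s ∈ H, s ∈ inP P → s ∈ W := by
  obtain ⟨V, v1, v2, v3⟩ := weil hP hn hφ hW
  obtain ⟨m, hm⟩ := fld_gen U hU T hT hP v1
  obtain ⟨d, d1, d2⟩ := hJ.exists_gt m
  obtain ⟨H, a, b, c, d, e, f, g, o⟩ := hm d d2.le
  exact ⟨H, ⟨a, c, d, f, g, o⟩, b ▸ d1, v2.congr hP e, fun s hs i =>
    v3 s (e.le ⟨hs, P022D.W.inP_le_dec i⟩).1 i⟩

/-- **(G)**: if `r` has finite inertia image at `P`, and `r`, `r'` satisfy the unramified
compatibility over all auxiliary fields, then they are compatible on the Weil group -/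
theorem transport [CharZero K] (U : Subgroup GQ) [U.Normal] (hU : IsOpen (U : Set GQ))
    (T : Finset ℕ) (hT : l ∉ T) (hP : Ov l P) {J : Set ℕ} (hJ : J.Infinite) {W : Subgroup GQ}
    (hW : IsOpen (W : Set GQ)) (hr : ∀ s ∈ W, s ∈ inP P → r s = 1)
    (hyp : ∀ H n φ, Aux U T l P H → H.index ∈ J → 0 < n → Frb H l n P φ →
      (∀ s ∈ H, s ∈ inP P → r s = 1) →
      (∀ s ∈ H, s ∈ inP P → r' s = 1) ∧ Mv lam mu (r φ).trace (r' φ).trace) :
    (∀ g, Wl l P g → Mv lam mu (r g).trace (r' g).trace ∧ Mv lam mu (r g).det (r' g).det) ∧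
      ∀ s ∈ inP P, r s = 1 ↔ r' s = 1 := by
  have a : ∀ n φ, 0 < n → Fb (l ^ n) P φ → ∃ H : Subgroup GQ, IsOpen (H : Set GQ) ∧
      (∀ s ∈ H, s ∈ inP P → r' s = 1) ∧ Mv lam mu (r φ).trace (r' φ).trace := fun n φ h1 h2 => by
    obtain ⟨H, a, b, c, d⟩ := exists_aux U hU T hT hP hJ h1 h2 hW
    exact ⟨H, a.opn, hyp H n φ a b h1 c fun s hs i => hr s (d s hs i) i⟩
  have b : ∀ g, Wl l P g → Mv lam mu (r g).trace (r' g).trace := fun g =>
    mt_weil two_ne_zero hP fun n φ h1 h2 => (a n φ h1 h2).choose_spec.2.2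
  have c : ∀ g, Wl l P g → Mv lam mu (r g).det (r' g).det := fun g hg =>
    mt_det two_ne_zero (b g hg) (b _ (hg.mul hP hg))
  refine ⟨fun g hg => ⟨b g hg, c g hg⟩, fun s hs => ?_⟩
  obtain ⟨y, hy⟩ := P022D.W.exists_phi hP.1 hP.2.1 hP.2.2
  obtain ⟨H, h1, h2, -⟩ := a 1 y one_pos ((pow_one l).symm ▸ hy)
  obtain ⟨C, c1, c2, c3⟩ := exists_normal ((h1.inter hW).mem_nhds ⟨H.one_mem, W.one_mem⟩)
  have : Finite (GQ ⧸ C) := C.quotient_finite_of_isOpen c2
  have m0 : C.index ≠ 0 := Subgroup.index_ne_zero_of_finite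
  have m := c3 (C.pow_index_mem s)
  have : CharZero E := (lam.charZero_iff lam.injective).1 inferInstance
  have : CharZero E' := (mu.charZero_iff mu.injective).1 inferInstance
  have t := (b s (wl_of_in hs)).eq_iff (Mv.int 2)
  have d := (c s (wl_of_in hs)).eq_iff (Mv.int 1)
  push_cast at t d
  exact ⟨fun e => eq_one_of (t.1 (by simp [e])) (d.1 (by simp [e])) (Nat.cast_ne_zero.2 m0)
      (by rw [← map_pow]; exact h2 _ m.1 (pow_mem hs _)),
    fun e => eq_one_of (t.2 (by simp [e])) (d.2 (by simp [e])) (Nat.cast_ne_zero.2 m0)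
      (by rw [← map_pow]; exact hr _ m.2 (pow_mem hs _))⟩

end

end Vale.Agent.P022K.CH
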