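import Vale.Agent.P022K.CH.StB
import Vale.Agent.P022K.CH.Weil
import Vale.Agent.P022E.GW.Hyp
import Vale.Agent.P022.H297.L3.Inert

/-! # P022K, block CH: the fields of a family -/

set_option linter.all false

open NumberField IsDedekindDomain Matrix
open scoped Pointwise

noncomputable section

namespace Vale.Agent.P022K.CH

open Vale.Agent.P022 Vale.Agent.P022.H916 Vale.Agent.P022.H853
open Vale.Agent.P022.H443 (inP)
open Vale.Agent.P022.C (FrI)
open Vale.Agent.P022D.W (dec)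
open Vale.Agent.P022E.GW (Ov Fb)
open Vale.Agent.P022K.Glue

namespace Sy

section

variable (p : ℕ) [hp : Fact p.Prime]

theorem eps_mod (r : ℕ) (g : GQ) :
    PadicInt.toZModPow r ((cyclotomicCharacter Qb p g.toRingEquiv : ℤ_[p]ˣ) : ℤ_[p]) =
      (cyc (p ^ r) g : ZMod (p ^ r)) := by
  haveI : ∀ i, HasEnoughRootsOfUnity Qb (p ^ i) := fun i => by
    have : NeZero ((p ^ i : ℕ) : Qb) := ⟨by exact_mod_cast (NeZero.ne (p ^ i))⟩
    infer_instance
  have h := zt_prim (p ^ r)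
  have h1 := cyclotomicCharacter.spec p (n := r) g.toRingEquiv _ h.pow_eq_one
  have h2 := cyc_spec g h.pow_eq_one
  apply ZMod.val_injective
  exact h.pow_inj (ZMod.val_lt _) (ZMod.val_lt _) (h1.symm.trans h2)

theorem eps_mul (g h : GQ) : eps p (g * h) = eps p g * eps p h := by
  rw [eps, eps, eps, ← map_mul, ← PadicInt.coe_mul, ← Units.val_mul, ← map_mul]
  rfl

theorem eps_frob {l : ℕ} {P : Id} {φ : GQ} (hP : Ov l P) (hl : l ≠ p) (h : Fb l P φ) :
    eps p φ = l := by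
  have : ((cyclotomicCharacter Qb p φ.toRingEquiv : ℤ_[p]ˣ) : ℤ_[p]) = l := by
    rw [← PadicInt.ext_of_toZModPow]
    intro r
    rw [eps_mod, map_natCast]
    exact cyc_frob hP.1 (fun hd => hl ((Nat.prime_dvd_prime_iff_eq hP.1 hp.out).1
      (hP.1.dvd_of_dvd_pow hd))) ⟨P, hP.2.1, hP.2.2, h⟩
  rw [eps, this, PadicInt.coe_natCast, map_natCast]

/-- the cyclotomic character is not trivial on the open subgroups of the inertia groups at `p` -/
theorem eps_ne {P : Id} (hP : Ov p P) {U : Subgroup GQ} (hU : IsOpen (U : Set GQ)) :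
    ∃ s ∈ U, s ∈ inP P ∧ eps p s ≠ 1 := by
  obtain ⟨C, c1, c2, c3⟩ := exists_normal (hU.mem_nhds U.one_mem)
  have : Finite (GQ ⧸ C) := C.quotient_finite_of_isOpen c2
  have m0 : C.index ≠ 0 := Subgroup.index_ne_zero_of_finite
  let n := (1 + p) ^ C.index
  have co : (1 + p).Coprime (p ^ n) := Nat.Coprime.pow_right _ (by simp)
  obtain ⟨s, s1, s2⟩ := H297.L3.inert_cyc (m := p ^ n) (k := n) (m' := 1) hp.out (mul_one _).symm
    (Nat.coprime_one_right p) hP.2.1 hP.2.2 (ZMod.unitOfCoprime _ co) (Nat.modEq_one)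
  refine ⟨s ^ C.index, c3 (C.pow_index_mem s), (inP P).pow_mem s1 _, fun e => ?_⟩
  have e1 : ((cyclotomicCharacter Qb p (s ^ C.index).toRingEquiv : ℤ_[p]ˣ) : ℤ_[p]) = 1 :=
    Subtype.ext ((algebraMap ℚ_[p] (Cp p)).injective (e.trans (map_one _).symm))
  have e2 := eps_mod p n (s ^ C.index)
  rw [e1, map_one, map_pow, s2, Units.val_pow_eq_pow_val, ZMod.coe_unitOfCoprime, ← Nat.cast_pow,
    ← Nat.cast_one, ZMod.natCast_eq_natCast_iff] at e2
  have a : 1 < n := Nat.one_lt_pow m0 (by have := hp.out.pos; omega)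
  have b : n < p ^ n := Nat.lt_pow_self hp.out.one_lt
  exact a.ne (Nat.ModEq.eq_of_lt_of_lt e2 (a.trans b) b)

end

variable {l : ℕ} {P Q : Id} {φ : GQ}

theorem ov_uniq {l' : ℕ} (h : Ov l P) (h' : Ov l' P) : l = l' :=
  (Nat.prime_dvd_prime_iff_eq h.1 h'.1).1 (Int.natCast_dvd_natCast.1
    (H20.dvd_of_mem h.1 h.2.1 h.2.2 (d := (l' : ℤ)) (by exact_mod_cast h'.2.2)))

theorem ex_ov (hl : l.Prime) : ∃ P : Id, Ov l P := (exists_prime hl).imp fun _ h => ⟨hl, h⟩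

theorem ex_fb (hP : Ov l P) : ∃ φ, Fb l P φ := P022D.W.exists_phi hP.1 hP.2.1 hP.2.2

theorem fb_dec (hP : Ov l P) (h : Fb l P φ) : φ ∈ dec P := mem_of_frob hP.2.1 hP.1.ne_zero h

theorem fb_smul (h : Fb l P φ) (g : GQ) : Fb l (g • P) (g * φ * g⁻¹) := fun x => by
  rw [Ideal.mem_pointwise_smul_iff_inv_smul_mem, smul_sub, smul_pow', smul_smul, mul_assoc,
    inv_mul_cancel_left, mul_smul]
  exact h _

theorem in_smul {s g : GQ} (h : s ∈ inP (g • P)) : g⁻¹ * s * g ∈ inP P := fun x => by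
  have := h (g • x)
  rwa [Ideal.mem_pointwise_smul_iff_inv_smul_mem, smul_sub, inv_smul_smul, smul_smul,
    smul_smul] at this

/-- a field with a given group and a given place -/
theorem exists_fd {H : Subgroup GQ} (hH : IsOpen (H : Set GQ)) (hP : Ov l P) :
    ∃ X : Fd, X.H = H ∧ below X.j P = X.v0.asIdeal := by
  obtain ⟨L, _, _, _, j, a, -⟩ := exists_field (j := algebraMap ℚ Qb) hH fun g _ x => g.commutes x
  obtain ⟨w, hw⟩ := exists_below j hP
  exact ⟨⟨L, j, w⟩, a, hw⟩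

theorem _root_.Vale.Agent.P022K.CH.Fd.opn (X : Fd) : IsOpen (X.H : Set GQ) := isOpen_GK X.j

theorem dec_of_below (X : Fd) (hP : P.IsPrime) (hQ : Q.IsPrime)
    (e : below X.j P = below X.j Q) (h : dec P ≤ X.H) : dec Q ≤ X.H := fun x hx => by
  obtain ⟨g, rfl⟩ := exists_smul X.j hP hQ e
  have := X.H.mul_mem (X.H.mul_mem g.2 (h (Fld.mem_dec_smul.1 hx))) (X.H.inv_mem g.2)
  simpa [mul_assoc] using this

theorem below_ne (X : Fd) {l' : ℕ} (hP : Ov l P) (hQ : Ov l' Q) (h : l ≠ l') :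
    below X.j P ≠ below X.j Q := fun e => by
  obtain ⟨g, rfl⟩ := exists_smul X.j hP.2.1 hQ.2.1 e
  exact h (ov_uniq (Fld.ov_smul hP g) hQ)

theorem fri_one (X : Fd) (hP : Ov l P) (h : Fb l P φ) (m : φ ∈ X.H) {w : X.Pl}
    (hw : below X.j P = w.asIdeal) : FrI X.j w P ⟨φ, m⟩ :=
  Frb.fri (n := 1) hP hw ⟨m, (pow_one l).symm ▸ h, fun _ _ _ _ => one_dvd _⟩

/-- almost all primes with a Frobenius element in `H` have their decomposition group in `H` -/
theorem dec_le_of {H : Subgroup GQ} (hH : IsOpen (H : Set GQ)) : ∃ R : Finset ℕ, ∀ l ∉ R,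
    ∀ P φ, Ov l P → Fb l P φ → φ ∈ H → dec P ≤ H := by
  obtain ⟨R, -, hR⟩ := P022E.GW.Hy.ex_ram hH
  refine ⟨R, fun l hl P φ hP h m g hg => ?_⟩
  obtain ⟨k, s, u, a, b, rfl⟩ := P022D.W.dec_gen hP.1 hP.2.1 hP.2.2 h hg H hH
  exact H.mul_mem (H.mul_mem b (H.pow_mem m k)) (hR l hl P hP s a)

theorem Dsj.mono {A A' W W' : Subgroup GQ} (h : Dsj A W) (a : A ≤ A') (b : W ≤ W') : Dsj A' W' :=
  fun g => (h g).imp fun _ k => ⟨a k.1, b k.2⟩

/-- the composite of a field of the family with an auxiliary field -/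
theorem over_of {X : Fd} {H0 W U H : Subgroup GQ} {T0 : Finset ℕ} (e : X.H = H0 ⊓ H)
    (d : Dsj H (H0 ⊓ W ⊓ U)) (d0 : Dsj H0 U) (s0 : Spl H0 T0) (s : Spl H T0) :
    X.Over H0 W T0 ∧ Dsj X.H U := by
  have k : ∀ g ∈ H0, ∃ x ∈ X.H, g⁻¹ * x ∈ W ⊓ U := fun g hg => by
    obtain ⟨x, a, b⟩ := d g
    exact ⟨x, e ▸ ⟨(H0.mul_mem_cancel_left (H0.inv_mem hg)).1 b.1.1, a⟩, b.1.2, b.2⟩
  refine ⟨⟨e ▸ inf_le_left, fun g hg => (k g hg).imp fun _ h => ⟨h.1, h.2.1⟩,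
    fun l hl P hP => e ▸ le_inf (s0 l hl P hP) (s l hl P hP)⟩, fun g => ?_⟩
  obtain ⟨x, a, b⟩ := d0 g
  obtain ⟨y, c, d⟩ := k x a
  exact ⟨y, c, by simpa [mul_assoc] using U.mul_mem b d.2⟩

theorem even_of_le {H H' : Subgroup GQ} (h : H ≤ H') (e : Even H'.index) : Even H.index :=
  even_iff_two_dvd.2 (e.two_dvd.trans (Subgroup.index_dvd_of_le h))

theorem inf_even : {n : ℕ | Even n}.Infinite :=
  Set.infinite_of_injective_forall_mem (f := fun n : ℕ => 2 * n) (mul_right_injective₀ two_ne_zero)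
    even_two_mul

end Sy

open Sy

theorem exb : EXB := by
  classical
  intro R _ S l0 r A hS h0 hA U T hn hU
  obtain ⟨H0, W, T0, a1, a2, a3, a4, a5, a6, a7, -, a9⟩ := hA U (insert 2 T) hn hU
  obtain ⟨q, q1, q2⟩ := Nat.exists_infinite_primes ((S ∪ insert 2 T ∪ T0).sup id + 1)
  have q3 : q ∉ S ∪ insert 2 T ∪ T0 := fun h => by
    have : q ≤ (S ∪ insert 2 T ∪ T0).sup id := Finset.le_sup (f := id) h
    omega
  obtain ⟨Q, hQ⟩ := Sy.ex_ov q2
  obtain ⟨φ, hφ⟩ := ex_fb hQ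
  obtain ⟨H, b, c, -⟩ := exists_aux (H0 ⊓ W ⊓ U) ((a2.inter a4).inter hU) _ q3 hQ inf_even one_pos
    ((pow_one q).symm ▸ hφ) (W := ⊤) isOpen_univ
  have o : IsOpen (H.normalCore : Set GQ) := by
    obtain ⟨C, c1, c2, c3⟩ := exists_normal (b.opn.mem_nhds H.one_mem)
    exact Subgroup.isOpen_mono (Subgroup.normal_le_normalCore.2 c3) c2
  obtain ⟨P, hP⟩ := Sy.ex_ov (hS l0 h0).1
  obtain ⟨X, e, v⟩ := exists_fd (H := H0 ⊓ H.normalCore) (a2.inter o) hP
  have sp : Spl X.H (S ∪ insert 2 T ∪ T0) := fun l hl P hP => e ▸ le_inf (a6 l hl P hP) (b.spl l hl P hP)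
  obtain ⟨x1, x2⟩ := over_of e b.dsj a7 (fun l hl => a6 l (Finset.mem_union_right _ hl))
    fun l hl => b.spl l (Finset.mem_union_right _ hl)
  have s1 : ∀ l ∈ S, l ∈ S ∪ insert 2 T ∪ T0 := fun l hl => by simp [hl]
  have ev : Even X.H.index := even_of_le (e ▸ inf_le_right.trans H.normalCore_le) c
  have ok : X.Ok S l0 r := ⟨fun c hc => e ▸ ⟨a5 c hc, b.conj c hc⟩, ev,
    ⟨P, hP, v, sp l0 (s1 l0 h0) P hP⟩, fun l hl => sp l (by simp [Finset.mem_singleton.1 hl]),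
    fun l hl P hP => Or.inl (sp l (s1 l hl) P hP)⟩
  refine ⟨X, e ▸ inferInstance, fun l hl => sp l (Finset.mem_union_left _
    (Finset.union_subset_union_right (Finset.subset_insert 2 T) hl)), x2, ok,
    a9 X x1 ok, fun l hl => ?_⟩
  obtain ⟨P', hP'⟩ := Sy.ex_ov hl
  by_cases k : below X.j P' = X.v0.asIdeal
  · obtain rfl : l = l0 := by_contra fun n => below_ne X hP' hP n (k.trans v.symm)
    obtain ⟨g, hg⟩ : ∃ g, g ∉ X.H := by
      by_contra n
      push Not at n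
      rw [(Subgroup.eq_top_iff' _).2 n, Subgroup.index_top] at ev
      exact Nat.not_even_one ev
    refine ⟨g • P', Fld.ov_smul hP' g, fun k' => hg ?_⟩
    obtain ⟨h, hh⟩ := exists_smul X.j (Fld.ov_smul hP' g).2.1 hP'.2.1 (k'.trans k.symm)
    refine (X.H.mul_mem_cancel_left h.2).1 (sp l (s1 l h0) P' hP' fun x => ?_)
    conv_lhs => rw [hh, smul_smul, Ideal.smul_mem_pointwise_smul_iff]
  · exact ⟨P', hP', k⟩

end Vale.Agent.P022K.CH
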