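import Vale.Agent.P022K.CH.St

/-!
# P022K, block CH: basic facts on the words of the chain
-/

set_option autoImplicit false

open NumberField IsDedekindDomain Matrix

noncomputable section

namespace Vale.Agent.P022K.CH

open Vale.Agent.P022 Vale.Agent.P022.C
open Vale.Agent.P022.H443 (inP)
open Vale.Agent.P022D.W (dec)
open Vale.Agent.P022E.GW (Ov Fb)
open Vale.Agent.P022K.Glue (Dsj Spans)

section padic

variable {p : ℕ} [Fact p.Prime]

theorem mem_op {x : Cp p} : x ∈ Op p ↔ ‖x‖ ≤ 1 := by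
  change Valued.v x ≤ 1 ↔ _
  rw [PadicAlgCl.valuation_def, ← NNReal.coe_le_coe]
  rfl

theorem red_coe (x : Op p) : red (x : Cp p) = IsLocalRing.residue (Op p) x := dif_pos x.2

theorem res_eq_zero (x : Op p) : IsLocalRing.residue (Op p) x = 0 ↔ ‖(x : Cp p)‖ < 1 := by
  rw [IsLocalRing.residue_eq_zero_iff, IsLocalRing.mem_maximalIdeal, mem_nonunits_iff,
    Valuation.Integer.not_isUnit_iff_valuation_lt_one, PadicAlgCl.valuation_def,
    ← NNReal.coe_lt_coe]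
  rfl

theorem red_eq_iff {x y : Cp p} (hx : ‖x‖ ≤ 1) (hy : ‖y‖ ≤ 1) : red x = red y ↔ ‖x - y‖ < 1 := by
  rw [red_coe ⟨x, mem_op.2 hx⟩, red_coe ⟨y, mem_op.2 hy⟩, ← sub_eq_zero, ← map_sub, res_eq_zero]
  rfl

theorem red_add {x y : Cp p} (hx : ‖x‖ ≤ 1) (hy : ‖y‖ ≤ 1) : red (x + y) = red x + red y := by
  rw [red_coe ⟨x, mem_op.2 hx⟩, red_coe ⟨y, mem_op.2 hy⟩, ← map_add, ← red_coe]
  rfl

theorem red_mul {x y : Cp p} (hx : ‖x‖ ≤ 1) (hy : ‖y‖ ≤ 1) : red (x * y) = red x * red y := by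
  rw [red_coe ⟨x, mem_op.2 hx⟩, red_coe ⟨y, mem_op.2 hy⟩, ← map_mul, ← red_coe]
  rfl

theorem red_one : red (1 : Cp p) = 1 := by
  rw [← map_one (IsLocalRing.residue (Op p)), ← red_coe]
  rfl

theorem red_zero : red (0 : Cp p) = 0 := by
  rw [← map_zero (IsLocalRing.residue (Op p)), ← red_coe]
  rfl

theorem red_surj (y : Kp p) : ∃ x : Cp p, ‖x‖ ≤ 1 ∧ red x = y := by
  obtain ⟨x, rfl⟩ := IsLocalRing.residue_surjective y
  exact ⟨x, mem_op.1 x.2, red_coe x⟩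

theorem norm_p_lt : ‖(p : Cp p)‖ < 1 := by
  rw [← map_natCast (algebraMap ℚ_[p] (Cp p)), norm_algebraMap']
  exact Padic.norm_p_lt_one

instance charP_kp : CharP (Kp p) p := by
  refine (CharP.charP_iff_prime_eq_zero Fact.out).2 ?_
  rw [← map_natCast (IsLocalRing.residue (Op p)), res_eq_zero]
  exact norm_p_lt

theorem ex_root (y : Kp p) {n : ℕ} (hn : 0 < n) : ∃ z : Kp p, z ^ n = y := by
  obtain ⟨x, rfl⟩ := IsLocalRing.residue_surjective y
  obtain ⟨z, hz⟩ := IsAlgClosed.exists_pow_nat_eq (x : Cp p) hn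
  have h : ‖z‖ ≤ 1 := (pow_le_one_iff_of_nonneg (norm_nonneg z) hn.ne').1 (by
    rw [← norm_pow, hz]; exact mem_op.1 x.2)
  exact ⟨IsLocalRing.residue (Op p) ⟨z, mem_op.2 h⟩, by
    rw [← map_pow]; exact congrArg _ (Subtype.ext hz)⟩

instance algClosed_kp : IsAlgClosed (Kp p) := by
  refine IsAlgClosed.of_exists_root _ fun f hm hi => ?_
  obtain ⟨g, hg, hd, hm'⟩ := Polynomial.lifts_and_degree_eq_and_monic
    (Polynomial.mem_lifts_of_surjective (f := IsLocalRing.residue (Op p))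
      IsLocalRing.residue_surjective f) hm
  have hd' : (g.map (algebraMap (Op p) (Cp p))).degree ≠ 0 := by
    rw [hm'.degree_map, hd]
    exact (Polynomial.degree_pos_of_irreducible hi).ne'
  obtain ⟨z, hz⟩ := IsAlgClosed.exists_root _ hd'
  have hz' : Polynomial.aeval z g = 0 := by rwa [Polynomial.aeval_def, ← Polynomial.eval_map]
  have hi : IsIntegral (Op p) z := ⟨g, hm', hz'⟩
  have hv : z ∈ Op p := (Valuation.integer.integers _).mem_of_integral hi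
  refine ⟨IsLocalRing.residue (Op p) ⟨z, hv⟩, ?_⟩
  have h0 : g.eval ⟨z, hv⟩ = 0 := Subtype.ext (by
    have := Polynomial.aeval_algebraMap_apply (Cp p) (⟨z, hv⟩ : Op p) g
    rw [Polynomial.coe_aeval_eq_eval] at this
    exact this.symm.trans hz')
  rw [← hg, Polynomial.eval_map, Polynomial.eval₂_at_apply, h0, map_zero]

theorem ex_iota (p : ℕ) [Fact p.Prime] : Nonempty (Qb →+* Cp p) :=
  haveI : Algebra.IsAlgebraic ℚ Qb := AlgebraicClosure.isAlgebraic ℚ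
  ⟨(IsAlgClosed.lift : Qb →ₐ[ℚ] Cp p).toRingHom⟩

theorem Cg.refl (r : GQ →* GL (Fin 2) (Cp p)) : Cg r r := fun g => by simp

theorem Cg.symm {r r' : GQ →* GL (Fin 2) (Cp p)} (h : Cg r r') : Cg r' r := fun g => by
  rw [norm_sub_rev]; exact h g

theorem RIrr.mono {r : GQ →* GL (Fin 2) (Cp p)} {Γ Γ' : Subgroup GQ} (h : RIrr r Γ) (e : Γ ≤ Γ') :
    RIrr r Γ' := h.imp fun _ k => ⟨k.1, k.2.mono e⟩

end padic

theorem ex_ov {l : ℕ} (hl : l.Prime) : ∃ P : Id, Ov l P := by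
  obtain ⟨P, h⟩ := H916.exists_prime hl
  exact ⟨P, hl, h⟩

theorem Gd.irr {p : ℕ} [Fact p.Prime] {r : GQ →* GL (Fin 2) (Cp p)} {l : ℕ} (h : Gd r l)
    (hl : l.Prime) : RIrr r ⊤ := by
  obtain ⟨P, hP⟩ := ex_ov hl
  exact (h.2 P hP).1.mono le_top

section

variable {R R' : Type} [CommRing R] [CommRing R'] {r : GQ →* GL (Fin 2) R}
  {r' : GQ →* GL (Fin 2) R'} {l : ℕ}

theorem Sk.pow (h : Sk r r' l) {P : Id} (hP : Ov l P) {s : GQ} (hs : s ∈ inP P) (n : ℕ) :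
    r s ^ n = 1 ↔ r' s ^ n = 1 := by
  rw [← map_pow, ← map_pow]
  exact h P hP _ (pow_mem hs n)

theorem Sk.fn (h : Sk r r' l) (k : Fn r l) : Fn r' l := fun P hP => by
  obtain ⟨⟨U, a, b⟩, s, c, d⟩ := k P hP
  exact ⟨⟨U, a, fun t ht => (h P hP t ht.2).1 (b t ht)⟩, s, c, fun e => d ((h.pow hP c 2).2 e)⟩

theorem Sk.ex (h : Sk r r' l) {n m : ℕ} (k : Ex r l n m) : Ex r' l n m := fun P hP => by
  obtain ⟨a, s, c, d⟩ := k P hP
  exact ⟨fun t ht => (h.pow hP ht n).1 (a t ht), s, c, fun e => d ((h.pow hP c m).2 e)⟩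

theorem Fam.mono {S : Finset ℕ} {l0 : ℕ} {A B : Fd → Prop} (h : Fam S l0 r A)
    (e : ∀ X, A X → B X) : Fam S l0 r B := fun U T a b => by
  obtain ⟨H0, W, T0, h1, h2, h3, h4, h5, h6, h7, h8, h9⟩ := h U T a b
  exact ⟨H0, W, T0, h1, h2, h3, h4, h5, h6, h7, h8, fun X c d => e X (h9 X c d)⟩

end

theorem Spl.mono {H : Subgroup GQ} {T T' : Finset ℕ} (h : Spl H T) (e : T' ⊆ T) : Spl H T' :=
  fun l hl => h l (e hl)

theorem Thy.AutR.autM {A : Thy} {p : ℕ} [Fact p.Prime] {ι : Qb →+* Cp p} {m : ℕ} {S : Finset ℕ}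
    {L : Lv} {r : GQ →* GL (Fin 2) (Cp p)} {X : Fd} (h : A.AutR ι m S L r X) :
    A.AutM ι S L r X := by
  obtain ⟨b, h1, S', h2⟩ := h
  exact ⟨m, b, h1, S', fun l a P w φ c d => by rw [h2 l a P w φ c d]; simp⟩

end Vale.Agent.P022K.CH
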