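import Vale.Agent.P022K.CH.Bas

/-!
# P022K, block CH: the chain
-/

set_option autoImplicit false

open NumberField IsDedekindDomain Matrix

noncomputable section

namespace Vale.Agent.P022K.CH

open Vale.Agent.P022 Vale.Agent.P022.C
open Vale.Agent.P022.H443 (inP)
open Vale.Agent.P022D.W (dec)
open Vale.Agent.P022E.GW (Ov Fb)
open Vale.Agent.P022K.Glue (Dsj Spans)

variable {A : Thy}

/-- from fields to families -/
theorem move_of_move1 (exf : EXF) (rig : RIG) (h : A.MOVE1) : A.MOVE := by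
  intro p _ ι S L l0 r p2 hS pS lS lp hr hu hg h3 hd hf
  obtain ⟨X, x1, x2, -, x3, x4, -⟩ := exf _ S l0 r _ hS lS hf ⊤ ∅ inferInstance isOpen_univ
  obtain ⟨m, r', a1, a2, a3, a4, a5⟩ := h p ι S L l0 r p2 hS pS lS lp hr hu hg h3 hd
    ⟨X, x1, x2.mono Finset.subset_union_left, x3, x4⟩
  refine ⟨m, r', a1, a2, a3, a4, fun U T u1 u2 => ?_⟩
  obtain ⟨H0, W, T0, h1, h2, h3', h4, h5, h6, h7, h8, h9⟩ := hf U T u1 u2
  refine ⟨H0, W, insert p T0, h1, h2, h3', h4, h5, h6.mono fun l hl => ?_, h7, ?_,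
    fun Y y1 y2 => ?_⟩
  · simp only [Finset.mem_union, Finset.mem_erase, Finset.mem_insert] at hl ⊢
    rcases hl with (hl | hl) | rfl | hl <;> simp [*]
  · rw [Finset.disjoint_insert_left]
    exact ⟨Finset.notMem_erase p S, h8.mono_right (Finset.erase_subset p S)⟩
  have sp : Spl Y.H {p} := y1.spl.mono (by simp)
  have ok : Y.Ok S l0 r := by
    refine ⟨y2.real, y2.even, y2.v0, y2.two, fun l hl P hP => ?_⟩
    by_cases e : l = p
    · exact Or.inl (sp l (by simp [e]) P hP)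
    by_cases e2 : l = 2
    · exact Or.inl (y2.two l (by simp [e2]) P hP)
    exact (y2.loc l (Finset.mem_erase.2 ⟨e, hl⟩) P hP).imp_right fun k s hs =>
      (rig p r r' l p2 e e2 hr a1 a2 (hd.irr (hS.2 _ lS)) (hg l hl e) P hP s hs.2).2 (k s hs)
  exact a5 Y sp ok (h9 Y ⟨y1.le, y1.dsj, y1.spl.mono (Finset.subset_insert _ _)⟩ ok)

/-- a residually irreducible representation is not congruent to a sum of two characters -/
theorem not_sum {p : ℕ} [Fact p.Prime] {r r' : GQ →* GL (Fin 2) (Cp p)} (hi : RIrr r ⊤)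
    (hc : Cg r r') (ψ ψ' : GQ →* (Cp p)ˣ) (h : ∀ g, tr r' g = ψ g + ψ' g) : False := by
  obtain ⟨ρ, hρ, hs⟩ := hi
  have e : ∀ g k t, tr ρ (g * k * t) = tr ρ (k * g * t) := fun g k t => by
    rw [← hρ.tr, ← hρ.tr, red_eq_iff (hρ.int _) (hρ.int _)]
    have e' : tr r' (g * k * t) = tr r' (k * g * t) := by
      simp only [h, map_mul, mul_comm (ψ g), mul_comm (ψ' g)]
    have := IsUltrametricDist.norm_add_le_max (tr r (g * k * t) - tr r' (g * k * t))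
      (tr r' (k * g * t) - tr r (k * g * t))
    rw [e', sub_add_sub_cancel] at this
    exact this.trans_lt (max_lt (e' ▸ hc _) (hc.symm _))
  have c : ∀ g k, (ρ g : Matrix (Fin 2) (Fin 2) (Kp p)) * ρ k = ρ k * ρ g := fun g k =>
    hs.ext fun t _ => by simpa only [tr, map_mul, Units.val_mul] using e g k t
  obtain ⟨g, -, hg⟩ := hs.irr ![1, 0] (by simp)
  obtain ⟨a, ha⟩ := hs.schur (x := ρ g) fun t _ => c g t
  exact hg a (by rw [ha]; ext i; fin_cases i <;> simp [mulVec, dotProduct])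

/-- a diagonal entry of a diagonal representation -/
def dg {R : Type} [Field R] (r : GQ →* GL (Fin 2) R) (h : ∀ g, r g 0 1 = 0 ∧ r g 1 0 = 0)
    (i : Fin 2) : GQ →* Rˣ := MonoidHom.toHomUnits
  { toFun := fun g => r g i i
    map_one' := by simp
    map_mul' := fun g k => by
      rw [map_mul, Units.val_mul, mul_apply, Fin.sum_univ_two]
      fin_cases i <;> simp [h g] }

theorem dg_cont {p : ℕ} [Fact p.Prime] {r : GQ →* GL (Fin 2) (Cp p)} (hr : Continuous r)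
    (h : ∀ g, r g 0 1 = 0 ∧ r g 1 0 = 0) (i : Fin 2) : Continuous (dg r h i) :=
  Units.isEmbedding_val₀.continuous_iff.2
    ((Units.continuous_val.comp hr).matrix_elem i i)

/-- **ENDF**: the end point without an irreducibility hypothesis -/
def ENDF : Prop := ∀ (ι : Qb →+* Cp 2) (r : GQ →* GL (Fin 2) (Cp 2)) (a : ℕ → Qb), Rep r →
  Unr r {2} → Sys ι r {2} a → Alg {2} a → Cl {2} a

/-- the end of the chain: the system at level two is classical -/
theorem last (hend : ENDF ∨ (END ∧ SIX)) {p : ℕ} [Fact p.Prime] {ι : Qb →+* Cp p}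
    {r r' : GQ →* GL (Fin 2) (Cp p)} (hi : RIrr r ⊤) (hc : Cg r r') (hr : Rep r') {a : ℕ → Qb}
    (ha : Alg {2} a) (hs : Sys ι r' (insert p {2}) a) {μ : Qb →+* Cp 2}
    {s : GQ →* GL (Fin 2) (Cp 2)} (s1 : Rep s) (s2 : Unr s {2}) (s3 : Sys μ s {2} a)
    (s4 : Spans (fun g => (s g : Matrix (Fin 2) (Fin 2) (Cp 2))) Set.univ ∨
      ∀ g, s g 0 1 = 0 ∧ s g 1 0 = 0) : Cl {2} a := by
  rcases hend with hend | ⟨hend, six⟩
  · exact hend μ s a s1 s2 s3 ha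
  rcases s4 with s4 | s4
  · exact hend μ s a s1 s2 s3 ha s4
  obtain ⟨ψ, ψ', c1, c2, c3⟩ := six μ (dg s s4 0) (dg s s4 1) a (dg_cont s1.cont s4 0)
    (dg_cont s1.cont s4 1) (fun g => by
      rw [← s1.det, dt, det_fin_two, (s4 g).1, zero_mul, sub_zero]; rfl)
    (fun l P l2 hP t ht => Units.ext (by
      change s t 0 0 = 1
      rw [s2 l (by simpa using l2) P hP t ht]; simp))
    (fun l P φ l2 hP hφ => by
      rw [← s3 l (by simpa using l2) P φ hP hφ, tr, trace_fin_two]; rfl) ha p ι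
  refine (not_sum hi hc ψ ψ' fun g => ?_).elim
  refine congrFun (Continuous.ext_on (Cheb.dense_fr (insert p {2})) (f := tr r')
    (g := fun g => (ψ g : Cp p) + ψ' g) (Units.continuous_val.comp hr.cont).matrix_trace
    ((Units.continuous_val.comp c1).add (Units.continuous_val.comp c2)) ?_) g
  rintro φ ⟨l, l1, l2, P, p1, p2, p3⟩
  have l3 : l ≠ p ∧ l ≠ 2 := by simpa using l2
  exact (hs l l2 P φ ⟨l1, p1, p2⟩ p3).trans (c3 l P φ l3.2 l3.1 ⟨l1, p1, p2⟩ p3).symm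

/-- a member of a system at an odd prime of the level -/
structure Mb (A : Thy) (Q : ℕ) (S : Finset ℕ) (L : Lv) (m : ℕ) (a : ℕ → Qb) (q : ℕ) [Fact q.Prime]
    (ι : Qb →+* Cp q) (r : GQ →* GL (Fin 2) (Cp q)) : Prop where
  rep : Rep r
  unr : Unr r S
  sys : Sys ι r S a
  fn : ∀ l ∈ S, l ≠ q → Fn r l
  exQ : Q ≠ q → Ex r Q 32 16
  ex2 : Ex r 2 3 1
  fam : Fam S Q r (A.AutR ι m S L r)

/-- the levels of the chain -/
structure Lvl (Q : ℕ) (S : Finset ℕ) : Prop where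
  ps : Ps S
  mem : Q ∈ S
  mod : 32 ∣ Q + 1
  one : ∀ l ∈ S, l ≠ 2 → l ≠ Q → l ∣ Q - 1

theorem Lvl.ne {Q : ℕ} {S : Finset ℕ} (h : Lvl Q S) : Q ≠ 2 := fun e => by
  have := h.mod
  omega

/-- a system with members at all odd primes of the level -/
def Stt (A : Thy) (Q : ℕ) (S : Finset ℕ) (L : Lv) (m : ℕ) (a : ℕ → Qb) : Prop :=
  ∀ (q : ℕ) [Fact q.Prime], q ∈ S → q ≠ 2 → ∃ ι r, Mb A Q S L m a q ι r

theorem stt (sys : A.SYS) {Q : ℕ} {S : Finset ℕ} {L : Lv} {m : ℕ} (hl : Lvl Q S)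
    (hL : L 2 = some sgn) {p : ℕ} [Fact p.Prime] {ι : Qb →+* Cp p} {r : GQ →* GL (Fin 2) (Cp p)}
    (hp : p ∈ S → p = 2) (hr : Rep r) (hu : Unr r (insert p S))
    (hf : ∀ l ∈ S, l ≠ 2 → Fn r l) (he : Ex r Q 32 16) (ha : Fam S Q r (A.AutR ι m S L r)) :
    ∃ a, Sys ι r (insert p S) a ∧ Stt A Q S L m a := by
  obtain ⟨a, -, a2, a3⟩ := sys p ι S L Q m r hl.ps hl.mem hr hu (fun l h1 h2 _ => hf l h1 h2) ha
  refine ⟨a, a2, fun q _ qS q2 => ?_⟩
  obtain ⟨μ⟩ := ex_iota q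
  obtain ⟨r', b1, b2, b3, b4, b5, -, b6⟩ := a3 q μ fun h => Or.inl (hp h)
  rw [Finset.insert_eq_of_mem qS] at b2 b3
  have sk : ∀ l ∈ S, l ≠ 2 → l ≠ q → Sk r r' l := fun l h1 h2 h3 =>
    b4 l h1 h2 (fun e => h2 (e.trans (hp (e ▸ h1)))) h3
  obtain ⟨c1, c2⟩ := b5 q2 hl.ne hL
  refine ⟨μ, r', b1, b2, b3, fun l h1 h2 => ?_, fun h => (sk Q hl.mem hl.ne h).ex he, c2, b6⟩
  by_cases e : l = 2
  · exact e ▸ c1
  · exact (sk l h1 e h2).fn (hf l h1 e)

/-- all interfaces -/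
structure Ifc (A : Thy) : Prop where
  first : A.FIRST
  move : A.MOVE
  pmq : A.PMQ
  clq : A.CLQ
  mono : A.MONO
  cong : A.CONG
  back : A.BACK
  levq : A.LEVQ
  sys : A.SYS
  fin : ENDF ∨ (END ∧ SIX)
  exf : EXF
  rig : RIG
  grd : GRD
  qex : QEX
  tate : TATE

theorem base (I : Ifc A) {Q : ℕ} {L : Lv} {m : ℕ} {a : ℕ → Qb} (hl : Lvl Q {2, Q})
    (h : Stt A Q {2, Q} L m a) : A.AutQ m {2, Q} (Function.update L 2 none) a := by
  have : Fact Q.Prime := ⟨hl.ps.2 Q hl.mem⟩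
  have Q2 := hl.ne
  have h32 := hl.mod
  obtain ⟨ι, r, M⟩ := h Q hl.mem Q2
  have f2 : Fn r 2 := M.fn 2 hl.ps.1 Q2.symm
  have gd : Gd r 2 := (I.grd Q r 2 Q2 Q2.symm M.rep f2).2 rfl M.ex2 (by omega)
  have rg : ∀ l ∈ ({2, Q} : Finset ℕ), l ≠ Q → Rg r l := fun l h1 h2 => by
    obtain rfl : l = 2 := by simpa [h2] using h1
    exact ⟨f2, Or.inl fun e => by have := Nat.le_of_dvd (by norm_num) e; omega⟩
  have er : ({2, Q} : Finset ℕ).erase Q = {2} := by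
    rw [Finset.pair_comm, Finset.erase_insert (by simpa using Q2)]
  have ins : insert Q ({2} : Finset ℕ) = {2, Q} := Finset.pair_comm _ _
  obtain ⟨m', r', a1, a2, a3, -, a5⟩ := I.move Q ι {2, Q} Lv.non 2 r Q2 hl.ps hl.mem hl.ps.1
    Q2.symm M.rep M.unr rg (fun e => by omega) gd
    (I.pmq Q ι r (by omega) M.rep M.unr f2 M.ex2 gd)
  rw [er] at a5
  have p2 : Ps {2} := ⟨by simp, fun l k => by rw [Finset.mem_singleton.1 k]; exact Nat.prime_two⟩
  obtain ⟨a', b1, b2, b3⟩ := I.sys Q ι {2} Lv.non 2 m' r' p2 (by simp) a1 (ins ▸ a3)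
    (fun l h1 h2 => (h2 (Finset.mem_singleton.1 h1)).elim) a5
  obtain ⟨μ⟩ := ex_iota 2
  obtain ⟨s, s1, s2, s3, -, -, s4, -⟩ := b3 2 μ fun k => Or.inl (Finset.mem_singleton.1 k)
  rw [Finset.insert_eq_of_mem (by simp)] at s2 s3
  obtain ⟨n, hn⟩ := last I.fin (gd.irr Nat.prime_two) a2 a1 b1 b2 s1 s2 s3 s4
  have c1 := I.mono n {2, Q} Lv.non a' Q hl.mem (er ▸ I.clq n {2} a' p2 hn)
  obtain ⟨X, -, x2, -, x3, x4, x5⟩ := I.exf _ _ Q r _ hl.ps hl.mem M.fam ⊤ ∅ inferInstance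
    isOpen_univ
  refine I.back Q ι {2, Q} L _ r r' a a' m n Q X Q2 hl.ps hl.mem M.rep a1 a2 M.unr a3 rg
    (fun e => by omega) ⟨2, hl.ps.1, gd⟩ M.sys (ins ▸ b2) hl.mem
    (x2.mono Finset.subset_union_left) x3 (x5 Q hl.mem) x4 (Function.update_of_ne Q2 _ _)
    (I.cong n _ _ _ a' (fun l k => ?_) c1)
  by_cases e : l = Q
  · subst e
    rw [Function.update_self, Function.update_self]
  · obtain rfl : l = 2 := by simpa [e] using k
    rw [Function.update_of_ne e, Function.update_of_ne e, Function.update_self]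
    rfl

theorem step (I : Ifc A) {Q : ℕ} {L : Lv} (hL : L 2 = some sgn) (n : ℕ) :
    ∀ (S : Finset ℕ) (m : ℕ) (a : ℕ → Qb), S.card = n → Lvl Q S → Stt A Q S L m a →
      A.AutQ m S (Function.update L 2 none) a := by
  induction n using Nat.strong_induction_on with
  | _ n ih =>
  intro S m a hn hl h
  rcases (S \ {2, Q}).eq_empty_or_nonempty with e | ne
  · obtain rfl : S = {2, Q} := Finset.Subset.antisymm (Finset.sdiff_eq_empty_iff_subset.1 e)
      (Finset.insert_subset hl.ps.1 (Finset.singleton_subset_iff.2 hl.mem))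
    exact base I hl h
  obtain ⟨q, hq, mx⟩ := Finset.exists_max_image _ id ne
  obtain ⟨qS, q2, qQ⟩ : q ∈ S ∧ q ≠ 2 ∧ q ≠ Q := by simpa using hq
  have qp := hl.ps.2 q qS
  have : Fact q.Prime := ⟨qp⟩
  have Q2 := hl.ne
  have h32 := hl.mod
  have qd := hl.one q qS q2 qQ
  obtain ⟨ι, r, M⟩ := h q qS q2
  have gd : Gd r Q := (I.grd q r Q q2 qQ.symm M.rep (M.fn Q hl.mem qQ.symm)).1 (M.exQ qQ.symm)
    h32 qd
  have rg : ∀ l ∈ S, l ≠ q → Rg r l := fun l h1 h2 => ⟨M.fn l h1 h2, by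
    by_cases e2 : l = 2
    · subst e2
      by_cases e3 : q = 3
      · exact Or.inr (Or.inr ⟨e3, rfl, M.ex2⟩)
      · exact Or.inl fun k => e3 ((Nat.prime_dvd_prime_iff_eq qp Nat.prime_three).1 k)
    by_cases eQ : l = Q
    · subst eQ
      refine Or.inr (Or.inl ⟨fun k => q2 ?_, M.exQ qQ.symm, h32⟩)
      have := Nat.dvd_sub k qd
      rw [show l + 1 - (l - 1) = 2 by omega] at this
      exact (Nat.prime_dvd_prime_iff_eq qp Nat.prime_two).1 this
    have le : l ≤ q := mx l (by simp [h1, e2, eQ])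
    have lp := hl.ps.2 l h1
    have l2 := lp.two_le
    have o1 := lp.eq_two_or_odd.resolve_left e2
    have o2 := qp.eq_two_or_odd.resolve_left q2
    refine Or.inl fun k => ?_
    rw [show l ^ 2 - 1 = (l + 1) * (l - 1) from Nat.sq_sub_sq l 1] at k
    rcases (Nat.Prime.dvd_mul qp).1 k with k | k
    · have := Nat.le_of_dvd (by omega) k
      omega
    · have := Nat.le_of_dvd (by omega) k
      omega⟩
  obtain ⟨m', r', a1, a2, a3, a4, a5⟩ := I.move q ι S L Q r q2 hl.ps qS hl.mem qQ.symm M.rep M.unr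
    rg (fun _ => ⟨hL, Q2⟩) gd (M.fam.mono fun _ k => k.autM)
  have sk : ∀ l ∈ S.erase q, l ≠ 2 → Sk r r' l := fun l h1 h2 =>
    I.rig q r r' l q2 (Finset.ne_of_mem_erase h1) h2 M.rep a1 a2 (gd.irr (hl.ps.2 Q hl.mem))
      (rg l (Finset.mem_of_mem_erase h1) (Finset.ne_of_mem_erase h1))
  have hl' : Lvl Q (S.erase q) := ⟨⟨Finset.mem_erase.2 ⟨q2.symm, hl.ps.1⟩,
    fun l k => hl.ps.2 l (Finset.mem_of_mem_erase k)⟩, Finset.mem_erase.2 ⟨qQ.symm, hl.mem⟩, h32,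
    fun l k => hl.one l (Finset.mem_of_mem_erase k)⟩
  have ins : insert q (S.erase q) = S := Finset.insert_erase qS
  obtain ⟨a', b1, b2⟩ := stt I.sys hl' hL (fun k => (Finset.notMem_erase q S k).elim) a1
    (ins.symm ▸ a3) (fun l h1 h2 => (sk l h1 h2).fn
      (M.fn l (Finset.mem_of_mem_erase h1) (Finset.ne_of_mem_erase h1)))
    ((sk Q hl'.mem Q2).ex (M.exQ qQ.symm)) a5
  have c1 := I.mono m' S _ a' q qS
    (ih _ (hn ▸ Finset.card_erase_lt_of_mem qS) _ m' a' rfl hl' b2)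
  obtain ⟨X, -, x2, -, x3, x4, x5⟩ := I.exf _ _ Q r _ hl.ps hl.mem M.fam ⊤ ∅ inferInstance
    isOpen_univ
  exact I.back q ι S L _ r r' a a' m m' Q X q2 hl.ps qS M.rep a1 a2 M.unr a3 rg a4
    ⟨Q, hl.mem, gd⟩ M.sys (ins ▸ b1) hl.mem (x2.mono Finset.subset_union_left) x3 (x5 q qS) x4
    (Function.update_of_ne q2 _ _) c1

theorem serre_dat (I : Ifc A) {ρ : GQ →* GL (Fin 2) (Kp 2)} {S : Finset ℕ} {Q : ℕ}
    (D : Dat ρ S Q) : St.Serre ρ := by
  obtain ⟨ι, r, m, L, a1, a2, a3, a4, a5, a6, a7, a8, a9⟩ := I.first ρ S Q D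
  have hl : Lvl Q S := ⟨D.ps, D.mem, D.mod, D.one⟩
  have ins : insert 2 S = S := Finset.insert_eq_of_mem D.ps.1
  obtain ⟨a, b1, b2⟩ := stt I.sys hl a6 (fun _ => rfl) a1 (ins.symm ▸ a3) a4 a5 a9
  rw [ins] at b1
  refine I.levq ρ S Q ι m _ a D (I.tate ρ S Q D) (fun l h1 h2 => ?_) (fun l h1 h2 => ?_)
    (fun l h1 P φ h2 h3 => ?_) (step I a6 _ S m a rfl hl b2)
  · rw [Function.update_of_ne h2.1]
    exact a7 l h1 h2
  · by_cases e : l = 2
    · subst e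
      exact Function.update_self ..
    · rw [Function.update_of_ne e]
      exact a8 l h1 e h2
  · rw [← b1 l h1 P φ h2 h3]
    exact ⟨a2.int φ, a2.tr φ⟩

section twist

variable {k : Type} [Field k]

theorem sc_val (c : kˣ) (x : GL (Fin 2) k) :
    ((GeneralLinearGroup.scalar (Fin 2) c * x : GL (Fin 2) k) : Matrix (Fin 2) (Fin 2) k) =
      (c : k) • (x : Matrix (Fin 2) (Fin 2) k) := by
  simp [smul_eq_diagonal_mul]

/-- multiplication by scalars -/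
def scm (k : Type) [Field k] : kˣ × GL (Fin 2) k →* GL (Fin 2) k where
  toFun x := GeneralLinearGroup.scalar (Fin 2) x.1 * x.2
  map_one' := by simp
  map_mul' g h := Units.ext (by
    rw [sc_val, Units.val_mul (_ * g.2), sc_val, sc_val, smul_mul_smul_comm]
    rfl)

/-- the twist -/
def tw (χ : GQ →* kˣ) (ρ : GQ →* GL (Fin 2) k) : GQ →* GL (Fin 2) k := (scm k).comp (χ.prod ρ)

theorem tw_val (χ : GQ →* kˣ) (ρ : GQ →* GL (Fin 2) k) (g : GQ) :
    (tw χ ρ g : Matrix (Fin 2) (Fin 2) k) = (χ g : k) • (ρ g : Matrix (Fin 2) (Fin 2) k) :=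
  sc_val _ _

theorem solv_tw (χ : GQ →* kˣ) (ρ : GQ →* GL (Fin 2) k) (h : Group.IsSolvable ρ.range) :
    Group.IsSolvable (tw χ ρ).range := by
  let f : kˣ × ρ.range →* GL (Fin 2) k := (scm k).comp ((MonoidHom.id _).prodMap ρ.range.subtype)
  have : Group.IsSolvable f.range := Group.isSolvable_of_surjective f.rangeRestrict_surjective
  have le : (tw χ ρ).range ≤ f.range := by
    rintro _ ⟨g, rfl⟩
    exact ⟨(χ g, ⟨ρ g, g, rfl⟩), rfl⟩
  exact Group.isSolvable_of_isSolvable_injective (Subgroup.inclusion_injective le)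

theorem serre_tw (χ : GQ →* kˣ) {ρ : GQ →* GL (Fin 2) k} (h : St.Serre ρ) :
    St.Serre (tw χ ρ) := by
  obtain ⟨χ', ρ₁, N, hN, h1, h2⟩ := h
  exact ⟨χ * χ', ρ₁, N, hN, fun g => by rw [tw_val, h1, smul_smul]; simp, h2⟩

theorem tw_tw (χ : GQ →* kˣ) (ρ : GQ →* GL (Fin 2) k) : tw χ (tw χ⁻¹ ρ) = ρ :=
  MonoidHom.ext fun g => Units.ext (by rw [tw_val, tw_val, smul_smul]; simp)

end twist

/-- **the chain** -/
theorem chain (I : Ifc A) : SERRE := by
  intro ρ ho hn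
  let e := frobeniusEquiv (Kp 2) 2
  let χ : GQ →* (Kp 2)ˣ := (Units.map e.symm.toMonoidHom).comp (GeneralLinearGroup.det.comp ρ)
  have sq : ∀ g, (χ g : Kp 2) ^ 2 = dt ρ g := fun g => e.apply_symm_apply (dt ρ g)
  have h1 : IsOpen {g | tw χ⁻¹ ρ g = 1} :=
    Subgroup.isOpen_mono (H₁ := ρ.ker) (H₂ := (tw χ⁻¹ ρ).ker) (fun g hg => Units.ext (by
      have k : ρ g = 1 := hg
      rw [tw_val]
      simp [χ, k])) ho
  have h2 : ∀ g, dt (tw χ⁻¹ ρ) g = 1 := fun g => by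
    rw [dt, tw_val, det_smul, ← dt, ← sq, Fintype.card_fin, ← mul_pow]
    simp
  obtain ⟨S, Q, D⟩ := I.qex _ h1 h2 fun h => hn (tw_tw χ ρ ▸ solv_tw χ _ h)
  exact tw_tw χ ρ ▸ serre_tw χ (serre_dat I D)

end Vale.Agent.P022K.CH
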