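import Vale.Agent.P022K.CH.StB
import Vale.Agent.P022K.CH.Chain
import Vale.Agent.P022K.CH.Eps

/-!
# P022K, block CH: the chain with the last guard at `3`
-/

set_option autoImplicit false

open NumberField IsDedekindDomain Matrix

noncomputable section

namespace Vale.Agent.P022K.CH

open Vale.Agent.P022 Vale.Agent.P022.C
open Vale.Agent.P022.H443 (inP)
open Vale.Agent.P022D.W (dec)
open Vale.Agent.P022E.GW (Ov Fb)
open Vale.Agent.P022K.Glue (Dsj Spans)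

variable {A : Thy}

section guard

variable {p : ℕ} [Fact p.Prime] {r r' : GQ →* GL (Fin 2) (Cp p)}

instance : NeZero p := ⟨(Fact.out : p.Prime).ne_zero⟩

theorem Adq.mono {Γ Γ' : Subgroup GQ} (h : Adq r Γ) (e : Γ ≤ Γ') : Adq r Γ' := by
  obtain ⟨ρ, a, b, c⟩ := h
  exact ⟨ρ, a, b.mono (inf_le_inf_right _ e), c.imp_right fun ⟨s, d, f⟩ =>
    ⟨s, inf_le_inf_right _ e d, f⟩⟩

theorem Gd.adq {l : ℕ} (h : Gd r l) {P : Id} (hP : Ov l P) : Adq r (dec P) := by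
  obtain ⟨⟨ρ, a, b⟩, c⟩ := h.2 P hP
  refine ⟨ρ, a, b, c.imp_right fun ⟨s, d, f⟩ => ⟨s, ⟨P022D.W.inP_le_dec d, inP_le_Gz hP
    (fun k => h.1 ((Nat.prime_dvd_prime_iff_eq hP.1 Fact.out).1 k)) d⟩, Units.ext (b.ext
      fun t _ => ?_)⟩⟩
  have e : tr r (s ^ 16 * t) = 0 - tr r t := by simp [tr, f]
  have e' := a.tr (s ^ 16 * t)
  rw [e, red_sub (by simp) (a.int t), red_zero, a.tr] at e'
  simpa [tr] using e'.symm

theorem Adq.ex {Γ : Subgroup GQ} (h : Adq r Γ) : ∃ W : Subgroup GQ, W.Normal ∧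
    IsOpen (W : Set GQ) ∧ ∀ H : Subgroup GQ, (∀ g ∈ Γ, ∃ x ∈ H, g⁻¹ * x ∈ W) → Adq r H := by
  obtain ⟨ρ, a, b, c⟩ := h
  refine ⟨ρ.ker ⊓ Gz p, inferInstance, a.opn.inter (Gz_open p), fun H k => ?_⟩
  have key : ∀ g ∈ Γ ⊓ Gz p, ∃ x ∈ H ⊓ Gz p, ρ x = ρ g := fun g hg => by
    obtain ⟨x, x1, x2, x3⟩ := k g hg.1
    refine ⟨x, ⟨x1, by simpa using mul_mem hg.2 x3⟩, ?_⟩
    have : ρ (g⁻¹ * x) = 1 := x2
    rw [map_mul, map_inv, inv_mul_eq_one] at this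
    exact this.symm
  refine ⟨ρ, a, b.of_image fun g hg => ?_, c.imp_right fun ⟨s, d, f⟩ => ?_⟩
  · obtain ⟨x, x1, x2⟩ := key g hg
    exact ⟨x, x1, by rw [x2]⟩
  · obtain ⟨x, x1, x2⟩ := key s d
    exact ⟨x, x1, x2 ▸ f⟩

theorem tp_of_ex {l k m : ℕ} (p2 : p ≠ 2) (f : Fn r l) (e : Ex r l (2 ^ k) m) : Tp r l :=
  ⟨f, 2 ^ k, fun h => p2 ((Nat.prime_dvd_prime_iff_eq Fact.out Nat.prime_two).1
    ((Fact.out : p.Prime).dvd_of_dvd_pow h)), fun P hP => (e P hP).1⟩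

/-- from fields to families -/
theorem famZ_of {S S' Z Z' : Finset ℕ} {l0 l : ℕ} {B B' : Fd → Prop} (h : FamZ S Z l0 r B)
    (hd : Gd r l) (lp : l.Prime) (lS : l ∈ S) (s1 : S' ⊆ insert p S) (s2 : S ⊆ insert p S')
    (z1 : Z ⊆ Z') (z2 : p ∈ S' → p ∈ Z') (sk : ∀ l ∈ S, l ≠ p → Sk r r' l)
    (hB : ∀ X : Fd, Spl X.H {p} → X.Ok S l0 r → Adq r X.H → B X → B' X) :
    FamZ S' Z' l0 r' B' := by
  intro U T u1 u2
  obtain ⟨P, hP⟩ := ex_ov lp
  obtain ⟨W', w1, w2, w3⟩ := (hd.adq hP).ex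
  obtain ⟨H0, W, T0, h1, h2, h3, h4, h5, h6, h7, h8, h9⟩ := h U (insert p T) u1 u2
  refine ⟨H0, W ⊓ W', insert p T0 \ S', h1, h2, inferInstance, h4.inter w2, h5,
    h6.mono fun l hl => ?_, h7, Finset.sdiff_disjoint, fun Y y1 y2 y3 => ?_⟩
  · have := @s1 l
    simp only [Finset.mem_union, Finset.mem_sdiff, Finset.mem_insert] at hl this ⊢
    tauto
  have sp : Spl Y.H {p} := fun l hl => by
    rw [Finset.mem_singleton.1 hl]
    by_cases e : p ∈ S'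
    · exact y3 p (z2 e)
    · exact y1.spl p (by simp [e])
  have ok : Y.Ok S l0 r := by
    refine ⟨y2.real, y2.even, y2.v0, y2.two, fun l hl P hP => ?_⟩
    by_cases e : l = p
    · exact Or.inl (sp l (by simp [e]) P hP)
    exact (y2.loc l ((Finset.mem_insert.1 (s2 hl)).resolve_left e) P hP).imp_right fun k s hs =>
      (sk l hl e P hP s hs.2).2 (k s hs)
  refine hB Y sp ok (w3 _ fun g hg => ?_) (h9 Y ⟨y1.le, fun g hg => ?_, fun l hl => ?_⟩ ok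
    (y3.mono z1))
  · obtain ⟨x, x1, x2⟩ := y1.dsj g (h6 l (by simp [lS]) P hP hg)
    exact ⟨x, x1, x2.2⟩
  · obtain ⟨x, x1, x2⟩ := y1.dsj g hg
    exact ⟨x, x1, x2.1⟩
  · by_cases e : l ∈ S'
    · rcases Finset.mem_insert.1 (s1 e) with rfl | e'
      · exact sp _ (by simp)
      · exact (Finset.disjoint_left.1 h8 hl e').elim
    · exact y1.spl l (by simp [hl, e])

end guard

theorem NE.mono {S S' : Finset ℕ} {a : ℕ → Qb} (h : NE S a) (e : S ⊆ S') : NE S' a :=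
  fun l hl => h l fun k => hl (e k)

theorem FamZ.mono {R : Type} [CommRing R] {r : GQ →* GL (Fin 2) R} {S Z : Finset ℕ} {l0 : ℕ}
    {B B' : Fd → Prop} (h : FamZ S Z l0 r B) (e : ∀ X, B X → B' X) : FamZ S Z l0 r B' :=
  Fam.mono h fun X k s => e X (k s)

theorem Fam.famZ {R : Type} [CommRing R] {r : GQ →* GL (Fin 2) R} {S : Finset ℕ} {l0 : ℕ}
    {B : Fd → Prop} (h : Fam S l0 r B) (Z : Finset ℕ) : FamZ S Z l0 r B :=
  Fam.mono h fun _ k _ => k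

/-- all interfaces -/
structure IfB (A : Thy) : Prop where
  first : A.FIRB
  mov5 : A.MOV5
  mov3 : A.MOV3
  pm : A.PMB
  cl : A.CLB
  mono : A.MONO
  cong : A.CONG
  back : A.BACB
  lev : A.LEVB
  sys : A.SYB
  seed : A.SEED
  fin : ENDB
  exf : EXB
  pri : PRI
  grd : GRD
  gr3 : GR3
  qex : QEB
  nes : NES

theorem exz (I : IfB A) {R : Type} [CommRing R] {r : GQ →* GL (Fin 2) R} {S Z : Finset ℕ}
    {l0 : ℕ} {B : Fd → Prop} (h : FamZ S Z l0 r B) (hS : Od S) (hl : l0 ∈ S) (hZ : Z ⊆ S) (p : ℕ) :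
    ∃ X : Fd, X.H.Normal ∧ Spl X.H (insert p S) ∧ X.Ok S l0 r ∧ B X ∧
      ∀ l : ℕ, l.Prime → ∃ P, Ov l P ∧ below X.j P ≠ X.v0.asIdeal := by
  obtain ⟨X, x1, x2, -, x3, x4, x5⟩ := I.exf _ S l0 r _ hS hl h ⊤ {p} inferInstance isOpen_univ
  exact ⟨X, x1, x2.mono fun l => by simp, x3,
    x4 (x2.mono (hZ.trans Finset.subset_union_left)), x5⟩

/-- a member of a system; `G` is the set of the guards -/
structure MbB (A : Thy) (Q : ℕ) (G S Z : Finset ℕ) (L : Lv) (m : ℕ) (a : ℕ → Qb) (q : ℕ)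
    [Fact q.Prime] (ι : Qb →+* Cp q) (r : GQ →* GL (Fin 2) (Cp q)) : Prop where
  rep : Rep r
  unr : Unr r (insert q S)
  sys : Sys ι r (insert q S) a
  fn : ∀ l ∈ S, l ≠ q → Fn r l
  exG : ∀ l ∈ G, l ≠ q → Ex r l 32 16
  ex3 : 3 ∈ Z → Ex r 3 4 2
  fam : FamZ S Z Q r (A.AutR ι m S L r)

/-- a system with its members -/
def StB (A : Thy) (Q : ℕ) (G S Z : Finset ℕ) (L : Lv) (m : ℕ) (a : ℕ → Qb) : Prop :=
  NE S a ∧ ∀ (q : ℕ) [Fact q.Prime], (3 ∈ Z → 5 ≤ q) → ∃ ι r, MbB A Q G S Z L m a q ι r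

/-- the shape of the levels -/
structure Shp (A : Thy) (Q : ℕ) (G S Z : Finset ℕ) (L : Lv) : Prop where
  od : Od S
  mem : Q ∈ G
  sub : G ⊆ S
  mod : ∀ l ∈ G, 32 ∣ l + 1
  zs : Z ⊆ S
  z3 : ∀ l ∈ Z, l = 3
  ty : 3 ∈ Z → L 3 = some cth
  pr : ∀ l ∈ S, l ∉ Z → ∀ c, L l = some c → A.Prin l c

theorem stB (I : IfB A) {Q : ℕ} {G S Z : Finset ℕ} {L : Lv} {m : ℕ} (hl : Shp A Q G S Z L)
    {p : ℕ} [Fact p.Prime] {ι : Qb →+* Cp p} {r : GQ →* GL (Fin 2) (Cp p)}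
    (hp : p ∈ S → p ∈ Z) (hr : Rep r) (hu : Unr r (insert p S))
    (hf : ∀ l ∈ S, l ∉ Z → Fn r l) (he : ∀ l ∈ G, Ex r l 32 16)
    (ha : FamZ S Z Q r (A.AutR ι m S L r)) :
    ∃ a, Sys ι r (insert p S) a ∧ StB A Q G S Z L m a := by
  obtain ⟨a, -, a1, a2, a3⟩ := I.sys p ι S Z L Q m r hl.od hl.zs (hl.sub hl.mem) hr hu hp hf ha
  refine ⟨a, a2, a1, fun q _ q5 => ?_⟩
  obtain ⟨μ⟩ := ex_iota q
  obtain ⟨r', b1, b2, b3, b4, b5, b6⟩ := a3 q μ
  have n3 : ∀ l ∈ G, l ≠ 3 := fun l h e => by have := hl.mod l h; omega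
  have c := fun h : 3 ∈ Z => b5 (q5 h) (hl.zs h) (n3 Q hl.mem) (hl.ty h)
  refine ⟨μ, r', b1, b2, b3, fun l h1 h2 => ?_, fun l h1 h2 =>
    (b4 l (hl.sub h1) (fun e => n3 l h1 (hl.z3 l e)) h2).ex (he l h1), fun h => (c h).2, b6⟩
  by_cases e : l ∈ Z
  · obtain rfl := hl.z3 l e
    exact (c e).1
  · exact (b4 l h1 e h2).fn (hf l h1 e)

/-- the way back -/
theorem back (I : IfB A) {Q : ℕ} {G S Z : Finset ℕ} {L L' : Lv} {m m' : ℕ} {a a' : ℕ → Qb}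
    (hl : Shp A Q G S Z L) {p : ℕ} [Fact p.Prime] {ι : Qb →+* Cp p}
    {r r' : GQ →* GL (Fin 2) (Cp p)} (p2 : p ≠ 2) (M : MbB A Q G S Z L m a p ι r) (ne : NE S a)
    (tp : ∀ l ∈ S, l ≠ p → Tp r l) {l : ℕ} (lp : l.Prime) (gd : Gd r l) (pZ : p ∉ Z)
    (ns : Ex r l 32 16 ∨ (l = 3 ∧ Unr r {3, p})) (a1 : Rep r')
    (a2 : Cg r r') (a3 : Unr r' (insert p S)) (sk : ∀ l ∈ S, l ≠ p → Sk r r' l)
    (sy : Sys ι r' (insert p S) a') (ne' : NE (insert p S) a') (l2 : L' 2 = none)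
    (lp' : p ∈ S → L' p = L p)
    (h : A.AutQ m' (insert 2 (insert p S)) (Function.update L' p none) a') :
    A.AutQ m (insert 2 S) L' a := by
  obtain ⟨X, -, x2, x3, x4, x5⟩ := exz I M.fam hl.od (hl.sub hl.mem) hl.zs p
  obtain ⟨P, hP⟩ := ex_ov lp
  exact I.back p ι S L L' r r' a a' m m' Q X p2 hl.od M.rep a1 a2 M.unr a3
    (fun l h1 h2 => ⟨tp l h1 h2, sk l h1 h2⟩) ((gd.adq hP).mono le_top)
    (I.nes p r l p2 lp M.rep gd ns) M.sys sy
    (ne.mono (Finset.subset_insert _ _)) ne' (hl.sub hl.mem) x2 x3 (x5 p Fact.out) x4 l2 lp'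
    (fun k => hl.pr p k pZ) h

theorem up (I : IfB A) {m p : ℕ} {S : Finset ℕ} {L : Lv} {a : ℕ → Qb} (p2 : p ≠ 2) (pS : p ∈ S)
    (h : A.AutQ m (insert 2 (S.erase p)) L a) :
    A.AutQ m (insert 2 (insert p S)) (Function.update L p none) a := by
  rw [Finset.insert_eq_of_mem pS]
  exact I.mono m _ L a p (Finset.mem_insert_of_mem pS)
    (by rwa [Finset.erase_insert_of_ne p2.symm])

/-- the last move -/
theorem last2 (I : IfB A) {Q : ℕ} {L L' : Lv} {m : ℕ} {a : ℕ → Qb}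
    (hl : Shp A Q {Q} {3, Q} {3} L) (h3 : 3 ∣ Q + 1) (h : StB A Q {Q} {3, Q} {3} L m a)
    (l2 : L' 2 = none) (l3 : L' 3 = none) (lQ : L' Q = L Q) :
    A.AutQ m (insert 2 {3, Q}) L' a := by
  have QS : Q ∈ ({3, Q} : Finset ℕ) := by simp
  have S3 : 3 ∈ ({3, Q} : Finset ℕ) := by simp
  have : Fact Q.Prime := ⟨(hl.od Q QS).1⟩
  have h32 := hl.mod Q hl.mem
  have Q3 : Q ≠ 3 := by omega
  obtain ⟨ι, r, M⟩ := h.2 Q fun _ => by omega
  have ins := Finset.insert_eq_of_mem QS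
  have f3 : Fn r 3 := M.fn 3 S3 Q3.symm
  have e3 := M.ex3 (by simp)
  have gd : Gd r 3 := I.gr3 Q r (by omega) M.rep f3 e3
  have one : ∀ l ∈ ({3, Q} : Finset ℕ), l ≠ Q → l = 3 := fun l h1 h2 => by simpa [h2] using h1
  have tp : ∀ l ∈ ({3, Q} : Finset ℕ), l ≠ Q → Tp r l := fun l h1 h2 =>
    one l h1 h2 ▸ tp_of_ex (k := 2) (by omega) f3 e3
  have er : ({3, Q} : Finset ℕ).erase Q = {3} := by
    rw [Finset.pair_comm, Finset.erase_insert (by simpa using Q3)]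
  have sd : ∀ X : Fd, X.Ok {3, Q} 3 r → Adq r X.H → A.AutM ι {3, Q} Lv.non r X →
      A.AutS ι {3, Q} Lv.non r X := fun X x1 x2 =>
    (I.seed Q ι _ _ 3 r X M.rep).2 (by omega) hl.od x1 x2 fun l h1 h2 => by
      rw [one l h1 h2]
      exact ⟨f3, fun k => by have := Nat.le_of_dvd (by norm_num) k; omega⟩
  have pm := (I.pm Q ι r (by omega) M.rep (ins ▸ M.unr) f3 e3 gd).famZ ∅
  obtain ⟨P, hP⟩ := ex_ov Nat.prime_three
  obtain ⟨X, x1, x2, x3, x4, -⟩ := exz I pm hl.od S3 (by simp) Q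
  have xa := (gd.adq hP).mono (x2 3 (by simp) P hP)
  obtain ⟨m', r', a1, a2, a3, a4, a5⟩ := I.mov5 Q ι {3, Q} Lv.non 3 r (by omega) hl.od QS S3
    Q3.symm M.rep (ins ▸ M.unr) tp ⟨X, x1, ins ▸ x2, x3, xa, sd X x3 xa x4⟩
  rw [er] at a5
  have fm : FamZ {3} ∅ 3 r' (A.AutR ι m' {3} Lv.non r') := famZ_of pm gd Nat.prime_three S3
    (by simp) (by rw [Finset.pair_comm]) subset_rfl (fun k => (Q3 (by simpa using k)).elim) a4
    fun Y y1 y2 y3 y4 => a5 Y y1 y2 y3 (sd Y y2 y3 y4)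
  have ins' : insert Q ({3} : Finset ℕ) = {3, Q} := Finset.pair_comm _ _
  have f3' := (a4 3 S3 Q3.symm).fn f3
  obtain ⟨a', b0, b1, b2, b3⟩ := I.sys Q ι {3} ∅ Lv.non 3 m' r'
    (fun l k => hl.od l (by simp [Finset.mem_singleton.1 k])) (by simp) (by simp) a1 (ins' ▸ a3)
    (fun k => (Q3 (by simpa using k)).elim) (fun l k _ => Finset.mem_singleton.1 k ▸ f3') fm
  obtain ⟨μ⟩ := ex_iota 2
  obtain ⟨s, s1, s2, s3, s4, -⟩ := b3 2 μ
  have sk := s4 3 (by simp) (by simp) (by norm_num)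
  obtain ⟨n, hn⟩ := I.fin μ s a' s1 s2 (sk.fn f3') (sk.ex ((a4 3 S3 Q3.symm).ex e3)) s3 b0 b1
  have c1 := up I (by omega) QS (er.symm ▸ I.cl n a' b1 hn)
  refine back I hl (by omega) M h.1 tp Nat.prime_three gd (by simpa using Q3)
    (Or.inr ⟨rfl, ins ▸ M.unr⟩) a1 a2 (ins.symm ▸ a3) a4
    (ins.symm ▸ ins' ▸ b2) (b1.mono (by simp)) l2 (fun _ => lQ)
    (I.cong n _ _ _ a' (fun l k => ?_) c1)
  by_cases e : l = Q
  · subst e
    rw [Function.update_self, Function.update_self]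
  · rw [Function.update_of_ne e, Function.update_of_ne e]
    have : l = 2 ∨ l = 3 := by simpa [e] using k
    rcases this with rfl | rfl
    · exact l2.symm
    · exact l3.symm

/-- a prime `p ≥ 5` leaves the level and comes back -/
theorem move5 (I : IfB A) {Q : ℕ} {G S Z : Finset ℕ} {L L' : Lv} {m : ℕ} {a : ℕ → Qb}
    (hl : Shp A Q G S Z L) (h : StB A Q G S Z L m a) {p : ℕ} (p5 : 5 ≤ p) (pS : p ∈ S) (pQ : Q ≠ p)
    (hd : p ∣ Q - 1) (sm : ∀ l ∈ S, l ≠ p → l ∈ G ∨ l < p) (l2 : L' 2 = none) (lp : L' p = L p)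
    (ih : ∀ m' a', Shp A Q (G.erase p) (S.erase p) Z L → StB A Q (G.erase p) (S.erase p) Z L m' a' →
      A.AutQ m' (insert 2 (S.erase p)) L' a') : A.AutQ m (insert 2 S) L' a := by
  have pp := (hl.od p pS).1
  have : Fact p.Prime := ⟨pp⟩
  have p2 : p ≠ 2 := by omega
  have QS := hl.sub hl.mem
  obtain ⟨ι, r, M⟩ := h.2 p fun _ => p5
  have ins := Finset.insert_eq_of_mem pS
  have gd : Gd r Q := (I.grd p r Q p2 pQ M.rep (M.fn Q QS pQ)).1 (M.exG Q hl.mem pQ)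
    (hl.mod Q hl.mem) hd
  have tp : ∀ l ∈ S, l ≠ p → Tp r l := fun l h1 h2 => by
    rcases sm l h1 h2 with e | e
    · exact tp_of_ex (k := 5) p2 (M.fn l h1 h2) (M.exG l e h2)
    refine I.pri p r l p2 h2 M.rep (M.fn l h1 h2) fun k => ?_
    have l2 := (hl.od l h1).1.two_le
    have o1 := (hl.od l h1).1.eq_two_or_odd.resolve_left (hl.od l h1).2
    have o2 := pp.eq_two_or_odd.resolve_left p2
    rw [show l ^ 2 - 1 = (l + 1) * (l - 1) from Nat.sq_sub_sq l 1] at k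
    rcases (Nat.Prime.dvd_mul pp).1 k with k | k
    · have := Nat.le_of_dvd (by omega) k
      omega
    · have := Nat.le_of_dvd (by omega) k
      omega
  have fs := M.fam.mono fun X => (I.seed p ι S L Q r X M.rep).1 m
  obtain ⟨P, hP⟩ := ex_ov (hl.od Q QS).1
  obtain ⟨X, x1, x2, x3, x4, -⟩ := exz I fs hl.od QS hl.zs p
  obtain ⟨m', r', a1, a2, a3, a4, a5⟩ := I.mov5 p ι S L Q r p5 hl.od pS QS pQ M.rep (ins ▸ M.unr)
    tp ⟨X, x1, ins ▸ x2, x3, (gd.adq hP).mono (x2 Q (by simp [QS]) P hP), x4⟩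
  have ins' : insert p (S.erase p) = S := Finset.insert_erase pS
  have np := fun {B : Prop} (k : p ∈ S.erase p) => (Finset.notMem_erase p S k).elim (C := B)
  have hl' : Shp A Q (G.erase p) (S.erase p) Z L :=
    ⟨fun l k => hl.od l (Finset.mem_of_mem_erase k), Finset.mem_erase.2 ⟨pQ, hl.mem⟩,
      Finset.erase_subset_erase _ hl.sub, fun l k => hl.mod l (Finset.mem_of_mem_erase k),
      fun l k => Finset.mem_erase.2 ⟨by have := hl.z3 l k; omega, hl.zs k⟩, hl.z3, hl.ty,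
      fun l k => hl.pr l (Finset.mem_of_mem_erase k)⟩
  obtain ⟨a', b1, b2⟩ := stB I hl' np a1 (ins'.symm ▸ a3)
    (fun l k _ => (a4 l (Finset.mem_of_mem_erase k) (Finset.ne_of_mem_erase k)).fn
      (M.fn l (Finset.mem_of_mem_erase k) (Finset.ne_of_mem_erase k)))
    (fun l k => (a4 l (hl.sub (Finset.mem_of_mem_erase k)) (Finset.ne_of_mem_erase k)).ex
      (M.exG l (Finset.mem_of_mem_erase k) (Finset.ne_of_mem_erase k)))
    (famZ_of fs gd hP.1 QS ((Finset.erase_subset _ _).trans (Finset.subset_insert _ _))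
      (by rw [ins']) subset_rfl np a4 a5)
  exact back I hl p2 M h.1 tp hP.1 gd (fun k => by have := hl.z3 p k; omega)
    (Or.inl (M.exG Q hl.mem pQ)) a1 a2 (ins.symm ▸ a3) a4 (ins.symm ▸ ins' ▸ b1)
    (b2.1.mono ((Finset.erase_subset _ _).trans (Finset.subset_insert _ _))) l2 (fun _ => lp)
    (up I p2 pS (ih m' a' hl' b2))

/-- the move at `3` -/
theorem move3 (I : IfB A) {Q₁ Q : ℕ} {S : Finset ℕ} {L : Lv} {m : ℕ} {a : ℕ → Qb}
    (hl : Shp A Q {Q₁, Q} S ∅ L) (h : StB A Q {Q₁, Q} S ∅ L m a) (hS : S ⊆ {3, Q₁, Q})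
    (ne : Q₁ ≠ Q) (d1 : 3 ∣ Q₁ - 1) (d2 : 3 ∣ Q + 1) (d3 : Q₁ ∣ Q - 1) :
    A.AutQ m (insert 2 S) (Function.update L 2 none) a := by
  have : Fact (Nat.Prime 3) := ⟨Nat.prime_three⟩
  have G1 : Q₁ ∈ ({Q₁, Q} : Finset ℕ) := by simp
  have S1 := hl.sub G1
  have QS := hl.sub hl.mem
  have m1 := hl.mod Q₁ G1
  have m2 := hl.mod Q hl.mem
  have n1 : Q₁ ≠ 3 := by omega
  have n2 : Q ≠ 3 := by omega
  obtain ⟨ι, r, M⟩ := h.2 3 (by simp)
  have gd : Gd r Q₁ := (I.grd 3 r Q₁ (by norm_num) n1 M.rep (M.fn Q₁ S1 n1)).1 (M.exG Q₁ G1 n1)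
    m1 d1
  have two : ∀ l ∈ S, l ≠ 3 → l ∈ ({Q₁, Q} : Finset ℕ) := fun l h1 h2 =>
    (Finset.mem_insert.1 (hS h1)).resolve_left h2
  have tp : ∀ l ∈ S, l ≠ 3 → Tp r l := fun l h1 h2 =>
    tp_of_ex (k := 5) (by norm_num) (M.fn l h1 h2) (M.exG l (two l h1 h2) h2)
  have fs := M.fam.mono fun X => (I.seed 3 ι S L Q r X M.rep).1 m
  obtain ⟨P, hP⟩ := ex_ov (hl.od Q₁ S1).1
  obtain ⟨X, x1, x2, x3, x4, -⟩ := exz I fs hl.od QS hl.zs 3
  obtain ⟨m', r', a1, a2, a3, a4, a5⟩ := I.mov3 ι S L Q r hl.od QS n2 M.rep M.unr tp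
    ⟨X, x1, x2, x3, (gd.adq hP).mono (x2 Q₁ (by simp [S1]) P hP), x4⟩
  have e : insert 3 S = {3, Q₁, Q} := Finset.Subset.antisymm
    (Finset.insert_subset (by simp) hS) (Finset.insert_subset_insert _ hl.sub)
  have hl' : Shp A Q {Q₁, Q} (insert 3 S) {3} (Function.update L 3 (some cth)) :=
    ⟨fun l k => by
      rcases Finset.mem_insert.1 k with rfl | k
      · exact ⟨Nat.prime_three, by norm_num⟩
      · exact hl.od l k, hl.mem, hl.sub.trans (Finset.subset_insert _ _), hl.mod, by simp,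
      by simp, fun _ => Function.update_self .., fun l k k' => by
      have l3 : l ≠ 3 := by simpa using k'
      rw [Function.update_of_ne l3]
      exact hl.pr l ((Finset.mem_insert.1 k).resolve_left l3) (by simp)⟩
  have ii : insert 3 (insert 3 S) = insert 3 S := Finset.insert_idem _ _
  have n3 : ∀ l ∈ ({Q₁, Q} : Finset ℕ), l ≠ 3 := fun l k e => by have := hl.mod l k; omega
  obtain ⟨a', b1, b2⟩ := stB I hl' (fun _ => by simp) a1 (ii.symm ▸ a3)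
    (fun l k k' => have l3 : l ≠ 3 := by simpa using k'
      have lS := (Finset.mem_insert.1 k).resolve_left l3
      (a4 l lS l3).fn (M.fn l lS l3))
    (fun l k => (a4 l (hl.sub k) (n3 l k)).ex (M.exG l k (n3 l k)))
    (famZ_of fs gd hP.1 S1 subset_rfl (ii.symm ▸ Finset.subset_insert _ _) (by simp)
      (fun _ => by simp) a4 a5)
  refine back (m' := m') I hl (by norm_num) M h.1 tp hP.1 gd (by simp)
    (Or.inl (M.exG Q₁ G1 n1)) a1 a2 a3 a4 (ii ▸ b1) b2.1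
    (Function.update_self ..) (fun _ => Function.update_of_ne (by norm_num) _ _) ?_
  have l2 : Function.update (Function.update L 2 none) 3 none 2 = none := by
    rw [Function.update_of_ne (by norm_num), Function.update_self]
  have lG : ∀ l, 32 ∣ l + 1 → Function.update (Function.update L 2 none) 3 none l =
      Function.update L 3 (some cth) l := fun l k => by
    rw [Function.update_of_ne (by omega), Function.update_of_ne (by omega),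
      Function.update_of_ne (by omega)]
  refine move5 I hl' b2 (p := Q₁) (by omega) (Finset.mem_insert_of_mem S1) ne.symm d3
    (fun l k _ => ?_) l2 (lG Q₁ m1) fun m'' a'' k1 k2 => ?_
  · rcases Finset.mem_insert.1 (e ▸ k) with rfl | k
    · exact Or.inr (by omega)
    · exact Or.inl k
  have e1 : ({Q₁, Q} : Finset ℕ).erase Q₁ = {Q} := Finset.erase_insert (by simpa using ne)
  have e2 : (insert 3 S).erase Q₁ = {3, Q} := by
    rw [e, Finset.erase_insert_of_ne n1.symm, e1]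
  rw [e1, e2] at k1 k2
  rw [e2]
  exact last2 I k1 d2 k2 l2 (Function.update_self ..) (lG Q m2)

theorem stepB (I : IfB A) {Q₁ Q : ℕ} {L : Lv} (ne : Q₁ ≠ Q) (d1 : 3 ∣ Q₁ - 1) (d2 : 3 ∣ Q + 1)
    (n : ℕ) : ∀ (S : Finset ℕ) (m : ℕ) (a : ℕ → Qb), S.card = n → Shp A Q {Q₁, Q} S ∅ L →
      (∀ l ∈ S, l ≠ Q → l ≠ 3 → l ∣ Q - 1) → StB A Q {Q₁, Q} S ∅ L m a →
      A.AutQ m (insert 2 S) (Function.update L 2 none) a := by
  induction n using Nat.strong_induction_on with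
  | _ n ih =>
  intro S m a hn hl hd h
  have G1 : Q₁ ∈ ({Q₁, Q} : Finset ℕ) := by simp
  rcases (S \ {3, Q₁, Q}).eq_empty_or_nonempty with e | e
  · exact move3 I hl h (Finset.sdiff_eq_empty_iff_subset.1 e) ne d1 d2
      (hd Q₁ (hl.sub G1) ne (by have := hl.mod Q₁ G1; omega))
  obtain ⟨q, hq, mx⟩ := Finset.exists_max_image _ id e
  obtain ⟨qS, q3, q1, qQ⟩ : q ∈ S ∧ q ≠ 3 ∧ q ≠ Q₁ ∧ q ≠ Q := by simpa using hq
  have q5 : 5 ≤ q := (hl.od q qS).1.five_le_of_ne_two_of_ne_three (hl.od q qS).2 q3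
  have eG : ({Q₁, Q} : Finset ℕ).erase q = {Q₁, Q} := Finset.erase_eq_of_notMem (by simp [q1, qQ])
  refine move5 I hl h q5 qS qQ.symm (hd q qS qQ q3) (fun l h1 h2 => ?_) (Function.update_self ..)
    (Function.update_of_ne (by omega) _ _) fun m' a' k1 k2 =>
      ih _ (hn ▸ Finset.card_erase_lt_of_mem qS) _ m' a' rfl (eG ▸ k1)
        (fun l k => hd l (Finset.mem_of_mem_erase k)) (eG ▸ k2)
  by_cases e1 : l ∈ ({Q₁, Q} : Finset ℕ)
  · exact Or.inl e1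
  by_cases e3 : l = 3
  · exact Or.inr (by omega)
  have : l ≤ q := mx l (by simpa [h1, e3] using e1)
  exact Or.inr (by omega)

theorem serre_datB (I : IfB A) {ρ : GQ →* GL (Fin 2) (Kp 2)} {S : Finset ℕ} {Q₁ Q₂ : ℕ}
    (D : DatB ρ S Q₁ Q₂) (ht : ∃ l ∈ S, l ≠ Q₁ ∧ l ≠ Q₂) : St.Serre ρ := by
  obtain ⟨ι, r, m, L, a1, a2, a3, a4, a5, a6, a7, a8, a9⟩ := I.first ρ S Q₁ Q₂ D
  have two : ∀ {B : ℕ → Prop}, B Q₁ → B Q₂ → ∀ l ∈ ({Q₁, Q₂} : Finset ℕ), B l := fun x y l k => by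
    rcases Finset.mem_insert.1 k with rfl | k
    · exact x
    · exact Finset.mem_singleton.1 k ▸ y
  have hl : Shp A Q₂ {Q₁, Q₂} S ∅ L := ⟨D.od, by simp, two (B := fun l => l ∈ S) D.mem₁ D.mem₂,
    two D.mod₁ D.mod₂, by simp, by simp, by simp, fun l k _ c e => by
      by_cases h : CtlB ρ Q₁ Q₂ l
      · obtain ⟨c', e', h'⟩ := a7 l k h
        rwa [Option.some.inj (e.symm.trans e')]
      · exact absurd ((a8 l k h).symm.trans e) (by simp)⟩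
  obtain ⟨a, b1, b2⟩ := stB I hl (fun k => ((D.od 2 k).2 rfl).elim) a1 a3 (fun l k _ => a4 l k)
    (two a5 a6) (a9.famZ ∅)
  refine I.lev ρ S Q₁ Q₂ ι m _ a D ht (fun l h1 h2 => ?_) (fun l h1 h2 => ?_)
    (fun l h1 P φ h2 h3 => ?_) (stepB I D.ne D.thr₁ D.thr₂ _ S m a rfl hl D.one₂ b2)
  · rw [Function.update_of_ne h2.1]
    exact a7 l h1 h2
  · by_cases e : l = 2
    · subst e
      exact Function.update_self ..
    · rw [Function.update_of_ne e]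
      exact a8 l ((Finset.mem_insert.1 h1).resolve_left e) h2
  · rw [← b1 l h1 P φ h2 h3]
    exact ⟨a2.int φ, a2.tr φ⟩

/-- **the chain** -/
theorem chainB (I : IfB A) : SERRE := by
  intro ρ ho hn
  let e := frobeniusEquiv (Kp 2) 2
  let χ : GQ →* (Kp 2)ˣ := (Units.map e.symm.toMonoidHom).comp (GeneralLinearGroup.det.comp ρ)
  have sq : ∀ g, (χ g : Kp 2) ^ 2 = dt ρ g := fun g => e.apply_symm_apply (dt ρ g)
  have h1 : IsOpen {g | tw χ⁻¹ ρ g = 1} :=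
    Subgroup.isOpen_mono (H₁ := ρ.ker) (H₂ := (tw χ⁻¹ ρ).ker) (fun g hg => Units.ext (by
      have k : ρ g = 1 := hg
      rw [tw_val]
      simp [χ, k])) ho
  have h2 : ∀ g, dt (tw χ⁻¹ ρ) g = 1 := fun g => by
    rw [dt, tw_val, det_smul, ← dt, ← sq, Fintype.card_fin, ← mul_pow]
    simp
  obtain ⟨S, Q₁, Q₂, D, ht⟩ := I.qex _ h1 h2 fun h => hn (tw_tw χ ρ ▸ solv_tw χ _ h)
  exact tw_tw χ ρ ▸ serre_tw χ (serre_datB I D ht)

end Vale.Agent.P022K.CH
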