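import Vale.Agent.P022K.Glue.Gal
import Vale.Agent.P022D.W.Tame
import Vale.Agent.P022E.GW.Defs
import Vale.Agent.P022E.St
import Vale.Agent.P022.H567.Gch

/-!
# P022K, block CH: the words of the chain

All `p`-adic representations have values in `GL₂(ℚ̄_p)` and determinant `ε` (the cyclotomic
character): a form of weight `k` is normalised by `a_ℓ / ℓ ^ ((k - 2) / 2)`.
-/

set_option autoImplicit false

open NumberField IsDedekindDomain Matrix

noncomputable section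

namespace Vale.Agent.P022K.CH

open Vale.Agent.P022 Vale.Agent.P022.C
open Vale.Agent.P022.H443 (inP)
open Vale.Agent.P022D.W (dec)
open Vale.Agent.P022E.GW (Ov Fb)
open Vale.Agent.P022K.Glue (Dsj Spans)

/-- ideals of the ring of all algebraic integers -/
abbrev Id : Type := Ideal (𝓞 Qb)

/-- the coefficients -/
abbrev Cp (p : ℕ) [Fact p.Prime] : Type := PadicAlgCl p

/-- the integers of the coefficient field -/
abbrev Op (p : ℕ) [Fact p.Prime] : Subring (Cp p) := Valued.integer (Cp p)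

/-- the residue field -/
abbrev Kp (p : ℕ) [Fact p.Prime] : Type := Valued.ResidueField (Cp p)

open Classical in
/-- the reduction map (zero on non integral elements) -/
def red {p : ℕ} [Fact p.Prime] (x : Cp p) : Kp p :=
  if h : x ∈ Op p then IsLocalRing.residue (Op p) ⟨x, h⟩ else 0

/-- the trace -/
def tr {Γ R : Type} [Group Γ] [CommRing R] (r : Γ →* GL (Fin 2) R) (g : Γ) : R :=
  (r g : Matrix (Fin 2) (Fin 2) R).trace

/-- the determinant -/
def dt {Γ R : Type} [Group Γ] [CommRing R] (r : Γ →* GL (Fin 2) R) (g : Γ) : R :=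
  (r g : Matrix (Fin 2) (Fin 2) R).det

/-- the cyclotomic character -/
def eps (p : ℕ) [Fact p.Prime] (g : GQ) : Cp p :=
  algebraMap ℚ_[p] (Cp p) ((cyclotomicCharacter Qb p g.toRingEquiv : ℤ_[p]ˣ) : ℤ_[p])

/-- the elements that fix the `n`-th roots of unity -/
def Gz (n : ℕ) : Subgroup GQ where
  carrier := {g | ∀ x : Qb, x ^ n = 1 → g x = x}
  mul_mem' {g h} hg hh x hx := by rw [AlgEquiv.mul_apply, hh x hx, hg x hx]
  one_mem' x hx := rfl
  inv_mem' {g} hg x hx := by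
    have h : g⁻¹ (g x) = x := by rw [← AlgEquiv.mul_apply, inv_mul_cancel]; rfl
    rwa [hg x hx] at h

section galois

variable {R : Type} [CommRing R]

/-- not ramified outside `S` -/
def Unr (r : GQ →* GL (Fin 2) R) (S : Finset ℕ) : Prop :=
  ∀ l ∉ S, ∀ P, Ov l P → ∀ s ∈ inP P, r s = 1

/-- the inertia groups at `l` act through a finite group and not by scalars -/
def Fn (r : GQ →* GL (Fin 2) R) (l : ℕ) : Prop := ∀ P, Ov l P →
  (∃ U : Subgroup GQ, IsOpen (U : Set GQ) ∧ ∀ s ∈ U ⊓ inP P, r s = 1) ∧ ∃ s ∈ inP P, r s ^ 2 ≠ 1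

/-- the inertia groups at `l` act through a group of exponent `n`, and not of exponent `m` -/
def Ex (r : GQ →* GL (Fin 2) R) (l n m : ℕ) : Prop := ∀ P, Ov l P →
  (∀ s ∈ inP P, r s ^ n = 1) ∧ ∃ s ∈ inP P, r s ^ m ≠ 1

/-- the same kernels on the inertia groups at `l` -/
def Sk {R' : Type} [CommRing R'] (r : GQ →* GL (Fin 2) R) (r' : GQ →* GL (Fin 2) R') (l : ℕ) :
    Prop := ∀ P, Ov l P → ∀ s ∈ inP P, (r s = 1 ↔ r' s = 1)

end galois

section padic

variable {p : ℕ} [Fact p.Prime]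

/-- continuous of determinant `ε` -/
structure Rep (r : GQ →* GL (Fin 2) (Cp p)) : Prop where
  cont : Continuous r
  det : ∀ g, dt r g = eps p g

/-- congruent representations -/
def Cg (r r' : GQ →* GL (Fin 2) (Cp p)) : Prop := ∀ g, ‖tr r g - tr r' g‖ < 1

/-- `ρ` is a residual representation of `r` -/
structure Rs (r : GQ →* GL (Fin 2) (Cp p)) (ρ : GQ →* GL (Fin 2) (Kp p)) : Prop where
  opn : IsOpen {g | ρ g = 1}
  int : ∀ g, ‖tr r g‖ ≤ 1
  tr : ∀ g, red (tr r g) = tr ρ g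
  det : ∀ g, red (dt r g) = dt ρ g

/-- the reduction of `r` is absolutely irreducible on `Γ` -/
def RIrr (r : GQ →* GL (Fin 2) (Cp p)) (Γ : Subgroup GQ) : Prop :=
  ∃ ρ, Rs r ρ ∧ Spans (fun g => (ρ g : Matrix (Fin 2) (Fin 2) (Kp p))) (Γ : Set GQ)

/-- a guard: a prime `l` whose decomposition groups make the reduction adequate -/
def Gd (r : GQ →* GL (Fin 2) (Cp p)) (l : ℕ) : Prop := l ≠ p ∧
  ∀ P, Ov l P → RIrr r (dec P ⊓ Gz p) ∧ (7 ≤ p ∨ ∃ s ∈ inP P, r s ^ 16 = -1)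

/-- the local condition at `l ≠ p` which makes the local deformation ring harmless -/
def Rg (r : GQ →* GL (Fin 2) (Cp p)) (l : ℕ) : Prop := Fn r l ∧
  (¬ p ∣ l ^ 2 - 1 ∨ (¬ p ∣ l + 1 ∧ Ex r l 32 16 ∧ 32 ∣ l + 1) ∨ (p = 3 ∧ l = 2 ∧ Ex r 2 3 1))

/-- the traces of the Frobenius elements outside `S` -/
def Sys (ι : Qb →+* Cp p) (r : GQ →* GL (Fin 2) (Cp p)) (S : Finset ℕ) (a : ℕ → Qb) : Prop :=
  ∀ l ∉ S, ∀ P φ, Ov l P → Fb l P φ → tr r φ = ι (a l)

end padic

/-- the `a l` are in one number field, with bounded denominators and conjugates -/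
def Alg (S : Finset ℕ) (a : ℕ → Qb) : Prop :=
  ∃ (K : IntermediateField ℚ Qb) (_ : FiniteDimensional ℚ K) (C : ℕ), ∀ l ∉ S, l.Prime →
    a l ∈ K ∧ IsIntegral ℤ ((l : Qb) ^ C * a l) ∧ ∀ φ : Qb →+* ℂ, ‖φ (a l)‖ ≤ (l : ℝ) ^ C

/-- the system `a` is the system of a classical eigenform of weight `2 m + 2`, trivial character
and level in `S` -/
def ClW (m : ℕ) (S : Finset ℕ) (a : ℕ → Qb) : Prop :=
  ∃ (N : ℕ) (_ : NeZero N) (f : St.M N (2 * m + 2)) (φ : Qb →+* ℂ), f ≠ 0 ∧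
    (∀ l : ℕ, l.Prime → l ∣ N → l ∈ S) ∧ ∀ l : St.Pr N, l.1 ∉ S →
      St.hecke (2 * m + 2) l f = φ ((l.1 : Qb) ^ m * a l.1) • f ∧ St.dia (2 * m + 2) l f = f

/-- classical -/
def Cl (S : Finset ℕ) (a : ℕ → Qb) : Prop := ∃ m, ClW m S a

/-! ### fields -/

/-- a number field in `ℚ̄` with a finite place (where the quaternion algebra is ramified) -/
structure Fd where
  F : Type
  [fld : Field F]
  [nf : NumberField F]
  j : F →+* Qb
  v0 : HeightOneSpectrum (𝓞 F)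

attribute [instance] Fd.fld Fd.nf

/-- the finite places -/
abbrev Fd.Pl (X : Fd) : Type := HeightOneSpectrum (𝓞 X.F)

/-- the Galois group -/
abbrev Fd.H (X : Fd) : Subgroup GQ := GK X.j

/-- all primes in `T` split completely -/
def Spl (H : Subgroup GQ) (T : Finset ℕ) : Prop := ∀ l ∈ T, ∀ P, Ov l P → dec P ≤ H

/-- totally real of even degree, `v0` of degree one over `l0`, `2` split, and `r` is not ramified at
the places over `S` which are not of degree one -/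
structure Fd.Ok {R : Type} [CommRing R] (X : Fd) (S : Finset ℕ) (l0 : ℕ)
    (r : GQ →* GL (Fin 2) R) : Prop where
  real : ∀ c, IsConj c → c ∈ X.H
  even : Even X.H.index
  v0 : ∃ P, Ov l0 P ∧ below X.j P = X.v0.asIdeal ∧ dec P ≤ X.H
  two : Spl X.H {2}
  loc : ∀ l ∈ S, ∀ P, Ov l P → dec P ≤ X.H ∨ ∀ s ∈ X.H ⊓ inP P, r s = 1

/-- the places where the level is maximal -/
def Fd.Sph (X : Fd) (S : Finset ℕ) (l : ℕ) (P : Id) : Prop :=
  below X.j P ≠ X.v0.asIdeal ∧ (l ∉ S ∨ ¬ dec P ≤ X.H)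

/-- types: `none` is any level, `some c` is level `K(l)` and `∑ c(g) g ≠ 0` -/
abbrev Lv : Type := (l : ℕ) → Option (GL (Fin 2) (ZMod l) → Qb)

/-- no types -/
def Lv.non : Lv := fun _ => none

/-- the sign character of `GL₂(𝔽₂)` -/
def sgn (g : GL (Fin 2) (ZMod 2)) : Qb := if g ^ 3 = 1 then 1 else -1

section

variable {p : ℕ} [Fact p.Prime] (ι : Qb →+* Cp p) (X : Fd) (b : X.Pl → Qb)
  (r : GQ →* GL (Fin 2) (Cp p))

/-- `b` gives the traces of almost all Frobenius elements -/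
def Mt : Prop := ∃ S' : Finset ℕ, ∀ l ∉ S', ∀ P w (φ : X.H), Ov l P → FrI X.j w P φ →
  tr r φ = ι (b w)

/-- the same modulo the maximal ideal -/
def Mm : Prop := ∃ S' : Finset ℕ, ∀ l ∉ S', ∀ P w (φ : X.H), Ov l P → FrI X.j w P φ →
  ‖tr r φ - ι (b w)‖ < 1

end

/-- the family of the fields over `H0` which are disjoint from `W` over `H0` and split at `T0` -/
structure Fd.Over (X : Fd) (H0 W : Subgroup GQ) (T0 : Finset ℕ) : Prop where
  le : X.H ≤ H0
  dsj : ∀ g ∈ H0, ∃ x ∈ X.H, g⁻¹ * x ∈ W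
  spl : Spl X.H T0

/-- `A` holds for a large family of fields -/
def Fam {R : Type} [CommRing R] (S : Finset ℕ) (l0 : ℕ) (r : GQ →* GL (Fin 2) R)
    (A : Fd → Prop) : Prop :=
  ∀ (U : Subgroup GQ) (T : Finset ℕ), U.Normal → IsOpen (U : Set GQ) →
    ∃ (H0 W : Subgroup GQ) (T0 : Finset ℕ), H0.Normal ∧ IsOpen (H0 : Set GQ) ∧ W.Normal ∧
      IsOpen (W : Set GQ) ∧ (∀ c, IsConj c → c ∈ H0) ∧ Spl H0 (S ∪ T ∪ T0) ∧ Dsj H0 U ∧
      Disjoint T0 S ∧ ∀ X : Fd, X.Over H0 W T0 → X.Ok S l0 r → A X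

end Vale.Agent.P022K.CH
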