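import Vale.Agent.P022K.CH.Chain
import Vale.Agent.P022E.Br.Tri

/-!
# P022K, block CH: from `SERRE` to the residual representations of a two-adic representation
-/

set_option autoImplicit false

open NumberField Matrix

noncomputable section

namespace Vale.Agent.P022K.CH

open Vale.Agent.P022
open Vale.Agent.P022K.Glue (Spans)

theorem pi_small {E : Type} [NontriviallyNormedField E] [NormedAlgebra ℚ_[2] E] {O : Subring E}
    (hO : ∀ x : E, x ∈ O ↔ ‖x‖ ≤ 1) {k : Type} [Field k] [CharP k 2] (π : O →+* k) (a : O)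
    (ha : ‖(a : E)‖ < 1) : π a = 0 := by
  have h2 : (2 : E) ≠ 0 := by
    rw [← map_ofNat (algebraMap ℚ_[2] E) 2]
    exact (map_ne_zero _).2 two_ne_zero
  obtain ⟨n, hn⟩ := exists_pow_lt_of_lt_one (norm_pos_iff.2 h2) ha
  have m : (a : E) ^ n / 2 ∈ O := (hO _).2 (by
    rw [norm_div, norm_pow]; exact ((div_lt_one (norm_pos_iff.2 h2)).2 hn).le)
  have e : a ^ n = 2 * ⟨_, m⟩ := Subtype.ext (by
    change (a : E) ^ n = 2 * ((a : E) ^ n / 2)
    field_simp)
  refine eq_zero_of_pow_eq_zero (?_ : π a ^ n = 0)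
  rw [← map_pow, e, map_mul, map_ofNat, CharTwo.two_eq_zero, zero_mul]

theorem spans_of_ns {k : Type} [Field k] [IsAlgClosed k] {ρ : GQ →* GL (Fin 2) k}
    (hn : ¬ Group.IsSolvable ρ.range) :
    Spans (fun g => (ρ g : Matrix (Fin 2) (Fin 2) k)) Set.univ := by
  refine Glue.burnside ((Units.coeHom _).comp ρ) fun v hv => ?_
  by_contra hc
  push Not at hc
  exact hn (P022E.Br.solv_of_ker ρ 2 (P022E.Br.line_ker ρ ⊤ v hv fun g _ => hc g))

/-- a residual representation to which the known cases apply -/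
theorem res_cases (h : SERRE) {E : Type} [NontriviallyNormedField E] [NormedAlgebra ℚ_[2] E]
    {r : GQ →* GL (Fin 2) E} (hc : Continuous r) {k : Type} [Field k] [CharP k 2] [Finite k]
    {ρ : GQ →* GL (Fin 2) k} (hr : St.IsRes r ρ) : ∃ ρ' : GQ →* GL (Fin 2) (Kp 2),
      St.IsRes r ρ' ∧ (Group.IsSolvable ρ'.range ∨ St.Serre ρ') := by
  have hu : IsUltrametricDist E := IsUltrametricDist.of_normedAlgebra ℚ_[2]
  let _ : Algebra (ZMod 2) k := ZMod.algebra k 2
  let _ : Algebra (ZMod 2) (Kp 2) := ZMod.algebra _ 2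
  let j : k →+* Kp 2 := (IsAlgClosed.lift : k →ₐ[ZMod 2] Kp 2).toRingHom
  let ρ' := (GeneralLinearGroup.map j).comp ρ
  obtain ⟨O, π, hO, ht⟩ := hr
  have e1 : ∀ g, tr ρ' g = j (tr ρ g) := fun g =>
    (AddMonoidHom.map_trace j (ρ g : Matrix (Fin 2) (Fin 2) k)).symm
  have e2 : ∀ g, dt ρ' g = j (dt ρ g) := fun g => (RingHom.map_det j _).symm
  refine ⟨ρ', ⟨O, j.comp π, hO, fun g => ?_⟩, or_iff_not_imp_left.2 fun hn => h ρ' ?_ hn⟩
  · obtain ⟨t, d, a, b, c, e⟩ := ht g
    exact ⟨t, d, a, b, (congrArg j c).trans (e1 g).symm, (congrArg j e).trans (e2 g).symm⟩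
  have hs := spans_of_ns hn
  choose! s hs' using fun x : GL (Fin 2) k => fun m : x ∈ ρ.range => MonoidHom.mem_range.1 m
  have ct : Continuous (tr r) := (Units.continuous_val.comp hc).matrix_trace
  refine Subgroup.isOpen_of_mem_nhds ρ'.ker (g := 1) (Filter.mem_of_superset
    ((isOpen_iInter_of_finite fun x : GL (Fin 2) k => isOpen_lt (f := fun g =>
      ‖tr r (g * s x) - tr r (s x)‖) (((ct.comp (continuous_id.mul continuous_const)).sub
        continuous_const).norm) (continuous_const (y := (1 : ℝ)))).mem_nhds (by simp))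
    fun g hg => Units.ext (hs.ext fun t _ => ?_))
  have k1 := hs' (ρ t) ⟨t, rfl⟩
  obtain ⟨a, -, a1, -, a2, -⟩ := ht (g * s (ρ t))
  obtain ⟨b, -, b1, -, b2, -⟩ := ht (s (ρ t))
  have k2 := pi_small hO π (a - b) (by
    rw [AddSubgroupClass.coe_sub, a1, b1]; exact Set.mem_iInter.1 hg (ρ t))
  rw [map_sub, a2, b2, map_mul, k1, ← map_mul, sub_eq_zero] at k2
  rw [Units.val_one, one_mul, ← Units.val_mul, ← map_mul]
  exact (e1 _).trans ((congrArg j k2).trans (e1 t).symm)

end Vale.Agent.P022K.CH
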