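import Vale.Agent.P022K.CH.Grd

/-!
# P022K, block CH: the local type `Ty` passes through lifting, reduction and change of the
coefficient prime
-/

set_option linter.all false

open Matrix NumberField

noncomputable section

namespace Vale.Agent.P022K.CH.Loc

open Vale.Agent.P022 Vale.Agent.P022.H443
open Vale.Agent.P022D.W (dec)
open Vale.Agent.P022E.GW (Ov Fb)
open Vale.Agent.P027M.S (Inert)
open Vale.Agent.P022K.Glue (Spans)

section alg

variable {G K₀ K K' : Type*} [Group G] [Field K₀] [Field K] [Field K']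

/-- the traces at `g` come from one element of `K₀` -/
def Cq (lam : K₀ →+* K) (mu : K₀ →+* K') (ρ : G →* Matrix (Fin 2) (Fin 2) K)
    (ρ' : G →* Matrix (Fin 2) (Fin 2) K') (g : G) : Prop :=
  ∃ a, (ρ g).trace = lam a ∧ (ρ' g).trace = mu a

variable {lam : K₀ →+* K} {mu : K₀ →+* K'} {ρ : G →* Matrix (Fin 2) (Fin 2) K}
  {ρ' : G →* Matrix (Fin 2) (Fin 2) K'}

theorem Cq.symm {g : G} (h : Cq lam mu ρ ρ' g) : Cq mu lam ρ' ρ g := h.imp fun _ h => h.symm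

theorem tr_sq {R : Type*} [CommRing R] (f s : Matrix (Fin 2) (Fin 2) R) :
    (f * f * s).trace = f.trace * (f * s).trace - f.det * s.trace := by
  rw [ch2, sub_mul, smul_mul_assoc, smul_mul_assoc, one_mul, trace_sub, trace_smul, trace_smul,
    smul_eq_mul, smul_eq_mul]

theorem det_of_tr (lam : K₀ →+* K) (h2 : (2 : K₀) ≠ 0) {f : Matrix (Fin 2) (Fin 2) K} {a b : K₀}
    (ha : f.trace = lam a) (hb : (f * f).trace = lam b) : f.det = lam ((a ^ 2 - b) / 2) := by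
  have e := tr_sq f 1
  rw [mul_one, mul_one, trace_one, Fintype.card_fin, ha, hb, Nat.cast_ofNat] at e
  have : (2 : K) ≠ 0 := by rw [← map_ofNat lam]; exact (map_ne_zero lam).2 h2
  rw [map_div₀, map_sub, map_pow, map_ofNat, eq_div_iff this]
  linear_combination e

theorem Cq.det (h2 : (2 : K₀) ≠ 0) {g : G} (h : Cq lam mu ρ ρ' g) (h' : Cq lam mu ρ ρ' (g ^ 2)) :
    ∃ a d, (ρ g).trace = lam a ∧ (ρ' g).trace = mu a ∧ (ρ g).det = lam d ∧ (ρ' g).det = mu d := by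
  obtain ⟨a, a1, a2⟩ := h
  obtain ⟨b, b1, b2⟩ := h'
  rw [pow_two, map_mul] at b1 b2
  exact ⟨a, _, a1, a2, det_of_tr lam h2 a1 b1, det_of_tr mu h2 a2 b2⟩

/-- **GK**: from the Weil elements of degree one and two to inertia -/
theorem gk (h2 : (2 : K₀) ≠ 0) {φ s : G} (h₁ : Cq lam mu ρ ρ' φ) (h₂ : Cq lam mu ρ ρ' (φ ^ 2))
    (h₃ : Cq lam mu ρ ρ' (φ * s)) (h₄ : Cq lam mu ρ ρ' (φ ^ 2 * s)) : Cq lam mu ρ ρ' s := by
  obtain ⟨a, d, a1, a2, d1, d2⟩ := h₁.det h2 h₂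
  obtain ⟨b, b1, b2⟩ := h₃
  obtain ⟨c, c1, c2⟩ := h₄
  rw [map_mul] at b1 b2
  rw [pow_two, map_mul, map_mul, tr_sq] at c1 c2
  rw [a1, b1, d1] at c1
  rw [a2, b2, d2] at c2
  have z1 := d1 ▸ det_ne0 ρ φ
  have z2 := d2 ▸ det_ne0 ρ' φ
  refine ⟨(a * b - c) / d, ?_, ?_⟩
  · rw [map_div₀, map_sub, map_mul, eq_div_iff z1]; linear_combination -c1
  · rw [map_div₀, map_sub, map_mul, eq_div_iff z2]; linear_combination -c2

theorem uni_pow {R : Type*} [CommRing R] {g : Matrix (Fin 2) (Fin 2) R} (ht : g.trace = 2)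
    (hd : g.det = 1) (m : ℕ) : g ^ m = 1 + (m : R) • (g - 1) := by
  induction m with
  | zero => simp
  | succ m ih =>
    rw [pow_succ, ih, add_mul, smul_mul_assoc, sub_mul, ch2, ht, hd, Nat.cast_succ, one_mul]
    module

theorem one_of_uni {g : Matrix (Fin 2) (Fin 2) K} (ht : g.trace = 2) (hd : g.det = 1) {n : ℕ}
    (h : g ^ n = 1) (hn : (n : K) ≠ 0) : g = 1 := by
  rw [uni_pow ht hd, add_eq_left, smul_eq_zero, sub_eq_zero] at h
  exact h.resolve_left hn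

theorem Cq.uni (h2 : (2 : K₀) ≠ 0) {g : G} (h : Cq lam mu ρ ρ' g) (h' : Cq lam mu ρ ρ' (g ^ 2))
    (e : ρ g = 1) : (ρ' g).trace = 2 ∧ (ρ' g).det = 1 := by
  obtain ⟨a, d, a1, a2, d1, d2⟩ := h.det h2 h'
  rw [e, trace_one, Fintype.card_fin, Nat.cast_ofNat, ← map_ofNat lam] at a1
  rw [e, det_one, ← map_one lam] at d1
  rw [a2, d2, ← lam.injective a1, ← lam.injective d1, map_ofNat, map_one]
  exact ⟨rfl, rfl⟩

end alg

/-- the open subgroups are a basis of neighbourhoods of `1` -/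
def Nar (G : Type*) [Group G] [TopologicalSpace G] : Prop :=
  ∀ W : Set G, IsOpen W → 1 ∈ W → ∃ U : Subgroup G, IsOpen (U : Set G) ∧ (U : Set G) ⊆ W

theorem nar {G : Type*} [Group G] [TopologicalSpace G] {ι : G →* GQ}
    (hι : Topology.IsOpenEmbedding ι) : Nar G := fun W hW h1 => by
  have := galQb
  obtain ⟨H, hH⟩ := ProfiniteGrp.exist_openNormalSubgroup_sub_open_nhds_of_one
    (hι.isOpenMap W hW) ⟨1, h1, map_one ι⟩
  refine ⟨H.toSubgroup.comap ι, H.isOpen.preimage hι.continuous, fun g hg => ?_⟩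
  obtain ⟨w, hw, e⟩ := hH hg
  exact hι.injective e ▸ hw

section top

variable {G K₀ K E : Type*} [Group G] [TopologicalSpace G] [Field K₀] [Field K] [NormedField E]

/-- no unipotent part next to a regular element of inertia -/
theorem uni_triv {l : ℕ} {D I : Subgroup G} {τ φ : G} (t : TmA l D I τ φ) (hG : Nar G)
    {ρ : G →* Matrix (Fin 2) (Fin 2) E} (hc : Continuous ρ) (hl : 1 ≤ ‖(l : E)‖) {s₀ s : G}
    (h0 : s₀ ∈ I) (reg : (ρ s₀).trace ^ 2 ≠ 4 * (ρ s₀).det) (hs : s ∈ I)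
    (h1 : (ρ s).trace = 2 ∧ (ρ s).det = 1)
    (h2 : (ρ (s₀ * s * s₀⁻¹ * s⁻¹)).trace = 2 ∧ (ρ (s₀ * s * s₀⁻¹ * s⁻¹)).det = 1) : ρ s = 1 := by
  have key : ρ (s₀ * s * s₀⁻¹ * s⁻¹) = 1 := by
    refine sub_eq_zero.1 (Matrix.ext fun i j => norm_le_zero_iff.1 (le_of_forall_pos_le_add
      fun ε hε => ?_))
    obtain ⟨U, hU, hW⟩ := hG {g | ‖(ρ g - 1) i j‖ < ε} (isOpen_lt
      ((hc.sub continuous_const).matrix_elem i j).norm continuous_const) (by simpa using hε)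
    obtain ⟨N, t⟩ := t U hU
    obtain ⟨p, hp, e⟩ := t.comm h0 hs
    obtain ⟨n, hn⟩ := t.wild p hp
    have := hW hn
    rw [e, mul_inv_cancel_right] at h2 ⊢
    rw [Set.mem_setOf_eq, map_pow, uni_pow h2.1 h2.2, add_sub_cancel_left, Matrix.smul_apply,
      norm_smul, Nat.cast_pow, norm_pow] at this
    rw [zero_add]
    exact (le_mul_of_one_le_left (norm_nonneg _) (one_le_pow₀ hl)).trans this.le
  have c : ρ s * ρ s₀ = ρ s₀ * ρ s := by
    rw [← map_mul, ← one_mul (ρ (s * s₀)), ← key, ← map_mul, ← map_mul]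
    congr 1
    group
  refine sub_eq_zero.1 (nil_comm ?_ ?_ (by rw [sub_mul, mul_sub, c, one_mul, mul_one]) reg)
  · rw [trace_sub, h1.1, trace_one, Fintype.card_fin, Nat.cast_ofNat, sub_self]
  · obtain ⟨a, b⟩ := h1
    rw [trace_fin_two] at a
    rw [det_fin_two] at b ⊢
    simp only [Matrix.sub_apply, one_apply_eq, one_apply_ne (zero_ne_one' (Fin 2)),
      one_apply_ne (zero_ne_one' (Fin 2)).symm]
    linear_combination b - a

/-- **GK**: the kernel on inertia passes to another member of the compatible system -/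
theorem gk_ker {l : ℕ} {D I : Subgroup G} {τ φ : G} (t : TmA l D I τ φ) (hG : Nar G)
    {lam : K₀ →+* K} {mu : K₀ →+* E} (h2 : (2 : K₀) ≠ 0) {ρ : G →* Matrix (Fin 2) (Fin 2) K}
    {ρ' : G →* Matrix (Fin 2) (Fin 2) E} (hc : Continuous ρ') (hl : 1 ≤ ‖(l : E)‖)
    (h : ∀ s ∈ I, Cq lam mu ρ ρ' s) {s₀ s : G} (h0 : s₀ ∈ I)
    (reg : (ρ s₀).trace ^ 2 ≠ 4 * (ρ s₀).det) (hs : s ∈ I) (e : ρ s = 1) : ρ' s = 1 := by
  have u := fun s hs => (h s hs).uni h2 (h _ (I.pow_mem hs 2))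
  refine uni_triv t hG hc hl h0 (fun z => reg ?_) hs (u s hs e) (u _ (I.mul_mem (I.mul_mem
    (I.mul_mem h0 hs) (I.inv_mem h0)) (I.inv_mem hs)) ?_)
  · obtain ⟨a, d, a1, a2, d1, d2⟩ := (h _ h0).det h2 (h _ (I.pow_mem h0 2))
    rw [a2, d2, ← map_pow, ← map_ofNat mu, ← map_mul] at z
    rw [a1, d1, ← map_pow, mu.injective z, map_mul, map_ofNat]
  · rw [map_mul, cj_one ρ s₀ e, one_mul, ← one_mul (ρ s⁻¹), ← e, ← map_mul, mul_inv_cancel, e,
      map_one]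

end top

section ty

variable {G : Type} [Group G] [TopologicalSpace G] {ι : G →* GQ} {l n : ℕ} {P : Ideal (𝓞 Qb)}

theorem Ty.reg {k : Type*} [Field k] {r : G →* Matrix (Fin 2) (Fin 2) k} (h : Ty ι l P n r)
    (hn : (n : k) ≠ 0) : ∃ s, Inert P (ι s) ∧ (r s).trace ^ 2 ≠ 4 * (r s).det :=
  h.two.imp fun s hs => ⟨hs.1, reg_of (h.det s hs.1) (h.pow s hs.1) hn hs.2⟩

/-- change of the coefficient prime -/
theorem Ty.cp {K₀ K E : Type*} [Field K₀] [Field K] [NormedField E] {lam : K₀ →+* K}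
    {mu : K₀ →+* E} (h2 : (2 : K₀) ≠ 0) (hn : (n : K₀) ≠ 0) {ρ : G →* Matrix (Fin 2) (Fin 2) K}
    {ρ' : G →* Matrix (Fin 2) (Fin 2) E} (h : Ty ι l P n ρ) (hc : Continuous ρ')
    (hl : 1 ≤ ‖(l : E)‖) (H : ∀ s, Inert P (ι s) → Cq lam mu ρ ρ' s) :
    Ty ι l P n ρ' ∧ ∀ s, Inert P (ι s) → (ρ' s = 1 ↔ ρ s = 1) := by
  have hn' : (n : K) ≠ 0 := by rw [← map_natCast lam]; exact (map_ne_zero lam).2 hn
  obtain ⟨τ, φ, hφ, t⟩ := tameI h.emb h.ov h.spl
  obtain ⟨s₀, h0, reg⟩ := h.reg hn'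
  have pw : ∀ s m, Inert P (ι s) → Inert P (ι (s ^ m)) := fun s m hs =>
    ((inP P).comap ι).pow_mem (x := s) hs m
  have key : ∀ s, Inert P (ι s) → (ρ' s = 1 ↔ ρ s = 1) := fun s hs => ⟨fun e => by
    obtain ⟨a, b⟩ := (H s hs).symm.uni h2 (H _ (pw s 2 hs)).symm e
    exact one_of_uni a b (h.pow s hs) hn', gk_ker (t φ hφ) (nar h.emb) h2 hc hl H h0 reg hs⟩
  refine ⟨⟨h.emb, h.ov, h.spl, fun s hs => ?_, fun s hs => ?_, h.two.imp fun s hs => ⟨hs.1, ?_⟩⟩,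
    key⟩
  · rw [← map_pow, key _ (pw s n hs), map_pow, h.pow s hs]
  · obtain ⟨a, d, -, -, d1, d2⟩ := (H s hs).det h2 (H _ (pw s 2 hs))
    rw [h.det s hs, ← map_one lam] at d1
    rw [d2, ← lam.injective d1, map_one]
  · rw [← map_pow, Ne, key _ (pw s 2 hs.1), map_pow]
    exact hs.2

variable {A k : Type*} [CommRing A] [Field k] {π : A →+* k} {ρ : G →* Matrix (Fin 2) (Fin 2) A}

/-- change of rings along an injective map, both directions -/
theorem Ty.inj {B : Type*} [CommRing B] {j : A →+* B} (hj : Function.Injective j) :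
    Ty ι l P n (j.mapMatrix.toMonoidHom.comp ρ) ↔ Ty ι l P n ρ := by
  have e : ∀ s m, (j.mapMatrix.toMonoidHom.comp ρ) s ^ m = 1 ↔ ρ s ^ m = 1 := fun s m => by
    change j.mapMatrix (ρ s) ^ m = 1 ↔ _
    rw [← map_pow]
    exact map_eq_one_iff _ (Matrix.map_injective hj)
  have d : ∀ s, ((j.mapMatrix.toMonoidHom.comp ρ) s).det = 1 ↔ (ρ s).det = 1 := fun s => by
    change (j.mapMatrix (ρ s)).det = 1 ↔ _
    rw [← RingHom.map_det]
    exact map_eq_one_iff _ hj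
  exact ⟨fun h => ⟨h.emb, h.ov, h.spl, fun s hs => (e s n).1 (h.pow s hs),
    fun s hs => (d s).1 (h.det s hs), h.two.imp fun s hs => ⟨hs.1, mt (e s 2).2 hs.2⟩⟩,
    fun h => ⟨h.emb, h.ov, h.spl, fun s hs => (e s n).2 (h.pow s hs),
    fun s hs => (d s).2 (h.det s hs), h.two.imp fun s hs => ⟨hs.1, mt (e s 2).1 hs.2⟩⟩⟩

/-- reduction is injective on elements of order prime to the residue characteristic -/
theorem mink [IsLocalHom π] {g : Matrix (Fin 2) (Fin 2) A} (h : g ^ n = 1) (hn : (n : k) ≠ 0)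
    (e : π.mapMatrix g = 1) : g = 1 := by
  have u : IsUnit (∑ i ∈ Finset.range n, g ^ i) := by
    rw [Matrix.isUnit_iff_isUnit_det, ← isUnit_map_iff π, RingHom.map_det, map_sum]
    simp only [map_pow, e, one_pow, Finset.sum_const, Finset.card_range]
    rw [← Nat.cast_smul_eq_nsmul k, det_smul, det_one, mul_one]
    exact (pow_ne_zero _ hn).isUnit
  have := geom_sum_mul g n
  rw [h, sub_self, u.mul_right_eq_zero, sub_eq_zero] at this
  exact this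

/-- reduction -/
theorem Ty.red [IsLocalHom π] (h : Ty ι l P n ρ) (hn : (n : k) ≠ 0) :
    Ty ι l P n (red π ρ) ∧ ∀ s, Inert P (ι s) → red π ρ s = 1 → ρ s = 1 := by
  refine ⟨⟨h.emb, h.ov, h.spl, fun s hs => ?_, fun s hs => ?_, h.two.imp fun s hs =>
    ⟨hs.1, fun e => hs.2 (mink (π := π) ?_ hn (by rwa [map_pow]))⟩⟩,
    fun s hs => mink (h.pow s hs) hn⟩
  · change π.mapMatrix (ρ s) ^ n = 1
    rw [← map_pow, h.pow s hs, map_one]
  · change (π.mapMatrix (ρ s)).det = 1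
    rw [← RingHom.map_det, h.det s hs, map_one]
  · rw [← pow_mul, mul_comm, pow_mul, h.pow s hs.1, one_pow]

theorem Ty.rg (h : Ty ι l P n (Loc.red π ρ)) (ho : IsOpen {g | Loc.red π ρ g = 1})
    (h2 : (2 : k) ≠ 0) (hl : (l : k) ≠ 0) (hn : (n : k) ≠ 0)
    (hd : ∀ s, Inert P (ι s) → (ρ s).det = 1)
    (H : (l : k) ^ 2 ≠ 1 ∨ ((l : k) ≠ -1 ∧ n ∣ l + 1)) :
    Rg l ((dec P).comap ι) ((inP P).comap ι) π ρ :=
  ⟨h2, hl, hd, h.reg hn, H.imp_right fun H => ⟨H.1, (grd h H.2 ho hn (M := 1) odd_one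
    (Subsingleton.elim _ _)).mono fun g hg => hg.1⟩⟩

theorem Ty.of_rig (h : Ty ι l P n (Loc.red π ρ)) (hd : ∀ s, Inert P (ι s) → (ρ s).det = 1)
    (H : ∀ s, Inert P (ι s) → Loc.red π ρ s = 1 → ρ s = 1) : Ty ι l P n ρ :=
  ⟨h.emb, h.ov, h.spl, fun s hs => by
    rw [← map_pow]
    exact H _ (((inP P).comap ι).pow_mem (x := s) hs n) ((map_pow _ _ _).trans (h.pow s hs)), hd,
    h.two.imp fun s hs => ⟨hs.1, fun e => hs.2 (by
      change π.mapMatrix (ρ s) ^ 2 = 1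
      rw [← map_pow, e, map_one])⟩⟩

/-- every lift with determinant one on inertia has the type (Noetherian coefficients) -/
theorem Ty.lift [IsNoetherianRing A] [IsLocalRing A]
    (hm : RingHom.ker π = IsLocalRing.maximalIdeal A) (h : Ty ι l P n (Loc.red π ρ))
    (ho : ∀ m, IsOpen {g | ∀ i j, (ρ g - 1) i j ∈ IsLocalRing.maximalIdeal A ^ m})
    (h2 : (2 : k) ≠ 0) (hl : (l : k) ≠ 0) (hn : (n : k) ≠ 0)
    (hd : ∀ s, Inert P (ι s) → (ρ s).det = 1)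
    (H : (l : k) ^ 2 ≠ 1 ∨ ((l : k) ≠ -1 ∧ n ∣ l + 1)) : Ty ι l P n ρ := by
  obtain ⟨τ, φ, hφ, t⟩ := tameI h.emb h.ov h.spl
  refine h.of_rig hd fun s hs => rig (t φ hφ) hm (h.rg ?_ h2 hl hn hd H) ho hs
  convert ho 1 using 1
  exact Set.ext fun g => red_one.trans (mem_cong.trans (by rw [hm, pow_one]; rfl))

theorem dvd_open {E : Type*} [NormedField E] [IsUltrametricDist E] (j : A →+* E)
    (hj : Function.Injective j) (hr : ∀ x : E, x ∈ j.range ↔ ‖x‖ ≤ 1)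
    (hc : Continuous fun g => (ρ g).map j) (x : A) (hx : x ≠ 0) :
    IsOpen {g | ∀ a b, x ∣ (ρ g - 1) a b} := by
  have x0 : j x ≠ 0 := (map_ne_zero_iff j hj).2 hx
  have e : ∀ y, x ∣ y ↔ j y ∈ Metric.closedBall 0 ‖j x‖ := fun y => by
    rw [mem_closedBall_zero_iff]
    refine ⟨fun ⟨c, hc⟩ => ?_, fun h => ?_⟩
    · rw [hc, map_mul, norm_mul]
      exact mul_le_of_le_one_right (norm_nonneg _) ((hr _).1 ⟨c, rfl⟩)
    · obtain ⟨c, hc⟩ := (hr (j y / j x)).2 (by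
        rw [norm_div]; exact div_le_one_of_le₀ h (norm_nonneg _))
      exact ⟨c, hj (by rw [map_mul, hc, mul_div_cancel₀ _ x0])⟩
  simp only [e, Set.setOf_forall, Matrix.sub_apply, map_sub]
  exact isOpen_iInter_of_finite fun a => isOpen_iInter_of_finite fun b =>
    (IsUltrametricDist.isOpen_closedBall _ (norm_ne_zero_iff.2 x0)).preimage
      ((hc.matrix_elem a b).sub continuous_const)

/-- every lift with determinant one on inertia has the type (integers of a valued field) -/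
theorem Ty.liftV [IsLocalRing A] [IsTopologicalGroup G] [CompactSpace G] {E : Type*} [NormedField E]
    [IsUltrametricDist E] (j : A →+* E) (hj : Function.Injective j)
    (hr : ∀ x : E, x ∈ j.range ↔ ‖x‖ ≤ 1) (hc : Continuous fun g => (ρ g).map j)
    (hm : RingHom.ker π = IsLocalRing.maximalIdeal A) (h : Ty ι l P n (Loc.red π ρ))
    (ho : IsOpen {g | Loc.red π ρ g = 1}) (h2 : (2 : k) ≠ 0) (hl : (l : k) ≠ 0) (hn : (n : k) ≠ 0)
    (hd : ∀ s, Inert P (ι s) → (ρ s).det = 1)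
    (H : (l : k) ^ 2 ≠ 1 ∨ ((l : k) ≠ -1 ∧ n ∣ l + 1)) : Ty ι l P n ρ := by
  obtain ⟨τ, φ, hφ, t⟩ := tameI h.emb h.ov h.spl
  haveI := hj.isDomain j
  exact h.of_rig hd fun s hs => rigV (t φ hφ) hm (h.rg ho h2 hl hn hd H) (dvd_open j hj hr hc) hs

end ty

end Vale.Agent.P022K.CH.Loc
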