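import Vale.Agent.P022K.CH.Rig
import Vale.Agent.P022K.Dk.Adq
import Vale.Agent.P022.H853.L3.Cyc

/-!
# P022K, block CH: the guard prime (irreducibility and adequacy from a dihedral prime), and the
transport of the inertial type through traces
-/

set_option linter.all false

open Matrix NumberField

noncomputable section

namespace Vale.Agent.P022K.CH.Loc

open Vale.Agent.P022 Vale.Agent.P022.H443 Vale.Agent.P022.H853
open Vale.Agent.P022D.W (dec)
open Vale.Agent.P022E.GW (Ov Fb)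
open Vale.Agent.P022K.Glue (Spans burnside)

section span

variable {k K : Type*} [Field k] [Field K] {n : Type*} [Fintype n] [DecidableEq n]

theorem spans_of_ext {H : Type*} {ρ : H → Matrix n n k} {T : Set H}
    (h : ∀ x : Matrix n n k, (∀ t ∈ T, (x * ρ t).trace = 0) → x = 0) : Spans ρ T := by
  by_contra c
  obtain ⟨f, f0, hf⟩ := Submodule.exists_dual_map_eq_bot_of_lt_top (lt_top_iff_ne_top.2 c)
    inferInstance
  have e : ∀ y, f y = ((of fun i j => f (single j i 1)) * y).trace := fun y => by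
    conv_lhs => rw [matrix_eq_sum_single y]
    simp only [map_sum, trace, diag_apply, Matrix.mul_apply, of_apply]
    rw [Finset.sum_comm]
    refine Finset.sum_congr rfl fun i _ => Finset.sum_congr rfl fun j _ => ?_
    rw [mul_comm, ← smul_eq_mul, ← map_smul, smul_single, smul_eq_mul, mul_one]
  have z := h (of fun i j => f (single j i 1)) fun t ht => by
    rw [← e]
    exact (Submodule.mem_bot k).1 (hf ▸ Submodule.mem_map_of_mem (Submodule.subset_span ⟨t, ht, rfl⟩))
  exact f0 (LinearMap.ext fun y => by rw [e, z, zero_mul, trace_zero]; rfl)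

theorem spans_map {H : Type*} {ρ : H → Matrix n n k} {T : Set H} (φ : k →+* K) :
    Spans (fun g => (ρ g).map φ) T ↔ Spans ρ T := by
  refine ⟨fun h => spans_of_ext fun x hx => ?_, fun h => spans_of_ext fun x hx => ?_⟩
  · have := h.ext (x := x.map φ) (y := 0) fun t ht => by
      rw [← Matrix.map_mul, ← AddMonoidHom.map_trace, hx t ht, zero_mul, trace_zero, map_zero]
    exact Matrix.ext fun i j => φ.injective ((congrFun (congrFun this i) j).trans (map_zero φ).symm)
  · have key : ∀ y : Matrix n n k, (x * y.map φ).trace = 0 := fun y => by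
      induction h.ge (Submodule.mem_top : y ∈ ⊤) using Submodule.span_induction with
      | mem z hz => obtain ⟨t, ht, rfl⟩ := hz; exact hx t ht
      | zero => simp
      | add a b _ _ h1 h2 =>
        rw [Matrix.map_add _ (map_add φ), mul_add, trace_add, h1, h2, add_zero]
      | smul c a _ h1 =>
        rw [show (c • a).map φ = φ c • a.map φ from Matrix.ext fun i j => map_mul φ _ _,
          Matrix.mul_smul, trace_smul, h1, smul_zero]
    ext i j
    have := key (single j i 1)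
    rwa [map_single, map_one, trace_mul_single, MulOpposite.op_one, one_smul] at this

variable {G : Type*} [Group G]

/-- spanning is absolute irreducibility -/
theorem spans_iff [IsAlgClosed K] (φ : k →+* K) (r : G →* Matrix (Fin 2) (Fin 2) k)
    (H : Subgroup G) : Spans r (H : Set G) ↔
      ∀ v : Fin 2 → K, v ≠ 0 → ∃ g ∈ H, ∀ a : K, (r g).map φ *ᵥ v ≠ a • v := by
  rw [← spans_map φ]
  refine ⟨fun h v hv => h.irr v hv, fun h => ?_⟩
  exact (burnside ((φ.mapMatrix.toMonoidHom.comp r).comp H.subtype) fun v hv => by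
    obtain ⟨g, hg, h⟩ := h v hv
    exact ⟨⟨g, hg⟩, h⟩).of_image fun g _ => ⟨g.1, g.2, rfl⟩

/-- a regular element of determinant one and an element which inverts it -/
theorem spans_dih (r : G →* Matrix (Fin 2) (Fin 2) k) {H : Subgroup G} {s f : G} (hs : s ∈ H)
    (hf : f ∈ H) (hd : (r s).det = 1) (reg : (r s).trace ^ 2 ≠ 4 * (r s).det)
    (e : r s * r f * r s = r f) : Spans r (H : Set G) := by
  let φ := algebraMap k (AlgebraicClosure k)
  rw [spans_iff φ]
  intro v hv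
  by_contra c
  push Not at c
  obtain ⟨a, ha⟩ := c s hs
  obtain ⟨b, hb⟩ := c f hf
  have z : ∀ x : AlgebraicClosure k, x • v = 0 → x = 0 := fun x hx =>
    (smul_eq_zero.1 hx).resolve_right hv
  have b0 : b ≠ 0 := fun h => by
    rw [h, zero_smul] at hb
    have := det_ne0 (φ.mapMatrix.toMonoidHom.comp r) f
    exact this (Matrix.exists_mulVec_eq_zero_iff.1 ⟨v, hv, hb⟩)
  have e1 := congrArg (fun m : Matrix (Fin 2) (Fin 2) k => m.map φ *ᵥ v) e
  simp only [Matrix.map_mul, ← mulVec_mulVec, ha, hb, mulVec_smul, smul_smul] at e1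
  have e2 := congrArg (fun m => m *ᵥ v) (ch2 ((r s).map φ))
  simp only [← mulVec_mulVec, ha, mulVec_smul, smul_smul, sub_mulVec, smul_mulVec, one_mulVec,
    ← AddMonoidHom.map_trace] at e2
  rw [show ((r s).map φ).det = 1 by rw [← map_one φ, ← hd, RingHom.map_det]; rfl] at e2
  have a1 := z (a * (b * a) - b) (by rw [sub_smul, e1, sub_self])
  have a2 := z (a * a - (φ (r s).trace * a - 1)) (by rw [sub_smul, sub_smul, e2, sub_self])
  have a3 : a * a = 1 := mul_left_cancel₀ b0 (by linear_combination a1)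
  refine reg (φ.injective ?_)
  rw [hd, map_pow, map_mul, map_ofNat, map_one]
  linear_combination (-φ (r s).trace ^ 2 + φ (r s).trace * a + 2) * a3 -
    (φ (r s).trace * a + 2) * a2

/-- the guard, in a group with a tame structure -/
theorem grd0 {l n : ℕ} {D I N U : Subgroup G} {τ φ : G} (t : Tm l D I N U τ φ)
    (r : G →* Matrix (Fin 2) (Fin 2) k) (hU : ∀ u ∈ U, r u = 1) (hl : n ∣ l + 1)
    (hn : (n : k) ≠ 0) (h1 : ∀ s ∈ I, r s ^ n = 1) (hd : ∀ s ∈ I, (r s).det = 1)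
    (h2 : ∃ s ∈ I, r s ^ 2 ≠ 1) {j : ℕ} (hj : Odd j) {H : Subgroup G} (hI : I ≤ H)
    (hφ : φ ^ j ∈ H) : Spans r (H : Set G) := by
  obtain ⟨s, hs, h2⟩ := h2
  have w : ∀ p ∈ N, r p = 1 := fun p hp => by
    obtain ⟨m, hm⟩ := t.wild p hp
    have c : (l ^ m).Coprime n := Nat.Coprime.pow_left _
      (Nat.Coprime.coprime_dvd_right hl (Nat.coprime_self_add_right.2 (Nat.coprime_one_right l)))
    have := pow_gcd_eq_one.2 ⟨(map_pow r p _).symm.trans (hU _ hm), h1 p (t.NI hp)⟩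
    rwa [c, pow_one] at this
  have a : ∀ s ∈ I, r φ * r s = r s⁻¹ * r φ := fun s hs => by
    obtain ⟨p, hp, e⟩ := t.rel s hs
    obtain ⟨c, hc⟩ := hl
    have e2 : r (s ^ (l + 1)) = 1 := by rw [map_pow, hc, pow_mul, h1 s hs, one_pow]
    rw [← map_mul, show φ * s = p * (s ^ (l + 1) * (s⁻¹ * φ)) by
      rw [pow_succ, mul_assoc, mul_inv_cancel_left, ← mul_assoc, ← e, inv_mul_cancel_right],
      map_mul, map_mul, map_mul, w p hp, e2, one_mul, one_mul]
  have b : ∀ i : ℕ, r (φ ^ (2 * i + 1)) * r s = r s⁻¹ * r (φ ^ (2 * i + 1)) := fun i => by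
    induction i with
    | zero => simpa using a s hs
    | succ i ih =>
      have := a _ (I.inv_mem hs)
      rw [inv_inv] at this
      rw [show 2 * (i + 1) + 1 = 1 + (1 + (2 * i + 1)) by ring, pow_add, pow_add, pow_one, map_mul,
        map_mul, mul_assoc, mul_assoc, ih, ← mul_assoc (r φ) (r s⁻¹), this, mul_assoc,
        ← mul_assoc, a s hs, mul_assoc]
  obtain ⟨i, rfl⟩ := hj
  refine spans_dih r (hI hs) hφ (hd s hs) (reg_of (hd s hs) (h1 s hs) hn h2) ?_
  rw [mul_assoc, b, ← mul_assoc, ← map_mul, mul_inv_cancel, map_one, one_mul]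

end span

/-! ### odd orders -/

theorem odd_pow {l q j : ℕ} (hq : Odd q) (hj : Odd j) (h : (l : ZMod q) ^ j = 1) (m : ℕ) :
    ∃ i, Odd i ∧ (l : ZMod (q ^ m)) ^ i = 1 := by
  refine ⟨j * q ^ m, hj.mul hq.pow, ?_⟩
  have a : (q : ℤ) ∣ (l : ℤ) ^ j - 1 := (ZMod.intCast_zmod_eq_zero_iff_dvd _ _).1 (by
    push_cast; rw [h, sub_self])
  have b := (ZMod.intCast_zmod_eq_zero_iff_dvd _ (q ^ m)).2 ((show ((q ^ m : ℕ) : ℤ) ∣ _ by
    push_cast; exact pow_dvd_pow _ m.le_succ).trans (dvd_sub_pow_of_dvd_sub a m))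
  push_cast at b
  rwa [one_pow, ← pow_mul, sub_eq_zero] at b

theorem odd_two {q : ℕ} [Fact q.Prime] (h : q % 8 = 7) :
    ∃ j, Odd j ∧ ((2 : ℕ) : ZMod q) ^ j = 1 := by
  have h2 : q ≠ 2 := by omega
  refine ⟨q / 2, Nat.odd_iff.2 (by omega), (ZMod.euler_criterion q ?_).1 ?_⟩
  · rw [Ne, ZMod.natCast_eq_zero_iff, Nat.prime_dvd_prime_iff_eq Fact.out Nat.prime_two]
    exact h2
  · exact_mod_cast (ZMod.exists_sq_eq_two_iff h2).2 (.inr h)

theorem two_ns : ¬ IsSquare ((2 : ℕ) : ZMod 3) := by decide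

theorem odd_three {q : ℕ} [Fact q.Prime] (h : q % 12 = 11) :
    ∃ j, Odd j ∧ ((3 : ℕ) : ZMod q) ^ j = 1 := by
  have h3 : q ≠ 3 := by omega
  haveI : Fact (Nat.Prime 3) := ⟨Nat.prime_three⟩
  refine ⟨q / 2, Nat.odd_iff.2 (by omega), (ZMod.euler_criterion q ?_).1 ?_⟩
  · rw [Ne, ZMod.natCast_eq_zero_iff, Nat.prime_dvd_prime_iff_eq Fact.out Nat.prime_three]
    exact h3
  · rw [ZMod.exists_sq_eq_prime_iff_of_mod_four_eq_three (by omega) (by norm_num) h3,
      ← ZMod.natCast_mod, show q % 3 = 2 by omega]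
    exact two_ns

section arith

open Vale.Agent.P027M.S (Inert)
open Vale.Agent.P022K.GW (Adq Cy up)

variable {G : Type} [Group G] [TopologicalSpace G] {ι : G →* GQ} {l : ℕ} {P : Ideal (𝓞 Qb)}

/-- the local type at `P`: inertia acts through a group of exponent dividing `n`, not `2`, with
determinant one. At a guard prime `n ∣ l + 1`. -/
structure Ty (ι : G →* GQ) (l : ℕ) (P : Ideal (𝓞 Qb)) (n : ℕ) {R : Type*} [CommRing R]
    (r : G →* Matrix (Fin 2) (Fin 2) R) : Prop where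
  emb : Topology.IsOpenEmbedding ι
  ov : Ov l P
  spl : dec P ≤ ι.range
  pow : ∀ s, Inert P (ι s) → r s ^ n = 1
  det : ∀ s, Inert P (ι s) → (r s).det = 1
  two : ∃ s, Inert P (ι s) ∧ r s ^ 2 ≠ 1

/-- **GRD**: absolutely irreducible on the decomposition group of `F(ζ_M)` -/
theorem grd {k : Type*} [Field k] {r : G →* Matrix (Fin 2) (Fin 2) k} {n : ℕ} (h : Ty ι l P n r)
    (hd : n ∣ l + 1) (ho : IsOpen {g | r g = 1}) (hn : (n : k) ≠ 0) {M j : ℕ} [NeZero M] (hj : Odd j)
    (hM : (l : ZMod M) ^ j = 1) : Spans r {g | ι g ∈ dec P ∧ cyc M (ι g) = 1} := by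
  obtain ⟨τ, φ, hφ, t⟩ := tameI h.emb h.ov h.spl
  obtain ⟨N, t⟩ := t φ hφ r.toHomUnits.ker (by
    convert ho using 1
    exact Set.ext fun g => Units.ext_iff)
  obtain ⟨a, b, c⟩ := h.ov
  have hl : ¬ l ∣ M := fun e => by
    haveI := Fact.mk a
    have := congrArg (ZMod.castHom e (ZMod l)) hM
    rw [map_pow, map_natCast, ZMod.natCast_self, zero_pow hj.pos.ne', map_one] at this
    exact zero_ne_one this
  have hP : (M : 𝓞 Qb) ∉ P := fun e => hl (by
    exact_mod_cast H20.dvd_of_mem a b c (d := (M : ℤ)) (by exact_mod_cast e))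
  refine grd0 t r (fun u hu => Units.ext_iff.1 hu) hd hn h.pow h.det h.two hj
    (H := (dec P ⊓ (cyc M).ker).comap ι) (fun s hs => ⟨t.ID hs, Units.ext ?_⟩)
    ⟨Subgroup.pow_mem _ t.phi j, Units.ext ?_⟩
  · have := cyc_of_pow (m := M) (q := 1) (g := ι s) dvd_rfl b hP fun x => by
      rw [pow_one]; exact hs x
    rw [← ZMod.natCast_zmod_val ((cyc M (ι s) : (ZMod M)ˣ) : ZMod M),
      (ZMod.natCast_eq_natCast_iff _ _ _).2 this, Nat.cast_one, Units.val_one]
  · rw [map_pow, map_pow, Units.val_pow_eq_pow_val, cyc_frob a hl ⟨P, b, c, hφ⟩, hM,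
      Units.val_one]

theorem cy_eq {p : ℕ} [NeZero p] {ω : G →* (ZMod p)ˣ} (h : Cy ι p ω) (g : G) :
    ω g = cyc p (ι g) := by
  have e1 : ι g (zt p) = zt p ^ (ω g : ZMod p).val := h g _ (zt_prim p).pow_eq_one
  rw [cyc_spec (ι g) (zt_prim p).pow_eq_one] at e1
  exact Units.ext (ZMod.val_injective p ((zt_prim p).pow_inj (ZMod.val_lt _) (ZMod.val_lt _)
    e1.symm))

theorem irr_iff {k K : Type} [Field k] [Field K] [IsAlgClosed K] (φ : k →+* K)
    {ρ : G →* GL (Fin 2) k} {H : Subgroup G} :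
    Dk.Irr φ ρ H ↔ Spans ((Units.coeHom _).comp ρ) (H : Set G) :=
  (spans_iff φ ((Units.coeHom _).comp ρ) H).symm

/-- **GRD**: adequacy -/
theorem grd_adq {k : Type} [Field k] [Finite k] {q : ℕ} [Fact q.Prime] [CharP k q] (hq : q ≠ 2)
    {ρ : G →* GL (Fin 2) k} {n : ℕ} (h : Ty ι l P n ((Units.coeHom _).comp ρ))
    (hd : n ∣ l + 1) (ho : IsOpen (ρ.ker : Set G)) (hn : ¬ q ∣ n) {j : ℕ} (hj : Odd j) (hM : (l : ZMod q) ^ j = 1)
    {ω : G →* (ZMod q)ˣ} (hω : Cy ι q ω) (h1 : ω ≠ 1)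
    (hE : 7 ≤ q ∨ ∃ s, Inert P (ι s) ∧ ∀ m, 1 ≤ m → m ≤ 22 → ρ s ^ m ≠ 1) : Adq ρ (up ω) := by
  have hp : q.Prime := Fact.out
  have c : ∀ m : ℕ, m.Prime → q ≠ m → (m : k) ≠ 0 := fun m hm e z =>
    e ((Nat.prime_dvd_prime_iff_eq hp hm).1 ((CharP.cast_eq_zero_iff k q m).1 z))
  have u : ∀ g, (up ω : G →* kˣ) g = 1 ↔ ω g = 1 := fun g => by
    rw [Units.ext_iff, Units.ext_iff]
    exact map_eq_one_iff (ZMod.castHom (dvd_refl q) k) (RingHom.injective _)
  have ho' : IsOpen {g | ((Units.coeHom _).comp ρ) g = 1} := by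
    have : {g | ((Units.coeHom _).comp ρ) g = 1} = (ρ.ker : Set G) :=
      Set.ext fun g => Units.val_eq_one
    rwa [this]
  have S := grd h hd ho' (mt (CharP.cast_eq_zero_iff k q n).1 hn) hj hM
  have S' : Spans ((Units.coeHom _).comp ρ) ((up ω : G →* kˣ).ker : Set G) :=
    S.mono fun g hg => (u g).2 ((cy_eq hω g).trans hg.2)
  refine Dk.adq' (c 2 Nat.prime_two hq) ρ _
    (fun e => h1 (MonoidHom.ext fun g => (u g).1 (DFunLike.congr_fun e g)))
    ((irr_iff (algebraMap k (AlgebraicClosure k))).2 S') ?_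
  rcases hE with e | ⟨s, hs, e⟩
  · exact .inl ⟨c 3 Nat.prime_three (by omega), c 5 Nat.prime_five (by omega)⟩
  · refine .inr (.inr ⟨s, fun m a b z => e (m * 2) (by omega) (by omega) ?_⟩)
    have d : ((ρ s ^ m : GL (Fin 2) k) : Matrix (Fin 2) (Fin 2) k).det = 1 := by
      rw [Units.val_pow_eq_pow_val, det_pow, show (ρ s).1.det = 1 from h.det s hs, one_pow]
    obtain ⟨z1, z2, z3⟩ := Dk.mem_Zc.1 z
    rw [det_fin_two, z1, zero_mul, sub_zero] at d
    rw [pow_mul, pow_two]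
    apply Dk.ext4 <;> simp only [Dk.mul_ap, z1, z2, Units.val_one, one_apply_eq, mul_zero, zero_mul,
      add_zero, zero_add, one_apply_ne (zero_ne_one' (Fin 2)), one_apply_ne (zero_ne_one' (Fin 2)).symm]
    · rw [← d, z3]
    · rw [← d, z3]

end arith

end Vale.Agent.P022K.CH.Loc
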