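import Mathlib.FieldTheory.Finite.Trace
import Mathlib.FieldTheory.Finite.GaloisField
import Mathlib.NumberTheory.MulChar.Basic
import Mathlib.Algebra.Group.AddChar
import Mathlib.LinearAlgebra.Matrix.GeneralLinearGroup.Defs
import Mathlib.LinearAlgebra.Matrix.Trace
import Mathlib.RingTheory.Trace.Basic

/-!
P022K, block CH, row LEV: the cuspidal representation `σ(θ)` of `GL₂(F)`, `F` finite, over any
commutative ring (Kirillov model).
-/

set_option linter.all false

noncomputable section

namespace Vale.Agent.P022K.CH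

open Classical Finset

/-- the data of a cuspidal type: a quadratic extension `E / F` of finite fields, an additive
character `ψ` all of whose non zero multiples have sum zero, an inverse `li` of the order of `F`,
and a character `th` of `E` whose sum over the elements of norm one is zero -/
structure Cus (F E R : Type) [Field F] [Field E] [Algebra F E] [Fintype F] [Fintype E]
    [CommRing R] where
  rk : Module.finrank F E = 2
  ψ : AddChar F R
  li : R
  li_mul : li * (Fintype.card F : R) = 1
  orth : ∀ c : F, c ≠ 0 → ∑ x : F, ψ (c * x) = 0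
  th : MulChar E R
  th0 : ∑ u ∈ univ.filter (fun u : E => Algebra.norm F u = 1), th u = 0

section quad

variable {F E : Type} [Field F] [Field E] [Algebra F E] [Fintype F] [Fintype E]

/-- the conjugation `u ↦ u ^ q` -/
def cj (F : Type) {E : Type} [Field F] [Field E] [Algebra F E] [Fintype F] : E →ₐ[F] E :=
  FiniteField.frobeniusAlgHom F E

theorem cj_apply (u : E) : cj F u = u ^ Fintype.card F := rfl

theorem card_E (h : Module.finrank F E = 2) : Fintype.card E = Fintype.card F ^ 2 := by
  rw [Module.card_eq_pow_finrank (K := F) (V := E), h]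

theorem cj_cj (h : Module.finrank F E = 2) (u : E) : cj F (cj F u) = u := by
  rw [cj_apply, cj_apply, ← pow_mul, ← pow_two, ← card_E h, FiniteField.pow_card]

theorem nm_eq (h : Module.finrank F E = 2) (u : E) :
    algebraMap F E (Algebra.norm F u) = u * cj F u := by
  rw [FiniteField.algebraMap_norm_eq_prod_pow, h, cj_apply]
  simp [Finset.prod_range_succ, Nat.card_eq_fintype_card]

theorem tr_eq (h : Module.finrank F E = 2) (u : E) :
    algebraMap F E (Algebra.trace F E u) = u + cj F u := by
  rw [FiniteField.algebraMap_trace_eq_sum_pow, h, cj_apply]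
  simp [Finset.sum_range_succ, Nat.card_eq_fintype_card]

theorem inj_FE : Function.Injective (algebraMap F E) := (algebraMap F E).injective

theorem nm_alg (h : Module.finrank F E = 2) (a : F) :
    Algebra.norm F (algebraMap F E a) = a ^ 2 := by
  rw [Algebra.norm_algebraMap, h]

theorem tr_alg (h : Module.finrank F E = 2) (a : F) :
    Algebra.trace F E (algebraMap F E a) = 2 * a := by
  rw [Algebra.trace_algebraMap, h]
  simp

theorem tr_smul (a : F) (u : E) :
    Algebra.trace F E (algebraMap F E a * u) = a * Algebra.trace F E u := by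
  rw [← Algebra.smul_def, map_smul, smul_eq_mul]

theorem nm_smul (h : Module.finrank F E = 2) (a : F) (u : E) :
    Algebra.norm F (algebraMap F E a * u) = a ^ 2 * Algebra.norm F u := by
  rw [map_mul, nm_alg h]

theorem nm_cj (h : Module.finrank F E = 2) (u : E) :
    Algebra.norm F (cj F u) = Algebra.norm F u := by
  apply inj_FE (F := F) (E := E)
  rw [nm_eq h, nm_eq h, cj_cj h, mul_comm]

theorem tr_cj (h : Module.finrank F E = 2) (u : E) :
    Algebra.trace F E (cj F u) = Algebra.trace F E u := by
  apply inj_FE (F := F) (E := E)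
  rw [tr_eq h, tr_eq h, cj_cj h, add_comm]

theorem nm_add (h : Module.finrank F E = 2) (u v : E) :
    Algebra.norm F (u + v) =
      Algebra.norm F u + Algebra.trace F E (v * cj F u) + Algebra.norm F v := by
  apply inj_FE (F := F) (E := E)
  rw [nm_eq h, map_add (algebraMap F E), map_add (algebraMap F E), nm_eq h, nm_eq h, tr_eq h,
    map_add, map_mul, cj_cj h]
  ring

theorem nm_zero (u : E) : Algebra.norm F u = 0 ↔ u = 0 := by
  haveI : Module.Finite F E := Module.Finite.of_finite
  exact Algebra.norm_eq_zero_iff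

theorem ch_eq (h : Module.finrank F E = 2) (u : E) :
    u ^ 2 - algebraMap F E (Algebra.trace F E u) * u + algebraMap F E (Algebra.norm F u) = 0 := by
  rw [nm_eq h, tr_eq h]
  ring

/-- sums over a fibre of the norm: rescaling -/
theorem sum_fib {M : Type} [AddCommMonoid M] (v : E) (hv : v ≠ 0) (n : F) (f : E → M) :
    ∑ u ∈ univ.filter (fun u : E => Algebra.norm F u = Algebra.norm F v * n), f u =
      ∑ u ∈ univ.filter (fun u : E => Algebra.norm F u = n), f (v * u) := by
  symm
  have hn : Algebra.norm F v ≠ 0 := fun h => hv ((nm_zero v).1 h)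
  refine Finset.sum_bij' (fun u _ => v * u) (fun u _ => v⁻¹ * u) ?_ ?_ ?_ ?_ ?_
  · intro u hu
    simp only [mem_filter, mem_univ, true_and] at hu ⊢
    rw [map_mul, hu]
  · intro u hu
    simp only [mem_filter, mem_univ, true_and] at hu ⊢
    apply mul_left_cancel₀ hn
    rw [← map_mul, mul_inv_cancel_left₀ hv, hu]
  · intro u _
    exact inv_mul_cancel_left₀ hv u
  · intro u _
    exact mul_inv_cancel_left₀ hv u
  · intro u _
    rfl

theorem card_fib (h : Module.finrank F E = 2) (n : F) (hn : n ≠ 0) :
    (univ.filter (fun u : E => Algebra.norm F u = n)).card = Fintype.card F + 1 := by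
  have k : ∀ n : F, n ≠ 0 → (univ.filter (fun u : E => Algebra.norm F u = n)).card =
      (univ.filter (fun u : E => Algebra.norm F u = 1)).card := by
    intro n hn
    obtain ⟨v, hv⟩ := FiniteField.norm_surjective F E n
    have hv0 : v ≠ 0 := fun e => hn (by rw [← hv, e]; exact (nm_zero 0).2 rfl)
    have := sum_fib (F := F) v hv0 1 (fun _ => (1 : ℕ))
    rw [hv, mul_one] at this
    simpa using this
  have k0 : (univ.filter (fun u : E => Algebra.norm F u = (0 : F))).card = 1 := by
    rw [Finset.card_eq_one]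
    refine ⟨0, ?_⟩
    ext u
    simp [nm_zero]
  have tot := Finset.card_eq_sum_card_fiberwise (s := (univ : Finset E)) (t := (univ : Finset F))
    (f := fun u => Algebra.norm F u) (fun _ _ => mem_univ _)
  rw [← Finset.add_sum_erase _ _ (mem_univ (0 : F)), k0,
    Finset.sum_congr rfl (fun a ha => k a (Finset.ne_of_mem_erase ha)), Finset.sum_const,
    Finset.card_erase_of_mem (mem_univ _), Finset.card_univ, Finset.card_univ, card_E h,
    smul_eq_mul] at tot
  rw [k n hn]
  have h1 : 1 < Fintype.card F := Fintype.one_lt_card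
  obtain ⟨m, hm⟩ : ∃ m, Fintype.card F = m + 1 := ⟨Fintype.card F - 1, by omega⟩
  rw [hm] at tot h1 ⊢
  have h2 : m * (m + 1 + 1) = m * (univ.filter (fun u : E => Algebra.norm F u = 1)).card := by
    simp only [Nat.add_sub_cancel] at tot
    nlinarith
  exact (Nat.eq_of_mul_eq_mul_left (by omega) h2).symm

end quad

section gauss

variable {F E R : Type} [Field F] [Field E] [Algebra F E] [Fintype F] [Fintype E] [CommRing R]
variable (C : Cus F E R)

theorem Cus.sum_ψ (c : F) : ∑ x : F, C.ψ (c * x) = if c = 0 then (Fintype.card F : R) else 0 := by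
  split_ifs with h
  · simp [h]
  · exact C.orth c h

theorem Cus.sum_ψ_units (c : F) :
    ∑ x : Fˣ, C.ψ (c * x) = (if c = 0 then (Fintype.card F : R) else 0) - 1 := by
  rw [← C.sum_ψ c, ← Finset.add_sum_erase _ _ (mem_univ (0 : F)), mul_zero, AddChar.map_zero_eq_one,
    add_sub_cancel_left]
  refine Finset.sum_bij (fun x _ => (x : F)) ?_ ?_ ?_ ?_
  · intro x _
    exact Finset.mem_erase.2 ⟨x.ne_zero, mem_univ _⟩
  · intro x _ y _ h
    exact Units.ext h
  · intro x hx
    exact ⟨Units.mk0 x (Finset.ne_of_mem_erase hx), mem_univ _, rfl⟩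
  · intro x _
    rfl

theorem Cus.g1 (A : F) (hA : A ≠ 0) :
    ∑ u : E, C.ψ (A * Algebra.norm F u) = -(Fintype.card F : R) := by
  rw [← Finset.sum_fiberwise (s := univ) (g := fun u : E => Algebra.norm F u)]
  have k : ∀ n : F, ∑ u ∈ univ.filter (fun u : E => Algebra.norm F u = n),
      C.ψ (A * Algebra.norm F u) = ((Fintype.card F : R) + 1) * C.ψ (A * n) -
        if n = 0 then (Fintype.card F : R) else 0 := by
    intro n
    rw [Finset.sum_congr rfl (fun u hu => by rw [(Finset.mem_filter.1 hu).2]), Finset.sum_const]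
    split_ifs with h
    · have k0 : (univ.filter (fun u : E => Algebra.norm F u = n)).card = 1 := by
        rw [Finset.card_eq_one]
        refine ⟨0, ?_⟩
        ext u
        simp [nm_zero, h]
      rw [k0, h]
      simp
    · rw [card_fib C.rk n h]
      simp
  rw [Finset.sum_congr rfl (fun n _ => k n), Finset.sum_sub_distrib, ← Finset.mul_sum, C.orth A hA]
  simp

theorem Cus.g2 (b : E) (hb : b ≠ 0) : ∑ u : E, C.ψ (Algebra.trace F E (b * u)) = 0 := by
  haveI : Module.Finite F E := Module.Finite.of_finite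
  obtain ⟨w, hw⟩ := Algebra.trace_surjective F E 1
  have k : ∀ t : F, ∑ u : E, C.ψ (Algebra.trace F E (b * u)) =
      C.ψ (1 * t) * ∑ u : E, C.ψ (Algebra.trace F E (b * u)) := by
    intro t
    rw [Finset.mul_sum]
    refine (Fintype.sum_equiv (Equiv.addRight (algebraMap F E t * (b⁻¹ * w))) _ _ ?_).symm
    intro u
    rw [Equiv.coe_addRight, mul_add, map_add, AddChar.map_add_eq_mul, mul_comm]
    congr 2
    rw [mul_left_comm, mul_inv_cancel_left₀ hb, tr_smul, hw, one_mul, mul_one]
  have k2 := Finset.sum_congr rfl (fun t (_ : t ∈ (univ : Finset F)) => k t)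
  rw [← Finset.sum_mul, C.orth 1 one_ne_zero, zero_mul, Finset.sum_const, Finset.card_univ,
    nsmul_eq_mul] at k2
  rw [← one_mul (∑ u : E, _), ← C.li_mul, mul_assoc, k2, mul_zero]

theorem Cus.g3 (n : F) : ∑ u ∈ univ.filter (fun u : E => Algebra.norm F u = n), C.th u = 0 := by
  by_cases hn : n = 0
  · refine Finset.sum_eq_zero fun u hu => ?_
    rw [(nm_zero u).1 ((Finset.mem_filter.1 hu).2.trans hn), MulChar.map_zero]
  · obtain ⟨v, hv⟩ := FiniteField.norm_surjective F E n
    have hv0 : v ≠ 0 := fun e => hn (by rw [← hv, e]; exact (nm_zero 0).2 rfl)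
    have := sum_fib (F := F) v hv0 1 (fun u => C.th u)
    rw [hv, mul_one] at this
    rw [this]
    simp only [map_mul]
    rw [← Finset.mul_sum, C.th0, mul_zero]

/-- completing the square -/
theorem Cus.g4 (A : F) (hA : A ≠ 0) (b : E) :
    ∑ u : E, C.ψ (A * Algebra.norm F u - Algebra.trace F E (b * cj F u)) =
      -(Fintype.card F : R) * C.ψ (-(Algebra.norm F b / A)) := by
  rw [← C.g1 A hA, Finset.sum_mul]
  refine (Fintype.sum_equiv (Equiv.addRight (algebraMap F E A⁻¹ * b)) _ _ ?_).symm
  intro u
  rw [Equiv.coe_addRight, ← AddChar.map_add_eq_mul]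
  congr 1
  have e1 : b * cj F (algebraMap F E A⁻¹ * b) = algebraMap F E (A⁻¹ * Algebra.norm F b) := by
    rw [map_mul, AlgHom.commutes, map_mul, nm_eq C.rk]
    ring
  rw [nm_add C.rk, map_add, mul_add b, map_add, nm_smul C.rk, mul_assoc, tr_smul, e1, tr_alg C.rk]
  field_simp
  ring

theorem Cus.g5 (b : E) : ∑ u : E, C.ψ (0 * Algebra.norm F u - Algebra.trace F E (b * cj F u)) =
    if b = 0 then (Fintype.card F : R) ^ 2 else 0 := by
  split_ifs with h
  · simp [h, card_E C.rk]
  · rw [← C.g2 (-(cj F b)) (neg_ne_zero.2 ((map_ne_zero_iff _ (cj F).toRingHom.injective).2 h))]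
    refine Finset.sum_congr rfl fun u _ => ?_
    congr 1
    rw [zero_mul, zero_sub, neg_mul, map_neg, ← tr_cj C.rk (b * cj F u), map_mul, cj_cj C.rk]

/-- the kernel of the matrix `[a b; c d]` in the Kirillov model -/
def Cus.kk (a b c d x y : F) : R :=
  if c = 0 then (if y * d = x * a then C.th (algebraMap F E d) * C.ψ (x * b / d) else 0)
  else -C.li * C.th (algebraMap F E y⁻¹) *
    ∑ u ∈ univ.filter (fun u : E => Algebra.norm F u = x * y * (a * d - b * c)),
      C.th u * C.ψ ((a * x + d * y - Algebra.trace F E u) / c)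

theorem Cus.th_alg_mul (x y : F) :
    C.th (algebraMap F E (x * y)) = C.th (algebraMap F E x) * C.th (algebraMap F E y) := by
  rw [map_mul, map_mul]

theorem alg_ne {x : F} (hx : x ≠ 0) : algebraMap F E x ≠ 0 :=
  (map_ne_zero_iff _ inj_FE).2 hx

theorem sum_delta (z : F) (hz : z ≠ 0) (p : F → Prop) [DecidablePred p]
    (hp : ∀ y, y ≠ 0 → (p y ↔ y = z))
    (f : F → R) : ∑ y : Fˣ, (if p y then f y else 0) = f z := by
  rw [Finset.sum_eq_single (Units.mk0 z hz)]
  · rw [if_pos ((hp _ (Units.ne_zero _)).2 rfl)]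
    rfl
  · intro y _ hy
    rw [if_neg]
    intro h
    exact hy (Units.ext ((hp _ y.ne_zero).1 h))
  · intro h
    exact absurd (mem_univ _) h

theorem Cus.kk_mul1 (a b d a' b' c' d' x z : F) (ha : a ≠ 0) (hd : d ≠ 0) (hx : x ≠ 0) :
    ∑ y : Fˣ, C.kk a b 0 d x y * C.kk a' b' c' d' y z =
      C.kk (a * a' + b * c') (a * b' + b * d') (0 * a' + d * c') (0 * b' + d * d') x z := by
  have k : ∀ y : Fˣ, C.kk a b 0 d x y * C.kk a' b' c' d' y z =
      if (y : F) * d = x * a then
        C.th (algebraMap F E d) * C.ψ (x * b / d) * C.kk a' b' c' d' y z else 0 := by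
    intro y
    unfold Cus.kk
    rw [if_pos rfl]
    split_ifs <;> simp
  rw [Finset.sum_congr rfl (fun y _ => k y),
    sum_delta (x * a / d) (div_ne_zero (mul_ne_zero hx ha) hd) (fun y => y * d = x * a)
      (fun y _ => by rw [eq_div_iff hd])
      (fun y => C.th (algebraMap F E d) * C.ψ (x * b / d) * C.kk a' b' c' d' y z)]
  unfold Cus.kk
  simp only [zero_mul, zero_add]
  by_cases hc : c' = 0
  · subst hc
    simp only [mul_zero, add_zero, if_true]
    have e : z * d' = x * a / d * a' ↔ z * (d * d') = x * (a * a') := by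
      rw [div_mul_eq_mul_div, eq_div_iff hd]
      constructor <;> intro h <;> linear_combination h
    by_cases h : z * d' = x * a / d * a'
    · rw [if_pos h, if_pos (e.1 h), C.th_alg_mul]
      by_cases hd' : d' = 0
      · simp [hd', MulChar.map_zero]
      · have : x * (a * b' + b * d') / (d * d') = x * b / d + x * a / d * b' / d' := by
          field_simp
          ring
        rw [this, AddChar.map_add_eq_mul]
        ring
    · rw [if_neg h, if_neg (fun h' => h (e.2 h')), mul_zero]
  · rw [if_neg hc, if_neg (mul_ne_zero hd hc)]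
    have e : x * z * ((a * a' + b * c') * (d * d') - (a * b' + b * d') * (d * c')) =
        Algebra.norm F (algebraMap F E d) * (x * a / d * z * (a' * d' - b' * c')) := by
      rw [nm_alg C.rk]
      field_simp
      ring
    rw [e, sum_fib _ (alg_ne hd), Finset.mul_sum, Finset.mul_sum, Finset.mul_sum]
    refine Finset.sum_congr rfl fun u _ => ?_
    have : ((a * a' + b * c') * x + d * d' * z - Algebra.trace F E (algebraMap F E d * u)) /
        (d * c') = x * b / d + (a' * (x * a / d) + d' * z - Algebra.trace F E u) / c' := by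
      rw [tr_smul]
      field_simp
      ring
    rw [this, AddChar.map_add_eq_mul, map_mul]
    ring

theorem Cus.kk_mul2 (a b c d a' b' d' x z : F) (hc : c ≠ 0) (ha : a' ≠ 0) (hd : d' ≠ 0)
    (hz : z ≠ 0) : ∑ y : Fˣ, C.kk a b c d x y * C.kk a' b' 0 d' y z =
      C.kk (a * a' + b * 0) (a * b' + b * d') (c * a' + d * 0) (c * b' + d * d') x z := by
  have k : ∀ y : Fˣ, C.kk a b c d x y * C.kk a' b' 0 d' y z =
      if z * d' = (y : F) * a' then
        C.kk a b c d x y * (C.th (algebraMap F E d') * C.ψ (y * b' / d')) else 0 := by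
    intro y
    unfold Cus.kk
    rw [if_pos rfl]
    split_ifs <;> simp
  rw [Finset.sum_congr rfl (fun y _ => k y),
    sum_delta (z * d' / a') (div_ne_zero (mul_ne_zero hz hd) ha) (fun y => z * d' = y * a')
      (fun y _ => by rw [eq_div_iff ha, eq_comm])
      (fun y => C.kk a b c d x y * (C.th (algebraMap F E d') * C.ψ (y * b' / d')))]
  unfold Cus.kk
  simp only [mul_zero, add_zero]
  rw [if_neg hc, if_neg (mul_ne_zero hc ha)]
  have e : x * z * (a * a' * (c * b' + d * d') - (a * b' + b * d') * (c * a')) =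
      Algebra.norm F (algebraMap F E a') * (x * (z * d' / a') * (a * d - b * c)) := by
    rw [nm_alg C.rk]
    field_simp
    ring
  rw [e, sum_fib _ (alg_ne ha), Finset.mul_sum, Finset.mul_sum, Finset.sum_mul]
  refine Finset.sum_congr rfl fun u _ => ?_
  have : (a * a' * x + (c * b' + d * d') * z - Algebra.trace F E (algebraMap F E a' * u)) /
      (c * a') = (a * x + d * (z * d' / a') - Algebra.trace F E u) / c + z * d' / a' * b' / d' := by
    rw [tr_smul]
    field_simp
    ring
  have e2 : C.th (algebraMap F E (z * d' / a')⁻¹) * C.th (algebraMap F E d') =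
      C.th (algebraMap F E z⁻¹) * C.th (algebraMap F E a') := by
    rw [← C.th_alg_mul, ← C.th_alg_mul]
    congr 2
    field_simp
  rw [this, AddChar.map_add_eq_mul, map_mul]
  linear_combination (-C.li * C.th u * C.ψ ((a * x + d * (z * d' / a') - Algebra.trace F E u) / c) *
    C.ψ (z * d' / a' * b' / d')) * e2

/-- a sum over `y` and the fibre of the norm above `m y` is a sum over the non zero elements -/
theorem sum_yu (m : F) (hm : m ≠ 0) (f : F → E → R) :
    ∑ y : Fˣ, ∑ u ∈ univ.filter (fun u : E => Algebra.norm F u = m * y), f y u =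
      ∑ u ∈ univ.erase (0 : E), f (Algebra.norm F u / m) u := by
  simp only [Finset.sum_filter]
  rw [Finset.sum_comm, ← Finset.add_sum_erase _ _ (mem_univ (0 : E)), Finset.sum_eq_zero, zero_add]
  · refine Finset.sum_congr rfl fun u hu => ?_
    have hu0 : Algebra.norm F u ≠ 0 := fun h => Finset.ne_of_mem_erase hu ((nm_zero u).1 h)
    exact sum_delta (Algebra.norm F u / m) (div_ne_zero hu0 hm) (fun y => Algebra.norm F u = m * y)
      (fun y _ => by rw [eq_div_iff hm, eq_comm, mul_comm]) (fun y => f y u)
  · intro y _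
    rw [if_neg]
    rw [(nm_zero (0 : E)).2 rfl]
    exact (mul_ne_zero hm y.ne_zero).symm

theorem Cus.kk_core (a b c d a' b' c' d' x z : F) (hc : c ≠ 0) (hc' : c' ≠ 0)
    (hD : a * d - b * c ≠ 0) (hx : x ≠ 0) :
    ∑ y : Fˣ, C.kk a b c d x y * C.kk a' b' c' d' y z =
      C.li ^ 2 * C.th (algebraMap F E z⁻¹) *
      ∑ r ∈ univ.filter (fun r : E =>
          Algebra.norm F r = x * z * ((a * d - b * c) * (a' * d' - b' * c'))),
        C.th r * C.ψ (a * x / c + d' * z / c') *
          ∑ u : E, C.ψ ((c * a' + d * c') / (c * c' * x * (a * d - b * c)) * Algebra.norm F u -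
            Algebra.trace F E ((algebraMap F E c⁻¹ +
              algebraMap F E (x * (a * d - b * c) * c')⁻¹ * r) * cj F u)) := by
  set D := a * d - b * c with hDd
  set D' := a' * d' - b' * c' with hDd'
  have hm : x * D ≠ 0 := mul_ne_zero hx hD
  have k1 : ∀ y : Fˣ, C.kk a b c d x y * C.kk a' b' c' d' y z =
      ∑ u ∈ univ.filter (fun u : E => Algebra.norm F u = x * D * y),
        (C.li ^ 2 * C.th (algebraMap F E z⁻¹) * C.th (algebraMap F E (y : F)⁻¹) *
          (C.th u * C.ψ ((a * x + d * y - Algebra.trace F E u) / c)) *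
        ∑ v ∈ univ.filter (fun v : E => Algebra.norm F v = y * z * D'),
          C.th v * C.ψ ((a' * y + d' * z - Algebra.trace F E v) / c')) := by
    intro y
    unfold Cus.kk
    rw [if_neg hc, if_neg hc', ← Finset.sum_mul, ← Finset.mul_sum, mul_right_comm x D]
    ring
  rw [Finset.sum_congr rfl (fun y _ => k1 y), sum_yu (x * D) hm (fun y u =>
    C.li ^ 2 * C.th (algebraMap F E z⁻¹) * C.th (algebraMap F E y⁻¹) *
          (C.th u * C.ψ ((a * x + d * y - Algebra.trace F E u) / c)) *
        ∑ v ∈ univ.filter (fun v : E => Algebra.norm F v = y * z * D'),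
          C.th v * C.ψ ((a' * y + d' * z - Algebra.trace F E v) / c'))]
  have k2 : ∀ u ∈ univ.erase (0 : E),
      C.li ^ 2 * C.th (algebraMap F E z⁻¹) * C.th (algebraMap F E (Algebra.norm F u / (x * D))⁻¹) *
          (C.th u * C.ψ ((a * x + d * (Algebra.norm F u / (x * D)) - Algebra.trace F E u) / c)) *
        ∑ v ∈ univ.filter (fun v : E => Algebra.norm F v = Algebra.norm F u / (x * D) * z * D'),
          C.th v * C.ψ ((a' * (Algebra.norm F u / (x * D)) + d' * z - Algebra.trace F E v) / c') =
      C.li ^ 2 * C.th (algebraMap F E z⁻¹) *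
        ∑ r ∈ univ.filter (fun r : E => Algebra.norm F r = x * z * (D * D')),
          C.th r * C.ψ (a * x / c + d' * z / c') *
            C.ψ ((c * a' + d * c') / (c * c' * x * D) * Algebra.norm F u -
              Algebra.trace F E ((algebraMap F E c⁻¹ +
                algebraMap F E (x * D * c')⁻¹ * r) * cj F u)) := by
    intro u hu
    have hu0 : u ≠ 0 := Finset.ne_of_mem_erase hu
    have hn0 : Algebra.norm F u ≠ 0 := fun h => hu0 ((nm_zero u).1 h)
    have hc0 : cj F u ≠ 0 := (map_ne_zero_iff _ (cj F).toRingHom.injective).2 hu0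
    have e : Algebra.norm F u / (x * D) * z * D' =
        Algebra.norm F (algebraMap F E (x * D)⁻¹ * cj F u) * (x * z * (D * D')) := by
      rw [nm_smul C.rk, nm_cj C.rk]
      field_simp
    rw [e, sum_fib _ (mul_ne_zero (alg_ne (inv_ne_zero hm)) hc0), Finset.mul_sum, Finset.mul_sum]
    refine Finset.sum_congr rfl fun r _ => ?_
    have e1 : C.th (algebraMap F E (Algebra.norm F u / (x * D))⁻¹) * C.th u *
        C.th (algebraMap F E (x * D)⁻¹ * cj F u * r) = C.th r := by
      rw [← map_mul, ← map_mul]
      congr 1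
      rw [inv_div, map_div₀, nm_eq C.rk, map_inv₀]
      have := alg_ne (E := E) hm
      field_simp
    have e2 : (a * x + d * (Algebra.norm F u / (x * D)) - Algebra.trace F E u) / c +
        (a' * (Algebra.norm F u / (x * D)) + d' * z -
          Algebra.trace F E (algebraMap F E (x * D)⁻¹ * cj F u * r)) / c' =
        (a * x / c + d' * z / c') + ((c * a' + d * c') / (c * c' * x * D) * Algebra.norm F u -
              Algebra.trace F E ((algebraMap F E c⁻¹ +
                algebraMap F E (x * D * c')⁻¹ * r) * cj F u)) := by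
      rw [add_mul, map_add, mul_assoc (algebraMap F E _), mul_assoc (algebraMap F E _), tr_smul,
        tr_smul, tr_smul, tr_cj C.rk, mul_comm r]
      field_simp
      ring
    have e3 := congrArg C.ψ e2
    rw [AddChar.map_add_eq_mul, AddChar.map_add_eq_mul] at e3
    calc _ = C.li ^ 2 * C.th (algebraMap F E z⁻¹) *
        ((C.th (algebraMap F E (Algebra.norm F u / (x * D))⁻¹) * C.th u *
        C.th (algebraMap F E (x * D)⁻¹ * cj F u * r)) *
        (C.ψ ((a * x + d * (Algebra.norm F u / (x * D)) - Algebra.trace F E u) / c) *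
        C.ψ ((a' * (Algebra.norm F u / (x * D)) + d' * z -
          Algebra.trace F E (algebraMap F E (x * D)⁻¹ * cj F u * r)) / c'))) := by ring
      _ = _ := by rw [e1, e3, mul_assoc (C.th r)]
  rw [Finset.sum_congr rfl k2, ← Finset.mul_sum, Finset.sum_comm]
  congr 1
  have k3 : ∀ r : E, ∑ u ∈ univ.erase (0 : E), C.th r * C.ψ (a * x / c + d' * z / c') *
            C.ψ ((c * a' + d * c') / (c * c' * x * D) * Algebra.norm F u -
              Algebra.trace F E ((algebraMap F E c⁻¹ +
                algebraMap F E (x * D * c')⁻¹ * r) * cj F u)) =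
      C.th r * C.ψ (a * x / c + d' * z / c') *
          ∑ u : E, C.ψ ((c * a' + d * c') / (c * c' * x * D) * Algebra.norm F u -
            Algebra.trace F E ((algebraMap F E c⁻¹ +
              algebraMap F E (x * D * c')⁻¹ * r) * cj F u)) -
        C.th r * C.ψ (a * x / c + d' * z / c') := by
    intro r
    rw [← Finset.mul_sum, ← Finset.add_sum_erase _ _ (mem_univ (0 : E)), (nm_zero (0 : E)).2 rfl]
    simp only [map_zero, mul_zero, sub_zero, AddChar.map_zero_eq_one]
    ring
  rw [Finset.sum_congr rfl (fun r _ => k3 r), Finset.sum_sub_distrib, ← Finset.sum_mul, C.g3,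
    zero_mul, sub_zero]

theorem Cus.kk_mul3 (a b c d a' b' c' d' x z : F) (hc : c ≠ 0) (hc' : c' ≠ 0)
    (hD : a * d - b * c ≠ 0) (hD' : a' * d' - b' * c' ≠ 0) (hx : x ≠ 0) (hz : z ≠ 0) :
    ∑ y : Fˣ, C.kk a b c d x y * C.kk a' b' c' d' y z =
      C.kk (a * a' + b * c') (a * b' + b * d') (c * a' + d * c') (c * b' + d * d') x z := by
  rw [C.kk_core a b c d a' b' c' d' x z hc hc' hD hx]
  have hDD : (a * a' + b * c') * (c * b' + d * d') - (a * b' + b * d') * (c * a' + d * c') =
      (a * d - b * c) * (a' * d' - b' * c') := by ring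
  unfold Cus.kk
  by_cases h0 : c * a' + d * c' = 0
  · rw [if_pos h0]
    simp only [h0, zero_div]
    rw [Finset.sum_congr rfl (fun r _ => by rw [C.g5])]
    have ha' : a' = -(d * c') / c := by
      rw [eq_div_iff hc]
      linear_combination h0
    have e1 : a * a' + b * c' = -(c' * (a * d - b * c)) / c := by
      rw [ha']
      field_simp
      ring
    have e2 : c * b' + d * d' = -(c * (a' * d' - b' * c')) / c' := by
      rw [eq_div_iff hc']
      linear_combination d' * h0
    have hm : x * (a * d - b * c) * c' ≠ 0 := mul_ne_zero (mul_ne_zero hx hD) hc'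
    have e3 : ∀ r : E, algebraMap F E c⁻¹ + algebraMap F E (x * (a * d - b * c) * c')⁻¹ * r = 0 ↔
        r = algebraMap F E (x * (a * a' + b * c')) := by
      intro r
      have := alg_ne (E := E) hm
      have := alg_ne (E := E) hc
      have e4 : x * (a * a' + b * c') = -(x * (a * d - b * c) * c') / c := by
        rw [e1]
        ring
      rw [e4, map_div₀, map_neg, map_inv₀, map_inv₀, eq_div_iff this]
      constructor
      · intro h
        field_simp at h
        linear_combination h
      · intro h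
        field_simp
        linear_combination h
    simp only [e3, mul_ite, mul_zero]
    rw [Finset.sum_ite_eq']
    have hd2 : c * b' + d * d' ≠ 0 := by
      rw [e2]
      exact div_ne_zero (neg_ne_zero.2 (mul_ne_zero hc hD')) hc'
    have ha2 : a * a' + b * c' ≠ 0 := by
      rw [e1]
      exact div_ne_zero (neg_ne_zero.2 (mul_ne_zero hc' hD)) hc
    have e5 : (algebraMap F E (x * (a * a' + b * c')) ∈ univ.filter (fun r : E =>
        Algebra.norm F r = x * z * ((a * d - b * c) * (a' * d' - b' * c')))) ↔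
        z * (c * b' + d * d') = x * (a * a' + b * c') := by
      rw [Finset.mem_filter, nm_alg C.rk, ← hDD, h0, mul_zero, sub_zero]
      simp only [mem_univ, true_and]
      constructor
      · intro h
        apply mul_left_cancel₀ (mul_ne_zero hx ha2)
        linear_combination -h
      · intro h
        linear_combination -(x * (a * a' + b * c')) * h
    by_cases h : z * (c * b' + d * d') = x * (a * a' + b * c')
    · rw [if_pos (e5.2 h), if_pos h, ← h, C.th_alg_mul]
      have e6 : a * x / c + d' * z / c' = x * (a * b' + b * d') / (c * b' + d * d') := by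
        have hz' : z = x * (a * a' + b * c') / (c * b' + d * d') := by
          rw [eq_div_iff hd2, h]
        rw [hz']
        obtain ⟨k, hk⟩ : ∃ k, k = c * b' + d * d' := ⟨_, rfl⟩
        rw [← hk] at hd2 ⊢
        field_simp
        subst hk
        linear_combination (a * d') * h0
      have e7 : C.th (algebraMap F E z⁻¹) * C.th (algebraMap F E z) = 1 := by
        rw [← C.th_alg_mul, inv_mul_cancel₀ hz, map_one, map_one]
      have e8 : C.li ^ 2 * (Fintype.card F : R) ^ 2 = 1 := by
        rw [← mul_pow, C.li_mul, one_pow]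
      rw [e6]
      calc _ = (C.li ^ 2 * (Fintype.card F : R) ^ 2) *
          (C.th (algebraMap F E z⁻¹) * C.th (algebraMap F E z)) *
          (C.th (algebraMap F E (c * b' + d * d')) *
            C.ψ (x * (a * b' + b * d') / (c * b' + d * d'))) := by ring
        _ = _ := by rw [e7, e8, one_mul, one_mul]
    · rw [if_neg (fun h' => h (e5.1 h')), if_neg h, mul_zero]
  · rw [if_neg h0, hDD, Finset.mul_sum, Finset.mul_sum]
    refine Finset.sum_congr rfl fun r hr => ?_
    have hr' := (Finset.mem_filter.1 hr).2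
    have hA : (c * a' + d * c') / (c * c' * x * (a * d - b * c)) ≠ 0 :=
      div_ne_zero h0 (mul_ne_zero (mul_ne_zero (mul_ne_zero hc hc') hx) hD)
    rw [C.g4 _ hA]
    have e1 : (a * x / c + d' * z / c') + -(Algebra.norm F (algebraMap F E c⁻¹ +
        algebraMap F E (x * (a * d - b * c) * c')⁻¹ * r) /
          ((c * a' + d * c') / (c * c' * x * (a * d - b * c)))) =
        ((a * a' + b * c') * x + (c * b' + d * d') * z - Algebra.trace F E r) /
          (c * a' + d * c') := by
      rw [nm_add C.rk, nm_alg C.rk, nm_smul C.rk, AlgHom.commutes, mul_assoc (algebraMap F E _),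
        tr_smul, mul_comm r, tr_smul, hr']
      obtain ⟨D, hDe⟩ : ∃ D, D = a * d - b * c := ⟨_, rfl⟩
      obtain ⟨k, hk⟩ : ∃ k, k = c * a' + d * c' := ⟨_, rfl⟩
      rw [← hDe] at hD ⊢
      rw [← hk] at h0 ⊢
      field_simp
      subst hDe hk
      ring
    have e3 := congrArg C.ψ e1
    rw [AddChar.map_add_eq_mul] at e3
    rw [← e3]
    have e8 := C.li_mul
    linear_combination (-C.li * C.th (algebraMap F E z⁻¹) * C.th r *
      C.ψ (a * x / c + d' * z / c') * C.ψ (-(Algebra.norm F (algebraMap F E c⁻¹ +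
        algebraMap F E (x * (a * d - b * c) * c')⁻¹ * r) /
          ((c * a' + d * c') / (c * c' * x * (a * d - b * c)))))) * e8

theorem Cus.kk_mul (a b c d a' b' c' d' x z : F)
    (hD : a * d - b * c ≠ 0) (hD' : a' * d' - b' * c' ≠ 0) (hx : x ≠ 0) (hz : z ≠ 0) :
    ∑ y : Fˣ, C.kk a b c d x y * C.kk a' b' c' d' y z =
      C.kk (a * a' + b * c') (a * b' + b * d') (c * a' + d * c') (c * b' + d * d') x z := by
  by_cases hc : c = 0
  · subst hc
    rw [mul_zero, sub_zero] at hD
    exact C.kk_mul1 a b d a' b' c' d' x z (left_ne_zero_of_mul hD) (right_ne_zero_of_mul hD) hx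
  · by_cases hc' : c' = 0
    · subst hc'
      rw [mul_zero, sub_zero] at hD'
      exact C.kk_mul2 a b c d a' b' d' x z hc (left_ne_zero_of_mul hD')
        (right_ne_zero_of_mul hD') hz
    · exact C.kk_mul3 a b c d a' b' c' d' x z hc hc' hD hD' hx hz

theorem gl_det (g : GL (Fin 2) F) : g 0 0 * g 1 1 - g 0 1 * g 1 0 ≠ 0 := by
  have h := Matrix.GeneralLinearGroup.det_ne_zero g
  rwa [Matrix.det_fin_two] at h

/-- the cuspidal representation `σ(θ)`, on the functions on `Fˣ` -/
def Cus.sig : GL (Fin 2) F →* Matrix Fˣ Fˣ R where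
  toFun g := Matrix.of fun x y => C.kk (g 0 0) (g 0 1) (g 1 0) (g 1 1) x y
  map_one' := by
    ext x y
    simp [Cus.kk, Matrix.one_apply, Units.ext_iff, eq_comm]
  map_mul' g h := by
    ext x z
    rw [Matrix.mul_apply]
    simp only [Matrix.of_apply]
    rw [C.kk_mul _ _ _ _ _ _ _ _ _ _ (gl_det g) (gl_det h) x.ne_zero z.ne_zero]
    simp [Matrix.mul_apply, Fin.sum_univ_two]

theorem Cus.sig_apply (g : GL (Fin 2) F) (x y : Fˣ) :
    C.sig g x y = C.kk (g 0 0) (g 0 1) (g 1 0) (g 1 1) x y := rfl

/-- the character of `σ(θ)` at a scalar matrix -/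
theorem Cus.tr_scalar (g : GL (Fin 2) F) (h1 : g 1 0 = 0) (h2 : g 0 1 = 0) (h3 : g 0 0 = g 1 1) :
    (C.sig g).trace = ((Fintype.card F : R) - 1) * C.th (algebraMap F E (g 0 0)) := by
  have k : ∀ x : Fˣ, C.sig g x x = C.th (algebraMap F E (g 0 0)) := by
    intro x
    rw [C.sig_apply, Cus.kk, if_pos h1, h2, h3, if_pos rfl]
    simp
  rw [Matrix.trace]
  simp only [Matrix.diag_apply, k]
  rw [Finset.sum_const, Finset.card_univ, Fintype.card_units, nsmul_eq_mul,
    Nat.cast_sub Fintype.card_pos, Nat.cast_one]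

/-- the centre acts by `θ` -/
theorem Cus.sig_scalar (g : GL (Fin 2) F) (h1 : g 1 0 = 0) (h2 : g 0 1 = 0) (h3 : g 0 0 = g 1 1) :
    C.sig g = C.th (algebraMap F E (g 0 0)) • (1 : Matrix Fˣ Fˣ R) := by
  have hd : g 1 1 ≠ 0 := by
    have := gl_det g
    rw [h1, mul_zero, sub_zero] at this
    exact right_ne_zero_of_mul this
  ext x y
  rw [C.sig_apply, Cus.kk, if_pos h1, h2, h3, Matrix.smul_apply, Matrix.one_apply]
  by_cases h : x = y
  · simp [h]
  · rw [if_neg h, if_neg, smul_zero]
    intro e
    exact h (Units.ext (mul_right_cancel₀ hd e).symm)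

/-- the elements of `E` with given norm and trace -/
def eig (E : Type) [Field E] [Algebra F E] [Fintype E] (s n : F) : Finset E :=
  univ.filter (fun u : E => Algebra.norm F u = n ∧ Algebra.trace F E u = s)

theorem mem_eig {s n : F} {u : E} :
    u ∈ eig E s n ↔ Algebra.norm F u = n ∧ Algebra.trace F E u = s := by
  simp [eig]

theorem eig_root (h : Module.finrank F E = 2) {s n : F} {u : E} (hu : u ∈ eig E s n) :
    u ^ 2 - algebraMap F E s * u + algebraMap F E n = 0 := by
  rw [← (mem_eig.1 hu).1, ← (mem_eig.1 hu).2]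
  exact ch_eq h u

theorem eig_split (h : Module.finrank F E = 2) {a d : F} (had : a ≠ d) :
    eig E (a + d) (a * d) = ∅ := by
  rw [Finset.eq_empty_iff_forall_notMem]
  intro u hu
  have h1 := eig_root h hu
  have h2 : (u - algebraMap F E a) * (u - algebraMap F E d) = 0 := by
    rw [← h1, map_add, map_mul]
    ring
  have h3 := (mem_eig.1 hu).2
  have h4 := (mem_eig.1 hu).1
  rcases mul_eq_zero.1 h2 with e | e
  · rw [sub_eq_zero.1 e, tr_alg h] at h3
    exact had (by linear_combination h3)
  · rw [sub_eq_zero.1 e, tr_alg h] at h3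
    exact had (by linear_combination -h3)

theorem eig_par (h : Module.finrank F E = 2) (a : F) :
    eig E (a + a) (a * a) = {algebraMap F E a} := by
  ext u
  rw [Finset.mem_singleton]
  constructor
  · intro hu
    have h1 := eig_root h hu
    have h2 : (u - algebraMap F E a) ^ 2 = 0 := by
      rw [← h1, map_add, map_mul]
      ring
    exact sub_eq_zero.1 (pow_eq_zero_iff two_ne_zero |>.1 h2)
  · rintro rfl
    rw [mem_eig, nm_alg h, tr_alg h]
    exact ⟨by ring, by ring⟩

theorem eig_ell (h : Module.finrank F E = 2) (u : E) :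
    eig E (Algebra.trace F E u) (Algebra.norm F u) = {u, cj F u} := by
  ext v
  rw [Finset.mem_insert, Finset.mem_singleton]
  constructor
  · intro hv
    have h1 := eig_root h hv
    have h2 : (v - u) * (v - cj F u) = 0 := by
      rw [← h1, nm_eq h, tr_eq h]
      ring
    rcases mul_eq_zero.1 h2 with e | e
    · exact Or.inl (sub_eq_zero.1 e)
    · exact Or.inr (sub_eq_zero.1 e)
  · rintro (rfl | rfl)
    · exact mem_eig.2 ⟨rfl, rfl⟩
    · exact mem_eig.2 ⟨nm_cj h u, tr_cj h u⟩

/-- the character of `σ(θ)` at a non scalar matrix -/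
theorem Cus.tr_sig (g : GL (Fin 2) F) (hg : ¬ (g 1 0 = 0 ∧ g 0 1 = 0 ∧ g 0 0 = g 1 1)) :
    (C.sig g).trace =
      -∑ u ∈ eig E (g 0 0 + g 1 1) (g 0 0 * g 1 1 - g 0 1 * g 1 0), C.th u := by
  have hD := gl_det g
  rw [Matrix.trace]
  simp only [Matrix.diag_apply, C.sig_apply]
  generalize g 0 0 = a at *
  generalize g 0 1 = b at *
  generalize g 1 0 = c at *
  generalize g 1 1 = d at *
  unfold Cus.kk
  by_cases hc : c = 0
  · subst hc
    simp only [if_true, mul_zero, sub_zero] at hD ⊢
    by_cases had : a = d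
    · subst had
      have hb : b ≠ 0 := fun e => hg ⟨rfl, e, rfl⟩
      have ha : a ≠ 0 := left_ne_zero_of_mul hD
      simp only [if_true]
      rw [eig_par C.rk, Finset.sum_singleton, ← Finset.mul_sum]
      have := C.sum_ψ_units (b / a)
      rw [if_neg (div_ne_zero hb ha)] at this
      rw [Finset.sum_congr rfl (fun (x : Fˣ) _ => by
        rw [show (x : F) * b / a = b / a * x by ring]), this]
      ring
    · rw [eig_split C.rk had, Finset.sum_empty, neg_zero]
      refine Finset.sum_eq_zero fun x _ => if_neg fun e => had ?_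
      exact (mul_left_cancel₀ x.ne_zero e).symm
  · simp only [if_neg hc]
    have k : ∀ x : Fˣ, -C.li * C.th (algebraMap F E (x : F)⁻¹) *
        ∑ u ∈ univ.filter (fun u : E => Algebra.norm F u = x * x * (a * d - b * c)),
          C.th u * C.ψ ((a * x + d * x - Algebra.trace F E u) / c) =
        -C.li * ∑ u ∈ univ.filter (fun u : E => Algebra.norm F u = a * d - b * c),
          C.th u * C.ψ ((a + d - Algebra.trace F E u) / c * x) := by
      intro x
      have e : (x : F) * x * (a * d - b * c) =
          Algebra.norm F (algebraMap F E x) * (a * d - b * c) := by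
        rw [nm_alg C.rk, pow_two]
      rw [e, sum_fib _ (alg_ne x.ne_zero), mul_assoc, Finset.mul_sum]
      congr 1
      refine Finset.sum_congr rfl fun u _ => ?_
      rw [map_mul, tr_smul, ← mul_assoc, ← mul_assoc, ← C.th_alg_mul, inv_mul_cancel₀ x.ne_zero,
        map_one, map_one, one_mul]
      congr 2
      ring
    rw [Finset.sum_congr rfl (fun x _ => k x), ← Finset.mul_sum, Finset.sum_comm]
    simp only [← Finset.mul_sum, C.sum_ψ_units, mul_sub, mul_one]
    rw [Finset.sum_sub_distrib, C.g3, sub_zero, eig, ← Finset.filter_filter, Finset.sum_filter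
      (p := fun u : E => Algebra.trace F E u = a + d), Finset.mul_sum, ← Finset.sum_neg_distrib]
    refine Finset.sum_congr rfl fun u _ => ?_
    by_cases h : Algebra.trace F E u = a + d
    · rw [if_pos h, if_pos (by rw [h, sub_self, zero_div])]
      linear_combination (-C.th u) * C.li_mul
    · rw [if_neg h, if_neg]
      · simp
      · intro e
        rcases div_eq_zero_iff.1 e with e | e
        · exact h (sub_eq_zero.1 e).symm
        · exact hc e

/-- split elements -/
theorem Cus.tr_split (g : GL (Fin 2) F) {a d : F} (had : a ≠ d) (h1 : g 0 0 + g 1 1 = a + d)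
    (h2 : g 0 0 * g 1 1 - g 0 1 * g 1 0 = a * d) : (C.sig g).trace = 0 := by
  rw [C.tr_sig g, h1, h2, eig_split C.rk had, Finset.sum_empty, neg_zero]
  rintro ⟨e1, e2, e3⟩
  rw [e1, mul_zero, sub_zero, e3] at h2
  rw [e3] at h1
  have : (a - d) ^ 2 = 0 := by
    linear_combination (-(a + d) - 2 * g 1 1) * h1 + 4 * h2
  exact had (sub_eq_zero.1 (pow_eq_zero_iff two_ne_zero |>.1 this))

/-- non semisimple elements -/
theorem Cus.tr_par (g : GL (Fin 2) F) (hg : ¬ (g 1 0 = 0 ∧ g 0 1 = 0 ∧ g 0 0 = g 1 1)) {a : F}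
    (h1 : g 0 0 + g 1 1 = a + a) (h2 : g 0 0 * g 1 1 - g 0 1 * g 1 0 = a * a) :
    (C.sig g).trace = -C.th (algebraMap F E a) := by
  rw [C.tr_sig g hg, h1, h2, eig_par C.rk, Finset.sum_singleton]

/-- elliptic elements -/
theorem Cus.tr_ell (g : GL (Fin 2) F) {u : E} (hu : cj F u ≠ u)
    (h1 : g 0 0 + g 1 1 = Algebra.trace F E u)
    (h2 : g 0 0 * g 1 1 - g 0 1 * g 1 0 = Algebra.norm F u) :
    (C.sig g).trace = -(C.th u + C.th (cj F u)) := by
  rw [C.tr_sig g, h1, h2, eig_ell C.rk, Finset.sum_pair hu.symm]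
  rintro ⟨e1, e2, e3⟩
  rw [e1, mul_zero, sub_zero, e3] at h2
  rw [e3] at h1
  have h3 := eig_par (E := E) C.rk (g 1 1)
  rw [h1, h2, eig_ell C.rk] at h3
  have a1 : u ∈ ({algebraMap F E (g 1 1)} : Finset E) := h3 ▸ Finset.mem_insert_self _ _
  have a2 : cj F u ∈ ({algebraMap F E (g 1 1)} : Finset E) :=
    h3 ▸ Finset.mem_insert_of_mem (Finset.mem_singleton_self _)
  exact hu ((Finset.mem_singleton.1 a2).trans (Finset.mem_singleton.1 a1).symm)

/-- base change of the data -/
def Cus.map {R' : Type} [CommRing R'] (f : R →+* R') : Cus F E R' where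
  rk := C.rk
  ψ := f.toMonoidHom.compAddChar C.ψ
  li := f C.li
  li_mul := by rw [← map_natCast f, ← map_mul, C.li_mul, map_one]
  orth c hc := by
    have := congrArg f (C.orth c hc)
    rw [map_sum, map_zero] at this
    exact this
  th := C.th.ringHomComp f
  th0 := by
    have := congrArg f C.th0
    rw [map_sum, map_zero] at this
    exact this

theorem Cus.sig_map {R' : Type} [CommRing R'] (f : R →+* R') (g : GL (Fin 2) F) :
    (C.map f).sig g = (C.sig g).map f := by
  ext x y
  rw [Matrix.map_apply, Cus.sig_apply, Cus.sig_apply]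
  unfold Cus.kk
  split_ifs
  · rw [map_mul]
    rfl
  · rw [map_zero]
  · rw [map_mul, map_mul, map_neg, map_sum]
    simp only [map_mul]
    rfl

/-- the sum of a character over the norm one group vanishes as soon as `θ u - 1` is not a zero
divisor for some `u` of norm one -/
theorem th0_of (th : MulChar E R) (u : E) (hu : Algebra.norm F u = 1)
    (h : ∀ r : R, (th u - 1) * r = 0 → r = 0) :
    ∑ v ∈ univ.filter (fun v : E => Algebra.norm F v = 1), th v = 0 := by
  have hu0 : u ≠ 0 := fun e => by
    rw [(nm_zero u).2 e] at hu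
    exact zero_ne_one hu
  have := sum_fib (F := F) u hu0 1 (fun v => th v)
  rw [hu, mul_one] at this
  apply h
  simp only [map_mul] at this
  rw [← Finset.mul_sum] at this
  linear_combination -this

theorem orth_of (ψ : AddChar F R) (h : ∀ x : F, x ≠ 0 → ∃ y : F, ∀ r : R, (ψ (x * y) - 1) * r = 0 → r = 0)
    (c : F) (hc : c ≠ 0) : ∑ x : F, ψ (c * x) = 0 := by
  obtain ⟨y, hy⟩ := h c hc
  apply hy
  have : ∑ x : F, ψ (c * x) = ψ (c * y) * ∑ x : F, ψ (c * x) := by
    rw [Finset.mul_sum]
    refine (Fintype.sum_equiv (Equiv.addLeft y) _ _ ?_).symm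
    intro x
    rw [Equiv.coe_addLeft, mul_add, AddChar.map_add_eq_mul]
  linear_combination -this

/-- the mirabolic element `[a b; 0 1]` -/
def mir (a : Fˣ) (b : F) : GL (Fin 2) F :=
  Matrix.GeneralLinearGroup.mkOfDetNeZero !![(a : F), b; 0, 1] (by simp [Matrix.det_fin_two])

theorem Cus.sig_mir (a : Fˣ) (b : F) (x y : Fˣ) :
    C.sig (mir a b) x y = if y = x * a then C.ψ (x * b) else 0 := by
  rw [C.sig_apply]
  have e1 : mir a b 0 0 = a := rfl
  have e2 : mir a b 0 1 = b := rfl
  have e3 : mir a b 1 0 = 0 := rfl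
  have e4 : mir a b 1 1 = 1 := rfl
  rw [e1, e2, e3, e4, Cus.kk, if_pos rfl]
  simp [Units.ext_iff]

/-- the matrix units are combinations of mirabolic elements -/
theorem Cus.single_eq (x y : Fˣ) : Matrix.single x y (1 : R) =
    ∑ b : F, (C.li * C.ψ (-(x * b))) • C.sig (mir (x⁻¹ * y) b) := by
  ext i j
  rw [Matrix.sum_apply]
  simp only [Matrix.smul_apply, C.sig_mir, smul_eq_mul]
  by_cases h : j = i * (x⁻¹ * y)
  · simp only [if_pos h, mul_assoc, ← AddChar.map_add_eq_mul]
    rw [← Finset.mul_sum, Finset.sum_congr rfl (fun (b : F) _ => by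
      rw [show -((x : F) * b) + i * b = (i - x) * b by ring]), C.sum_ψ]
    by_cases hi : i = x
    · subst hi
      rw [mul_inv_cancel_left] at h
      subst h
      simp [C.li_mul]
    · rw [if_neg (fun e => hi (Units.ext (sub_eq_zero.1 e))), mul_zero,
        Matrix.single_apply_of_row_ne (Ne.symm hi)]
  · simp only [if_neg h, mul_zero, Finset.sum_const_zero]
    apply Matrix.single_apply_of_ne
    rintro ⟨rfl, rfl⟩
    exact h (by rw [mul_inv_cancel_left])

/-- the image of `σ(θ)` spans the matrix algebra -/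
theorem Cus.sig_span : Submodule.span R (Set.range C.sig) = ⊤ := by
  rw [eq_top_iff]
  intro M _
  rw [Matrix.matrix_eq_sum_single M]
  refine Submodule.sum_mem _ fun x _ => Submodule.sum_mem _ fun y _ => ?_
  have : Matrix.single x y (M x y) = M x y • Matrix.single x y (1 : R) := by
    rw [Matrix.smul_single, smul_eq_mul, mul_one]
  rw [this, C.single_eq]
  exact Submodule.smul_mem _ _ (Submodule.sum_mem _ fun b _ =>
    Submodule.smul_mem _ _ (Submodule.subset_span ⟨_, rfl⟩))

end gauss

end Vale.Agent.P022K.CH
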