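import Mathlib.RepresentationTheory.Character
import Mathlib.Algebra.Module.Projective
import Mathlib.RingTheory.LocalRing.MaximalIdeal.Basic
import Mathlib.RingTheory.Ideal.GoingUp
import Mathlib.NumberTheory.Padics.PadicVal.Basic
import Mathlib.FieldTheory.Finite.Basic
import Mathlib.RingTheory.TensorProduct.Free
import Mathlib.RingTheory.Localization.FractionRing
import Mathlib.RingTheory.Finiteness.Finsupp
import Mathlib.RingTheory.Flat.Basic
import Mathlib.Algebra.CharP.Algebra

/-!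
P022K, block CH, row LEV: traces on projective modules over a group algebra in residue
characteristic two, and level control.
-/

set_option linter.all false

noncomputable section

namespace Vale.Agent.P022K.CH

open Classical Finset TensorProduct

/-- the exponent which sends an element to its part of odd order -/
theorem ex_odd_part (N : ℕ) (hN : N ≠ 0) :
    ∃ a m j : ℕ, Odd m ∧ N ∣ m * (j + 1) ∧ N ∣ j * 2 ^ a := by
  obtain ⟨a, m, hm, e⟩ := Nat.exists_eq_two_pow_mul_odd hN
  have hc : Nat.Coprime (2 ^ a) m := (Nat.coprime_two_left.2 hm).pow_left a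
  have h1 := Nat.ModEq.pow_totient hc
  have h2 : 0 < (2 ^ a) ^ m.totient := by positivity
  obtain ⟨j, hj⟩ : ∃ j, (2 ^ a) ^ m.totient = j + 1 := ⟨_, (Nat.succ_pred_eq_of_pos h2).symm⟩
  have h3 : m ∣ j := by
    rw [hj] at h1
    have := (Nat.modEq_iff_dvd' (by omega)).1 h1.symm
    simpa using this
  refine ⟨a, m, j, hm, ?_, ?_⟩
  · rw [e, ← hj, mul_comm]
    exact Nat.mul_dvd_mul_left m (dvd_pow_self _ (Nat.totient_pos.2 hm.pos).ne')
  · rw [e, mul_comm]
    exact Nat.mul_dvd_mul_right h3 _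

theorem eq_one_of_odd_two {M : Type*} [Monoid M] {x : M} {m a : ℕ} (hm : Odd m) (h1 : x ^ m = 1)
    (h2 : x ^ 2 ^ a = 1) : x = 1 := by
  have hc : Nat.Coprime m (2 ^ a) := (Nat.coprime_two_right.2 hm).pow_right a
  have := pow_gcd_eq_one.2 ⟨h1, h2⟩
  rwa [hc.gcd_eq_one, pow_one] at this

theorem sum_coset {Γ M : Type*} [Group Γ] [Fintype Γ] [AddCommMonoid M] (H : Subgroup Γ)
    (f : Γ → M) : ∑ g, f g = ∑ q : Γ ⧸ H, ∑ c : H, f (q.out * c) := by
  rw [← Fintype.sum_prod_type' (fun (q : Γ ⧸ H) (c : H) => f (q.out * c))]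
  symm
  refine Fintype.sum_bijective (fun p : (Γ ⧸ H) × H => p.1.out * (p.2 : Γ)) ⟨?_, ?_⟩ _ _
    (fun _ => rfl)
  · rintro ⟨q, c⟩ ⟨q', c'⟩ e
    have e' : q.out * (c : Γ) = q'.out * c' := e
    have h : q = q' := by
      have := congrArg (QuotientGroup.mk (s := H)) e'
      rwa [QuotientGroup.mk_mul_of_mem _ c.2, QuotientGroup.mk_mul_of_mem _ c'.2,
        QuotientGroup.out_eq', QuotientGroup.out_eq'] at this
    subst h
    exact Prod.ext rfl (Subtype.ext (mul_left_cancel e'))
  · intro g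
    obtain ⟨h, e⟩ := QuotientGroup.mk_out_eq_mul H g
    refine ⟨(QuotientGroup.mk g, h⁻¹), ?_⟩
    show (QuotientGroup.mk g : Γ ⧸ H).out * ((h⁻¹ : H) : Γ) = g
    rw [e, Subgroup.coe_inv, mul_inv_cancel_right]

/-- Higman's condition passes to subgroups -/
theorem hig_sub {Γ A : Type*} [Group Γ] [Fintype Γ] [Ring A] (ρ : Γ →* A) (η : A)
    (h : ∑ g, ρ g * η * ρ g⁻¹ = 1) (H : Subgroup Γ) :
    ∃ η' : A, ∑ c : H, ρ c * η' * ρ (c⁻¹ : H) = 1 := by
  refine ⟨∑ q : Γ ⧸ H, ρ q.out⁻¹ * η * ρ q.out, ?_⟩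
  rw [← h, ← Equiv.sum_comp (Equiv.inv Γ), sum_coset H, Finset.sum_comm,
    ← Equiv.sum_comp (Equiv.inv H)]
  refine Finset.sum_congr rfl fun c _ => ?_
  rw [Finset.mul_sum, Finset.sum_mul]
  refine Finset.sum_congr rfl fun q _ => ?_
  simp only [Equiv.inv_apply, inv_inv, mul_inv_rev, map_mul, Subgroup.coe_inv, mul_assoc]

section van

variable {O : Type*} [CommRing O] [IsLocalRing O] {n : Type*} [Fintype n] [DecidableEq n]

theorem van_comm (h2 : ¬ IsUnit (2 : O)) {C : Type*} [CommGroup C] [Fintype C]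
    (ρ : C →* Matrix n n O) (η : Matrix n n O) (h : ∑ c, ρ c * η * ρ c⁻¹ = 1) (g : C)
    (hg : Even (orderOf g)) : (ρ g).trace = 0 := by
  obtain ⟨a, m, j, hm, d1, d2⟩ := ex_odd_part (Fintype.card C) Fintype.card_ne_zero
  let B := MonoidAlgebra O C
  let ι : O →+* B := algebraMap O B
  let e : Matrix n n B := ∑ c, (MonoidAlgebra.single c 1 : B) • (η * ρ c⁻¹).map ι
  have h' : ∑ c, ρ c⁻¹ * η * ρ c = 1 := by
    rw [← h, ← Equiv.sum_comp (Equiv.inv C)]
    simp only [Equiv.inv_apply, inv_inv]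
  have he : e * e = e := by
    have k : ∀ c : C, ((MonoidAlgebra.single c 1 : B) • (η * ρ c⁻¹).map ι) * e =
        ∑ d, (MonoidAlgebra.single d 1 : B) • (η * (ρ c⁻¹ * η * ρ c) * ρ d⁻¹).map ι := by
      intro c
      rw [Finset.mul_sum]
      refine Fintype.sum_equiv (Equiv.mulLeft c) _ _ fun d => ?_
      rw [Equiv.coe_mulLeft, Matrix.smul_mul, Matrix.mul_smul, smul_smul,
        MonoidAlgebra.single_mul_single, one_mul, ← Matrix.map_mul]
      congr 2
      have : ρ d⁻¹ = ρ c * ρ (c * d)⁻¹ := by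
        rw [← map_mul, mul_inv, mul_inv_cancel_left]
      rw [this]
      simp only [mul_assoc]
    conv_lhs => rw [show e * e = (∑ c, (MonoidAlgebra.single c 1 : B) • (η * ρ c⁻¹).map ι) * e
      from rfl]
    rw [Finset.sum_mul, Finset.sum_congr rfl (fun c _ => k c), Finset.sum_comm]
    refine Finset.sum_congr rfl fun d _ => ?_
    rw [← Finset.smul_sum]
    congr 1
    have : ∀ c : C, (η * (ρ c⁻¹ * η * ρ c) * ρ d⁻¹).map ι =
        ι.mapMatrix (η * (ρ c⁻¹ * η * ρ c) * ρ d⁻¹) := fun c => rfl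
    simp only [this]
    rw [← map_sum, ← Finset.sum_mul, ← Finset.mul_sum, h', mul_one]
    rfl
  let au : B →+* B := MonoidAlgebra.mapDomainRingHom O (powMonoidHom (j + 1) : C →* C)
  have hau : ∀ (c : C) (r : O), au (MonoidAlgebra.single c r) =
      MonoidAlgebra.single (c ^ (j + 1)) r := fun c r => MonoidAlgebra.mapDomain_single
  let e0 : Matrix n n B := au.mapMatrix e
  have he0 : e0 * e0 = e0 := by rw [← map_mul, he]
  let u : Matrix n n B := e * e0 + (1 - e) * (1 - e0)
  have hu : IsUnit u.det := by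
    by_contra hn
    obtain ⟨I, hI, hle⟩ := exists_max_ideal_of_mem_nonunits hn
    let φ : B →+* B ⧸ I := Ideal.Quotient.mk I
    letI : Field (B ⧸ I) := Ideal.Quotient.field I
    have h2I : (2 : B ⧸ I) = 0 := by
      have hmax : (I.comap (algebraMap O B)).IsMaximal :=
        Ideal.isMaximal_comap_of_isIntegral_of_isMaximal I
      have := IsLocalRing.eq_maximalIdeal hmax
      have h3 : (2 : O) ∈ I.comap (algebraMap O B) := by
        rw [this]
        exact h2
      have h4 := Ideal.Quotient.eq_zero_iff_mem.2 (Ideal.mem_comap.1 h3)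
      rwa [map_ofNat, map_ofNat] at h4
    haveI : CharP (B ⧸ I) 2 := CharTwo.of_one_ne_zero_of_two_eq_zero one_ne_zero h2I
    have hφ : φ.comp au = φ := by
      have k : ∀ c : C, φ (MonoidAlgebra.single (c ^ (j + 1)) 1) = φ (MonoidAlgebra.single c 1) := by
        intro c
        have k1 : φ (MonoidAlgebra.single (c ^ j) 1) ^ 2 ^ a = 1 := by
          rw [← map_pow, MonoidAlgebra.single_pow, one_pow, ← pow_mul]
          obtain ⟨t, ht⟩ := d2
          rw [ht, pow_mul, pow_card_eq_one, one_pow]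
          exact map_one φ
        have k2 : φ (MonoidAlgebra.single (c ^ j) 1) = 1 := by
          have := sub_pow_char_pow (φ (MonoidAlgebra.single (c ^ j) 1)) 1 a
          rw [k1, one_pow, sub_self] at this
          exact sub_eq_zero.1 (pow_eq_zero_iff (by positivity) |>.1 this)
        rw [pow_succ, ← one_mul (1 : O), ← MonoidAlgebra.single_mul_single, map_mul, k2, one_mul,
          one_mul]
      refine MonoidAlgebra.ringHom_ext (fun r => ?_) (fun c => ?_)
      · rw [RingHom.comp_apply, hau, one_pow]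
      · rw [RingHom.comp_apply, hau, k]
    have k0 : φ.mapMatrix e0 = φ.mapMatrix e := by
      ext i i'
      exact RingHom.congr_fun hφ (e i i')
    have k1 : φ.mapMatrix u = 1 := by
      have := congrArg φ.mapMatrix he
      rw [map_mul] at this
      simp only [u, map_add, map_mul, map_sub, map_one, k0]
      rw [sub_mul, mul_sub, mul_sub, this]
      simp
    have k2 : φ u.det = 1 := by rw [RingHom.map_det, k1, Matrix.det_one]
    rw [Ideal.Quotient.eq_zero_iff_mem.2 hle] at k2
    exact zero_ne_one k2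
  have hcomm : e * u = u * e0 := by
    have a1 : e * (1 - e) = 0 := by rw [mul_sub, he, mul_one, sub_self]
    have a2 : (1 - e0) * e0 = 0 := by rw [sub_mul, he0, one_mul, sub_self]
    show e * (e * e0 + (1 - e) * (1 - e0)) = (e * e0 + (1 - e) * (1 - e0)) * e0
    rw [mul_add, add_mul, ← mul_assoc e e, he, ← mul_assoc e (1 - e), a1, mul_assoc e e0, he0,
      mul_assoc (1 - e), a2, zero_mul, mul_zero]
  have htr : e.trace = e0.trace := by
    have hu' := Matrix.mul_nonsing_inv u hu
    have hu'' := Matrix.nonsing_inv_mul u hu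
    calc e.trace = (e * u * u⁻¹).trace := by rw [mul_assoc, hu', mul_one]
      _ = e0.trace := by rw [hcomm, Matrix.trace_mul_cycle, hu'', one_mul]
  have t1 : e.trace = ∑ c, MonoidAlgebra.single c (η * ρ c⁻¹).trace := by
    rw [Matrix.trace_sum]
    refine Finset.sum_congr rfl fun c _ => ?_
    rw [Matrix.trace_smul, ← AddMonoidHom.map_trace, smul_eq_mul]
    show MonoidAlgebra.single c 1 * MonoidAlgebra.single 1 _ = _
    rw [MonoidAlgebra.single_mul_single, mul_one, one_mul]
    rfl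
  have t2 : e0.trace = ∑ c, MonoidAlgebra.single (c ^ (j + 1)) (η * ρ c⁻¹).trace := by
    have : e0.trace = au e.trace := (AddMonoidHom.map_trace au e).symm
    rw [this, t1, map_sum]
    exact Finset.sum_congr rfl fun c _ => hau c _
  have t3 : (η * ρ g).trace = 0 := by
    have := congrArg (fun x : B => x.coeff g⁻¹) (t1.symm.trans (htr.trans t2))
    simp only [MonoidAlgebra.coeff_sum, Finsupp.finset_sum_apply,
      MonoidAlgebra.coeff_single_apply] at this
    rw [Finset.sum_ite_eq' , if_pos (mem_univ _), inv_inv] at this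
    rw [this]
    refine Finset.sum_eq_zero fun c _ => if_neg fun ec => ?_
    have : g ^ m = 1 := by
      rw [← inv_inj, ← inv_pow, ← ec, ← pow_mul, mul_comm, inv_one]
      obtain ⟨t, ht⟩ := d1
      rw [ht, pow_mul, pow_card_eq_one, one_pow]
    have := Odd.of_dvd_nat hm (orderOf_dvd_of_pow_eq_one this)
    exact (Nat.not_even_iff_odd.2 this) hg
  rw [← mul_one (ρ g), ← h, Finset.mul_sum, Matrix.trace_sum]
  refine Finset.sum_eq_zero fun c _ => ?_
  rw [← mul_assoc, ← mul_assoc, Matrix.trace_mul_cycle, ← mul_assoc, ← map_mul, ← map_mul,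
    Matrix.trace_mul_comm, mul_right_comm, inv_mul_cancel, one_mul, t3]

theorem van_mat (h2 : ¬ IsUnit (2 : O)) {Γ : Type*} [Group Γ] [Fintype Γ]
    (ρ : Γ →* Matrix n n O) (η : Matrix n n O) (h : ∑ c, ρ c * η * ρ c⁻¹ = 1) (g : Γ)
    (hg : Even (orderOf g)) : (ρ g).trace = 0 := by
  obtain ⟨η', h'⟩ := hig_sub ρ η h (Subgroup.zpowers g)
  letI : CommGroup (Subgroup.zpowers g) :=
    { (inferInstance : Group (Subgroup.zpowers g)) with
      mul_comm := by
        rintro ⟨_, a, rfl⟩ ⟨_, b, rfl⟩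
        exact Subtype.ext (zpow_mul_comm g a b) }
  exact van_comm h2 (ρ.comp (Subgroup.zpowers g).subtype) η' h' ⟨g, Subgroup.mem_zpowers g⟩
    (by rwa [← Subgroup.orderOf_coe])

end van

section hig

variable {O : Type*} [CommRing O] {Γ : Type*} [Group Γ] [Fintype Γ]
variable {P : Type*} [AddCommGroup P] [Module O P]

/-- Higman's condition -/
def Hig (ρ : Representation O Γ P) : Prop :=
  ∃ η : Module.End O P, ∑ g, ρ g * η * ρ g⁻¹ = 1

theorem Hig.sub {ρ : Representation O Γ P} (h : Hig ρ) (H : Subgroup Γ) :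
    Hig (O := O) (P := P) (ρ.comp H.subtype) := by
  obtain ⟨η, h⟩ := h
  exact hig_sub ρ η h H

theorem Hig.comp {ρ : Representation O Γ P} (h : Hig ρ) {Δ : Type*} [Group Δ] [Fintype Δ]
    (f : Δ →* Γ) (hf : Function.Injective f) : Hig (O := O) (P := P) (ρ.comp f) := by
  obtain ⟨η, h⟩ := h.sub f.range
  refine ⟨η, ?_⟩
  rw [← h]
  refine Finset.sum_bij (fun x _ => (⟨f x, x, rfl⟩ : f.range)) (fun _ _ => @Finset.mem_univ _ (_) _)
    (fun a _ b _ e => hf (congrArg Subtype.val e)) ?_ ?_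
  · rintro ⟨_, x, rfl⟩ _
    exact ⟨x, Finset.mem_univ _, rfl⟩
  · intro x _
    simp

/-- direct summands -/
theorem Hig.summand {ρ : Representation O Γ P} (h : Hig ρ) {P' : Type*} [AddCommGroup P']
    [Module O P'] (ρ' : Representation O Γ P') (i : P' →ₗ[O] P) (p : P →ₗ[O] P')
    (hi : ∀ g x, i (ρ' g x) = ρ g (i x)) (hp : ∀ g x, p (ρ g x) = ρ' g (p x))
    (hpi : ∀ x, p (i x) = x) : Hig ρ' := by
  obtain ⟨η, h⟩ := h
  refine ⟨p ∘ₗ η ∘ₗ i, ?_⟩
  ext x
  have := congrArg p (LinearMap.congr_fun h (i x))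
  rw [Module.End.one_apply, hpi, LinearMap.sum_apply, map_sum] at this
  rw [Module.End.one_apply, LinearMap.sum_apply]
  refine Eq.trans ?_ this
  refine Finset.sum_congr rfl fun g _ => ?_
  simp only [Module.End.mul_apply, LinearMap.comp_apply, hi, hp]

/-- projective modules over the group algebra satisfy Higman's condition -/
theorem hig_of_proj [Module (MonoidAlgebra O Γ) P] [IsScalarTower O (MonoidAlgebra O Γ) P]
    [Module.Projective (MonoidAlgebra O Γ) P] (ρ : Representation O Γ P)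
    (hρ : ∀ g x, ρ g x = (MonoidAlgebra.single g 1 : MonoidAlgebra O Γ) • x) : Hig ρ := by
  obtain ⟨s, hs⟩ := Module.projective_def.1 (inferInstance :
    Module.Projective (MonoidAlgebra O Γ) P)
  let c1 : MonoidAlgebra O Γ →ₗ[O] O :=
    { toFun := fun a => a.coeff 1
      map_add' := fun a b => by simp
      map_smul' := fun r a => by simp }
  let L : (P →₀ MonoidAlgebra O Γ) →ₗ[O] P :=
    Finsupp.lsum O fun p => LinearMap.toSpanSingleton O P p ∘ₗ c1
  have hL : ∀ p a, L (Finsupp.single p a) = a.coeff 1 • p := fun p a => by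
    simp only [L, Finsupp.lsum_single]
    rfl
  have k : ∀ f : P →₀ MonoidAlgebra O Γ,
      ∑ g, ρ g (L ((MonoidAlgebra.single g⁻¹ 1 : MonoidAlgebra O Γ) • f)) =
        Finsupp.linearCombination (MonoidAlgebra O Γ) id f := by
    intro f
    induction f using Finsupp.induction_linear with
    | zero => simp
    | add f f' h h' => simp only [smul_add, map_add, Finset.sum_add_distrib, h, h']
    | single p a =>
      have ea : a = ∑ g, a.coeff g • (MonoidAlgebra.single g 1 : MonoidAlgebra O Γ) := by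
        ext g
        simp [MonoidAlgebra.coeff_sum, Finsupp.finset_sum_apply, Finsupp.single_apply]
      rw [Finsupp.linearCombination_single, id]
      conv_rhs => rw [ea, Finset.sum_smul]
      refine Finset.sum_congr rfl fun g _ => ?_
      rw [Finsupp.smul_single, hL, smul_eq_mul, MonoidAlgebra.coeff_single_mul_apply, inv_inv,
        mul_one, one_mul, map_smul, hρ, smul_assoc]
  refine ⟨L ∘ₗ s.restrictScalars O, ?_⟩
  ext x
  rw [LinearMap.sum_apply, Module.End.one_apply]
  conv_rhs => rw [← hs x, ← k]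
  refine Finset.sum_congr rfl fun g _ => ?_
  simp only [Module.End.mul_apply, LinearMap.comp_apply, LinearMap.restrictScalars_apply]
  rw [hρ g⁻¹, map_smul]

/-- the trace of an element of even order vanishes -/
theorem Hig.van [IsLocalRing O] (h2 : ¬ IsUnit (2 : O)) [Module.Free O P] [Module.Finite O P]
    {ρ : Representation O Γ P} (h : Hig ρ) (g : Γ) (hg : Even (orderOf g)) :
    LinearMap.trace O P (ρ g) = 0 := by
  obtain ⟨η, h⟩ := h
  let b := Module.Free.chooseBasis O P
  let T := LinearMap.toMatrixAlgEquiv b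
  rw [LinearMap.trace_eq_matrix_trace O b]
  refine van_mat h2 (T.toRingEquiv.toRingHom.toMonoidHom.comp ρ) (T η) ?_ g hg
  have := congrArg T h
  rw [map_sum, map_one] at this
  rw [← this]
  refine Finset.sum_congr rfl fun c _ => ?_
  rw [map_mul, map_mul]
  rfl

/-- base change of a representation -/
def bc (K : Type*) [CommRing K] [Algebra O K] (ρ : Representation O Γ P) :
    Representation K Γ (K ⊗[O] P) where
  toFun g := (ρ g).baseChange K
  map_one' := by rw [map_one, LinearMap.baseChange_one]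
  map_mul' g h := by rw [map_mul, LinearMap.baseChange_mul]

theorem bc_apply (K : Type*) [CommRing K] [Algebra O K] (ρ : Representation O Γ P) (g : Γ) :
    bc K ρ g = (ρ g).baseChange K := rfl

theorem Hig.van_bc [IsLocalRing O] (h2 : ¬ IsUnit (2 : O)) [Module.Free O P] [Module.Finite O P]
    {ρ : Representation O Γ P} (h : Hig ρ) (K : Type*) [CommRing K] [Algebra O K] (g : Γ)
    (hg : Even (orderOf g)) : LinearMap.trace K _ (bc K ρ g) = 0 := by
  rw [bc_apply, LinearMap.trace_baseChange, h.van h2 g hg, map_zero]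

end hig

section lv

variable {R : Type*} [CommRing R] {Γ : Type*} [Group Γ]

/-- on the elements of odd order `χ` is an integral combination of translates of the indicator
function of `H` -/
def LvT (H : Subgroup Γ) (χ : Γ → R) : Prop :=
  ∃ (ι : Type) (_ : Fintype ι) (x y : ι → Γ) (c : ι → ℤ), ∀ g, Odd (orderOf g) →
    χ g = ∑ i, if x i * g * y i ∈ H then (c i : R) else 0

theorem LvT.congr {H : Subgroup Γ} {χ χ' : Γ → R} (h : LvT H χ)
    (e : ∀ g, Odd (orderOf g) → χ' g = χ g) : LvT H χ' := by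
  obtain ⟨ι, _, x, y, c, h⟩ := h
  exact ⟨ι, inferInstance, x, y, c, fun g hg => (e g hg).trans (h g hg)⟩

theorem LvT.ring {H : Subgroup Γ} {χ : Γ → R} (h : LvT H χ) {R' : Type*} [CommRing R']
    (f : R →+* R') : LvT H fun g => f (χ g) := by
  obtain ⟨ι, _, x, y, c, h⟩ := h
  refine ⟨ι, inferInstance, x, y, c, fun g hg => ?_⟩
  beta_reduce
  rw [h g hg, map_sum]
  refine Finset.sum_congr rfl fun i _ => ?_
  split_ifs <;> simp

theorem lvT_one : LvT (⊤ : Subgroup Γ) (fun _ => (1 : R)) :=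
  ⟨Unit, inferInstance, fun _ => 1, fun _ => 1, fun _ => 1, fun g _ => by simp⟩

/-- characters of two power order -/
theorem lvT_chi (ξ : Γ →* R) (a : ℕ) (h : ∀ g, ξ g ^ 2 ^ a = 1) : LvT (⊤ : Subgroup Γ) ξ :=
  lvT_one.congr fun g hg =>
    eq_one_of_odd_two hg (by rw [← map_pow, pow_orderOf_eq_one, map_one]) (h g)

theorem LvT.pi {κ : Type} [Fintype κ] {G : κ → Type*} [∀ k, Group (G k)]
    (H : ∀ k, Subgroup (G k)) (χ : ∀ k, G k → R) (h : ∀ k, LvT (H k) (χ k)) :
    LvT (Subgroup.pi Set.univ H) fun g => ∏ k, χ k (g k) := by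
  choose ι hι x y c h using h
  refine ⟨∀ k, ι k, inferInstance, fun p k => x k (p k), fun p k => y k (p k),
    fun p => ∏ k, c k (p k), fun g hg => ?_⟩
  have ho : ∀ k, Odd (orderOf (g k)) := fun k =>
    Odd.of_dvd_nat hg (orderOf_map_dvd (Pi.evalMonoidHom G k) g)
  beta_reduce
  rw [Finset.prod_congr rfl (fun k _ => h k (g k) (ho k)), Finset.prod_univ_sum,
    Fintype.piFinset_univ]
  refine Finset.sum_congr rfl fun p _ => ?_
  rw [Finset.prod_ite_zero, Int.cast_prod]
  simp [Subgroup.mem_pi]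

theorem LvT.prod {Γ' : Type*} [Group Γ'] {H : Subgroup Γ} {H' : Subgroup Γ'} {χ : Γ → R}
    {χ' : Γ' → R} (h : LvT H χ) (h' : LvT H' χ') : LvT (H.prod H') fun g => χ g.1 * χ' g.2 := by
  obtain ⟨ι, _, x, y, c, h⟩ := h
  obtain ⟨ι', _, x', y', c', h'⟩ := h'
  refine ⟨ι × ι', inferInstance, fun p => (x p.1, x' p.2), fun p => (y p.1, y' p.2),
    fun p => c p.1 * c' p.2, fun g hg => ?_⟩
  beta_reduce
  rw [h g.1 (Odd.of_dvd_nat hg (orderOf_map_dvd (MonoidHom.fst Γ Γ') g)),
    h' g.2 (Odd.of_dvd_nat hg (orderOf_map_dvd (MonoidHom.snd Γ Γ') g)), Finset.sum_mul_sum,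
    Fintype.sum_prod_type]
  refine Finset.sum_congr rfl fun i _ => Finset.sum_congr rfl fun j _ => ?_
  by_cases h1 : x i * g.1 * y i ∈ H <;> by_cases h2 : x' j * g.2 * y' j ∈ H' <;>
    simp [Subgroup.mem_prod, h1, h2]

theorem odd_lift [Fintype Γ] {Γ' : Type*} [Group Γ'] (f : Γ →* Γ') (g : Γ)
    (hg : Odd (orderOf (f g))) : ∃ g', f g' = f g ∧ Odd (orderOf g') := by
  obtain ⟨a, m, j, hm, ⟨t, d1⟩, ⟨s, d2⟩⟩ := ex_odd_part (Fintype.card Γ) Fintype.card_ne_zero
  refine ⟨g ^ (j + 1), ?_, Odd.of_dvd_nat hm (orderOf_dvd_of_pow_eq_one ?_)⟩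
  · have : f g ^ j = 1 := by
      refine eq_one_of_odd_two (a := a) hg ?_ ?_
      · rw [← pow_mul, mul_comm, pow_mul, pow_orderOf_eq_one, one_pow]
      · rw [← pow_mul, d2, ← map_pow, pow_mul, pow_card_eq_one, one_pow, map_one]
    rw [map_pow, pow_succ, this, one_mul]
  · rw [← pow_mul, mul_comm, d1, pow_mul, pow_card_eq_one, one_pow]

/-- quotients -/
theorem LvT.map [Fintype Γ] {Γ' : Type*} [Group Γ'] (f : Γ →* Γ') (hf : Function.Surjective f)
    {H : Subgroup Γ} (hk : f.ker ≤ H) {χ : Γ' → R} (h : LvT H fun g => χ (f g)) :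
    LvT (H.map f) χ := by
  obtain ⟨ι, _, x, y, c, h⟩ := h
  refine ⟨ι, inferInstance, fun i => f (x i), fun i => f (y i), c, fun g hg => ?_⟩
  obtain ⟨g, rfl⟩ := hf g
  obtain ⟨g', e, ho⟩ := odd_lift f g hg
  rw [← e, show χ (f g') = _ from h g' ho]
  refine Finset.sum_congr rfl fun i _ => ?_
  have : x i * g' * y i ∈ H ↔ f (x i) * f g' * f (y i) ∈ H.map f := by
    rw [← map_mul, ← map_mul, ← Subgroup.mem_comap, Subgroup.comap_map_eq, sup_of_le_left hk]
  simp only [this]

end lv

section lev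

variable {Γ : Type*} [Group Γ] [Fintype Γ]

theorem sum_ind {M : Type*} [AddCommMonoid M] (H : Subgroup Γ) (x y : Γ) (f : Γ → M) :
    ∑ g, (if x * g * y ∈ H then f g⁻¹ else 0) = ∑ h : H, f (y * h * x) := by
  rw [← Finset.sum_filter]
  symm
  refine Finset.sum_bij' (fun h _ => x⁻¹ * (h : Γ)⁻¹ * y⁻¹)
    (fun g hg => ⟨(x * g * y)⁻¹, H.inv_mem (Finset.mem_filter.1 hg).2⟩) ?_ ?_ ?_ ?_ ?_
  · intro h _
    refine Finset.mem_filter.2 ⟨mem_univ _, ?_⟩
    have : x * (x⁻¹ * (h : Γ)⁻¹ * y⁻¹) * y = (h : Γ)⁻¹ := by group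
    rw [this]
    exact H.inv_mem h.2
  · intro g _
    exact mem_univ _
  · intro h _
    apply Subtype.ext
    show (x * (x⁻¹ * (h : Γ)⁻¹ * y⁻¹) * y)⁻¹ = h
    group
  · intro g _
    show x⁻¹ * ((x * g * y)⁻¹)⁻¹ * y⁻¹ = g
    group
  · intro h _
    congr 1
    group

variable {K : Type*} [Field K] [CharZero K] {V W : Type*} [AddCommGroup V] [Module K V]
  [FiniteDimensional K V] [AddCommGroup W] [Module K W] [FiniteDimensional K W]

theorem card_mul_hom (ρ : Representation K Γ V) (σ : Representation K Γ W) :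
    ∑ g, σ.character g * ρ.character g⁻¹ =
      (Fintype.card Γ : K) * Module.finrank K (Representation.IntertwiningMap σ ρ) := by
  have hc : (Nat.card Γ : K) ≠ 0 := Nat.cast_ne_zero.2 Nat.card_pos.ne'
  letI := invertibleOfNonzero hc
  rw [← Representation.card_inv_mul_sum_char_mul_char_eq_finrank σ ρ, ← Nat.card_eq_fintype_card,
    mul_inv_cancel_left₀ hc, ← Equiv.sum_comp (Equiv.inv Γ)]
  refine Finset.sum_congr rfl fun g _ => ?_
  rw [Equiv.inv_apply, inv_inv, mul_comm]

theorem card_mul_inv (ρ : Representation K Γ V) :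
    ∑ g, ρ.character g = (Fintype.card Γ : K) * Module.finrank K ρ.invariants := by
  have hc : (Nat.card Γ : K) ≠ 0 := Nat.cast_ne_zero.2 Nat.card_pos.ne'
  letI := invertibleOfNonzero hc
  rw [← Representation.card_inv_mul_sum_char_eq_finrank ρ, ← Nat.card_eq_fintype_card,
    mul_inv_cancel_left₀ hc]

theorem norm_ne (ρ : Representation K Γ V) (σ : Representation K Γ W)
    (hv : ∀ g, Even (orderOf g) → LinearMap.trace K V (ρ g) = 0) (H : Subgroup Γ)
    (hL : LvT H fun g => LinearMap.trace K W (σ g)) (T : W →ₗ[K] V)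
    (hT : ∀ g w, T (σ g w) = ρ g (T w)) (h0 : T ≠ 0) : ∑ h : H, ρ h ≠ 0 := by
  intro hN
  obtain ⟨ι, _, x, y, c, hL⟩ := hL
  have k : ∀ g, σ.character g * ρ.character g⁻¹ =
      ∑ i, (c i : K) * if x i * g * y i ∈ H then ρ.character g⁻¹ else 0 := by
    intro g
    rcases Nat.even_or_odd (orderOf g) with hg | hg
    · have : ρ.character g⁻¹ = 0 := hv _ (by rwa [orderOf_inv])
      simp [this]
    · rw [show σ.character g = _ from hL g hg, Finset.sum_mul]
      refine Finset.sum_congr rfl fun i _ => ?_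
      split_ifs <;> simp
  have k2 := card_mul_hom ρ σ
  rw [Finset.sum_congr rfl (fun g _ => k g), Finset.sum_comm, Finset.sum_eq_zero] at k2
  · have k3 : Module.finrank K (Representation.IntertwiningMap σ ρ) = 0 := by
      rcases mul_eq_zero.1 k2.symm with e | e
      · exact absurd e (Nat.cast_ne_zero.2 Fintype.card_ne_zero)
      · exact Nat.cast_eq_zero.1 e
    haveI : Module.Finite K (Representation.IntertwiningMap σ ρ) :=
      Module.Finite.equiv (Representation.invariantsEquivIntertwiningMap σ ρ)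
    have k4 := Module.finrank_zero_iff.1 k3
    have k5 : T.intertwiningMap_of_isIntertwiningMap σ ρ hT = 0 := Subsingleton.elim _ _
    exact h0 (congrArg Representation.IntertwiningMap.toLinearMap k5)
  · intro i _
    rw [← Finset.mul_sum, sum_ind H (x i) (y i) ρ.character]
    have : ∑ h : H, ρ.character (y i * h * x i) =
        LinearMap.trace K V (ρ (y i) * (∑ h : H, ρ h) * ρ (x i)) := by
      rw [Finset.mul_sum, Finset.sum_mul, map_sum]
      refine Finset.sum_congr rfl fun h _ => ?_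
      rw [Representation.character, map_mul ρ, map_mul ρ]
    rw [this, hN, mul_zero, zero_mul, map_zero, mul_zero]

theorem fix_of_norm {O P : Type*} [CommRing O] [AddCommGroup P] [Module O P]
    (ρ : Representation O Γ P) (H : Subgroup Γ) (h : ∑ h : H, ρ h ≠ 0) :
    ∃ v : P, v ≠ 0 ∧ ∀ h ∈ H, ρ h v = v := by
  obtain ⟨x, hx⟩ : ∃ x, (∑ h : H, ρ h) x ≠ 0 := by
    by_contra hn
    push Not at hn
    exact h (LinearMap.ext hn)
  refine ⟨_, hx, fun a ha => ?_⟩
  rw [← Module.End.mul_apply, Finset.mul_sum]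
  congr 1
  refine Fintype.sum_equiv (Equiv.mulLeft (⟨a, ha⟩ : H)) _ _ fun c => ?_
  rw [← map_mul]
  rfl

/-- level control over a field -/
theorem lev_field (ρ : Representation K Γ V) (σ : Representation K Γ W)
    (hv : ∀ g, Even (orderOf g) → LinearMap.trace K V (ρ g) = 0) (H : Subgroup Γ)
    (hL : LvT H fun g => LinearMap.trace K W (σ g)) (T : W →ₗ[K] V)
    (hT : ∀ g w, T (σ g w) = ρ g (T w)) (h0 : T ≠ 0) : ∃ v : V, v ≠ 0 ∧ ∀ h ∈ H, ρ h v = v :=
  fix_of_norm ρ H (norm_ne ρ σ hv H hL T hT h0)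

variable {O P : Type*} [CommRing O] [IsLocalRing O] [AddCommGroup P] [Module O P]
  [Module.Free O P] [Module.Finite O P]

/-- level control, the type occurs after base change to a field of characteristic zero -/
theorem lev_bc (h2 : ¬ IsUnit (2 : O)) [Algebra O K] {ρ : Representation O Γ P} (hP : Hig ρ)
    (σ : Representation K Γ W) (H : Subgroup Γ) (hL : LvT H fun g => LinearMap.trace K W (σ g))
    (T : W →ₗ[K] K ⊗[O] P) (hT : ∀ g w, T (σ g w) = (ρ g).baseChange K (T w)) (h0 : T ≠ 0) :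
    ∃ v : P, v ≠ 0 ∧ ∀ h ∈ H, ρ h v = v := by
  refine fix_of_norm ρ H fun hN => norm_ne (bc K ρ) σ (hP.van_bc h2 K) H hL T hT h0 ?_
  have := congrArg (LinearMap.baseChangeHom O K P P) hN
  rw [map_sum, map_zero] at this
  exact this

/-- level control -/
theorem lev [IsDomain O] [CharZero O] (h2 : ¬ IsUnit (2 : O)) {ρ : Representation O Γ P}
    (hP : Hig ρ) {S : Type*} [AddCommGroup S] [Module O S] [Module.Free O S] [Module.Finite O S]
    (σ : Representation O Γ S) (H : Subgroup Γ) (hL : LvT H fun g => LinearMap.trace O S (σ g))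
    (T : S →ₗ[O] P) (hT : ∀ g w, T (σ g w) = ρ g (T w)) (h0 : T ≠ 0) :
    ∃ v : P, v ≠ 0 ∧ ∀ h ∈ H, ρ h v = v := by
  let K := FractionRing O
  haveI : CharZero K := charZero_of_injective_algebraMap (IsFractionRing.injective O K)
  refine lev_bc (K := K) h2 hP (bc K σ) H ?_ (T.baseChange K) ?_ ?_
  · refine (hL.ring (algebraMap O K)).congr fun g _ => ?_
    rw [bc_apply, LinearMap.trace_baseChange]
  · intro g w
    have : T ∘ₗ σ g = ρ g ∘ₗ T := LinearMap.ext (hT g)
    rw [bc_apply, ← LinearMap.comp_apply, ← LinearMap.baseChange_comp, this,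
      LinearMap.baseChange_comp, LinearMap.comp_apply]
  · intro e
    apply h0
    apply LinearMap.baseChangeHom_injective (R := O) (S := K) (M := S) (N := P)
    rw [map_zero]
    exact e

/-- an eigenvector for a character of two power order gives a fixed vector -/
theorem lev_chi [IsDomain O] [CharZero O] (h2 : ¬ IsUnit (2 : O)) {ρ : Representation O Γ P}
    (hP : Hig ρ) (H : Subgroup Γ) (ξ : H →* O) (a : ℕ) (hξ : ∀ h, ξ h ^ 2 ^ a = 1) (v : P)
    (hv : v ≠ 0) (he : ∀ h : H, ρ h v = ξ h • v) : ∃ w : P, w ≠ 0 ∧ ∀ h ∈ H, ρ h w = w := by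
  let σ : Representation O H O := (Algebra.lmul O O).toRingHom.toMonoidHom.comp ξ
  have hσ : ∀ h r, σ h r = ξ h * r := fun h r => rfl
  obtain ⟨w, hw, hf⟩ := lev h2 (hP.sub H) σ ⊤ ((lvT_chi ξ a hξ).congr fun g _ => by
    have : σ g = ξ g • LinearMap.id := LinearMap.ext fun r => hσ g r
    rw [this, map_smul, LinearMap.trace_id]
    simp) (LinearMap.toSpanSingleton O P v) (fun g r => by
      rw [hσ, LinearMap.toSpanSingleton_apply, LinearMap.toSpanSingleton_apply, map_smul]
      show _ = r • ρ g v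
      rw [he, smul_smul, mul_comm]) (fun e => hv (by
        have := LinearMap.congr_fun e 1
        simpa using this))
  exact ⟨w, hw, fun h hh => hf ⟨h, hh⟩ (Subgroup.mem_top _)⟩

end lev

end Vale.Agent.P022K.CH
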