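import Vale.Agent.P022K.CH.Lev1
import Vale.Agent.P022K.CH.Lev2
import Mathlib.LinearAlgebra.Matrix.Kronecker
import Mathlib.LinearAlgebra.Matrix.ToLinearEquiv
import Mathlib.RepresentationTheory.Maschke
import Mathlib.LinearAlgebra.Eigenspace.Zero
import Mathlib.LinearAlgebra.Matrix.Charpoly.Eigs
import Mathlib.LinearAlgebra.Charpoly.ToMatrix

/-!
P022K, block CH, row LEV: types as class functions.  Characters of matrix representations,
induced characters, the cuspidal characters on elements of odd order, level control for the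
operators `∑ c(g) g`.
-/

set_option linter.all false

noncomputable section

namespace Vale.Agent.P022K.CH

open Classical Finset
open scoped Kronecker

section isch

variable {R : Type} [CommRing R] {Γ : Type} [Group Γ]

/-- `c` is the character of a matrix representation -/
def IsCh (c : Γ → R) : Prop :=
  ∃ (n : Type) (_ : Fintype n) (_ : DecidableEq n) (σ : Γ →* Matrix n n R), ∀ g, c g = (σ g).trace

theorem IsCh.ring {c : Γ → R} (h : IsCh c) {R' : Type} [CommRing R'] (f : R →+* R') :
    IsCh fun g => f (c g) := by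
  obtain ⟨n, _, _, σ, h⟩ := h
  refine ⟨n, inferInstance, inferInstance, (f.mapMatrix : Matrix n n R →+* _).toMonoidHom.comp σ,
    fun g => ?_⟩
  beta_reduce
  rw [h, AddMonoidHom.map_trace]
  rfl

theorem IsCh.comp {c : Γ → R} (h : IsCh c) {Γ' : Type} [Group Γ'] (f : Γ' →* Γ) :
    IsCh fun g => c (f g) := by
  obtain ⟨n, _, _, σ, h⟩ := h
  exact ⟨n, inferInstance, inferInstance, σ.comp f, fun g => h _⟩

theorem IsCh.conj {c : Γ → R} (h : IsCh c) (g x : Γ) : c (x * g * x⁻¹) = c g := by
  obtain ⟨n, _, _, σ, h⟩ := h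
  rw [h, h, map_mul, map_mul, Matrix.trace_mul_cycle, ← map_mul, inv_mul_cancel, map_one, one_mul]

theorem isCh_hom (ξ : Γ →* R) : IsCh ξ :=
  ⟨Unit, inferInstance, inferInstance, (Matrix.scalar Unit).toMonoidHom.comp ξ, fun g => by
    simp [Matrix.trace]⟩

/-- the tensor product of a finite family of matrix representations -/
def piMat {κ : Type} [Fintype κ] {G : κ → Type} [∀ k, Group (G k)] {n : κ → Type}
    [∀ k, Fintype (n k)] [∀ k, DecidableEq (n k)] (σ : ∀ k, G k →* Matrix (n k) (n k) R) :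
    (∀ k, G k) →* Matrix (∀ k, n k) (∀ k, n k) R where
  toFun g := Matrix.of fun i j => ∏ k, σ k (g k) (i k) (j k)
  map_one' := by
    ext i j
    simp only [Matrix.of_apply, Pi.one_apply, map_one, Matrix.one_apply]
    rw [Finset.prod_ite_zero]
    simp [funext_iff]
  map_mul' g h := by
    ext i j
    simp only [Matrix.of_apply, Pi.mul_apply, map_mul, Matrix.mul_apply]
    rw [Finset.prod_univ_sum, Fintype.piFinset_univ]
    exact Finset.sum_congr rfl fun p _ => Finset.prod_mul_distrib

theorem IsCh.pi {κ : Type} [Fintype κ] {G : κ → Type} [∀ k, Group (G k)] (c : ∀ k, G k → R)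
    (h : ∀ k, IsCh (c k)) : IsCh fun g : ∀ k, G k => ∏ k, c k (g k) := by
  choose n h1 h2 σ h using h
  refine ⟨∀ k, n k, inferInstance, inferInstance, piMat σ, fun g => ?_⟩
  simp only [h, Matrix.trace, Matrix.diag_apply]
  rw [Finset.prod_univ_sum, Fintype.piFinset_univ]
  rfl

variable [Fintype Γ]

/-- a character of a subgroup, extended by zero -/
def ext0 {H : Subgroup Γ} (ξ : H →* R) (g : Γ) : R := if h : g ∈ H then ξ ⟨g, h⟩ else 0

/-- the induced representation -/
def indM (H : Subgroup Γ) (ξ : H →* R) : Γ →* Matrix (Γ ⧸ H) (Γ ⧸ H) R where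
  toFun g := Matrix.of fun p q => ext0 ξ (p.out⁻¹ * g * q.out)
  map_one' := by
    ext p q
    rw [Matrix.of_apply, mul_one, Matrix.one_apply, ext0]
    by_cases h : p = q
    · subst h
      rw [if_pos rfl, dif_pos (by simp)]
      simp only [inv_mul_cancel]
      exact map_one ξ
    · rw [if_neg h, dif_neg]
      intro e
      exact h (by rw [← p.out_eq', ← q.out_eq']; exact QuotientGroup.eq.2 e)
  map_mul' g h := by
    ext p q
    rw [Matrix.mul_apply, Finset.sum_eq_single (QuotientGroup.mk (g⁻¹ * p.out) : Γ ⧸ H)]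
    · simp only [Matrix.of_apply]
      obtain ⟨u, e⟩ := QuotientGroup.mk_out_eq_mul H (g⁻¹ * p.out)
      rw [e]
      have e1 : p.out⁻¹ * g * (g⁻¹ * p.out * u) = u := by group
      have e2 : (g⁻¹ * p.out * u)⁻¹ * h * q.out = (u : Γ)⁻¹ * (p.out⁻¹ * (g * h) * q.out) := by
        group
      rw [e1, e2]
      generalize p.out⁻¹ * (g * h) * q.out = x
      unfold ext0
      rw [dif_pos u.2]
      by_cases hx : x ∈ H
      · rw [dif_pos hx, dif_pos (H.mul_mem (H.inv_mem u.2) hx), ← map_mul]
        congr 1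
        apply Subtype.ext
        show x = u * ((u : Γ)⁻¹ * x)
        group
      · rw [dif_neg hx, dif_neg, mul_zero]
        intro e
        exact hx (by simpa using H.mul_mem u.2 e)
    · intro r _ hr
      simp only [Matrix.of_apply]
      rw [ext0, dif_neg, zero_mul]
      intro e
      apply hr
      rw [← r.out_eq']
      symm
      refine QuotientGroup.eq.2 ?_
      rwa [mul_inv_rev, inv_inv]
    · intro h
      exact absurd (mem_univ _) h

/-- the induced character -/
def indC (H : Subgroup Γ) (ξ : H →* R) (g : Γ) : R := ∑ q : Γ ⧸ H, ext0 ξ (q.out⁻¹ * g * q.out)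

theorem isCh_ind (H : Subgroup Γ) (ξ : H →* R) : IsCh (indC H ξ) :=
  ⟨Γ ⧸ H, inferInstance, inferInstance, indM H ξ, fun g => rfl⟩

theorem lvT_ind (H : Subgroup Γ) (ξ : H →* R) (a : ℕ) (h : ∀ g, ξ g ^ 2 ^ a = 1) :
    LvT H (indC H ξ) := by
  refine ⟨Γ ⧸ H, inferInstance, fun q => q.out⁻¹, fun q => q.out, fun _ => 1, fun g hg => ?_⟩
  refine Finset.sum_congr rfl fun q _ => ?_
  unfold ext0
  split_ifs with hq
  · rw [Int.cast_one]
    refine eq_one_of_odd_two hg ?_ (h _)
    rw [← map_pow, ← map_one ξ]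
    congr 1
    apply Subtype.ext
    show (q.out⁻¹ * g * q.out) ^ orderOf g = 1
    have := conj_pow (a := q.out⁻¹) (b := g) (i := orderOf g)
    rw [inv_inv] at this
    rw [this, pow_orderOf_eq_one, mul_one, inv_mul_cancel]
  · rfl

theorem indC_center (H : Subgroup Γ) (ξ : H →* R) (z : H) (hz : (z : Γ) ∈ Subgroup.center Γ)
    (h1 : ξ z = 1) (g : Γ) : indC H ξ (g * z) = indC H ξ g := by
  refine Finset.sum_congr rfl fun q _ => ?_
  have e : q.out⁻¹ * (g * z) * q.out = q.out⁻¹ * g * q.out * z := by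
    rw [mul_assoc, mul_assoc, ← Subgroup.mem_center_iff.1 hz q.out]
    group
  rw [e]
  generalize q.out⁻¹ * g * q.out = x
  unfold ext0
  by_cases hx : x ∈ H
  · rw [dif_pos hx, dif_pos (H.mul_mem hx z.2), ← mul_one (ξ ⟨x, hx⟩), ← h1, ← map_mul]
    rfl
  · rw [dif_neg hx, dif_neg]
    intro e
    exact hx (by simpa using H.mul_mem e (H.inv_mem z.2))

theorem sum_coset_one (H : Subgroup Γ) (g : Γ) (r : R) :
    ∑ q : Γ ⧸ H, (if q.out⁻¹ * g * 1 ∈ H then r else 0) = r := by
  rw [Finset.sum_eq_single (QuotientGroup.mk g : Γ ⧸ H)]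
  · rw [if_pos]
    rw [mul_one]
    exact QuotientGroup.eq.1 (QuotientGroup.out_eq' _)
  · intro q _ hq
    rw [if_neg]
    intro e
    rw [mul_one] at e
    exact hq (by rw [← q.out_eq']; exact QuotientGroup.eq.2 e)
  · intro h
    exact absurd (mem_univ _) h

end isch

section gl

variable {F E R : Type} [Field F] [Field E] [Algebra F E] [Fintype F] [Fintype E] [CommRing R]

/-- upper triangular matrices -/
def Bor (F : Type) [Field F] : Subgroup (GL (Fin 2) F) where
  carrier := {g | g 1 0 = 0}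
  mul_mem' {a b} ha hb := by
    have h1 : a 1 0 = 0 := ha
    have h2 : b 1 0 = 0 := hb
    show (a * b) 1 0 = 0
    simp [Matrix.mul_apply, Fin.sum_univ_two, h1, h2]
  one_mem' := by
    show (1 : GL (Fin 2) F) 1 0 = 0
    simp
  inv_mem' {a} ha := by
    have h1 : a 1 0 = 0 := ha
    have h2 : (a * a⁻¹) 1 0 = 0 := by
      rw [mul_inv_cancel]
      simp
    have h3 : a 1 1 ≠ 0 := by
      have h := Matrix.GeneralLinearGroup.det_ne_zero a
      rw [Matrix.det_fin_two] at h
      have h' : a 0 0 * a 1 1 - a 0 1 * a 1 0 ≠ 0 := h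
      rw [h1, mul_zero, sub_zero] at h'
      exact right_ne_zero_of_mul h'
    have h4 : (a * a⁻¹) 1 0 = a 1 0 * a⁻¹ 0 0 + a 1 1 * a⁻¹ 1 0 := by
      rw [Units.val_mul, Matrix.mul_apply, Fin.sum_univ_two]
    rw [h4, h1, zero_mul, zero_add] at h2
    exact (mul_eq_zero.1 h2).resolve_left h3

theorem mem_Bor {g : GL (Fin 2) F} : g ∈ Bor F ↔ g 1 0 = 0 := Iff.rfl

/-- the character `χ₁(a) χ₂(d)` of the Borel subgroup -/
def borCh (χ₁ χ₂ : F →* R) : Bor F →* R where
  toFun g := χ₁ (g.1 0 0) * χ₂ (g.1 1 1)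
  map_one' := by simp
  map_mul' g h := by
    have h1 : g.1 1 0 = 0 := g.2
    have h2 : h.1 1 0 = 0 := h.2
    have e1 : (g * h).1 0 0 = g.1 0 0 * h.1 0 0 := by
      simp [Matrix.mul_apply, Fin.sum_univ_two, h2]
    have e2 : (g * h).1 1 1 = g.1 1 1 * h.1 1 1 := by
      simp [Matrix.mul_apply, Fin.sum_univ_two, h1]
    rw [e1, e2, map_mul, map_mul]
    ring

theorem center_gl {z : GL (Fin 2) F} (hz : z ∈ Subgroup.center (GL (Fin 2) F)) :
    z 1 0 = 0 ∧ z 0 1 = 0 ∧ z 0 0 = z 1 1 := by
  have k := Subgroup.mem_center_iff.1 hz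
  let u : GL (Fin 2) F :=
    Matrix.GeneralLinearGroup.mkOfDetNeZero !![1, 1; 0, 1] (by simp [Matrix.det_fin_two])
  let v : GL (Fin 2) F :=
    Matrix.GeneralLinearGroup.mkOfDetNeZero !![1, 0; 1, 1] (by simp [Matrix.det_fin_two])
  have a1 := congrArg (fun g : GL (Fin 2) F => g 0 0) (k u)
  have a2 := congrArg (fun g : GL (Fin 2) F => g 0 1) (k u)
  have a3 := congrArg (fun g : GL (Fin 2) F => g 0 0) (k v)
  simp [u, v, Matrix.mul_apply, Fin.sum_univ_two] at a1 a2 a3
  exact ⟨a1, a3, by linear_combination -a2⟩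

theorem center_le_Bor : Subgroup.center (GL (Fin 2) F) ≤ Bor F := fun _ hz => (center_gl hz).1

/-- lower unipotent matrices -/
def lowU (t : F) : GL (Fin 2) F :=
  Matrix.GeneralLinearGroup.mkOfDetNeZero !![1, 0; t, 1] (by simp [Matrix.det_fin_two])

/-- the Weyl element -/
def wey (F : Type) [Field F] : GL (Fin 2) F :=
  Matrix.GeneralLinearGroup.mkOfDetNeZero !![0, 1; 1, 0] (by simp [Matrix.det_fin_two])

theorem low_mem (g : GL (Fin 2) F) (t : F) : lowU (-t) * g * lowU t ∈ Bor F ↔
    g 1 0 + (g 1 1 - g 0 0) * t - g 0 1 * t ^ 2 = 0 := by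
  have : (lowU (-t) * g * lowU t) 1 0 = g 1 0 + (g 1 1 - g 0 0) * t - g 0 1 * t ^ 2 := by
    simp [lowU, Matrix.mul_apply, Matrix.vecMul, dotProduct, Fin.sum_univ_two]
    ring
  rw [mem_Bor, this]

theorem wey_mem (g : GL (Fin 2) F) : wey F * g * wey F ∈ Bor F ↔ g 0 1 = 0 := by
  have : (wey F * g * wey F) 1 0 = g 0 1 := by
    simp [wey, Matrix.mul_apply, Matrix.vecMul, dotProduct, Fin.sum_univ_two]
  rw [mem_Bor, this]

/-- a quadratic polynomial has two roots in `F` or in `E` -/
theorem card_roots (h : Module.finrank F E = 2) (h2 : (2 : F) ≠ 0) (s n : F) :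
    (univ.filter fun x : F => x ^ 2 - s * x + n = 0).card + (eig E s n).card = 2 := by
  by_cases hx : ∃ x : F, x ^ 2 - s * x + n = 0
  · obtain ⟨a, ha⟩ := hx
    obtain ⟨d, rfl⟩ : ∃ d, s = a + d := ⟨s - a, by ring⟩
    obtain rfl : n = a * d := by linear_combination ha
    have k : (univ.filter fun x : F => x ^ 2 - (a + d) * x + a * d = 0) = {a, d} := by
      ext x
      have : x ^ 2 - (a + d) * x + a * d = (x - a) * (x - d) := by ring
      simp [this, sub_eq_zero]
    rw [k]
    by_cases had : a = d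
    · subst had
      rw [eig_par h]
      simp
    · rw [eig_split h had, Finset.card_pair had]
      simp
  · have k : (univ.filter fun x : F => x ^ 2 - s * x + n = 0) = ∅ := by
      rw [Finset.filter_eq_empty_iff]
      exact fun x _ e => hx ⟨x, e⟩
    have h2E : (2 : E) ≠ 0 := by
      have := alg_ne (E := E) h2
      rwa [map_ofNat] at this
    have hF : ringChar F ≠ 2 := fun e => h2 (by
      have := ringChar.Nat.cast_ringChar (R := F)
      rw [e] at this
      exact_mod_cast this)
    have hE : ringChar E ≠ 2 := fun e => h2E (by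
      have := ringChar.Nat.cast_ringChar (R := E)
      rw [e] at this
      exact_mod_cast this)
    have hD : s ^ 2 - 4 * n ≠ 0 := fun e => hx ⟨s / 2, by
      field_simp
      linear_combination -e⟩
    obtain ⟨δ, hδ⟩ : IsSquare (algebraMap F E (s ^ 2 - 4 * n)) := by
      rw [FiniteField.isSquare_iff hE (alg_ne hD), card_E h, ← map_pow]
      obtain ⟨j, hj⟩ : ∃ j, Fintype.card F = 2 * j + 1 :=
        ⟨Fintype.card F / 2, by have := FiniteField.odd_card_of_char_ne_two hF; omega⟩
      have e : Fintype.card F ^ 2 / 2 = (Fintype.card F - 1) * (j + 1) := by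
        rw [hj, show (2 * j + 1) ^ 2 = 2 * (2 * j * (j + 1)) + 1 by ring]
        simp only [Nat.add_sub_cancel]
        omega
      rw [e, pow_mul, FiniteField.pow_card_sub_one_eq_one _ hD, one_pow, map_one]
    obtain ⟨u, hu⟩ : ∃ u : E, u ^ 2 - algebraMap F E s * u + algebraMap F E n = 0 := by
      refine ⟨(algebraMap F E s + δ) / 2, ?_⟩
      rw [map_sub, map_mul, map_pow, map_ofNat] at hδ
      field_simp
      linear_combination -hδ
    have hc : cj F u ≠ u := by
      intro e
      have e1 := tr_eq h u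
      rw [e] at e1
      refine hx ⟨Algebra.trace F E u / 2, inj_FE (E := E) ?_⟩
      have e2 : algebraMap F E (Algebra.trace F E u / 2) = u := by
        rw [map_div₀, map_ofNat, e1]
        field_simp
        ring
      rw [map_add, map_sub, map_mul, map_pow, e2, hu, map_zero]
    have hu' : cj F u ^ 2 - algebraMap F E s * cj F u + algebraMap F E n = 0 := by
      have := congrArg (cj F) hu
      rwa [map_add, map_sub, map_mul, map_pow, AlgHom.commutes, AlgHom.commutes, map_zero] at this
    have e1 : u + cj F u = algebraMap F E s := by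
      have : (cj F u - u) * (u + cj F u - algebraMap F E s) = 0 := by linear_combination hu' - hu
      exact sub_eq_zero.1 ((mul_eq_zero.1 this).resolve_left (sub_ne_zero.2 hc))
    have e2 : Algebra.trace F E u = s := inj_FE (E := E) (by rw [tr_eq h, e1])
    have e3 : Algebra.norm F u = n := inj_FE (E := E) (by
      rw [nm_eq h]
      linear_combination u * e1 - hu)
    rw [k, ← e2, ← e3, eig_ell h, Finset.card_pair hc.symm]
    simp

/-- the number of fixed lines -/
theorem card_fix (h : Module.finrank F E = 2) (h2 : (2 : F) ≠ 0) (a b c d : F)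
    (hg : ¬ (c = 0 ∧ b = 0 ∧ a = d)) :
    (univ.filter fun t : F => c + (d - a) * t - b * t ^ 2 = 0).card + (if b = 0 then 1 else 0) +
      (eig E (a + d) (a * d - b * c)).card = 2 := by
  by_cases hb : b = 0
  · subst hb
    rw [if_pos rfl, zero_mul, sub_zero]
    by_cases had : a = d
    · subst had
      have hc : c ≠ 0 := fun e => hg ⟨e, rfl, rfl⟩
      rw [eig_par h]
      simp [hc]
    · rw [eig_split h had]
      have : (univ.filter fun t : F => c + (d - a) * t - 0 * t ^ 2 = 0) = {c / (a - d)} := by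
        ext t
        rw [mem_filter, mem_singleton, eq_div_iff (sub_ne_zero.2 had)]
        constructor
        · rintro ⟨_, e⟩
          linear_combination -e
        · intro e
          exact ⟨mem_univ _, by linear_combination -e⟩
      rw [this]
      simp
  · rw [if_neg hb, add_zero]
    refine Eq.trans ?_ (card_roots (E := E) h h2 (a + d) (a * d - b * c))
    congr 1
    refine Finset.card_bij' (fun t _ => a + b * t) (fun x _ => (x - a) / b) ?_ ?_ ?_ ?_
    · intro t ht
      rw [mem_filter] at ht ⊢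
      exact ⟨mem_univ _, by linear_combination (-b) * ht.2⟩
    · intro x hx
      rw [mem_filter] at hx ⊢
      refine ⟨mem_univ _, ?_⟩
      field_simp
      linear_combination -hx.2
    · intro t _
      field_simp
      ring
    · intro x _
      field_simp
      ring

theorem eig_pow (h : Module.finrank F E = 2) (g : GL (Fin 2) F) {m : ℕ} (hm : g ^ m = 1) {u : E}
    (hu : u ∈ eig E (g 0 0 + g 1 1) (g 0 0 * g 1 1 - g 0 1 * g 1 0)) : u ^ m = 1 := by
  have h1 := eig_root h hu
  let A : Matrix (Fin 2) (Fin 2) E := (algebraMap F E).mapMatrix (g : Matrix (Fin 2) (Fin 2) F)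
  have hA : A ^ m = 1 := by
    rw [← map_pow, ← Units.val_pow_eq_pow_val, hm, Units.val_one, map_one]
  have hd : (A - u • (1 : Matrix (Fin 2) (Fin 2) E)).det = 0 := by
    rw [Matrix.det_fin_two, ← h1]
    simp [A]
    ring
  obtain ⟨v, hv, e⟩ := Matrix.exists_mulVec_eq_zero_iff.2 hd
  rw [Matrix.sub_mulVec, Matrix.smul_mulVec, Matrix.one_mulVec, sub_eq_zero] at e
  have k : ∀ j : ℕ, (A ^ j).mulVec v = u ^ j • v := by
    intro j
    induction j with
    | zero => simp
    | succ j ih => rw [pow_succ, ← Matrix.mulVec_mulVec, e, Matrix.mulVec_smul, ih, smul_smul,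
        pow_succ']
  have := k m
  rw [hA, Matrix.one_mulVec] at this
  have h3 : (u ^ m - 1) • v = 0 := by rw [sub_smul, ← this, one_smul, sub_self]
  exact sub_eq_zero.1 ((smul_eq_zero.1 h3).resolve_right hv)

/-- the character of the cuspidal representation -/
def Cus.ch (C : Cus F E R) (g : GL (Fin 2) F) : R := (C.sig g).trace

theorem Cus.isCh (C : Cus F E R) : IsCh C.ch :=
  ⟨Fˣ, inferInstance, inferInstance, C.sig, fun _ => rfl⟩

theorem Cus.ch_center (C : Cus F E R) (h : ∀ a : F, a ≠ 0 → C.th (algebraMap F E a) = 1)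
    (g z : GL (Fin 2) F) (hz : z ∈ Subgroup.center (GL (Fin 2) F)) : C.ch (g * z) = C.ch g := by
  obtain ⟨h1, h2, h3⟩ := center_gl hz
  have h0 : z 0 0 ≠ 0 := by
    have := gl_det z
    rw [h1, mul_zero, sub_zero] at this
    exact left_ne_zero_of_mul this
  rw [Cus.ch, Cus.ch, map_mul, C.sig_scalar z h1 h2 h3, h _ h0, one_smul, mul_one]

/-- on elements of odd order the cuspidal character is the number of fixed lines minus two -/
theorem Cus.ch_odd (C : Cus F E R) (h2 : (2 : F) ≠ 0) (k : ℕ)
    (hth : ∀ u : E, u ≠ 0 → C.th u ^ 2 ^ k = 1) (g : GL (Fin 2) F) (hg : Odd (orderOf g)) :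
    C.ch g = ((univ.filter fun t : F => g 1 0 + (g 1 1 - g 0 0) * t - g 0 1 * t ^ 2 = 0).card : R) +
      (if g 0 1 = 0 then 1 else 0) - 2 := by
  have k1 : ∀ u ∈ eig E (g 0 0 + g 1 1) (g 0 0 * g 1 1 - g 0 1 * g 1 0), C.th u = 1 := by
    intro u hu
    have e := eig_pow C.rk g (pow_orderOf_eq_one g) hu
    have hu0 : u ≠ 0 := by
      rintro rfl
      rw [zero_pow hg.pos.ne'] at e
      exact zero_ne_one e
    exact eq_one_of_odd_two hg (by rw [← map_pow, e, map_one]) (hth u hu0)
  by_cases hs : g 1 0 = 0 ∧ g 0 1 = 0 ∧ g 0 0 = g 1 1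
  · obtain ⟨h1, h3, h4⟩ := hs
    rw [Cus.ch, C.tr_scalar g h1 h3 h4, k1 _ (by
      rw [h1, mul_zero, sub_zero, ← h4, eig_par C.rk]
      exact mem_singleton_self _), h1, h3, h4]
    simp
    ring
  · rw [Cus.ch, C.tr_sig g hs, Finset.sum_congr rfl k1]
    have := congrArg (Nat.cast : ℕ → R) (card_fix (E := E) C.rk h2 _ _ _ _ hs)
    push_cast at this
    rw [Finset.sum_const, nsmul_eq_mul, mul_one]
    linear_combination -this

theorem Cus.lvT (C : Cus F E R) (h2 : (2 : F) ≠ 0) (k : ℕ)
    (hth : ∀ u : E, u ≠ 0 → C.th u ^ 2 ^ k = 1) : LvT (Bor F) C.ch := by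
  refine ⟨Option F ⊕ (GL (Fin 2) F ⧸ Bor F), inferInstance,
    Sum.elim (fun o => o.elim (wey F) fun t => lowU (-t)) fun q => q.out⁻¹,
    Sum.elim (fun o => o.elim (wey F) fun t => lowU t) fun _ => 1,
    Sum.elim (fun _ => 1) fun _ => -2, fun g hg => ?_⟩
  rw [C.ch_odd h2 k hth g hg, Fintype.sum_sum_type, Fintype.sum_option]
  simp only [Sum.elim_inl, Sum.elim_inr, Option.elim_none, Option.elim_some, low_mem, wey_mem]
  have := sum_coset_one (Bor F) g ((-2 : ℤ) : R)
  refine Eq.trans ?_ (congrArg _ (Eq.trans this.symm (by congr)))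
  rw [Finset.card_filter]
  push_cast
  ring

end gl

section levc

variable {Γ : Type} [Group Γ] [Fintype Γ] {K : Type} [Field K] [CharZero K] {V : Type*}
  [AddCommGroup V] [Module K V] [FiniteDimensional K V]

/-- for a character `c` the operator `∑ c(g) g` is zero as soon as its trace is zero -/
theorem IsCh.sum_eq_zero {c : Γ → K} (h : IsCh c) (ρ : Representation K Γ V)
    (h0 : ∑ g, c g * LinearMap.trace K V (ρ g) = 0) : ∑ g, c g • ρ g = 0 := by
  obtain ⟨n, _, _, σ, h⟩ := h
  let b := Module.Free.chooseBasis K V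
  let T := LinearMap.toMatrixAlgEquiv b
  let N := ∑ g, σ g ⊗ₖ T (ρ g)
  have hc : (Fintype.card Γ : K) ≠ 0 := Nat.cast_ne_zero.2 Fintype.card_ne_zero
  have hN : N * N = (Fintype.card Γ : K) • N := by
    have : ∀ g, (σ g ⊗ₖ T (ρ g)) * N = N := by
      intro g
      rw [Finset.mul_sum]
      refine Fintype.sum_equiv (Equiv.mulLeft g) _ _ fun x => ?_
      rw [Equiv.coe_mulLeft, map_mul, map_mul, map_mul, Matrix.mul_kronecker_mul]
    conv_lhs => rw [show N * N = (∑ g, σ g ⊗ₖ T (ρ g)) * N from rfl]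
    rw [Finset.sum_mul, Finset.sum_congr rfl (fun g _ => this g), Finset.sum_const, Finset.card_univ,
      Nat.cast_smul_eq_nsmul]
  have ht : N.trace = 0 := by
    rw [Matrix.trace_sum, ← h0]
    refine Finset.sum_congr rfl fun g _ => ?_
    rw [Matrix.trace_kronecker, h, LinearMap.trace_eq_matrix_trace K b]
    rfl
  have hI : IsIdempotentElem (Matrix.toLinAlgEquiv' ((Fintype.card Γ : K)⁻¹ • N)) := by
    refine IsIdempotentElem.map ?_ _
    rw [IsIdempotentElem, Matrix.smul_mul, Matrix.mul_smul, hN, smul_smul, smul_smul,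
      mul_assoc, inv_mul_cancel₀ hc, mul_one]
  have h1 := LinearMap.IsIdempotentElem.eq_zero_of_trace_eq_zero hI (by
    rw [show Matrix.toLinAlgEquiv' ((Fintype.card Γ : K)⁻¹ • N) =
      Matrix.toLin' ((Fintype.card Γ : K)⁻¹ • N) from rfl, Matrix.trace_toLin'_eq,
      Matrix.trace_smul, ht, smul_zero])
  have h2 : N = 0 := by
    rw [map_eq_zero_iff _ (AlgEquiv.injective _), smul_eq_zero] at h1
    exact h1.resolve_left (inv_ne_zero hc)
  apply T.injective
  rw [map_sum, map_zero]
  ext x y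
  have h3 : ∑ i : n, N (i, x) (i, y) = 0 := by simp [h2]
  rw [Matrix.zero_apply, ← h3, Matrix.sum_apply]
  simp only [N, Matrix.sum_apply, Matrix.kroneckerMap_apply, map_smul, Matrix.smul_apply, h,
    Matrix.trace, Matrix.diag_apply, smul_eq_mul, Finset.sum_mul]
  exact Finset.sum_comm

/-- **level control for a class function**: `f` is the map to the group that acts freely -/
theorem lev_c (ρ : Representation K Γ V) {Δ : Type*} [Group Δ] (f : Γ →* Δ)
    (hv : ∀ g, Even (orderOf (f g)) → LinearMap.trace K V (ρ g) = 0) (H : Subgroup Γ)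
    (hk : f.ker ≤ H) {c : Γ → K} (hc : IsCh c) (hL : LvT H c)
    (hz : ∀ g, ∀ z ∈ f.ker, c (g * z) = c g) (h0 : ∑ g, c g • ρ g ≠ 0) :
    ∃ v : V, v ≠ 0 ∧ ∀ h ∈ H, ρ h v = v := by
  refine fix_of_norm ρ H fun hN => h0 (hc.sum_eq_zero ρ ?_)
  obtain ⟨ι, _, x, y, n, hL⟩ := hL
  have k : ∀ g, c g * LinearMap.trace K V (ρ g) =
      ∑ i, (n i : K) * if x i * g * y i ∈ H then LinearMap.trace K V (ρ g⁻¹⁻¹) else 0 := by
    intro g
    rw [inv_inv]
    rcases Nat.even_or_odd (orderOf (f g)) with hg | hg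
    · simp [hv g hg]
    · obtain ⟨g', e, ho⟩ := odd_lift f g hg
      have hm : g'⁻¹ * g ∈ f.ker := by
        rw [MonoidHom.mem_ker, map_mul, map_inv, e, inv_mul_cancel]
      have e1 : c g = c g' := by rw [← hz g' _ hm, mul_inv_cancel_left]
      rw [e1, hL g' ho, Finset.sum_mul]
      refine Finset.sum_congr rfl fun i _ => ?_
      have hm' : (x i * g' * y i)⁻¹ * (x i * g * y i) ∈ H := by
        apply hk
        rw [MonoidHom.mem_ker]
        simp only [map_mul, map_inv, e, inv_mul_cancel]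
      have e2 : x i * g' * y i ∈ H ↔ x i * g * y i ∈ H :=
        ⟨fun a => by
          have := H.mul_mem a hm'
          rwa [mul_inv_cancel_left] at this, fun a => by
          have := H.mul_mem a (H.inv_mem hm')
          rwa [mul_inv_rev, inv_inv, mul_inv_cancel_left] at this⟩
      simp only [e2]
      split_ifs <;> simp
  rw [Finset.sum_congr rfl (fun g _ => k g), Finset.sum_comm]
  refine Finset.sum_eq_zero fun i _ => ?_
  rw [← Finset.mul_sum, sum_ind H (x i) (y i) fun g => LinearMap.trace K V (ρ g⁻¹),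
    ← Equiv.sum_comp (Equiv.inv H)]
  have : ∑ h : H, LinearMap.trace K V (ρ (y i * ((Equiv.inv H h : H) : Γ) * x i)⁻¹) =
      LinearMap.trace K V (ρ (x i)⁻¹ * (∑ h : H, ρ h) * ρ (y i)⁻¹) := by
    rw [Finset.mul_sum, Finset.sum_mul, map_sum]
    refine Finset.sum_congr rfl fun h _ => ?_
    rw [← map_mul ρ, ← map_mul ρ, Equiv.inv_apply, Subgroup.coe_inv]
    congr 2
    group
  rw [this, hN, mul_zero, zero_mul, map_zero, mul_zero]

/-- the trace of `g` vanishes when the eigenvalues `z` and `-z` have the same multiplicity -/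
theorem trace_eq_zero_of_sym [IsAlgClosed K] (g : Module.End K V)
    (h : ∀ z : K, Module.finrank K (Module.End.maxGenEigenspace g z) =
      Module.finrank K (Module.End.maxGenEigenspace g (-z))) : LinearMap.trace K V g = 0 := by
  have hs := IsAlgClosed.splits g.charpoly
  have e1 : LinearMap.trace K V g = g.charpoly.roots.sum := by
    let b := Module.Free.chooseBasis K V
    rw [LinearMap.trace_eq_matrix_trace K b, Matrix.trace_eq_sum_roots_charpoly,
      LinearMap.charpoly_toMatrix]
  have e2 : g.charpoly.roots.map (fun z => -z) = g.charpoly.roots := by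
    ext z
    have := Multiset.count_map_eq_count' (fun z : K => -z) g.charpoly.roots neg_injective (-z)
    rw [neg_neg] at this
    rw [this, Polynomial.count_roots, Polynomial.count_roots,
      ← LinearMap.finrank_maxGenEigenspace_eq, ← LinearMap.finrank_maxGenEigenspace_eq, ← h]
  have e3 := congrArg Multiset.sum e2
  rw [Multiset.sum_map_neg'] at e3
  rw [e1]
  linear_combination (-1 / 2 : K) * e3

/-- elements of a group algebra in characteristic zero are regular: for central `e` the element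
`e * y` is an idempotent with the same kernel -/
theorem exists_reg (e : MonoidAlgebra K Γ) : ∃ y, e * y * e = e := by
  haveI : NeZero (Nat.card Γ : K) := ⟨Nat.cast_ne_zero.2 Nat.card_pos.ne'⟩
  obtain ⟨ε, h1, h2⟩ := IsSemisimpleRing.ideal_eq_span_idempotent (Ideal.span {e})
  obtain ⟨y, hy⟩ := Ideal.mem_span_singleton'.1
    (h2 ▸ Ideal.subset_span (Set.mem_singleton ε) : ε ∈ Ideal.span {e})
  obtain ⟨a, ha⟩ := Ideal.mem_span_singleton'.1
    (h2 ▸ Ideal.subset_span (Set.mem_singleton e) : e ∈ Ideal.span {ε})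
  refine ⟨y, ?_⟩
  rw [mul_assoc, hy, ← ha, mul_assoc, h1.eq]

end levc

/-- Higman's condition comes from a subgroup whose index is invertible -/
theorem Hig.of_sub {O Γ P : Type*} [CommRing O] [Group Γ] [Fintype Γ] [AddCommGroup P]
    [Module O P] {ρ : Representation O Γ P} (H : Subgroup Γ) (hH : IsUnit (H.index : O))
    (h : Hig (O := O) (P := P) (ρ.comp H.subtype)) : Hig ρ := by
  obtain ⟨η, h⟩ := h
  obtain ⟨a, ha⟩ := hH.exists_left_inv
  refine ⟨a • η, ?_⟩
  rw [sum_coset H]
  have : ∀ q : Γ ⧸ H, ∑ c : H, ρ (q.out * c) * a • η * ρ (q.out * c)⁻¹ = a • 1 := by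
    intro q
    have e : ρ q.out * (∑ c : H, ρ.comp H.subtype c * η * ρ.comp H.subtype c⁻¹) * ρ q.out⁻¹ = 1 := by
      rw [h, mul_one, ← map_mul, mul_inv_cancel, map_one]
    rw [← e, Finset.mul_sum, Finset.sum_mul, Finset.smul_sum]
    refine Finset.sum_congr rfl fun c _ => ?_
    simp only [mul_inv_rev, map_mul, mul_smul_comm, smul_mul_assoc, mul_assoc]
    rfl
  rw [Finset.sum_congr rfl (fun q _ => this q), Finset.sum_const, Finset.card_univ,
    ← Nat.cast_smul_eq_nsmul O, smul_smul, ← Nat.card_eq_fintype_card, mul_comm]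
  rw [show ((Nat.card (Γ ⧸ H) : ℕ) : O) = H.index from rfl, ha, one_smul]

end Vale.Agent.P022K.CH
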