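import Vale.Agent.P022K.CH.Lq2
import Vale.Agent.P022K.QT.If

/-!
P022K, block CH, row LEVQ: level control on a module with the interface `CC`.
-/

set_option linter.all false

noncomputable section

namespace Vale.Agent.P022K.CH.Lq

open Classical Finset Vale.Agent.P022K.Sh

section gen

theorem ex_per {M : Type*} [Monoid M] {α : Type*} [MulAction M α] (t : M) {X : Set α}
    (hX : X.Finite) {x : α} (hx : ∀ j : ℕ, t ^ j • x ∈ X) {n : ℕ} (hn : 0 < n) :
    ∃ N, 0 < N ∧ n ∣ N ∧ t ^ N • t ^ N • x = t ^ N • x := by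
  haveI := hX.to_subtype
  obtain ⟨i, j, hij, e⟩ := Finite.exists_ne_map_eq_of_infinite fun j : ℕ => (⟨_, hx j⟩ : X)
  have e' : t ^ i • x = t ^ j • x := congrArg Subtype.val e
  wlog h : i < j generalizing i j
  · exact this j i hij.symm e.symm e'.symm (by omega)
  obtain ⟨d, rfl⟩ := Nat.exists_eq_add_of_lt h
  have k : ∀ m : ℕ, t ^ (i + (d + 1) * m) • x = t ^ i • x := by
    intro m
    induction m with
    | zero => simp
    | succ m ih =>
      rw [show i + (d + 1) * (m + 1) = (d + 1) + (i + (d + 1) * m) by ring, pow_add, mul_smul, ih,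
        ← mul_smul, ← pow_add, show d + 1 + i = i + d + 1 by ring, ← e']
  obtain ⟨r, hr⟩ : ∃ r, (d + 1) * (n * (i + 1)) = r + i :=
    ⟨(d + 1) * (n * (i + 1)) - i, (Nat.sub_add_cancel (le_trans (Nat.le_succ i) (le_trans
      (Nat.le_mul_of_pos_left _ hn) (Nat.le_mul_of_pos_left _ d.succ_pos)))).symm⟩
  refine ⟨(d + 1) * (n * (i + 1)), by positivity, ⟨(d + 1) * (i + 1), by ring⟩, ?_⟩
  rw [← mul_smul, ← pow_add]
  nth_rw 1 [hr]
  rw [add_assoc, pow_add, mul_smul, k, ← mul_smul, ← pow_add, ← hr]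

variable {Λ M : Type} [CommRing Λ] [AddCommGroup M] [Module Λ M]

theorem ex_idem (s : Module.End Λ M) (N : Submodule Λ M) (hN : (N : Set M).Finite)
    (hs : ∀ x ∈ N, s x ∈ N) : ∃ n, 0 < n ∧ ∀ x ∈ N, (s ^ n) ((s ^ n) x) = (s ^ n) x := by
  haveI := hN.to_subtype
  haveI : Finite (Module.End Λ N) := Finite.of_injective _ DFunLike.coe_injective
  obtain ⟨n, hn, -, e⟩ := ex_per (s.restrict hs) (X := (Set.univ : Set (Module.End Λ N)))
    Set.finite_univ (x := 1) (fun _ => trivial) one_pos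
  refine ⟨n, hn, fun x hx => ?_⟩
  have := congrArg Subtype.val (LinearMap.congr_fun e ⟨x, hx⟩)
  simpa [Module.End.pow_restrict n hs] using this

theorem adj_mem {ι : Type} {s : ι → Module.End Λ M} {t : Module.End Λ M}
    (ht : t ∈ Algebra.adjoin Λ (Set.range s)) (X : Submodule Λ M) (hX : ∀ i, ∀ x ∈ X, s i x ∈ X) :
    ∀ x ∈ X, t x ∈ X := by
  induction ht using Algebra.adjoin_induction with
  | mem t ht =>
    obtain ⟨i, rfl⟩ := ht
    exact hX i
  | algebraMap r => exact fun x hx => X.smul_mem r hx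
  | add t t' _ _ h h' => exact fun x hx => X.add_mem (h x hx) (h' x hx)
  | mul t t' _ _ h h' => exact fun x hx => h _ (h' x hx)

theorem adj_com {ι : Type} {s : ι → Module.End Λ M} {t : Module.End Λ M}
    (ht : t ∈ Algebra.adjoin Λ (Set.range s)) (X : Submodule Λ M) (hX : ∀ i, ∀ x ∈ X, s i x ∈ X)
    (φ : Module.End Λ M) (hφ : ∀ i, ∀ x ∈ X, φ (s i x) = s i (φ x)) :
    ∀ x ∈ X, φ (t x) = t (φ x) := by
  induction ht using Algebra.adjoin_induction with
  | mem t ht =>
    obtain ⟨i, rfl⟩ := ht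
    exact hφ i
  | algebraMap r => exact fun x _ => map_smul φ r x
  | add t t' _ _ h h' =>
    intro x hx
    rw [LinearMap.add_apply, LinearMap.add_apply, map_add, h x hx, h' x hx]
  | mul t t' _ m h h' =>
    intro x hx
    rw [Module.End.mul_apply, Module.End.mul_apply, h _ (adj_mem m X hX x hx), h' x hx]

/-- a finite module has a common kernel vector, or it is killed by an operator which is the
identity on all common kernel vectors -/
theorem occ {ι : Type} (s : ι → Module.End Λ M) (hc : ∀ i j, Commute (s i) (s j)) (k : ℕ) :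
    ∀ N : Submodule Λ M, (N : Set M).Finite → (N : Set M).ncard = k → (∀ i, ∀ x ∈ N, s i x ∈ N) →
      (∃ w ∈ N, w ≠ 0 ∧ ∀ i, s i w = 0) ∨ ∃ t ∈ Algebra.adjoin Λ (Set.range s),
        (∀ x ∈ N, t x = 0) ∧ ∀ v, (∀ i, s i v = 0) → t v = v := by
  induction k using Nat.strong_induction_on with
  | _ k ih =>
    intro N hN hk hs
    by_cases h0 : ∀ i, ∀ x ∈ N, s i x = 0
    · by_cases h1 : ∀ x ∈ N, x = 0
      · exact Or.inr ⟨1, one_mem _, h1, fun _ _ => rfl⟩
      · push Not at h1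
        obtain ⟨x, hx, x0⟩ := h1
        exact Or.inl ⟨x, hx, x0, fun i => h0 i x hx⟩
    push Not at h0
    obtain ⟨i, x, hx, x0⟩ := h0
    have hle : ((N ⊓ LinearMap.ker (s i) : Submodule Λ M) : Set M) ⊂ N :=
      ⟨fun y hy => hy.1, fun h => x0 (h hx).2⟩
    rcases ih _ (hk ▸ Set.ncard_lt_ncard hle hN) (N ⊓ LinearMap.ker (s i)) (hN.subset hle.1) rfl
      (fun j y hy => ⟨hs j y hy.1, by
        have : s i y = 0 := hy.2
        show s i (s j y) = 0
        rw [← Module.End.mul_apply, (hc i j).eq, Module.End.mul_apply, this, map_zero]⟩) with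
      ⟨w, hw, w0, e⟩ | ⟨t, ht, t0, t1⟩
    · exact Or.inl ⟨w, hw.1, w0, e⟩
    obtain ⟨n, hn, e⟩ := ex_idem (s i) N hN (hs i)
    have si : s i ∈ Algebra.adjoin Λ (Set.range s) := Algebra.subset_adjoin ⟨i, rfl⟩
    have ct : ∀ y, s i (t y) = t (s i y) := fun y =>
      adj_com ht ⊤ (fun _ _ _ => trivial) (s i) (fun j y _ => LinearMap.congr_fun (hc i j).eq y)
        y trivial
    have k1 : ∀ j : ℕ, ∀ y ∈ N, (s i ^ j) y = 0 → (t ^ j) y = 0 := by
      intro j
      induction j with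
      | zero => exact fun y _ h => h
      | succ j ihj =>
        intro y hy h
        rw [pow_succ, Module.End.mul_apply]
        refine ihj _ (adj_mem ht N hs y hy) ?_
        have c : Commute (s i ^ j) t := (show Commute (s i) t from LinearMap.ext ct).pow_left j
        rw [← Module.End.mul_apply, c.eq, Module.End.mul_apply]
        refine t0 _ ⟨Module.End.pow_apply_mem_of_forall_mem _ (hs i) y hy, ?_⟩
        show s i ((s i ^ j) y) = 0
        rwa [← Module.End.mul_apply, ← pow_succ']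
    refine Or.inr ⟨t ^ n * (1 - s i ^ n), mul_mem (pow_mem ht n)
      (sub_mem (one_mem _) (pow_mem si n)), fun y hy => ?_, fun v hv => ?_⟩
    · refine k1 n _ (N.sub_mem hy (Module.End.pow_apply_mem_of_forall_mem _ (hs i) y hy)) ?_
      show (s i ^ n) (y - (s i ^ n) y) = 0
      rw [map_sub, e y hy, sub_self]
    · obtain ⟨m, rfl⟩ := Nat.exists_eq_succ_of_ne_zero hn.ne'
      have : (1 - s i ^ m.succ) v = v := by
        rw [LinearMap.sub_apply, pow_succ, Module.End.mul_apply, hv i, map_zero, sub_zero]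
        rfl
      rw [Module.End.mul_apply, this, Module.End.pow_apply]
      exact Function.iterate_fixed (t1 v hv) _

/-- a vector killed by the maximal ideal -/
theorem ex_soc [IsLocalRing Λ] (k : ℕ) : ∀ w : M, w ≠ 0 → (Submodule.span Λ {w} : Set M).Finite →
    (Submodule.span Λ {w} : Set M).ncard = k →
    ∃ r : Λ, r • w ≠ 0 ∧ ∀ a ∈ IsLocalRing.maximalIdeal Λ, a • r • w = 0 := by
  induction k using Nat.strong_induction_on with
  | _ k ih =>
    intro w w0 hf hk
    by_cases h : ∀ a ∈ IsLocalRing.maximalIdeal Λ, a • w = 0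
    · exact ⟨1, by rwa [one_smul], by simpa using h⟩
    push Not at h
    obtain ⟨a, ha, a0⟩ := h
    have hle : (Submodule.span Λ {a • w} : Set M) ⊂ Submodule.span Λ {w} := by
      refine ⟨Submodule.span_le.2 (Set.singleton_subset_iff.2
        (Submodule.smul_mem _ _ (Submodule.mem_span_singleton_self w))), fun h => w0 ?_⟩
      obtain ⟨b, hb⟩ := Submodule.mem_span_singleton.1 (h (Submodule.mem_span_singleton_self w))
      have hu := IsLocalRing.isUnit_one_sub_self_of_mem_nonunits (b * a)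
        ((IsLocalRing.maximalIdeal Λ).mul_mem_left b ha)
      refine hu.smul_eq_zero.1 ?_
      rw [sub_smul, one_smul, mul_smul, hb, sub_self]
    obtain ⟨r, h1, h2⟩ := ih _ (hk ▸ Set.ncard_lt_ncard hle hf) (a • w) a0 (hf.subset hle.1) rfl
    exact ⟨r * a, by rwa [mul_smul], fun b hb => by rw [mul_smul]; exact h2 b hb⟩

theorem fin_pow (p : ℕ) (W : Submodule Λ M) (h : {v | v ∈ W ∧ p • v = 0}.Finite) (k : ℕ) :
    {v | v ∈ W ∧ p ^ k • v = 0}.Finite := by
  induction k with
  | zero => exact (Set.finite_singleton 0).subset fun v hv => by simpa using hv.2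
  | succ k ih =>
    refine Set.Finite.of_finite_fibers (fun v => p • v) (ih.subset ?_) ?_
    · rintro _ ⟨v, hv, rfl⟩
      exact ⟨W.smul_of_tower_mem p hv.1, by rw [← mul_smul, ← pow_succ, hv.2]⟩
    · rintro _ ⟨v, hv, rfl⟩
      refine (h.image fun y => v + y).subset fun y hy => ⟨y - v, ⟨W.sub_mem hy.1.1 hv.1, ?_⟩, ?_⟩
      · have : p • y = p • v := hy.2
        rw [smul_sub, this, sub_self]
      · simp

/-- a joint eigenvector of the local operators is an eigenvector of the product -/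
theorem prod_ec {κ : Type} [Fintype κ] [DecidableEq κ] {G : κ → Type} [∀ k, Group (G k)] [∀ k, Fintype (G k)]
    (A : (∀ k, G k) → Module.End Λ M) (v : M) (h1 : A 1 v = v)
    (hm : ∀ g h, A (g * h) v = A g (A h v)) (c : ∀ k, G k → Λ) (e : κ → Λ)
    (he : ∀ k, ∑ x, c k x • A (Pi.mulSingle k x) v = e k • v) :
    ∑ g, (∏ k, c k (g k)) • A g v = (∏ k, e k) • v := by
  have key : ∀ s : Finset κ, ∑ g : ∀ k, G k,
      (∏ k, if k ∈ s then c k (g k) else if g k = 1 then 1 else 0) • A g v = (∏ k ∈ s, e k) • v := by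
    intro s
    induction s using Finset.induction_on with
    | empty =>
      rw [Finset.sum_eq_single 1]
      · simp [h1]
      · intro g _ hg
        obtain ⟨k, hk⟩ := Function.ne_iff.1 hg
        rw [Finset.prod_eq_zero (mem_univ k) (by rw [if_neg (notMem_empty k), if_neg (show ¬ g k = 1 from hk)]), zero_smul]
      · simp
    | insert a s ha ih =>
      have h2 := congrArg (∑ x, c a x • A (Pi.mulSingle a x) : Module.End Λ M) ih
      rw [map_smul, LinearMap.sum_apply _ _ v] at h2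
      simp only [LinearMap.smul_apply] at h2
      rw [he, smul_smul, mul_comm, ← Finset.prod_insert ha] at h2
      rw [← h2, LinearMap.sum_apply]
      have h3 : ∀ x : G a, (c a x • A (Pi.mulSingle a x)) (∑ g : ∀ k, G k,
          (∏ k, if k ∈ s then c k (g k) else if g k = 1 then 1 else 0) • A g v) =
          ∑ g : ∀ k, G k, (if g a = x then
            ∏ k, if k ∈ insert a s then c k (g k) else if g k = 1 then 1 else 0 else 0) • A g v := by
        intro x
        rw [LinearMap.smul_apply, map_sum, Finset.smul_sum]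
        refine Fintype.sum_equiv (Equiv.mulLeft (Pi.mulSingle a x)) _ _ fun g => ?_
        show _ = (if (Pi.mulSingle a x * g : ∀ k, G k) a = x then ∏ k, if k ∈ insert a s then
          c k ((Pi.mulSingle a x * g : ∀ k, G k) k) else if (Pi.mulSingle a x * g : ∀ k, G k) k = 1
          then 1 else 0 else 0) • A (Pi.mulSingle a x * g) v
        rw [map_smul, ← hm, smul_smul]
        congr 1
        rw [← Finset.mul_prod_erase _ _ (mem_univ a), ← Finset.mul_prod_erase _ _ (mem_univ a),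
          if_neg ha, if_pos (mem_insert_self a s)]
        have : ∏ k ∈ univ.erase a, (if k ∈ insert a s then c k ((Pi.mulSingle a x * g : ∀ k, G k) k)
            else if (Pi.mulSingle a x * g : ∀ k, G k) k = 1 then 1 else 0) =
            ∏ k ∈ univ.erase a, if k ∈ s then c k (g k) else if g k = 1 then 1 else 0 :=
          Finset.prod_congr rfl fun k hk => by
            have hk' := Finset.ne_of_mem_erase hk
            simp [Pi.mulSingle_eq_of_ne hk', hk']
        rw [this]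
        by_cases hg : g a = 1 <;> simp [hg]
      rw [Finset.sum_congr rfl (fun x _ => h3 x), Finset.sum_comm]
      refine Finset.sum_congr rfl fun g _ => ?_
      rw [← Finset.sum_smul, Finset.sum_ite_eq, if_pos (mem_univ _)]
  simpa using key univ

end gen

variable {G0 G : Type} [Group G0] [Group G] {T : Tw G0 G} {Λ M : Type} [CommRing Λ]
  [AddCommGroup M] [Module Λ M] {a : Representation Λ G M}

theorem inv_fv {U : Subgroup G} {v : M} (hv : v ∈ Fv a U) : Inv U fun x => a x v := fun x u hu => by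
  show a (x * u) v = a x v
  rw [map_mul, Module.End.mul_apply, hv u hu]

theorem Tv_mem {O K : Type} [CommRing O] [IsDomain O] [IsDiscreteValuationRing O] [Field K]
    [Algebra O K] (w : T.Lc O K) (hz : ∀ x ∈ T.Z, a x = 1) {v : M} (hv : v ∈ w.Fl a (KK O K)) :
    w.Tv a v ∈ w.Fl a (KK O K) := by
  haveI := w.fin
  letI := Fintype.ofFinite (IsLocalRing.ResidueField O)
  have h1 : v ∈ Fv (a.comp w.ι) (KK O K ⊔ Zl K) := by
    intro u hu
    obtain ⟨k, hk, z, hz', rfl⟩ := Subgroup.mem_sup_of_normal_right.1 hu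
    show a (w.ι (k * z)) v = v
    rw [map_mul, map_mul, hz _ (w.cen z hz'), mul_one]
    exact hv _ ⟨k, hk, rfl⟩
  have c : Cor (KK O K ⊔ Zl K) (dc (KK O K ⊔ Zl K) (dg w.ϖ) (KK O K ⊔ Zl K)) (KK O K ⊔ Zl K) := by
    refine ⟨?_, dc_right, w.rep_loc.fin⟩
    rintro u hu _ ⟨a, ha, b, hb, rfl⟩
    exact ⟨u * a, mul_mem hu ha, b, hb, by simp only [mul_assoc]⟩
  rintro _ ⟨k, hk, rfl⟩
  have h2 := hk_inv c (inv_fv h1) 1 k (Subgroup.mem_sup_left hk)
  rw [w.rep_loc.hk (inv_fv h1), w.rep_loc.hk (inv_fv h1)] at h2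
  simp only [one_mul, map_mul, Module.End.mul_apply] at h2
  simp only [Tw.Lc.Tv, LinearMap.sum_apply, map_sum]
  exact h2

/-- **level control on a module with the interface `CC`** -/
theorem levG {H0 : Type} [Group H0] [TopologicalSpace H0] {g0 : Representation Λ H0 M}
    (h : T.CC 2 a g0) {U U' W : Subgroup G} (hUW : U ≤ W) (hWU : W ≤ U')
    (hn : ∀ u ∈ U', Sh.cj u U = U) (hfi : U.relIndex U' ≠ 0)
    (hm : ∀ X, U ≤ X → X ≤ U' → X ∈ T.Nl) {ι : Type} (s : ι → Module.End Λ M)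
    (hc : ∀ i j, Commute (s i) (s j)) (hsU : ∀ i, ∀ x ∈ Fv a U, s i x ∈ Fv a U)
    (hsa : ∀ i, ∀ u ∈ U', ∀ x ∈ Fv a U, a u (s i x) = s i (a u x))
    {Γ : Type} [Group Γ] [Fintype Γ] (el : Γ → G) (e1 : ∀ g, el g ∈ U')
    (e2 : ∀ g h, (el (g * h))⁻¹ * (el g * el h) ∈ U) (H : Subgroup Γ)
    (e3 : ∀ g, el g ∈ U → g ∈ H) (e4 : ∀ y ∈ W, ∃ h ∈ H, (el h)⁻¹ * y ∈ U)
    {K : Type} [Algebra ℤ_[2] Λ] [Field K] [CharZero K] [Algebra ℤ_[2] K]
    (φ : Λ →ₐ[ℤ_[2]] K) (hφ : Function.Injective φ) (c : Γ → Λ) (χ : Γ → K) (t0' : K)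
    (hχ : ∀ g, φ (c g) = t0' * χ g) (hch : IsCh χ)
    (hL : LvT H χ) (hz : ∀ g z, el z ∈ U → χ (g * z) = χ g)
    {v : M} (hv : v ∈ Fv a U) (hs : ∀ i, s i v = 0) (h0 : ∑ g, c g • a (el g) v ≠ 0) :
    ∃ w ∈ Fv a W, w ≠ 0 ∧ 2 • w = 0 ∧ ∀ i, s i w = 0 := by
  have hle := hUW.trans hWU
  have hU := hm U le_rfl hle
  have ha : ∀ u ∈ U', ∀ x ∈ Fv a U, a u x ∈ Fv a U := fun u hu x hx y hy => by
    have : u⁻¹ * y * u ∈ U := mem_cj.1 ((hn u hu).symm ▸ hy)
    rw [← Module.End.mul_apply, ← map_mul, show y * u = u * (u⁻¹ * y * u) by group, map_mul,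
      Module.End.mul_apply, hx _ this]
  let N : Submodule Λ M := Fv a W ⊓ LinearMap.ker ((2 : ℕ) • LinearMap.id)
  have hWle : Fv a W ≤ Fv a U := fun x hx u hu => hx u (hUW hu)
  rcases occ s hc _ N (h.adm W (hm W hUW hWU).1) rfl (fun i x hx => ⟨fun u hu => by
      rw [hsa i u (hWU hu) x (hWle hx.1), hx.1 u hu], by
      have : (2 : ℕ) • x = 0 := hx.2
      show (2 : ℕ) • s i x = 0
      rw [← map_nsmul, this, map_zero]⟩) with ⟨w, hw, w0, e⟩ | ⟨t, ht, t0, t1⟩
  · exact ⟨w, hw.1, w0, hw.2, e⟩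
  exfalso
  have tU : ∀ n, ∀ x ∈ Fv a U, (t ^ n) x ∈ Fv a U := fun n => adj_mem (pow_mem ht n) _ hsU
  have ta : ∀ n, ∀ u ∈ U', ∀ x ∈ Fv a U, a u ((t ^ n) x) = (t ^ n) (a u x) := fun n u hu =>
    adj_com (pow_mem ht n) _ hsU _ fun i => hsa i u hu
  have pm : ∀ n m (x : M), (t ^ n) x = x → (t ^ (n * m)) x = x := fun n m x e => by
    rw [pow_mul, Module.End.pow_apply]
    exact Function.iterate_fixed e m
  let D : Submodule Λ M :=
    { carrier := {x | x ∈ Fv a U ∧ ∃ n, 0 < n ∧ (t ^ n) x = x}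
      add_mem' := by
        rintro x y ⟨hx, n, hn, e⟩ ⟨hy, m, hm, e'⟩
        exact ⟨add_mem hx hy, n * m, Nat.mul_pos hn hm, by
          rw [map_add, pm n m x e, mul_comm, pm m n y e']⟩
      zero_mem' := ⟨zero_mem _, 1, one_pos, map_zero _⟩
      smul_mem' := by
        rintro r x ⟨hx, n, hn, e⟩
        exact ⟨Submodule.smul_mem _ r hx, n, hn, by rw [map_smul, e]⟩ }
  have pr : ∀ x ∈ Fv a U, ∀ n, 0 < n → ∃ m, (t ^ (n * m)) x ∈ D := fun x hx n hn => by
    obtain ⟨k, hk⟩ := h.tor x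
    obtain ⟨_, h1, ⟨m, rfl⟩, h2⟩ := ex_per t (fin_pow 2 _ (h.adm U hU.1) k) (x := x)
      (fun j => ⟨tU j x hx, by
        show 2 ^ k • (t ^ j) x = 0
        rw [← map_nsmul, hk, map_zero]⟩) hn
    exact ⟨m, tU _ x hx, _, h1, h2⟩
  have aD : ∀ u ∈ U', ∀ x ∈ D, a u x ∈ D := by
    rintro u hu x ⟨hx, n, hn, e⟩
    exact ⟨ha u hu x hx, n, hn, by rw [← ta n u hu x hx, e]⟩
  haveI : (U.subgroupOf U').Normal := ⟨fun y hy u => by
    have : (y : G) ∈ Sh.cj (u : G)⁻¹ U := (hn _ (inv_mem u.2)).symm ▸ hy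
    simpa [Subgroup.mem_subgroupOf] using mem_cj.1 this⟩
  let Δ := U' ⧸ U.subgroupOf U'
  haveI : Finite Δ := Subgroup.index_ne_zero_iff_finite.1 hfi
  letI : Fintype Δ := Fintype.ofFinite Δ
  let ρ0 : U' →* AddMonoid.End D :=
    { toFun := fun u => ((a u).restrict (aD u u.2)).toAddMonoidHom
      map_one' := AddMonoidHom.ext fun x => Subtype.ext (by
        show a 1 x = x
        rw [map_one]
        rfl)
      map_mul' := fun u u' => AddMonoidHom.ext fun x => Subtype.ext (by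
        show a (u * u') x = a u (a u' x)
        rw [map_mul]
        rfl) }
  let ρ : Δ →* AddMonoid.End D := QuotientGroup.lift _ ρ0 fun u hu =>
    AddMonoidHom.ext fun x => Subtype.ext (x.2.1 u hu)
  have hρ : ∀ (u : U') (x : D), (ρ (QuotientGroup.mk u) x : M) = a u x := fun _ _ => rfl
  let f : Γ →* Δ := MonoidHom.mk' (fun g => QuotientGroup.mk ⟨el g, e1 g⟩) fun g g' =>
    QuotientGroup.eq.2 (e2 g g')
  have hf : ∀ g ∈ f.ker, el g ∈ U := fun g hg =>
    (QuotientGroup.eq_one_iff (N := U.subgroupOf U') ⟨el g, e1 g⟩).1 hg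
  have vD : v ∈ D := ⟨hv, 1, one_pos, t1 v hs⟩
  have key := levD ρ (fun x => (h.tor x).imp fun k hk => Subtype.ext hk) (fun x => ?_) ?_
    (fun S hS x h2 hx => ?_) f H (fun g hg => e3 g (hf g hg)) φ hφ c χ t0' hχ hch hL
    (fun g z hz' => hz g z (hf z hz')) (fun x h2 hx => ?_)
    (smulAddHom Λ D) ⟨v, vD⟩
  · apply h0
    have := congrArg Subtype.val key
    rw [Submodule.coe_sum] at this
    exact this
  · obtain ⟨n, hn, e⟩ := x.2.2
    obtain ⟨y, hy, e'⟩ := h.div U hU x x.2.1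
    obtain ⟨m, hm⟩ := pr y hy n hn
    exact ⟨⟨_, hm⟩, Subtype.ext (by
      show 2 • (t ^ (n * m)) y = x
      rw [← map_nsmul, e', pm n m x e])⟩
  · exact Set.Finite.of_finite_image ((h.adm U hU.1).subset (by
      rintro _ ⟨x, hx, rfl⟩
      exact ⟨x.2.1, congrArg Subtype.val hx⟩)) Subtype.val_injective.injOn
  · let X : Subgroup G := (S.comap (QuotientGroup.mk' _)).map U'.subtype
    have mX : ∀ u : U', (u : G) ∈ X ↔ (QuotientGroup.mk u : Δ) ∈ S := fun u =>
      Subgroup.mem_map_iff_mem U'.subtype_injective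
    have X1 : U ≤ X := fun u hu => (mX ⟨u, hle hu⟩).2 (by
      rw [(QuotientGroup.eq_one_iff (N := U.subgroupOf U') ⟨u, hle hu⟩).2 hu]
      exact one_mem _)
    have X2 : X ≤ U' := Subgroup.map_subtype_le _
    have r : Sh.Rep X U univ fun s : S => (s.1.out : U') := by
      refine ⟨fun y hy u hu => mul_mem hy (X1 hu), fun s _ => (mX _).2 ?_, fun s _ s' _ e => ?_,
        fun y hy => ⟨⟨_, (mX ⟨y, X2 hy⟩).1 hy⟩, mem_univ _, ?_⟩⟩
      · rw [QuotientGroup.out_eq']
        exact s.2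
      · apply Subtype.ext
        rw [← s.1.out_eq', ← s'.1.out_eq']
        exact QuotientGroup.eq.2 e
      · exact (QuotientGroup.eq (s := U.subgroupOf U')).1 (QuotientGroup.out_eq' _)
    obtain ⟨y, hy, y2, e⟩ := h.tro X (hm X X1 X2) U hU X1 (fun u hu => hn u (X2 hu)) (by
      obtain ⟨m, hm⟩ := IsPGroup.iff_card.1 hS
      refine ⟨m, ?_⟩
      rw [← hm, ← Subgroup.relIndex_subgroupOf X2, show X.subgroupOf U' = _ from
        Subgroup.comap_map_eq_self_of_injective U'.subtype_injective _]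
      have := Subgroup.relIndex_ker (S.comap (QuotientGroup.mk' (U.subgroupOf U')))
        (QuotientGroup.mk' (U.subgroupOf U'))
      rwa [QuotientGroup.ker_mk',
        Subgroup.map_comap_eq_self_of_surjective (QuotientGroup.mk'_surjective _)] at this) 1 x
      (fun u hu => congrArg Subtype.val (hx _ ((mX ⟨u, X2 hu⟩).1 hu)))
      (by rw [pow_one]; exact congrArg Subtype.val h2)
    obtain ⟨n, hn, e'⟩ := x.2.2
    obtain ⟨m, hm⟩ := pr y hy n hn
    refine ⟨⟨_, hm⟩, Subtype.ext ?_, Subtype.ext ?_⟩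
    · show 2 • (t ^ (n * m)) y = 0
      rw [← map_nsmul, show 2 • y = 0 from y2, map_zero]
    · rw [Sh.hv, r.hk (inv_fv hy)] at e
      rw [← pm n m x e', ← e, map_sum, Submodule.coe_sum]
      refine Finset.sum_congr rfl fun s _ => ?_
      rw [one_mul, ← ta _ _ (s.1.out : U').2 y hy]
      conv_lhs => rw [← s.1.out_eq']
      rfl
  · obtain ⟨n, hn, e⟩ := x.2.2
    obtain ⟨m, rfl⟩ := Nat.exists_eq_succ_of_ne_zero hn.ne'
    have : t x = 0 := t0 x ⟨fun y hy => by
      obtain ⟨h', hh, e'⟩ := e4 y hy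
      rw [← mul_inv_cancel_left (el h') y, map_mul, Module.End.mul_apply, x.2.1 _ e']
      exact congrArg Subtype.val (hx h' hh), congrArg Subtype.val h2⟩
    rw [pow_succ, Module.End.mul_apply, this, map_zero] at e
    exact Subtype.ext e.symm

end Vale.Agent.P022K.CH.Lq
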