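import Vale.Agent.P022K.CH.Lq1
import Vale.Agent.P022K.CH.Lq3
import Vale.Agent.P022K.QT.Defs

/-!
P022K, block CH, row LEVB: level control on the modular tower.
-/

set_option linter.all false

noncomputable section

namespace Vale.Agent.P022K.CH.Lq

open Classical Finset Vale.Agent.P022K.Sh Vale.Agent.P022K.QT Matrix

section loc

variable {l : Pr}

/-- the reduction modulo `l` -/
abbrev rd (l : Pr) : GL (Fin 2) ℤ_[l] →* GL (Fin 2) (ZMod l) :=
  GeneralLinearGroup.map PadicInt.toZMod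

theorem tz_zero {x : ℤ_[l]} : PadicInt.toZMod x = 0 ↔ (l : ℤ_[l]) ∣ x := by
  rw [← RingHom.mem_ker, PadicInt.ker_toZMod, PadicInt.maximalIdeal_eq_span_p,
    Ideal.mem_span_singleton]

theorem unit_of {x : ℤ_[l]} (h : PadicInt.toZMod x ≠ 0) : IsUnit x := by
  rwa [Ne, ← RingHom.mem_ker, PadicInt.ker_toZMod, IsLocalRing.notMem_maximalIdeal] at h

theorem dvd_iff {x : ℤ_[l]} {n : ℕ} :
    (l : ℤ_[l]) ^ n ∣ x ↔ ‖(x : ℚ_[l])‖ ≤ (l : ℝ) ^ (-n : ℤ) := by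
  rw [← PadicInt.norm_def, PadicInt.norm_le_pow_iff_mem_span_pow, Ideal.mem_span_singleton]

theorem ex_gl (A : Matrix (Fin 2) (Fin 2) ℤ_[l]) (h : (A.map PadicInt.toZMod).det ≠ 0) :
    ∃ k : GL (Fin 2) ℤ_[l], k.val = A :=
  ⟨GeneralLinearGroup.mk'' A (unit_of (by rwa [RingHom.map_det])), rfl⟩

theorem rd_sur (l : Pr) : Function.Surjective (rd l) := fun g => by
  choose f hf using ZMod.ringHom_surjective (PadicInt.toZMod (p := l))
  have e : (g.val.map f).map PadicInt.toZMod = g.val := Matrix.ext fun i k => hf _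
  obtain ⟨k, hk⟩ := ex_gl (g.val.map f) (by
    rw [e]
    exact g.det_ne_zero)
  exact ⟨k, Units.ext (by rw [← e, ← hk]; rfl)⟩

/-- the integral lift -/
def lz (l : Pr) (g : GL (Fin 2) (ZMod l)) : GL (Fin 2) ℤ_[l] :=
  Classical.epsilon fun k => rd l k = g

theorem rd_lz (g : GL (Fin 2) (ZMod l)) : rd l (lz l g) = g := Classical.epsilon_spec (rd_sur l g)

theorem lf_eq (g : GL (Fin 2) (ZMod l)) : Tw.lf l g = gK ℚ_[l] (lz l g) := rfl

theorem lf_mem (g : GL (Fin 2) (ZMod l)) : Tw.lf l g ∈ Kl l := ⟨_, rfl⟩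

theorem gK_sub (k : GL (Fin 2) ℤ_[l]) (i j : Fin 2) :
    ((gK ℚ_[l] k).val - 1) i j = ((k.val - 1) i j : ℤ_[l]) := by
  by_cases h : i = j <;> simp [h]

theorem mem_Km1 {k : GL (Fin 2) ℤ_[l]} : gK ℚ_[l] k ∈ Km ℤ_[l] ℚ_[l] 1 ↔ rd l k = 1 := by
  rw [mem_Km, and_iff_right ⟨k, rfl⟩, Units.ext_iff, ← Matrix.ext_iff]
  refine forall₂_congr fun i j => ?_
  rw [gK_sub, ← dvd_iff, pow_one, ← tz_zero, Matrix.sub_apply, map_sub, sub_eq_zero]
  by_cases h : i = j <;> simp [Matrix.one_apply, h]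

theorem mem_Km_of {g : Gl l} {n : ℕ} (hn : 0 < n)
    (h : ∀ i k, ‖(g.val - 1) i k‖ ≤ (l : ℝ) ^ (-n : ℤ)) : g ∈ Km ℤ_[l] ℚ_[l] n := by
  have hp : (1 : ℝ) ≤ l := by exact_mod_cast l.2.one_lt.le
  have h1 : ∀ i k, ‖(g.val - 1) i k‖ ≤ 1 := fun i k =>
    (h i k).trans (zpow_le_one_of_nonpos₀ hp (by omega))
  let B : Matrix (Fin 2) (Fin 2) ℤ_[l] := Matrix.of fun i k => ⟨_, h1 i k⟩
  have e : B.map PadicInt.toZMod = 0 := Matrix.ext fun i k =>
    tz_zero.2 ((dvd_pow_self _ hn.ne').trans (dvd_iff.2 (h i k)))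
  obtain ⟨k, hk⟩ := ex_gl (B + 1) (by
    rw [Matrix.map_add _ (map_add _), e, zero_add, Matrix.map_one _ (map_zero _) (map_one _)]
    simp)
  refine mem_Km.2 ⟨⟨k, Units.ext ?_⟩, h⟩
  refine sub_left_injective (b := 1) (Matrix.ext fun i j => (gK_sub k i j).trans ?_)
  rw [hk, add_sub_cancel_right]
  rfl

theorem conj_Km {n : ℕ} {u y : Gl l} (hu : u ∈ Kl l) (hy : y ∈ Km ℤ_[l] ℚ_[l] n) :
    u⁻¹ * y * u ∈ Km ℤ_[l] ℚ_[l] n := by
  obtain ⟨u, rfl⟩ := hu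
  obtain ⟨y, hy, rfl⟩ := hy
  exact ⟨u⁻¹ * y * u, (MonoidHom.normal_ker _).conj_mem' y hy u, by simp only [map_mul, map_inv]⟩

theorem conj_U1 {n : ℕ} {u y : Gl l} (hu : u ∈ U1 l 0) (hy : y ∈ U1 l n) :
    u⁻¹ * y * u ∈ U1 l n := by
  rw [U1_zero] at hu
  obtain ⟨u, hu', z, hz, rfl⟩ := Subgroup.mem_sup_of_normal_right.1 hu
  obtain ⟨y, hy', z', hz', rfl⟩ := Subgroup.mem_sup_of_normal_right.1 hy
  rw [show (u * z)⁻¹ * (y * z') * (u * z) = z⁻¹ * (u⁻¹ * y * (z' * u)) * z by group,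
    ← Subgroup.mem_center_iff.1 hz', ← mul_assoc (u⁻¹ * y)]
  exact mul_mem (mul_mem (Subgroup.mem_sup_right (inv_mem hz))
    (Subgroup.mul_mem_sup (conj_Km hu' hy') hz')) (Subgroup.mem_sup_right hz)

theorem cen_of {g : GL (Fin 2) (ZMod l)} (h : Tw.lf l g ∈ U1 l 1) : g ∈ Subgroup.center _ := by
  obtain ⟨k, hk, z, hz, e⟩ := Subgroup.mem_sup_of_normal_right.1 h
  refine Subgroup.mem_center_iff.2 fun x => ?_
  have : gK ℚ_[l] ((lz l x)⁻¹ * lz l g * lz l x * (lz l g)⁻¹) ∈ Km ℤ_[l] ℚ_[l] 1 := by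
    rw [map_mul, map_mul, map_mul, map_inv, map_inv, ← lf_eq g, ← e, ← lf_eq x,
      show (Tw.lf l x)⁻¹ * (k * z) * Tw.lf l x * (k * z)⁻¹ =
        (Tw.lf l x)⁻¹ * k * (z * Tw.lf l x) * z⁻¹ * k⁻¹ by group, ← Subgroup.mem_center_iff.1 hz,
      ← mul_assoc, mul_inv_cancel_right]
    exact mul_mem (conj_Km (lf_mem x) hk) (inv_mem hk)
  rw [mem_Km1, map_mul, map_mul, map_mul, map_inv, map_inv, rd_lz, rd_lz, mul_inv_eq_one,
    mul_assoc, inv_mul_eq_iff_eq_mul] at this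
  exact this.symm

/-- matrices whose lower left entry is divisible by `c` -/
def B0 {R : Type} [CommRing R] (c : R) : Subgroup (GL (Fin 2) R) where
  carrier := {k | c ∣ k 1 0}
  mul_mem' {a b} ha hb := by
    show c ∣ (a.val * b.val) 1 0
    rw [Matrix.mul_apply, Fin.sum_univ_two]
    exact dvd_add (Dvd.dvd.mul_right ha _) (Dvd.dvd.mul_left hb _)
  one_mem' := by
    show c ∣ (1 : Matrix (Fin 2) (Fin 2) R) 1 0
    simp
  inv_mem' {a} ha := by
    show c ∣ (a⁻¹).val 1 0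
    rw [Matrix.coe_units_inv, Matrix.inv_def, Matrix.adjugate_fin_two]
    have : c ∣ a.val 1 0 := ha
    simpa using this.mul_left (Ring.inverse a.val.det)

/-- the group `K₀(l ^ n)` -/
def K0q (l : Pr) (n : ℕ) : Subgroup (Gl l) := (B0 ((l : ℤ_[l]) ^ n)).map (gK ℚ_[l])

theorem K0q_le (n : ℕ) : K0q l n ≤ Kl l := fun _ ⟨k, _, e⟩ => ⟨k, e⟩

theorem K0q_zero : K0q l 0 = Kl l :=
  le_antisymm (K0q_le 0) fun _ ⟨k, e⟩ => ⟨k, by rw [pow_zero]; exact one_dvd _, e⟩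

theorem Km_le_K0q (n : ℕ) : Km ℤ_[l] ℚ_[l] n ≤ K0q l n := fun g hg => by
  obtain ⟨⟨k, rfl⟩, h⟩ := mem_Km.1 hg
  exact ⟨k, dvd_iff.2 (by simpa using h 1 0), rfl⟩

theorem zp (l : Pr) : Nw.Zp (PadicInt.subring l) l := by
  have hp : (1 : ℝ) < l := by exact_mod_cast l.2.one_lt
  have p0 : ((l : ℕ) : ℚ_[l]) ≠ 0 := Nat.cast_ne_zero.2 l.2.ne_zero
  refine ⟨l.2, p0, fun h => ?_, fun x => ?_, fun n x hx => ?_, fun x hx h => ?_⟩
  · have : ‖((l : ℕ) : ℚ_[l])⁻¹‖ ≤ 1 := h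
    rw [norm_inv, Padic.norm_p, inv_inv] at this
    exact this.not_gt hp
  · obtain ⟨n, hn⟩ := pow_unbounded_of_one_lt ‖x‖ hp
    refine ⟨n, show ‖((l : ℕ) : ℚ_[l]) ^ n * x‖ ≤ 1 from ?_⟩
    rw [norm_mul, norm_pow, Padic.norm_p, inv_pow, inv_mul_le_iff₀ (by positivity), mul_one]
    exact hn.le
  · obtain ⟨y, hy⟩ := Ideal.mem_span_singleton.1 (PadicInt.appr_spec n (⟨x, hx⟩ : ℤ_[l]))
    refine ⟨PadicInt.appr ⟨x, hx⟩ n, y, y.2, ?_⟩
    have := congrArg (fun t : ℤ_[l] => (t : ℚ_[l])) hy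
    simp only [PadicInt.coe_sub, PadicInt.coe_mul, PadicInt.coe_pow, PadicInt.coe_natCast] at this
    exact sub_eq_iff_eq_add'.1 this
  · let x' : ℤ_[l] := ⟨x, hx⟩
    have u : IsUnit x' := unit_of fun e => h (by
      obtain ⟨y, hy⟩ := tz_zero.1 e
      have : x = ((l : ℕ) : ℚ_[l]) * (y : ℚ_[l]) := congrArg (fun t : ℤ_[l] => (t : ℚ_[l])) hy
      rw [this, inv_mul_cancel_left₀ p0]
      exact y.2)
    have : ‖x‖ = 1 := PadicInt.isUnit_iff.1 u
    show ‖x⁻¹‖ ≤ 1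
    rw [norm_inv, this, inv_one]

theorem K0_of {n : ℕ} {g : Gl l} (h : g ∈ K0q l n) : Nw.K0 (PadicInt.subring l) l n g := by
  obtain ⟨k, ⟨c, hc⟩, rfl⟩ := h
  refine ⟨(k 0 0).2, (k 0 1).2, (k 1 1).2, ⟨c, c.2, congrArg (fun t : ℤ_[l] => (t : ℚ_[l])) hc⟩, ?_⟩
  have : ‖(k.val.det : ℚ_[l])‖ = 1 := PadicInt.norm_units k.det
  rw [Matrix.det_fin_two] at this
  show ‖((k.val 0 0 * k.val 1 1 - k.val 0 1 * k.val 1 0 : ℤ_[l]) : ℚ_[l])⁻¹‖ ≤ 1
  rw [norm_inv, this, inv_one]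

theorem sm_loc {n : ℕ} (hn : 0 < n) {y : ℚ_[l]} (hy : ‖y‖ ≤ 1) :
    Nw.nU (((l : ℕ) : ℚ_[l]) ^ n * y) ∈ Km ℤ_[l] ℚ_[l] n ∧
    Nw.nL (((l : ℕ) : ℚ_[l]) ^ n * y) ∈ Km ℤ_[l] ℚ_[l] n ∧
    Nw.dG (1 + ((l : ℕ) : ℚ_[l]) ^ n * y) ∈ Km ℤ_[l] ℚ_[l] n := by
  have h : ‖((l : ℕ) : ℚ_[l]) ^ n * y‖ ≤ (l : ℝ) ^ (-n : ℤ) := by
    rw [norm_mul, Padic.norm_p_pow]
    exact mul_le_of_le_one_right (by positivity) hy
  have h0 : (0 : ℝ) ≤ (l : ℝ) ^ (-n : ℤ) := by positivity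
  generalize ((l : ℕ) : ℚ_[l]) ^ n * y = t at h
  refine ⟨mem_Km_of hn fun i k => ?_, mem_Km_of hn fun i k => ?_, ?_⟩
  · rw [Nw.nU_val]
    fin_cases i <;> fin_cases k <;> first | simpa using h | simpa using h0
  · rw [Nw.nL_val]
    fin_cases i <;> fin_cases k <;> first | simpa using h | simpa using h0
  · by_cases e : 1 + t = 0
    · rw [Nw.dG, dif_pos e]
      exact one_mem _
    · refine mem_Km_of hn fun i k => ?_
      rw [Nw.dG_val e]
      fin_cases i <;> fin_cases k <;> first | simpa using h | simpa using h0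

end loc

/-- the level `Γ₀(N)` -/
def U0 (N : ℕ) : Subgroup G := PU fun l => K0q l (N.factorization l) ⊔ Zl ℚ_[l]

theorem ex_N (S : Finset Pr) (n : Pr → ℕ) (h : ∀ l ∉ S, n l = 0) :
    ∃ N : ℕ, 0 < N ∧ ∀ l : Pr, N.factorization l = n l := by
  refine ⟨∏ l ∈ S, l.1 ^ n l, Finset.prod_pos fun l _ => pow_pos l.2.pos _, fun l => ?_⟩
  rw [Nat.factorization_prod fun l _ => (pow_pos l.2.pos _).ne', Finsupp.finset_sum_apply,
    Finset.sum_eq_single l]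
  · rw [l.2.factorization_pow, Finsupp.single_eq_same]
  · intro q _ hq
    rw [q.2.factorization_pow, Finsupp.single_eq_of_ne fun e => hq (Subtype.ext e.symm)]
  · intro hl
    rw [h l hl, pow_zero, Nat.factorization_one]
    rfl

theorem io_mem {V : ∀ p, Subgroup (Gl p)} {l : Pr} {g : Gl l} (h : g ∈ V l) : io l g ∈ PU V :=
  mem_PU.2 fun q => by
    by_cases e : q = l
    · subst e
      rwa [ev_io]
    · rw [ev_io_ne e]
      exact one_mem _

variable {Λ M : Type} [CommRing Λ] [AddCommGroup M] [Module Λ M] {a : Representation Λ G M}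

theorem fix_PU {N : ℕ} (hN : 0 < N) {v : M} (hv : v ∈ Fv a (UN N)) {V : ∀ p, Subgroup (Gl p)}
    (h1 : ∀ l, ∀ g ∈ V l, a (io l g) v = v) (h2 : ∀ l, V l ≤ U1 l 0) : v ∈ Fv a (PU V) := by
  have key : ∀ s : Finset Pr, ∀ x : G, (∀ l ∈ s, ev l x ∈ V l) →
      (∀ l ∉ s, ev l x ∈ U1 l (N.factorization l)) → a x v = v := by
    intro s
    induction s using Finset.induction_on with
    | empty => exact fun x _ h => hv x (mem_PU.2 fun l => h l (notMem_empty l))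
    | insert p s hp ih =>
      intro x h h'
      rw [← mul_inv_cancel_left (io p (ev p x)) x, map_mul, Module.End.mul_apply, ih,
        h1 p _ (h p (mem_insert_self p s))]
      · intro l hl
        rw [map_mul, map_inv, ev_io_ne (fun e : l = p => hp (e ▸ hl)), inv_one, one_mul]
        exact h l (mem_insert_of_mem hl)
      · intro l hl
        by_cases e : l = p
        · subst e
          rw [map_mul, map_inv, ev_io, inv_mul_cancel]
          exact one_mem _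
        · rw [map_mul, map_inv, ev_io_ne e, inv_one, one_mul]
          exact h' l fun m => (mem_insert.1 m).elim e hl
  refine fun x hx => key (N.primeFactors.subtype Nat.Prime) x (fun l _ => mem_PU.1 hx l)
    fun l hl => ?_
  rw [Nat.factorization_eq_zero_of_not_dvd fun d =>
    hl (mem_subtype.2 (Nat.mem_primeFactors.2 ⟨l.2, d, hN.ne'⟩))]
  exact h2 l (mem_PU.1 hx l)

/-- the Hecke operator -/
abbrev Tl (a : Representation Λ G M) (l : Pr) : Module.End Λ M := (lc l).Tv a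

theorem Tl_com {l : Pr} {x : G} (hx : ev l x = 1) : Commute (a x) (Tl a l) :=
  Commute.sum_right _ _ _ fun i _ => ((io_com l _ x hx).symm.map a)

theorem Tl_Tl (l l' : Pr) : Commute (Tl a l) (Tl a l') := by
  by_cases e : l' = l
  · rw [e]
  · exact Commute.sum_left _ _ _ fun i _ => Tl_com (ev_io_ne e _)

theorem fx_sup (hz : ∀ x ∈ TQ.Z, a x = 1) {l : Pr} {V : Subgroup (Gl l)} {v : M}
    (h : ∀ g ∈ V, a (io l g) v = v) : ∀ g ∈ V ⊔ Zl ℚ_[l], a (io l g) v = v := fun g hg => by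
  obtain ⟨k, hk, z, hz', rfl⟩ := Subgroup.mem_sup_of_normal_right.1 hg
  rw [map_mul, map_mul, hz (io l z) ((lc l).cen z hz'), mul_one, h k hk]

theorem Tl_act (hz : ∀ x ∈ TQ.Z, a x = 1) {l : Pr} {x : G} (hx : ev l x ∈ U1 l 0) {v : M}
    (hv : ∀ g ∈ Kl l, a (io l g) v = v) : a x (Tl a l v) = Tl a l (a x v) := by
  rw [U1_zero] at hx
  have e : ev l (x * (io l (ev l x))⁻¹) = 1 := by rw [map_mul, map_inv, ev_io, mul_inv_cancel]
  have h1 := Tv_mem (lc l) hz (v := v) (by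
    rintro _ ⟨k, hk, rfl⟩
    exact hv k hk)
  rw [← inv_mul_cancel_right x (io l (ev l x)), map_mul, Module.End.mul_apply, Module.End.mul_apply,
    fx_sup hz hv _ hx, fx_sup hz (fun g hg => h1 _ ⟨g, hg, rfl⟩) _ hx]
  exact LinearMap.congr_fun (Tl_com e).eq v

/-- the element with the given components modulo the primes of `C` -/
def el (C : Finset Pr) (g : ∀ k : C, GL (Fin 2) (ZMod k.1)) : G :=
  ⟨fun p => if h : p ∈ C then Tw.lf p (g ⟨p, h⟩) else 1,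
    show ∀ᶠ p : Pr in Filter.cofinite, _ ∈ Kl p from Filter.Eventually.of_forall fun p => by
      split_ifs
      exacts [lf_mem _, one_mem _]⟩

theorem ev_el {C : Finset Pr} (g : ∀ k : C, GL (Fin 2) (ZMod k.1)) {p : Pr} (h : p ∈ C) :
    ev p (el C g) = gK ℚ_[p] (lz p (g ⟨p, h⟩)) := dif_pos h

theorem ev_el' {C : Finset Pr} (g : ∀ k : C, GL (Fin 2) (ZMod k.1)) {p : Pr} (h : p ∉ C) :
    ev p (el C g) = 1 := dif_neg h

variable {H0 : Type} [Group H0] [TopologicalSpace H0] {g0 : Representation Λ H0 M}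

theorem ex_UN (h : TQ.CC 2 a g0) (v : M) : ∃ N, 0 < N ∧ v ∈ Fv a (UN N) := by
  obtain ⟨U, ⟨⟨⟨N, h0, hN⟩, -⟩, -⟩, hv⟩ := h.sm v
  exact ⟨N, h0, fun u hu => hv u (hN hu)⟩

/-- the new vector at the primes of `s` -/
theorem new_at (h : TQ.CC 2 a g0) {ι : Type} (s : ι → Module.End Λ M) (D : Finset Pr)
    (hs : ∀ i, ∀ l ∈ D, ∀ g, Commute (a (io l g)) (s i)) (W : ∀ p, Subgroup (Gl p)) {v : M}
    (v0 : v ≠ 0) (v2 : 2 • v = 0) (vs : ∀ i, s i v = 0)
    (hv : ∀ l ∉ D, ∀ g ∈ W l, a (io l g) v = v) :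
    ∃ w, w ≠ 0 ∧ 2 • w = 0 ∧ (∀ i, s i w = 0) ∧ (∀ l ∉ D, ∀ g ∈ W l, a (io l g) w = w) ∧
      ∃ n : Pr → ℕ, (∀ l, 3 ≤ n l) ∧ ∀ l ∈ D, ∀ g ∈ K0q l (n l), a (io l g) w = w := by
  induction D using Finset.induction_on generalizing W v with
  | empty => exact ⟨v, v0, v2, vs, hv, fun _ => 3, fun _ => le_rfl, fun l hl => absurd hl (notMem_empty l)⟩
  | insert p D hp ih =>
    let X0 : Submodule Λ M :=
      { carrier := {x | 2 • x = 0 ∧ (∀ i, s i x = 0) ∧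
          ∀ l ∉ insert p D, ∀ g ∈ W l, a (io l g) x = x}
        add_mem' := fun {x y} hx hy => ⟨by rw [smul_add, hx.1, hy.1, add_zero],
          fun i => by rw [map_add, hx.2.1, hy.2.1, add_zero],
          fun l hl g hg => by rw [map_add, hx.2.2 l hl g hg, hy.2.2 l hl g hg]⟩
        zero_mem' := ⟨smul_zero _, fun _ => map_zero _, fun _ _ _ _ => map_zero _⟩
        smul_mem' := fun r x hx => ⟨by rw [smul_comm, hx.1, smul_zero],
          fun i => by rw [map_smul, hx.2.1, smul_zero],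
          fun l hl g hg => by rw [map_smul, hx.2.2 l hl g hg]⟩ }
    obtain ⟨w, hw, w0, m0, hm⟩ := Nw.newv (π := a.comp (io p)) (zp p)
      (fun z hz => h.z _ ((lc p).cen z hz)) X0 (fun x hx => by rw [← two_nsmul]; exact hx.1)
      (fun g x hx => ⟨by rw [← map_nsmul, hx.1, map_zero], fun i => by
        have := LinearMap.congr_fun (hs i p (mem_insert_self p D) g).eq x
        rw [Module.End.mul_apply, Module.End.mul_apply, hx.2.1, map_zero] at this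
        exact this.symm, fun l hl g' hg' => by
        have := LinearMap.congr_fun ((io_com l g' (io p g) (ev_io_ne
          (fun e : l = p => hl (e ▸ mem_insert_self _ D)) g)).map a).eq x
        rw [Module.End.mul_apply, Module.End.mul_apply, hx.2.2 l hl g' hg'] at this
        exact this⟩)
      (fun x _ => by
        obtain ⟨N, -, hN⟩ := ex_UN h x
        have k : ∀ g ∈ Km ℤ_[p] ℚ_[p] (N.factorization p + 1), a (io p g) x = x := fun g hg =>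
          hN _ (io_mem (Subgroup.mem_sup_left (Km_anti (Nat.le_succ _) hg)))
        refine ⟨N.factorization p + 1, fun y hy => ?_⟩
        obtain ⟨h1, h2, h3⟩ := sm_loc (l := p) (N.factorization p).succ_pos hy
        exact ⟨k _ h1, k _ h2, k _ h3⟩) ⟨v, ⟨v2, vs, hv⟩, v0⟩
    obtain ⟨u, u0, u2, us, hu, n, n3, hn⟩ := ih (fun i l hl => hs i l (mem_insert_of_mem hl))
      (Function.update W p (K0q p (m0 + 3))) w0 hw.1 hw.2.1 fun l hl g hg => by
        by_cases e : l = p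
        · subst e
          rw [Function.update_self] at hg
          exact hm _ (Nat.le_add_right _ _) g (K0_of hg)
        · rw [Function.update_of_ne e] at hg
          exact hw.2.2 l (fun m => (mem_insert.1 m).elim e hl) g hg
    refine ⟨u, u0, u2, us, fun l hl g hg => hu l (fun m => hl (mem_insert_of_mem m)) g ?_,
      Function.update n p (m0 + 3), fun l => ?_, fun l hl g hg => ?_⟩
    · rwa [Function.update_of_ne fun e : l = p => hl (e ▸ mem_insert_self _ D)]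
    · by_cases e : l = p
      · rw [e, Function.update_self]
        exact Nat.le_add_left _ _
      · rw [Function.update_of_ne e]
        exact n3 l
    · by_cases e : l = p
      · subst e
        rw [Function.update_self] at hg
        exact hu l hp g (by rwa [Function.update_self])
      · rw [Function.update_of_ne e] at hg
        exact hn l ((mem_insert.1 hl).resolve_left e) g hg

/-- `T_l - b_l` -/
def sT (a : Representation Λ G M) (b : Pr → Λ) (l : Pr) : Module.End Λ M := Tl a l - b l • 1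

theorem sT_zero {b : Pr → Λ} {l : Pr} {v : M} : sT a b l v = 0 ↔ Tl a l v = b l • v := sub_eq_zero

theorem sT_com {b : Pr → Λ} {l : Pr} {x : Module.End Λ M} (h : Commute x (Tl a l)) :
    Commute x (sT a b l) := h.sub_right ((Commute.one_right _).smul_right _)

theorem sT_act (hz : ∀ x ∈ TQ.Z, a x = 1) {b : Pr → Λ} {l : Pr} {x : G} (hx : ev l x ∈ U1 l 0)
    {v : M} (hv : ∀ g ∈ Kl l, a (io l g) v = v) : a x (sT a b l v) = sT a b l (a x v) := by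
  simp only [sT, LinearMap.sub_apply, LinearMap.smul_apply, Module.End.one_apply, map_sub,
    map_smul, Tl_act hz hx hv]

theorem K0q_U1 (l : Pr) (m : ℕ) : K0q l m ⊔ Zl ℚ_[l] ≤ U1 l 0 := by
  rw [U1_zero]
  exact sup_le_sup_right (K0q_le m) _

section

variable {C : Finset Pr} {V : ∀ p, Subgroup (Gl p)} (VC : ∀ l ∈ C, V l = U1 l 1)
include VC

theorem el_mem (g : ∀ k : C, GL (Fin 2) (ZMod k.1)) (y : G) (y1 : ∀ l ∉ C, ev l y ∈ V l)
    (y2 : ∀ k : C, ∃ u, ∃ z ∈ Zl ℚ_[k.1], rd k u = g k ∧ gK ℚ_[k.1] u * z = ev k y) :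
    (el C g)⁻¹ * y ∈ PU V := mem_PU.2 fun l => by
  rw [map_mul, map_inv]
  by_cases m : l ∈ C
  · obtain ⟨u, z, hz, e1, e2⟩ := y2 ⟨l, m⟩
    rw [ev_el g m, ← e2, VC l m, ← mul_assoc, ← map_inv, ← map_mul]
    refine Subgroup.mul_mem_sup (mem_Km1.2 ?_) hz
    rw [map_mul, map_inv, rd_lz, e1, inv_mul_cancel]
  · rw [ev_el' g m, inv_one, one_mul]
    exact y1 l m

theorem el_mul (g g' : ∀ k : C, GL (Fin 2) (ZMod k.1)) :
    (el C (g * g'))⁻¹ * (el C g * el C g') ∈ PU V :=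
  el_mem VC _ _ (fun l hl => by rw [map_mul, ev_el' g hl, ev_el' g' hl, mul_one]; exact one_mem _)
    fun k => ⟨lz k (g k) * lz k (g' k), 1, one_mem _, by rw [map_mul, rd_lz, rd_lz]; rfl, by
      rw [mul_one, map_mul, map_mul, ev_el g k.2, ev_el g' k.2]⟩

theorem el_cen (g : ∀ k : C, GL (Fin 2) (ZMod k.1)) (hg : el C g ∈ PU V) (k : C) :
    g k ∈ Subgroup.center _ := cen_of (by
  have := mem_PU.1 hg k
  rwa [ev_el g k.2, VC _ k.2] at this)

theorem el_sum {v : M} (hv : v ∈ Fv a (PU V)) (c : ∀ k : C, GL (Fin 2) (ZMod k.1) → Λ)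
    (e : C → Λ) (ve : ∀ k : C, ∑ g, c k g • a (io k (Tw.lf k.1 g)) v = e k • v) :
    ∑ g : ∀ k : C, GL (Fin 2) (ZMod k.1), (∏ k, c k (g k)) • a (el C g) v = (∏ k, e k) • v := by
  have e5 : ∀ x y, x⁻¹ * y ∈ PU V → a y v = a x v := fun x y m => by
    rw [← mul_inv_cancel_left x y, map_mul, Module.End.mul_apply, hv _ m]
  refine prod_ec (fun g => a (el C g)) v ?_ (fun g g' => ?_) c e fun k => ?_
  · have := e5 _ _ (el_mem VC 1 1 (fun l _ => one_mem _)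
      fun k => ⟨1, 1, one_mem _, map_one _, by simp⟩)
    rw [← this, map_one]
    rfl
  · rw [← e5 _ _ (el_mul VC g g'), map_mul]
    rfl
  · rw [← ve k]
    refine Finset.sum_congr rfl fun x _ => congrArg _ (e5 _ _ (el_mem VC _ _ (fun l hl => ?_)
      fun k' => ?_)).symm
    · rw [ev_io_ne fun e : l = k.1 => hl (e ▸ k.2)]
      exact one_mem _
    · by_cases m : k' = k
      · subst m
        exact ⟨lz _ x, 1, one_mem _, by rw [rd_lz, Pi.mulSingle_eq_same], by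
          rw [mul_one, ev_io, lf_eq]⟩
      · exact ⟨1, 1, one_mem _, by rw [map_one, Pi.mulSingle_eq_of_ne m], by
          rw [ev_io_ne fun e => m (Subtype.ext e), map_one, mul_one]⟩

end

theorem levA (h : TQ.CC 2 a g0) (ok : TQ.Ok0) (ne : TQ.Neat (UN 4)) (C : Finset Pr) {N : ℕ}
    (hN : 0 < N) (nC : ∀ l ∈ C, N.factorization l = 1) (n4 : 4 ∣ N) (I : Set Pr)
    (hI : ∀ l ∈ I, ¬ l.1 ∣ N) (b : Pr → Λ)
    {K : Type} [Algebra ℤ_[2] Λ] [Field K] [CharZero K] [Algebra ℤ_[2] K]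
    (φ : Λ →ₐ[ℤ_[2]] K) (hφ : Function.Injective φ)
    (c : ∀ k : C, GL (Fin 2) (ZMod k.1) → Λ) (χ : ∀ k : C, GL (Fin 2) (ZMod k.1) → K)
    (t : C → K) (hχ : ∀ k g, φ (c k g) = t k * χ k g) (h1 : ∀ k, IsCh (χ k))
    (h3 : ∀ k, LvT (Bor (ZMod k.1)) (χ k))
    (h4 : ∀ k g, ∀ z ∈ Subgroup.center _, χ k (g * z) = χ k g) {v : M} (hv : v ∈ Fv a (UN N))
    (vI : ∀ l ∈ I, sT a b l v = 0)
    (v0 : ∑ g : ∀ k : C, GL (Fin 2) (ZMod k.1), (∏ k, c k (g k)) • a (el C g) v ≠ 0) :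
    ∃ w, w ≠ 0 ∧ 2 • w = 0 ∧ (∀ l ∈ I, sT a b l w = 0) ∧
      (∀ l ∈ C, ∀ g ∈ K0q l 1, a (io l g) w = w) ∧
      ∀ l : Pr, ¬ l.1 ∣ N → ∀ g ∈ Kl l, a (io l g) w = w := by
  obtain ⟨V, hV⟩ : ∃ V : ∀ p, Subgroup (Gl p), ∀ l, V l = U1 l (N.factorization l) :=
    ⟨_, fun _ => rfl⟩
  obtain ⟨V', V1, V2⟩ : ∃ V' : ∀ p, Subgroup (Gl p), (∀ l ∈ C, V' l = U1 l 0) ∧
      ∀ l ∉ C, V' l = V l :=
    ⟨fun l => if l ∈ C then U1 l 0 else V l, fun l hl => if_pos hl, fun l hl => if_neg hl⟩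
  obtain ⟨W, W1, W2⟩ : ∃ W : ∀ p, Subgroup (Gl p), (∀ l ∈ C, W l = K0q l 1 ⊔ Zl ℚ_[l]) ∧
      ∀ l ∉ C, W l = V l :=
    ⟨fun l => if l ∈ C then _ else V l, fun l hl => if_pos hl, fun l hl => if_neg hl⟩
  have eU : UN N = PU V := congrArg PU (funext hV).symm
  rw [eU] at hv
  have VC : ∀ l ∈ C, V l = U1 l 1 := fun l hl => by rw [hV, nC l hl]
  have VS : ∀ l : Pr, ¬ l.1 ∣ N → V l = Kl l ⊔ Zl ℚ_[l] := fun l hl => by
    rw [hV, Nat.factorization_eq_zero_of_not_dvd hl, U1_zero]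
  have V3 : ∀ l, V' l ≤ U1 l 0 := fun l => by
    by_cases m : l ∈ C
    · rw [V1 l m]
    · rw [V2 l m, hV]
      exact U1_anti l (Nat.zero_le _)
  have hsa : ∀ i : I, ∀ u ∈ PU V', ∀ x ∈ Fv a (PU V), a u (sT a b i x) = sT a b i (a u x) :=
    fun i u hu x hx => sT_act h.z (V3 _ (mem_PU.1 hu i)) fun g hg =>
      hx _ (io_mem (by rw [VS _ (hI i i.2)]; exact Subgroup.mem_sup_left hg))
  have hVW : PU V ≤ PU W := PU_mono fun l => by
    by_cases m : l ∈ C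
    · rw [VC l m, W1 l m]
      exact sup_le_sup_right (Km_le_K0q 1) _
    · rw [W2 l m]
  have hWV : PU W ≤ PU V' := PU_mono fun l => by
    by_cases m : l ∈ C
    · rw [V1 l m, W1 l m]
      exact K0q_U1 l 1
    · rw [W2 l m, V2 l m]
  have h4' : PU V' ≤ UN 4 := PU_mono fun l => by
    have k := (Nat.factorization_le_iff_dvd four_ne_zero hN.ne').2 n4 l
    by_cases m : l ∈ C
    · have : Nat.factorization 4 l = 0 := by
        rw [nC l m] at k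
        rw [show 4 = 2 ^ 2 from rfl, Nat.factorization_pow, Finsupp.smul_apply, smul_eq_mul] at k ⊢
        omega
      rw [this, V1 l m]
    · rw [V2 l m, hV]
      exact U1_anti l k
  have hm : ∀ X, PU V ≤ X → X ≤ PU V' → X ∈ TQ.Nl := fun X hX hX' =>
    ⟨ok.mid _ (eU ▸ UN_mem hN) _ (UN_mem four_pos) X hX (hX'.trans h4'),
      fun x γ hγ => ne x γ (h4' (hX' hγ))⟩
  have hn : ∀ u ∈ PU V', Sh.cj u (PU V) = PU V := fun u hu => by
    have k : ∀ u ∈ PU V', ∀ y ∈ PU V, u⁻¹ * y * u ∈ PU V := fun u hu y hy => mem_PU.2 fun l => by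
      rw [map_mul, map_mul, map_inv, hV]
      exact conj_U1 (V3 l (mem_PU.1 hu l)) (hV l ▸ mem_PU.1 hy l)
    ext y
    refine mem_cj.trans ⟨fun m => ?_, k u hu y⟩
    simpa [mul_assoc] using k _ (inv_mem hu) _ m
  have e1 : ∀ g, el C g ∈ PU V' := fun g => mem_PU.2 fun l => by
    by_cases m : l ∈ C
    · rw [V1 l m, ev_el g m, U1_zero]
      exact Subgroup.mem_sup_left ⟨_, rfl⟩
    · rw [ev_el' g m]
      exact one_mem _
  have e4 : ∀ y ∈ PU W, ∃ g ∈ Subgroup.pi Set.univ fun k : C => Bor (ZMod k.1),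
      (el C g)⁻¹ * y ∈ PU V := fun y hy => by
    have : ∀ k : C, ∃ u ∈ B0 ((k.1 : ℤ_[k.1]) ^ 1), ∃ z ∈ Zl ℚ_[k.1],
        gK ℚ_[k.1] u * z = ev k y := fun k => by
      have := mem_PU.1 hy k
      rw [W1 _ k.2] at this
      obtain ⟨_, ⟨u, hu, rfl⟩, z, hz, e⟩ := Subgroup.mem_sup_of_normal_right.1 this
      exact ⟨u, hu, z, hz, e⟩
    choose u hu z hz e using this
    refine ⟨fun k => rd k (u k), fun k _ => tz_zero.2 ?_,
      el_mem VC _ y (fun l hl => W2 l hl ▸ mem_PU.1 hy l) fun k => ⟨u k, z k, hz k, rfl, e k⟩⟩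
    have := hu k
    rwa [pow_one] at this
  obtain ⟨w, hw, w0, w2, ws⟩ := levG h hVW hWV hn
    (ok.fi _ (hm _ le_rfl (hVW.trans hWV)).1 _ (hm _ (hVW.trans hWV) le_rfl).1) hm
    (fun i : I => sT a b i) (fun i j => sT_com (sT_com (Tl_Tl j i)).symm)
    (fun i x hx u hu => by rw [hsa i u (hWV (hVW hu)) x hx, hx u hu]) hsa (el C) e1 (el_mul VC)
    (Subgroup.pi Set.univ fun k : C => Bor (ZMod k.1))
    (fun g hg k _ => center_le_Bor (el_cen VC g hg k)) e4 φ hφ (fun g => ∏ k, c k (g k))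
    (fun g => ∏ k, χ k (g k)) (∏ k, t k) (fun g => by
      rw [map_prod, ← Finset.prod_mul_distrib]
      exact Finset.prod_congr rfl fun k _ => hχ k _) (IsCh.pi χ h1) (LvT.pi _ χ h3)
    (fun g z hz => Finset.prod_congr rfl fun k _ => h4 k _ _ (el_cen VC z hz k)) hv
    (fun i => vI i i.2) v0
  refine ⟨w, w0, w2, fun l hl => ws ⟨l, hl⟩, fun l hl g hg => hw _ (io_mem ?_),
    fun l hl g hg => hw _ (io_mem ?_)⟩
  · rw [W1 l hl]
    exact Subgroup.mem_sup_left hg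
  · rw [W2 l fun m => hl (Nat.dvd_of_factorization_pos (by rw [nC l m]; exact one_ne_zero)), VS l hl]
    exact Subgroup.mem_sup_left hg

theorem U0_mem (ok : TQ.Ok0) {N : ℕ} (hN : 0 < N) : U0 N ∈ TQ.Lev :=
  ok.mid _ (UN_mem hN) _ (UN_mem one_pos) _ (PU_mono fun _ => sup_le_sup_right (Km_le_K0q _) _)
    fun _ hx => mem_UN_one.2 fun l => U1_zero l ▸ K0q_U1 l _ (mem_PU.1 hx l)

/-- **level control on the modular tower** -/
theorem levq [IsLocalRing Λ] (h : TQ.CC 2 a g0) (ok : TQ.Ok0) (ne : TQ.Neat (UN 4))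
    (S C : Finset Pr) (hCS : C ⊆ S) (h2 : ∀ l : Pr, l.1 = 2 → l ∈ S ∧ l ∉ C) (I : Set Pr)
    (hI : ∀ l ∈ I, l ∉ S) (b : Pr → Λ)
    {K : Type} [Algebra ℤ_[2] Λ] [Field K] [CharZero K] [Algebra ℤ_[2] K]
    (φ : Λ →ₐ[ℤ_[2]] K) (hφ : Function.Injective φ)
    (c : ∀ k : C, GL (Fin 2) (ZMod k.1) → Λ) (χ : ∀ k : C, GL (Fin 2) (ZMod k.1) → K)
    (t : C → K) (e : C → Λ) (hχ : ∀ k g, φ (c k g) = t k * χ k g) (h1 : ∀ k, IsCh (χ k))
    (h3 : ∀ k, LvT (Bor (ZMod k.1)) (χ k))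
    (h4 : ∀ k g, ∀ z ∈ Subgroup.center _, χ k (g * z) = χ k g) {v : M}
    (vC : ∀ l ∈ C, ∀ g ∈ Km ℤ_[l] ℚ_[l] 1, a (io l g) v = v)
    (vS : ∀ l ∉ S, ∀ g ∈ Kl l, a (io l g) v = v) (vI : ∀ l ∈ I, Tl a l v = b l • v)
    (ve : ∀ k : C, ∑ g, c k g • a (io k (Tw.lf k.1 g)) v = e k • v) (v0 : (∏ k, e k) • v ≠ 0) :
    ∃ N : ℕ, 0 < N ∧ 8 ∣ N ∧ (∀ l : Pr, l.1 ∣ N ↔ l ∈ S) ∧ (∀ l ∈ C, N.factorization l = 1) ∧
      ∃ w ∈ Fv a (U0 N), w ≠ 0 ∧ (∀ r ∈ IsLocalRing.maximalIdeal Λ, r • w = 0) ∧ 2 • w = 0 ∧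
        ∀ l ∈ I, Tl a l w = b l • w := by
  have exn : ∀ m : Pr → ℕ, (∀ l, 3 ≤ m l) → ∃ N : ℕ, 0 < N ∧ 8 ∣ N ∧
      (∀ l : Pr, l.1 ∣ N ↔ l ∈ S) ∧ (∀ l ∈ C, N.factorization l = 1) ∧
      (∀ l ∉ S, N.factorization l = 0) ∧ ∀ l ∉ C, l ∈ S → N.factorization l = m l := fun m m3 => by
    obtain ⟨N, Np, hN⟩ := ex_N S (fun l => if l ∈ C then 1 else if l ∈ S then m l else 0)
      fun l hl => (if_neg fun m => hl (hCS m)).trans (if_neg hl)
    have n1 : ∀ l ∈ C, N.factorization l = 1 := fun l hl => (hN l).trans (if_pos hl)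
    have n2 : ∀ l ∉ S, N.factorization l = 0 := fun l hl =>
      (hN l).trans ((if_neg fun m => hl (hCS m)).trans (if_neg hl))
    have n3 : ∀ l ∉ C, l ∈ S → N.factorization l = m l := fun l hl hl' =>
      (hN l).trans ((if_neg hl).trans (if_pos hl'))
    refine ⟨N, Np, ?_, fun l => ?_, n1, n2, n3⟩
    · obtain ⟨k1, k2⟩ := h2 ⟨2, Nat.prime_two⟩ rfl
      exact (Nat.prime_two.pow_dvd_iff_le_factorization (k := 3) Np.ne').2
        ((m3 _).trans (n3 _ k2 k1).ge)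
    · rw [l.2.dvd_iff_one_le_factorization Np.ne']
      refine ⟨fun m => by_contra fun m' => by rw [n2 l m'] at m; omega, fun m2 => ?_⟩
      by_cases m1 : l ∈ C
      · rw [n1 l m1]
      · rw [n3 l m1 m2]
        exact le_trans (by norm_num) (m3 l)
  obtain ⟨N0, N0p, hv0⟩ := ex_UN h v
  obtain ⟨N1, N1p, d8, dv, n1, n2, n3⟩ := exn (fun l => N0.factorization l + 3)
    fun l => Nat.le_add_left _ _
  have hv : v ∈ Fv a (UN N1) := fix_PU N0p hv0 (fun l g hg => by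
    by_cases m : l ∈ C
    · exact fx_sup h.z (vC l m) g (by rwa [n1 l m] at hg)
    by_cases m' : l ∈ S
    · exact hv0 _ (io_mem (U1_anti l (by rw [n3 l m m']; exact Nat.le_add_right _ _) hg))
    · exact fx_sup h.z (vS l m') g (by rwa [n2 l m', U1_zero] at hg))
    fun l => U1_anti l (Nat.zero_le _)
  obtain ⟨w, w0, w2, ws, wC, wS⟩ := levA h ok ne C N1p n1 (Dvd.dvd.trans ⟨2, rfl⟩ d8) I
    (fun l hl m => hI l hl ((dv l).1 m)) b φ hφ c χ t hχ h1 h3 h4 hv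
    (fun l hl => sT_zero.2 (vI l hl)) (by
      rwa [el_sum (V := fun l => U1 l (N1.factorization l)) (fun l hl => by rw [n1 l hl]) hv c e ve])
  obtain ⟨u, u0, u2, us, hu, m, m3, hm⟩ := new_at h (fun i : I => sT a b i) (S \ C)
    (fun i l hl g => sT_com (Tl_com (ev_io_ne
      (fun e : i.1 = l => hI i i.2 (e ▸ (mem_sdiff.1 hl).1)) g)))
    (fun l => if l ∈ C then K0q l 1 else Kl l) w0 w2 (fun i => ws i i.2) fun l hl g hg => by
      by_cases m : l ∈ C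
      · exact wC l m g (by rwa [if_pos m] at hg)
      · exact wS l (fun d => hl (mem_sdiff.2 ⟨(dv l).1 d, m⟩)) g (by rwa [if_neg m] at hg)
  obtain ⟨N, Np, d8', dv', n1', n2', n3'⟩ := exn m m3
  obtain ⟨N2, N2p, hu2⟩ := ex_UN h u
  have hU : u ∈ Fv a (U0 N) := fix_PU N2p hu2 (fun l => fx_sup h.z fun g hg => by
    by_cases m1 : l ∈ C
    · exact hu l (fun m => (mem_sdiff.1 m).2 m1) g (by rwa [if_pos m1, ← n1' l m1])
    by_cases m2 : l ∈ S
    · exact hm l (mem_sdiff.2 ⟨m2, m1⟩) g (by rwa [← n3' l m1 m2])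
    · exact hu l (fun m => m2 (mem_sdiff.1 m).1) g (by rw [if_neg m1]; exact K0q_le _ hg))
    fun l => K0q_U1 l _
  obtain ⟨r, r0, hr⟩ := ex_soc (Λ := Λ) _ u u0 ((h.adm _ (U0_mem ok Np)).subset fun x hx => by
    obtain ⟨r, rfl⟩ := Submodule.mem_span_singleton.1 hx
    exact ⟨Submodule.smul_mem _ r hU, by rw [smul_comm, u2, smul_zero]⟩) rfl
  exact ⟨N, Np, d8', dv', n1', r • u, Submodule.smul_mem _ r hU, r0, hr,
    by rw [smul_comm, u2, smul_zero], fun l hl => by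
      rw [map_smul, sT_zero.1 (us ⟨l, hl⟩), smul_comm]⟩

end Vale.Agent.P022K.CH.Lq
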