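import Vale.Agent.P022K.QT.Wdq
import Vale.Agent.P022K.F0.Typ
import Vale.Agent.P022K.Top.Coef
import Vale.Agent.P022K.Top.SiQ

/-!
# P022K, block CH, row LEVB: an automorphic system over `ℚ` gives a vector in the module
-/

set_option autoImplicit false

open Filter
open scoped MatrixGroups TensorProduct

noncomputable section

namespace Vale.Agent.P022K.Sh.Wq

open Vale.Agent.P022 Vale.Agent.P022.H218.L3 Tw Ap CH QT Vale.Agent.P022K.Top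

section

variable {G I Λ : Type} [CommRing Λ] (s : Finset I) (r : I → G)

theorem map_single {Λ' C : Type} [CommRing Λ'] [CommRing C] {ψ : Λ' →+* C} {ι : Λ →+* C}
    {c' : I → Λ'} {c : I → Λ} (h : ∀ i, ψ (c' i) = ι (c i)) (g : G) :
    ψ ((∑ i ∈ s, Finsupp.single (r i) (c' i)) g) = ι ((∑ i ∈ s, Finsupp.single (r i) (c i)) g) := by
  classical
  simp only [Finsupp.finsetSum_apply, Finsupp.single_apply, map_sum, apply_ite ψ, apply_ite ι,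
    map_zero, h]

theorem ex_single {c : I → Λ} {g : G} (h : (∑ i ∈ s, Finsupp.single (r i) (c i)) g ≠ 0) :
    ∃ i, r i = g := by
  rw [Finsupp.finsetSum_apply] at h
  obtain ⟨i, -, h⟩ := Finset.exists_ne_zero_of_sum_ne_zero h
  exact ⟨i, (Finsupp.single_apply_ne_zero.1 h).1.symm⟩

theorem act_single [Group G] {M : Type} [AddCommGroup M] [Module Λ M] (a : Representation Λ G M)
    (c : I → Λ) (v : M) : ∑ g ∈ (∑ i ∈ s, Finsupp.single (r i) (c i)).support,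
      (∑ i ∈ s, Finsupp.single (r i) (c i)) g • a g v = ∑ i ∈ s, c i • a (r i) v :=
  (Finsupp.sum_finsetSum_index (h := fun g c => c • a g v) (fun _ => zero_smul _ _)
    fun _ _ _ => add_smul _ _ _).symm.trans
    (Finset.sum_congr rfl fun _ _ => Finsupp.sum_single_index (zero_smul _ _))

end

theorem rw_gal (m : ℕ) (σ : Qb ≃ₐ[ℚ] Qb) (γ : G0) (v : Vw Qb Unit m) :
    σ ∘ QT.rw Qb m γ v = QT.rw Qb m γ (σ ∘ v) := funext fun i => by
  refine (RingHom.map_mulVec (σ : Qb →+* Qb) _ v i).trans ?_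
  rw [wm_eq, ← W_map]
  exact congrFun (congrArg (fun g => (W m g).mulVec _) (funext fun _ =>
    Units.ext (Matrix.ext fun _ _ => σ.commutes _))) i

variable {p : ℕ} [hp : Fact p.Prime] (ι : Qb →+* Cp p)

theorem ev_nf (K : IntermediateField ℚ Qb) [FiniteDimensional ℚ K] :
    ∀ᶠ E : FE p in atTop, ∀ x ∈ K, ‖ι x‖ ≤ 1 → ι x ∈ E.ψ.range := by
  let b := Module.finBasis ℚ K
  have := IntermediateField.finiteDimensional_adjoin (K := ℚ_[p])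
    (S := Set.range fun i => ι (b i)) fun x _ => Algebra.IsIntegral.isIntegral x
  filter_upwards [ev_le (IntermediateField.adjoin ℚ_[p] (Set.range fun i => ι (b i)))]
    with E h x hx k
  refine E.mem_range.2 ⟨k, ?_⟩
  rw [show x = ∑ i, (b.repr ⟨x, hx⟩ i : Qb) * b i by
    simpa [Rat.smul_def] using (congrArg Subtype.val (b.sum_repr ⟨x, hx⟩)).symm, map_sum]
  exact sum_mem fun i _ => by
    rw [map_mul, map_ratCast]
    exact mul_mem (SubfieldClass.ratCast_mem _ _) (h (IntermediateField.subset_adjoin _ _ ⟨i, rfl⟩))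

theorem ex_pow (A : Finset Qb) : ∃ k : ℕ, ∀ x ∈ A, ‖ι (p ^ k * x)‖ ≤ 1 := by
  obtain ⟨k, hk⟩ := ((A.eventually_all (l := atTop)).2 fun x _ =>
    ((tendsto_pow_atTop_nhds_zero_of_norm_lt_one (norm_p_lt (p := p))).mul_const
      (ι x)).norm.eventually_le_const (by simp : _ < (1 : ℝ))).exists
  exact ⟨k, fun x hx => by simpa only [map_mul, map_pow, map_natCast] using hk x hx⟩

theorem at_inf {l q : Pr} (h : l ≠ q) {V : Subgroup (Gl l)} {U : Subgroup G} (e : (lc l).At V U)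
    (W : Subgroup (Gl q)) : (lc l).At V (U ⊓ W.comap (lc q).π) :=
  ⟨fun g hg => ⟨e.1 g hg, Subgroup.mem_comap.2 ((ev_io_ne h.symm g).symm ▸ one_mem W)⟩,
    fun u hu => e.2 u hu.1⟩

theorem lev_U1 {n : Pr → ℕ} {S : Finset ℕ} (h : ∀ l : Pr, l.1 ∉ S → n l = 0) :
    PU (fun l => U1 l (n l)) ∈ TQ.Lev := by
  let T : Finset Pr := S.preimage Subtype.val Subtype.val_injective.injOn
  have N0 : 0 < ∏ l ∈ T, l.1 ^ n l := Finset.prod_pos fun l _ => pow_pos l.2.pos _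
  refine okq.mid _ (UN_mem N0) _ (UN_mem one_pos) _ (PU_mono fun l => U1_anti l ?_)
    (PU_mono fun l => U1_anti l (by simp))
  by_cases e : l.1 ∈ S
  · exact (l.2.pow_dvd_iff_le_factorization N0.ne').1
      (Finset.dvd_prod_of_mem _ (Finset.mem_preimage.2 e))
  · exact h l e ▸ Nat.zero_le _

section

variable {H : Type} [Group H] [TopologicalSpace H] {th : H → (G → Mer) → G → Mer} {M : Type}
  [AddCommGroup M] {α : Representation ℤ G M} {g : Representation ℤ H M}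
  {im : ∀ k U, TQ.Hn (p ^ k) U →+ M} (bet : BET) (cc : TQ.CC p α g) (lk : AQ.Lk p α g th im)
include bet cc lk

theorem vec_q {O : Type} [CommRing O] [IsDomain O] [IsDiscreteValuationRing O] [cf : PL.Cf O]
    [Algebra ℤ_[p] O] {ψ : O →+* Cp p} (em : Em ψ) {m : ℕ} {U : Subgroup G} (hU : U ∈ TQ.Lev)
    {z : G0 → G → Vw Qb Unit m} (hz : z ∈ TQ.Z1 (QT.rw Qb m) U)
    (h0 : z ∉ TQ.B1 (QT.rw Qb m) U) {Ω : Type}
    {f : Ω → G →₀ Qb} {f' : Ω → G →₀ O} {c : Ω → O} (hf : ∀ ω y, ψ (f' ω y) = ι (f ω y))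
    (hs : ∀ ω y, f' ω y ≠ 0 → QT.ev ⟨p, hp.out⟩ y = 1)
    (inv : ∀ (W : Subgroup (Gl ⟨p, hp.out⟩)) ω (φ : G → Qb), U ⊓ W.comap (QT.ev _) ∈ TQ.Lev →
      Inv (U ⊓ W.comap (QT.ev _)) φ → Inv (U ⊓ W.comap (QT.ev _)) (op (f ω) φ))
    (nE : ∃ᶠ l : Pr in FQ, ∃ ω, f ω = (lc l).Tg Qb ∧ IsUnit (c ω ^ 2 - ((l : ℕ) + 1 : O) ^ 2))
    (eig : ∀ ω, ∃ c₀, ι c₀ = ψ (c ω) ∧ TQ.Eig (QT.rw Qb m) U z (op (f ω)) c₀) {o : O}
    (ho : o ≠ 0) : ∃ n, ∃ v ∈ Fv (bc O α) (U ⊓ (U1 ⟨p, hp.out⟩ n).comap (QT.ev _)),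
      (∀ ω, ∑ y ∈ (f' ω).support, f' ω y • bc O α y v = c ω • v) ∧ o • v ≠ 0 := by
  let q : Pr := ⟨p, hp.out⟩
  have hU' := lev_inf (w := lc q) okq hU 0
  have zp : ∀ y : ℤ_[p], ψ (algebraMap _ _ y) = algebraMap ℚ_[p] (Cp p) y := em.alg
  have wd := wd1 (x := lc q) (m := m) (A := AQ) (ι := ι) (c := c) em.inj zp
    (ρ := (Matrix.GeneralLinearGroup.map (algebraMap ℚ Qb)).comp G0.subtype)
    (fun γ => Units.ext (Matrix.ext fun _ _ => by simp [lc_π, TQ, ev_jq])) hU'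
    (fun u hu => Km_zero (O := ℤ_[p]) (K := ℚ_[p]) ▸ hu.2)
    (ev_FQ ((eventually_cofinite_ne q).mono fun l hl y => ev_io_ne (Ne.symm hl) y)) hf
    (fun ω y e => hs ω y (fun e' => e (ι.injective (by rw [← hf, e', map_zero, map_zero]))) ▸
      one_mem _) (fun ω φ => inv _ ω φ hU') nE
  have := cf.cpl
  have := cf.fin
  obtain ⟨n, v, h1, h2⟩ := vec_of em.inj zp (tor_bc cc.tor) hs ((bet _ _ TQ AQ p H th M α g im O
    _ _ _ ι ψ _ _ _ _ _ _ _ okq axq (tkq p) cc lk em.p_mem wd).1 ⟨z, Z1_anti inf_le_left hz,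
      fun e => h0 (B1_of_le inf_le_left (okq.fi _ hU' _ hU) hz e), fun ω =>
        (eig ω).imp fun _ e => ⟨e.1, B1_anti inf_le_left e.2⟩⟩) ho
  exact ⟨n, v, fun u hu => h1 u ⟨⟨hu.1, U1_anti q n.zero_le hu.2⟩, hu.2⟩, h2⟩

/-- **an automorphic system gives a vector** -/
theorem lq6 {m : ℕ} {S : Finset ℕ} {L : Lv} {a : ℕ → Qb} (h : AutQ m S L a)
    (hS : p ∈ S) (hL : L p = none) (int : ∀ᶠ l : Pr in cofinite, ‖ι (a l)‖ ≤ 1)
    (nE : ∃ᶠ l : Pr in FQ, ‖ι (a l) ^ 2 - ((l : ℕ) + 1) ^ 2‖ = 1) :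
    ∃ (K : IntermediateField ℚ Qb) (_ : FiniteDimensional ℚ K), ∀ (O : Type) [CommRing O]
      [IsDomain O] [IsDiscreteValuationRing O] [PL.Cf O] [Algebra ℤ_[p] O] (ψ : O →+* Cp p), Em ψ →
      (∀ x ∈ K, ‖ι x‖ ≤ 1 → ι x ∈ ψ.range) → ∃ (B : Finset ℕ) (b : ℕ → O) (k : ℕ)
      (c : ∀ l : Pr, GL (Fin 2) (ZMod l) → O) (e : Pr → O), S ⊆ B ∧
      (∀ l : Pr, l.1 ∉ B → ψ (b l) = ι (a l)) ∧
      (∀ (l : Pr) c₀, l.1 ∈ S → L l = some c₀ → e l ≠ 0 ∧ ∀ x, ψ (c l x) = p ^ k * ι (c₀ x)) ∧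
      ∀ o : O, o ≠ 0 → ∃ (n : Pr → ℕ) (v : O ⊗[ℤ] M), (∀ l : Pr, l.1 ∉ S → n l = 0) ∧
        (∀ l : Pr, l.1 = p → 2 ≤ n l) ∧ v ∈ Fv (bc O α) (PU fun l => U1 l (n l)) ∧
        (∀ l : Pr, l.1 ∉ B → (lc l).Tv (bc O α) v = b l • v) ∧
        (∀ (l : Pr) c₀, l.1 ∈ S → L l = some c₀ → n l = 1 ∧
          ∑ x, c l x • bc O α (io l (lf l x)) v = e l • v) ∧ o • v ≠ 0 := by
  classical
  obtain ⟨V, z, h⟩ := h
  let q : Pr := ⟨p, hp.out⟩
  let c₀ : ∀ l : Pr, GL (Fin 2) (ZMod l) → Qb := fun l => (L l).getD 0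
  let Y := {l : Pr // l.1 ∈ S ∧ L l = some (c₀ l)}
  have hc : ∀ (l : Pr) c, L l = some c → c₀ l = c := fun l c e => by simp only [c₀, e, Option.getD]
  have nq : ∀ l : Y, l.1 ≠ q := fun l e => by
    have := l.2.2
    rw [e] at this
    exact Option.some_ne_none _ (this.symm.trans hL)
  have : Finite Y := Finite.of_injective (fun l => (⟨_, l.2.1⟩ : S))
    fun _ _ e => Subtype.ext (Subtype.ext (Subtype.mk.inj e))
  have := Fintype.ofFinite Y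
  choose! e₀ e1 e2 using fun (l : Pr) (hl : l.1 ∈ S ∧ L l = some (c₀ l)) => (h.ty l _ hl.1 hl.2).2
  let A : Finset Qb := (Finset.univ.image fun x : Σ l : Y, GL (Fin 2) (ZMod l.1) => c₀ _ x.2) ∪
    Finset.univ.image fun l : Y => e₀ l
  have a1 : ∀ (l : Y) x, c₀ l x ∈ A := fun l x =>
    Finset.mem_union_left _ (Finset.mem_image.2 ⟨⟨l, x⟩, Finset.mem_univ _, rfl⟩)
  have a2 : ∀ l : Y, e₀ l ∈ A := fun l =>
    Finset.mem_union_right _ (Finset.mem_image_of_mem _ (Finset.mem_univ l))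
  obtain ⟨K, _, k1, k2⟩ := nf okq h.lev (rw_gal m) h.coc h.ne A
  obtain ⟨k, hk⟩ := ex_pow ι A
  let B := S ∪ (h.eig.and int).toFinset.image Subtype.val
  have hB : ∀ l : Pr, l.1 ∉ B → PU V ∈ (lc l).L0 ∧ l ≠ q ∧ ‖ι (a l)‖ ≤ 1 ∧
      TQ.Eig (QT.rw Qb m) (PU V) z (op ((lc l).Tg Qb)) (a l) := fun l hl => by
    obtain ⟨h1, h2⟩ := Finset.notMem_union.1 hl
    have h3 := not_not.1 fun e => h2 (Finset.mem_image_of_mem _ ((Set.Finite.mem_toFinset _).2 e))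
    exact ⟨⟨h.lev, h.sph l h1⟩, fun e => h1 (e ▸ hS), h3.2,
      eig_congr (fun γ => (op_Tg ⟨h.lev, h.sph l h1⟩ (h.coc.1 γ)).symm) h3.1⟩
  refine ⟨K, ‹_›, fun O _ _ _ _ _ ψ em hE => ?_⟩
  let r : Qb → O := fun x => Function.invFun ψ (ι x)
  have hr : ∀ x ∈ K, ‖ι x‖ ≤ 1 → ψ (r x) = ι x := fun x h1 h2 =>
    Function.invFun_eq (hE x h1 h2)
  have rA : ∀ x ∈ A, ψ (r (p ^ k * x)) = ι (p ^ k * x) := fun x hx =>
    hr _ (mul_mem (pow_mem (natCast_mem K p) k) (k1 x hx)) (hk x hx)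
  have ra : ∀ l : Pr, l.1 ∉ B → ψ (r (a l)) = ι (a l) := fun l hl =>
    hr _ (k2 _ (fun y => by
      rw [Lc.Tg, Finsupp.finsetSum_apply]
      exact sum_mem fun i _ => by
        rw [Finsupp.single_apply]
        split_ifs
        exacts [one_mem _, zero_mem _]) (inv_Tg (hB l hl).1) _ (hB l hl).2.2.2) (hB l hl).2.2.1
  let f : {l : Pr // l.1 ∉ B} ⊕ Y → G →₀ Qb := Sum.elim (fun l => (lc l.1).Tg Qb)
    fun l => ∑ x, Finsupp.single (io l.1 (lf l.1 x)) (p ^ k * c₀ l x)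
  let f' : {l : Pr // l.1 ∉ B} ⊕ Y → G →₀ O := Sum.elim (fun l => (lc l.1).Tg O)
    fun l => ∑ x, Finsupp.single (io l.1 (lf l.1 x)) (r (p ^ k * c₀ l x))
  let c : {l : Pr // l.1 ∉ B} ⊕ Y → O := Sum.elim (fun l => r (a l.1)) fun l => r (p ^ k * e₀ l)
  have hf : ∀ ω y, ψ (f' ω y) = ι (f ω y) := by
    rintro (l | l)
    exacts [map_single _ _ fun _ => by rw [map_one, map_one],
      map_single _ _ fun x => rA _ (a1 l x)]
  have hs : ∀ ω y, f' ω y ≠ 0 → QT.ev q y = 1 := by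
    rintro (l | l) y e <;> obtain ⟨i, rfl⟩ := ex_single _ _ e
    exacts [ev_io_ne (hB _ l.2).2.1.symm _, ev_io_ne (nq l).symm _]
  have occ := fun o => vec_q ι bet cc lk em h.lev h.coc h.ne (c := c) hf hs ?_ ?_ ?_ (o := o)
  rotate_left
  · rintro W (l | l) φ hU hφ
    · exact inv_Tg ⟨hU, at_inf (hB _ l.2).2.1 (hB _ l.2).1.2 _⟩ φ hφ
    · rw [show op (f (.inr l)) φ = _ from op_sum _ _ _ φ]
      intro y u hu
      rw [Finset.sum_apply, Finset.sum_apply]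
      exact Finset.sum_congr rfl fun x _ => congrArg ((p ^ k * c₀ l x) • ·)
        (Ty.inv_rt hU (at_inf (nq l) (h.ty l _ l.2.1 l.2.2).1 _) hφ (Ty.l0 x) y u hu)
  · refine (nE.and_eventually (ev_FQ (B.finite_toSet.preimage
      Subtype.val_injective.injOn).compl_mem_cofinite)).mono fun l hl => ⟨.inl ⟨l, hl.2⟩, rfl, ?_⟩
    rw [em.unit, map_sub, map_pow, map_pow, map_add, map_natCast, map_one]
    exact (ra l hl.2).symm ▸ hl.1
  · rintro (l | l)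
    · exact ⟨_, (ra l l.2).symm, (hB l l.2).2.2.2⟩
    · refine ⟨_, (rA _ (a2 l)).symm, eig_congr (fun γ => ?_) (eig_smul (e2 l l.2) _)⟩
      rw [show op (f (.inr l)) (z γ) = _ from op_sum _ _ _ _, Lc.ec, Finset.smul_sum]
      simp only [smul_smul, lc_ι]
  refine ⟨B, fun l => r (a l), k, fun l x => r (p ^ k * c₀ l x), fun l => r (p ^ k * e₀ l),
    Finset.subset_union_left, ra, fun l c h1 h2 => ?_, fun o ho => ?_⟩
  · obtain rfl := hc l c h2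
    refine ⟨fun e => ?_, fun x => by rw [rA _ (a1 ⟨l, h1, h2⟩ x), map_mul, map_pow, map_natCast]⟩
    have := rA _ (a2 ⟨l, h1, h2⟩)
    rw [show r _ = 0 from e, map_zero, eq_comm, map_eq_zero] at this
    exact mul_ne_zero (pow_ne_zero k (Nat.cast_ne_zero.2 hp.out.ne_zero)) (e1 l ⟨h1, h2⟩) this
  obtain ⟨n₀, v, h1, h2, h3⟩ := occ o ho
  choose n n1 n2 n3 n4 using fun l : Pr => show ∃ n, U1 l n ≤ V l ∧ (l.1 ∉ S → n = 0) ∧
      (l = q → n₀ + 2 ≤ n) ∧ (l.1 ∈ S ∧ L l = some (c₀ l) → n = 1) by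
    by_cases e : l.1 ∈ S ∧ L l = some (c₀ l)
    · exact ⟨1, (eq_of_at (h.zl l) (h.ty l _ e.1 e.2).1).ge, fun e' => (e' e.1).elim,
        fun e' => (nq ⟨l, e⟩ e').elim, fun _ => rfl⟩
    by_cases e' : l.1 ∈ S
    · obtain ⟨n, hn⟩ := ex_U1 h.lev l (h.zl l)
      exact ⟨n + (n₀ + 2), (U1_anti l le_self_add).trans hn, fun k => (k e').elim,
        fun _ => le_add_self, fun k => (e k).elim⟩
    · exact ⟨0, (U1_zero l).le.trans (eq_of_at (h.zl l) (h.sph l e')).ge, fun _ => rfl,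
        fun k => (e' (k ▸ hS)).elim, fun k => (e k).elim⟩
  refine ⟨n, v, n2, fun l e => le_add_self.trans (n3 l (Subtype.ext e)), fun u hu => h1 u ?_,
    fun l hl => ?_, fun l c k1 k2 => ?_, h3⟩
  · exact ⟨PU_mono n1 hu, U1_anti q (le_self_add.trans (n3 q rfl)) (mem_PU.1 hu q)⟩
  · refine Eq.trans ?_ (h2 (.inl ⟨l, hl⟩))
    refine Eq.trans ?_ (act_single _ _ _ _ v).symm
    simp only [Lc.Tv, LinearMap.sum_apply, one_smul]
  · obtain rfl := hc l c k2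
    exact ⟨n4 l ⟨k1, k2⟩, (act_single _ _ _ _ v).symm.trans (h2 (.inr ⟨l, k1, k2⟩))⟩

end

theorem fin_quot {O : Type} [CommRing O] [IsDomain O] [IsDiscreteValuationRing O]
    [h : Finite (IsLocalRing.ResidueField O)] {x : O} (hx : x ≠ 0) :
    Finite (O ⧸ Ideal.span {x}) := by
  obtain ⟨ϖ, hϖ⟩ := IsDiscreteValuationRing.exists_irreducible O
  obtain ⟨n, hn⟩ := IsDiscreteValuationRing.ideal_eq_span_pow_irreducible
    (Ideal.span_singleton_eq_bot.not.2 hx) hϖ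
  have : Finite (O ⧸ IsLocalRing.maximalIdeal O) := h
  rw [hn, ← Ideal.span_singleton_pow, ← hϖ.maximalIdeal_eq]
  exact Ideal.finite_quotient_pow (IsNoetherian.noetherian _) n

theorem autq_non {m : ℕ} {S : Finset ℕ} {L : Lv} {a : ℕ → Qb} (h : AutQ m S L a) (q : ℕ) :
    AutQ m S (Function.update L q none) a := by
  obtain ⟨V, z, h⟩ := h
  refine ⟨V, z, h.zl, h.lev, h.neat, h.coc, h.ne, h.sph, h.eig, fun l c h1 h2 => h.ty l c h1 ?_⟩
  by_cases e : l.1 = q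
  · subst e
    rw [Function.update_self] at h2
    cases h2
  · rwa [Function.update_of_ne e] at h2

end Vale.Agent.P022K.Sh.Wq

namespace Vale.Agent.P022K.CH.Lq

open Vale.Agent.P022 Vale.Agent.P022.H218.L3 Sh QT Wq

/-- **the vector for the level control** -/
theorem lq6 (bet : BET) {M : Type} [AddCommGroup M] {a : Representation ℤ G M}
    {g : Representation ℤ GQ M} {th : GQ → (G → Mer) → G → Mer} {im : ∀ k U, TQ.Hn (2 ^ k) U →+ M}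
    (cc : TQ.CC 2 a g) (lk : AQ.Lk 2 a g th im) (ι : Qb →+* Cp 2) {m : ℕ} {S : Finset ℕ} {L : Lv}
    {a0 : ℕ → Qb} (h : QT.AutQ m S L a0) (C : Finset Pr)
    (χ : ∀ k : C, GL (Fin 2) (ZMod k.1) → Qb)
    (hC : ∀ k : C, k.1.1 ≠ 2 ∧ k.1.1 ∈ S ∧ L k.1 = some (χ k)) (h2 : 2 ∈ S)
    (hi : ∀ l : Pr, l.1 ∉ S → ‖ι (a0 l)‖ ≤ 1)
    (hn : ∀ N, 0 < N → ∀ T : Finset ℕ, ∃ l : Pr, l.1 ∉ T ∧ N ∣ l.1 - 1 ∧ ‖ι (a0 l)‖ = 1) :
    ∃ (O : Type) (_ : CommRing O) (_ : IsDomain O) (_ : IsDiscreteValuationRing O)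
      (_ : Algebra ℤ_[2] O) (ψ : O →+* Cp 2) (S' : Finset ℕ) (b : Pr → O)
      (c : ∀ k : C, GL (Fin 2) (ZMod k.1) → O) (t : C → Cp 2) (e : C → O) (v : O ⊗[ℤ] M),
      Top.Em ψ ∧ Finite (O ⧸ Ideal.span {(2 : O)}) ∧
      (∀ l : Pr, l.1 ∉ S' → l.1 ∉ S ∧ ψ (b l) = ι (a0 l) ∧ (lc l).Tv (Sh.bc O a) v = b l • v) ∧
      (∀ k x, ψ (c k x) = t k * ι (χ k x)) ∧
      (∀ l ∈ C, ∀ x ∈ Km ℤ_[l] ℚ_[l] 1, Sh.bc O a (io l x) v = v) ∧
      (∀ l : Pr, l.1 ∉ S → ∀ x ∈ Kl l, Sh.bc O a (io l x) v = v) ∧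
      (∀ k : C, ∑ x, c k x • Sh.bc O a (io k (Tw.lf k x)) v = e k • v) ∧ (∏ k, e k) • v ≠ 0 := by
  obtain ⟨K, _, hK⟩ := Wq.lq6 ι bet cc lk (autq_non h 2) h2 (Function.update_self ..)
    ((S.finite_toSet.preimage Subtype.val_injective.injOn).subset fun l hl =>
      not_not.1 fun e => hl (hi l e)) (frequently_iff.2 fun hU => by
    obtain ⟨N, N0, hN⟩ := mem_FQ.1 hU
    obtain ⟨l, -, h1, h3⟩ := hn (N * 2) (by omega) ∅
    refine ⟨l, hN l ((dvd_mul_right _ _).trans h1), ?_⟩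
    obtain ⟨d, hd⟩ : 2 ∣ l.1 + 1 := by
      have := (dvd_mul_left _ _).trans h1
      have := l.2.pos
      omega
    have h4 : ‖((l.1 : Cp 2) + 1) ^ 2‖ < ‖ι (a0 l) ^ 2‖ := by
      rw [norm_pow, norm_pow, h3, one_pow, ← Nat.cast_succ, Nat.succ_eq_add_one, hd, Nat.cast_mul,
        norm_mul]
      exact pow_lt_one₀ (by positivity) (mul_lt_one_of_nonneg_of_lt_one_left (norm_nonneg _)
        norm_p_lt (IsUltrametricDist.norm_natCast_le_one _ _)) two_ne_zero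
    rw [sub_eq_add_neg, IsUltrametricDist.norm_add_eq_max_of_norm_ne_norm (by
      rw [norm_neg]; exact h4.ne'), norm_neg, max_eq_left h4.le, norm_pow, h3, one_pow])
  obtain ⟨E, hE⟩ := (ev_nf ι K).exists
  obtain ⟨B, b, k, c, e, h1, h3, h4, h5⟩ := hK E.O E.ψ E.em hE
  have hC' : ∀ k : C, Function.update L 2 none k.1 = some (χ k) := fun k =>
    (Function.update_of_ne (hC k).1 ..).trans (hC k).2.2
  obtain ⟨n, v, k1, -, k2, k3, k4, k5⟩ := h5 (∏ k : C, e k)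
    (Finset.prod_ne_zero_iff.2 fun k _ => (h4 _ _ (hC k).2.1 (hC' k)).1)
  have key : ∀ (l : Pr) x, x ∈ U1 l (n l) → Sh.bc E.O a (io l x) v = v := fun l x hx =>
    k2 _ ((at_PU _ l (sup_eq_left.2 le_sup_right).symm).1 x hx)
  exact ⟨E.O, _, inferInstance, inferInstance, inferInstance, E.ψ, B, fun l => b l, fun k => c k,
    fun _ => 2 ^ k, fun k => e k, v, E.em, fin_quot two_ne_zero,
    fun l hl => ⟨fun e => hl (h1 e), h3 l hl, k3 l hl⟩, fun k => (h4 _ _ (hC k).2.1 (hC' k)).2,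
    fun l hl x hx => key l x ((k4 l _ (hC ⟨l, hl⟩).2.1 (hC' ⟨l, hl⟩)).1.symm ▸
      Subgroup.mem_sup_left hx),
    fun l hl x hx => key l x (by rw [k1 l hl, U1_zero]; exact Subgroup.mem_sup_left hx),
    fun k => (k4 _ _ (hC k).2.1 (hC' k)).2, k5⟩

end Vale.Agent.P022K.CH.Lq
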