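import Vale.Agent.P022K.CH.StB
import Vale.Agent.P022K.CH.Eps
import Vale.Agent.P022K.CH.Lq4
import Vale.Agent.P022K.CH.Lq6
import Vale.Agent.P022K.QT.Ccy
import Vale.Agent.P022K.QT.Hom1

/-!
P022K, block CH, row LEVB: a parabolic homomorphism of controlled level.
-/

set_option linter.all false

open NumberField Matrix
open scoped commutatorElement MatrixGroups TensorProduct

noncomputable section

namespace Vale.Agent.P022K.CH.Lq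

open Vale.Agent.P022 Vale.Agent.P022.H853
open Vale.Agent.P022.H443 (inP)
open Vale.Agent.P022E.GW (Ov Fb)

theorem ex_tr {Γ A k : Type} [Group Γ] [CommGroup A] [Field k] [CharP k 2] (ρ : Γ →* GL (Fin 2) k)
    (hd : ∀ g, dt ρ g = 1) (hs : ¬ Group.IsSolvable ρ.range) (χ : Γ →* A) :
    ∃ g, χ g = 1 ∧ tr ρ g ≠ 0 := by
  by_contra c
  push Not at c
  have sq : ∀ g, χ g = 1 → (ρ g)⁻¹ = ρ g := fun g hg => inv_eq_of_mul_eq_one_right (Units.ext (by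
    have d := hd g
    have t := c g hg
    have h2 : (2 : k) = 0 := CharTwo.two_eq_zero
    rw [dt, det_fin_two] at d
    rw [tr, trace_fin_two] at t
    ext i j
    fin_cases i <;> fin_cases j <;> simp only [Units.val_mul, mul_apply, Fin.sum_univ_two,
      Units.val_one, Fin.zero_eta, Fin.mk_one, one_apply_eq, ne_eq, zero_ne_one, one_ne_zero,
      not_false_eq_true, one_apply_ne]
    · linear_combination (ρ g).val 0 0 * t - d - h2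
    · linear_combination (ρ g).val 0 1 * t
    · linear_combination (ρ g).val 1 0 * t
    · linear_combination (ρ g).val 1 1 * t - d - h2))
  have h1 : derivedSeries ρ.range 1 ≤ χ.ker.map ρ.rangeRestrict := Subgroup.commutator_le.2 (by
    rintro ⟨_, a, rfl⟩ - ⟨_, b, rfl⟩ -
    exact ⟨⁅a, b⁆, by
      rw [SetLike.mem_coe, MonoidHom.mem_ker, map_commutatorElement,
        commutatorElement_eq_one_iff_mul_comm, mul_comm], map_commutatorElement _ a b⟩)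
  refine hs ⟨2, eq_bot_iff.2 ((Subgroup.commutator_mono h1 h1).trans
    (Subgroup.commutator_le.2 ?_))⟩
  rintro _ ⟨a, ha, rfl⟩ _ ⟨b, hb, rfl⟩
  refine Subgroup.mem_bot.2 (commutatorElement_eq_one_iff_mul_comm.2 (Subtype.ext ?_))
  show ρ a * ρ b = ρ b * ρ a
  rw [← map_mul, ← sq _ (mul_mem ha hb), map_mul, _root_.mul_inv_rev, sq a ha, sq b hb]

/-- primes `≡ 1` modulo `N` whose Frobenius elements have a trace different from zero -/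
theorem ex_prime {k : Type} [Field k] [CharP k 2] (ρ : GQ →* GL (Fin 2) k)
    (ho : IsOpen {g | ρ g = 1}) (hd : ∀ g, dt ρ g = 1) (hs : ¬ Group.IsSolvable ρ.range) {N : ℕ}
    (hN : 0 < N) (T : Finset ℕ) :
    ∃ l P φ, l ∉ T ∧ N ∣ l - 1 ∧ Ov l P ∧ Fb l P φ ∧ tr ρ φ ≠ 0 := by
  haveI : NeZero N := ⟨hN.ne'⟩
  obtain ⟨g, g1, g2⟩ := ex_tr ρ hd hs (cyc N)
  obtain ⟨l, φ, hl, hS, ⟨P, p1, p2, p3⟩, z1, z2⟩ := Cheb.cheb (ρ.ker ⊓ (cyc N).ker) inferInstance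
    (ho.inter (isOpen_cyc N)) g (T ∪ N.primeFactors)
  rw [Finset.mem_union, not_or, Nat.mem_primeFactors_of_ne_zero hN.ne', not_and] at hS
  change _ = _ at z1 z2
  rw [map_mul, map_inv, inv_mul_eq_one] at z1 z2
  refine ⟨l, P, φ, hS.1, ?_, ⟨hl, p1, p2⟩, p3, by rwa [tr, ← z1]⟩
  have := cyc_pow ⟨hl, p1, p2⟩ (hS.2 hl) p3
  rw [← z2, g1, Units.val_one, ← Nat.cast_one] at this
  exact (Nat.modEq_iff_dvd' hl.pos).1 ((ZMod.natCast_eq_natCast_iff _ _ _).1 this)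

theorem norm_one {p : ℕ} [Fact p.Prime] {x : Cp p} (h : ‖x‖ ≤ 1) (h0 : red x ≠ 0) : ‖x‖ = 1 :=
  (unit_Op (x := ⟨x, h⟩)).1 (by_contra fun c => h0 ((red_mk h).trans
    ((IsLocalRing.residue_eq_zero_iff (R := Op p) _).2 c)))

open Vale.Agent.P022K.Sh Vale.Agent.P022K.QT Classical

theorem K0q_eq (l : Pr) (n : ℕ) : K0q l n = K0l l n := by
  ext g
  exact ⟨fun ⟨k, hk, e⟩ => e ▸ ⟨⟨k, rfl⟩, dvd_iff.1 hk⟩,
    fun ⟨⟨k, e⟩, h⟩ => ⟨k, dvd_iff.2 (by rw [← e] at h; exact h), e⟩⟩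

theorem U0_eq (N : ℕ) : Lq.U0 N = QT.U0 N := congrArg PU (funext fun l => by rw [K0q_eq])

/-- **the level of the homomorphism is controlled** -/
theorem lev_hom (bet : BET) (gal : GALQ) {ρ : GQ →* GL (Fin 2) (Kp 2)} {S : Finset ℕ} {Q₁ Q₂ : ℕ}
    (D : DatB ρ S Q₁ Q₂) (ι : Qb →+* Cp 2) {m : ℕ} {L : Lv} {a0 : ℕ → Qb}
    (hc : ∀ l ∈ S, CtlB ρ Q₁ Q₂ l → ∃ c, L l = some c ∧ ∃ _ : Fact l.Prime, IsCh c ∧
      LvT (Bor (ZMod l)) c ∧ ∀ g, ∀ z ∈ Subgroup.center _, c (g * z) = c g)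
    (ha : ∀ l ∉ insert 2 S, ∀ P φ, Ov l P → Fb l P φ → ‖ι (a0 l)‖ ≤ 1 ∧ red (ι (a0 l)) = tr ρ φ)
    (h : QT.AutQ m (insert 2 S) L a0) :
    ∃ N : ℕ, 0 < N ∧ 8 ∣ N ∧ (∀ l : ℕ, l.Prime → (l ∣ N ↔ l ∈ insert 2 S)) ∧
      (∀ l ∈ S, CtlB ρ Q₁ Q₂ l → N.factorization l = 1) ∧
      ∃ (T : Finset ℕ) (c : SL(2, ℤ) → Kp 2), P027M.Th.Par (P027M.M.GH N ⊤) c ∧ c ≠ 0 ∧
        ∀ l ∉ T, ∀ P φ, Ov l P → Fb l P φ → EigH N l c (tr ρ φ) := by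
  obtain ⟨th, hth⟩ := gal
  obtain ⟨M, _, a, g, im, cc, lk⟩ := ccy _ _ TQ AQ 2 GQ th okq axq (tkq 2) (hth 2 Nat.prime_two).1
  let C : Finset Pr := (S.filter (CtlB ρ Q₁ Q₂)).subtype Nat.Prime
  let S₀ : Finset Pr := (insert 2 S).subtype Nat.Prime
  have mC : ∀ l : Pr, l ∈ C ↔ l.1 ∈ S ∧ CtlB ρ Q₁ Q₂ l := fun l =>
    Finset.mem_subtype.trans Finset.mem_filter
  have mS : ∀ l : Pr, l ∈ S₀ ↔ l.1 ∈ insert 2 S := fun l => Finset.mem_subtype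
  choose χ hχ _ hχ' using fun k : C => hc k.1 ((mC k).1 k.2).1 ((mC k).1 k.2).2
  have hi : ∀ l : Pr, l.1 ∉ insert 2 S → ‖ι (a0 l)‖ ≤ 1 := fun l hl => by
    obtain ⟨P, hP⟩ := ex_ov l.2
    obtain ⟨φ, hφ⟩ := P022D.W.exists_phi hP.1 hP.2.1 hP.2.2
    exact (ha l hl P φ hP hφ).1
  obtain ⟨O, _, _, _, _, ψ, S', b, c, t, e, v, em, fin, hb, hct, vC, vS, ve, v0⟩ :=
    lq6 bet cc lk ι h C χ (fun k => ⟨((mC k).1 k.2).2.1,
      Finset.mem_insert_of_mem ((mC k).1 k.2).1, hχ k⟩) (Finset.mem_insert_self 2 S) hi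
      fun N hN T => by
        obtain ⟨l, P, φ, h1, h2, h3, h4, h5⟩ := ex_prime ρ D.opn D.det D.big hN (T ∪ insert 2 S)
        rw [Finset.mem_union, not_or] at h1
        obtain ⟨h6, h7⟩ := ha l h1.2 P φ h3 h4
        exact ⟨⟨l, h3.1⟩, h1.1, h2, norm_one h6 (h7 ▸ h5)⟩
  have c2 : ((2 : ℕ) : O) ∈ nonZeroDivisors O := mem_nonZeroDivisors_of_ne_zero fun z =>
    Nat.cast_ne_zero.2 two_ne_zero ((map_natCast ψ 2).symm.trans (z ▸ map_zero ψ))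
  have fin' : Finite (O ⧸ Ideal.span {((2 : ℕ) : O)}) := by rwa [Nat.cast_ofNat]
  have cb := (bc_of _ _ TQ 2 GQ M a g O c2 fin' okq cc).1
  letI : Algebra ℤ_[2] (Cp 2) := (zc 2).toAlgebra
  obtain ⟨N, Np, d8, dv, n1, w, hw, w0, wm, -, wT⟩ := levq cb okq (neq (by norm_num)) S₀ C
    (fun l hl => (mS l).2 (Finset.mem_insert_of_mem ((mC l).1 hl).1))
    (fun l e => ⟨(mS l).2 (e ▸ Finset.mem_insert_self 2 S), fun m => ((mC l).1 m).2.1 e⟩)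
    {l | l.1 ∉ S'} (fun l hl m => (hb l hl).1 ((mS l).1 m)) b ⟨ψ, em.alg⟩ em.inj c
    (fun k g => ι (χ k g)) t e hct (fun k => (hχ' k).1.ring ι) (fun k => (hχ' k).2.1.ring ι)
    (fun k g z hz => congrArg ι ((hχ' k).2.2 g z hz)) vC (fun l hl => vS l fun m => hl ((mS l).2 m))
    (fun l hl => (hb l hl).2.2) ve v0
  obtain ⟨f, f1, f2, f3⟩ := hom_mod Np ((by norm_num : 4 ∣ 8).trans d8) lk cc.tor c2
    (em.rk.comp (IsLocalRing.residue O)) ((map_natCast _ 2).trans (CharP.cast_eq_zero _ 2))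
    (U0_eq N ▸ hw) w0 fun o ho => wm o ((IsLocalRing.residue_eq_zero_iff o).1
      ((map_eq_zero_iff _ em.rk.injective).1 ho))
  refine ⟨N, Np, d8, fun l hl => (dv ⟨l, hl⟩).trans (mS _),
    fun l hl c => n1 ⟨l, (D.od l hl).1⟩ ((mC _).2 ⟨hl, c⟩), S', f, f1, f2, fun l hl P φ h1 h2 => ?_⟩
  obtain ⟨k1, k2, -⟩ := hb ⟨l, h1.1⟩ hl
  rw [← (ha l k1 P φ h1 h2).2, ← k2, ← em.rk_res]
  exact f3 ⟨l, h1.1⟩ _ (fun d => k1 ((mS _).1 ((dv _).1 d))) (wT _ hl)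

end Vale.Agent.P022K.CH.Lq
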