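import Vale.Agent.P022D.G.All
import Vale.Agent.P022E.St

/-!
# P022K, block CH, row MAZ: Mazur's principle modulo two (statements and assembly)
-/

set_option autoImplicit false
set_option linter.all false

open scoped MatrixGroups
open Matrix

noncomputable section

namespace Vale.Agent.P022K.CH.Maz

open Vale.Agent.P022 Vale.Agent.P019P Vale.Agent.P022D P025H816 P025H492
open Vale.Agent.P027M.M (Mdl GH L Lv Act up)
open Vale.Agent.P027M.TW (HA)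
open Vale.Agent.P027M.Th (Par)
open Vale.Agent.P022.H231.L3 (IsDel al)

section words

variable {k : Type} [Field k]

/-- the trace -/
def tr (ρ : GQ →* GL (Fin 2) k) (g : GQ) : k := (ρ g : Matrix (Fin 2) (Fin 2) k).trace

/-- the residual representation -/
structure Hy (ρ : GQ →* GL (Fin 2) k) : Prop where
  opn : IsOpen {g | ρ g = 1}
  det : ∀ g, (ρ g : Matrix (Fin 2) (Fin 2) k).det = 1
  irr : St.AbsIrr ρ
  big : ∃ g, tr ρ g ≠ 0 ∧ tr ρ g ≠ 1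

/-- unramified outside `2 N` -/
def Un (ρ : GQ →* GL (Fin 2) k) (N : ℕ) : Prop :=
  ∀ l : ℕ, l.Prime → ¬ l ∣ 2 * N → ∀ g, G.Inert l g → ρ g = 1

/-- `c` is an eigenvector of `T_l` on the homomorphisms on `Γ₀(N)` -/
def Eig (N l : ℕ) (c : SL(2, ℤ) → k) (a : k) : Prop :=
  ∃ d, IsDel 1 N l d ∧ ∀ γ ∈ GH N ⊤, ∃ (s : Equiv.Perm (Option (Fin l)))
    (g : Option (Fin l) → SL(2, ℤ)), (∀ i, g i ∈ GH N ⊤) ∧
    (∀ i, al 1 l d i * (γ : Matrix (Fin 2) (Fin 2) ℤ) =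
      (g i : Matrix (Fin 2) (Fin 2) ℤ) * al 1 l d (s i)) ∧ ∑ i, c (g i) = a * c γ

/-- the system of `ρ` occurs in the parabolic homomorphisms `Γ₀(N) → k` -/
def HomAt (N : ℕ) (ρ : GQ →* GL (Fin 2) k) : Prop :=
  ∃ (S : Finset ℕ) (c : SL(2, ℤ) → k), Par (GH N ⊤) c ∧ c ≠ 0 ∧
    ∀ l : ℕ, l.Prime → l ∉ S → ∀ φ, IsFrob l φ → Eig N l c (tr ρ φ)

/-- the system of `ρ` occurs in forms of level `Γ₀(N)` and weights at least two -/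
def ModL (N : ℕ) [NeZero N] (ρ : GQ →* GL (Fin 2) k) : Prop :=
  ∃ K : Finset ℕ, (∀ i ∈ K, 1 ≤ i) ∧ ∃ β : G.Wd N →+* k,
    (∀ (ℓ : PA N) φ, IsFrob ℓ.1 φ → β (G.wT ℓ) = tr ρ φ) ∧ (∀ ℓ, β (G.wS ℓ) = 1) ∧
    ∀ Q, G.Kil N N 1 K Q → β Q = 0

/-- words in the letters `t g` -/
abbrev Wg : Type := FreeAlgebra ℤ GQ

/-- the words on a Galois module -/
def aW {Y : Type} [AddCommGroup Y] (a : GQ →* AddMonoid.End Y) : Wg →+* AddMonoid.End Y :=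
  (FreeAlgebra.lift ℤ fun g => a g + a g⁻¹).toRingHom

/-- the system of `ρ` -/
def bW (ρ : GQ →* GL (Fin 2) k) : Wg →+* k := (FreeAlgebra.lift ℤ (tr ρ)).toRingHom

theorem aW_t {Y : Type} [AddCommGroup Y] (a : GQ →* AddMonoid.End Y) (g : GQ) :
    aW a (FreeAlgebra.ι ℤ g) = a g + a g⁻¹ :=
  FreeAlgebra.lift_ι_apply _ _

theorem bW_t (ρ : GQ →* GL (Fin 2) k) (g : GQ) : bW ρ (FreeAlgebra.ι ℤ g) = tr ρ g :=
  FreeAlgebra.lift_ι_apply _ _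

/-- the system of `ρ` occurs in the Kummer classes modulo two of `X₀(N)` -/
def Occ (X : Mdl) (N : ℕ) (ρ : GQ →* GL (Fin 2) k) : Prop :=
  ∀ H : Subgroup (ZMod N)ˣ, (∀ u, u ∈ H) → ∀ [CFF Qb (L (GH N H))] (A : Act X N H 2) (Q : Wg),
    aW (Y := HA Qb (L (GH N H)) 2) A.act Q = 0 → bW ρ Q = 0

end words

/-- **BIG** -/
def BIG : Prop := ∀ (k : Type) [Field k] [CharP k 2] (ρ : GQ →* GL (Fin 2) k),
  IsOpen {g | ρ g = 1} → (∀ g, (ρ g : Matrix (Fin 2) (Fin 2) k).det = 1) →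
  ¬ Group.IsSolvable ρ.range → Hy ρ

/-- **HOM**: from homomorphisms to Kummer classes -/
def HOM : Prop := ∀ (k : Type) [Field k] [CharP k 2] (ρ : GQ →* GL (Fin 2) k) (X : Mdl) (N : ℕ),
  Lv N → Hy ρ → HomAt N ρ → Occ X N ρ

/-- **CORE**: Mazur's principle on Kummer classes -/
def CORE : Prop := ∀ (k : Type) [Field k] [CharP k 2] (ρ : GQ →* GL (Fin 2) k) (X : Mdl)
  (E q : ℕ), E ≠ 0 → 8 ∣ E → q.Prime → ¬ q ∣ E → q % 4 = 3 → Hy ρ →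
  (∀ g, G.Inert q g → ρ g = 1) → (∃ φ, IsFrob q φ ∧ ρ φ ≠ 1) → Occ X (E * q) ρ → Occ X E ρ

/-- **ESK**: from Kummer classes to forms of weight two -/
def ESK : Prop := ∀ (k : Type) [Field k] [CharP k 2] (ρ : GQ →* GL (Fin 2) k) (X : Mdl) (E : ℕ)
  [NeZero E], 4 ∣ E → Un ρ E → Occ X E ρ → ModL E ρ

/-- **TWO**: the powers of two leave the level -/
def TWO : Prop := ∀ (k : Type) [Field k] [CharP k 2] (ρ : GQ →* GL (Fin 2) k) (E M s : ℕ)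
  [NeZero E] [NeZero M], Odd M → E = M * 2 ^ s →
  (∀ g, (ρ g : Matrix (Fin 2) (Fin 2) k).det = 1) → ModL E ρ → St.ModAt M ρ

/-- a prime to which the principle applies -/
structure Aux {k : Type} [Field k] (ρ : GQ →* GL (Fin 2) k) (M q : ℕ) : Prop where
  pr : q.Prime
  nd : ¬ q ∣ M
  md : q % 4 = 3
  fr : ∃ φ, IsFrob q φ ∧ ρ φ ≠ 1

/-- **MAZ**: Mazur's principle, twice -/
def MAZ : Prop := ∀ (k : Type) [Field k] [CharP k 2] (ρ : GQ →* GL (Fin 2) k) (M s q₁ q₂ : ℕ)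
  [NeZero M], Odd M → 3 ≤ s → IsOpen {g | ρ g = 1} →
  (∀ g, (ρ g : Matrix (Fin 2) (Fin 2) k).det = 1) → ¬ Group.IsSolvable ρ.range → Un ρ M →
  Aux ρ M q₁ → Aux ρ M q₂ → q₁ ≠ q₂ → HomAt (M * 2 ^ s * q₁ * q₂) ρ → St.ModAt M ρ

theorem Un.mono {k : Type} [Field k] {ρ : GQ →* GL (Fin 2) k} {N N' : ℕ} (h : Un ρ N)
    (hd : N ∣ N') : Un ρ N' := fun l hl hn =>
  h l hl fun e => hn (e.trans (mul_dvd_mul_left 2 hd))

theorem maz_of (h0 : BIG) (h1 : HOM) (h3 : CORE) (h4 : ESK) (h5 : TWO) : MAZ := by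
  intro k _ _ ρ M s q₁ q₂ _ hM hs ho hd hn hu a₁ a₂ ne hm
  obtain ⟨X⟩ := P027M.M.mdl
  have hy := h0 k ρ ho hd hn
  have n2 : ∀ {q}, Aux ρ M q → ¬ q ∣ 2 := fun a h => by
    have := (Nat.prime_dvd_prime_iff_eq a.pr Nat.prime_two).1 h
    have := a.md
    omega
  have n3 : ∀ {q}, Aux ρ M q → ¬ q ∣ M * 2 ^ s := fun a h =>
    (a.pr.dvd_mul.1 h).elim a.nd fun h => n2 a (a.pr.dvd_of_dvd_pow h)
  have n4 : ∀ {q}, Aux ρ M q → ∀ g, G.Inert q g → ρ g = 1 := fun a =>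
    hu _ a.pr fun h => (a.pr.dvd_mul.1 h).elim (n2 a) a.nd
  have e0 : M * 2 ^ s ≠ 0 := mul_ne_zero (NeZero.ne M) (by positivity)
  have e8 : 8 ∣ M * 2 ^ s := (pow_dvd_pow 2 hs).mul_left _
  have e4 : 4 ∣ M * 2 ^ s := Dvd.dvd.trans ⟨2, rfl⟩ e8
  haveI : NeZero (M * 2 ^ s) := ⟨e0⟩
  have o1 := h1 k ρ X _ ⟨Nat.mul_pos (Nat.mul_pos (Nat.pos_of_ne_zero e0) a₁.pr.pos) a₂.pr.pos,
    (e4.mul_right _).mul_right _⟩ hy hm
  have o2 := h3 k ρ X _ q₂ (mul_ne_zero e0 a₁.pr.ne_zero) (e8.mul_right _) a₂.pr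
    (fun h => (a₂.pr.dvd_mul.1 h).elim (n3 a₂) fun h =>
      ne ((Nat.prime_dvd_prime_iff_eq a₂.pr a₁.pr).1 h).symm) a₂.md hy (n4 a₂) a₂.fr o1
  have o3 := h3 k ρ X _ q₁ e0 e8 a₁.pr (n3 a₁) a₁.md hy (n4 a₁) a₁.fr o2
  exact h5 k ρ _ M s hM rfl hd (h4 k ρ X _ e4 (hu.mono (dvd_mul_right _ _)) o3)

end Vale.Agent.P022K.CH.Maz
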