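import Vale.Agent.P022K.CH.LevA
import Vale.Agent.P022K.CH.MazSpec

/-!
P022K, block CH: the row LEVB.
-/

set_option linter.all false

open NumberField Matrix

noncomputable section

namespace Vale.Agent.P022K.CH

open Vale.Agent.P022 Vale.Agent.P022.H853
open Vale.Agent.P022.H443 (inP)
open Vale.Agent.P022E.GW (Ov Fb)

namespace Lq

/-- from a homomorphism of controlled level to the statement of Serre -/
theorem serre_hom (maz : Maz.MAZ) {ρ : GQ →* GL (Fin 2) (Kp 2)} {S : Finset ℕ} {Q₁ Q₂ : ℕ}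
    (D : DatB ρ S Q₁ Q₂) (ht : ∃ l ∈ S, l ≠ Q₁ ∧ l ≠ Q₂) {N : ℕ} (hN : 0 < N) (h8 : 8 ∣ N)
    (hS : ∀ l : ℕ, l.Prime → (l ∣ N ↔ l ∈ insert 2 S))
    (hC : ∀ l ∈ S, CtlB ρ Q₁ Q₂ l → N.factorization l = 1) (h : Maz.HomAt N ρ) : St.Serre ρ := by
  obtain ⟨p1, o1⟩ := D.od _ D.mem₁
  obtain ⟨p2, o2⟩ := D.od _ D.mem₂
  have sq : ∀ l ∈ S, CtlB ρ Q₁ Q₂ l → ¬ l ^ 2 ∣ N := fun l hl c d => by
    have := ((D.od l hl).1.pow_dvd_iff_le_factorization hN.ne').1 d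
    rw [hC l hl c] at this
    omega
  obtain ⟨s, M', odd, e⟩ := Nat.exists_eq_two_pow_mul_odd hN.ne'
  have dv : ∀ l ∈ S, l ∣ M' := fun l hl => by
    have := (hS l (D.od l hl).1).2 (Finset.mem_insert_of_mem hl)
    rw [e] at this
    exact (((Nat.coprime_primes (D.od l hl).1 Nat.prime_two).2 (D.od l hl).2).pow_right
      s).dvd_of_dvd_mul_left this
  obtain ⟨M, rfl⟩ := ((Nat.coprime_primes p1 p2).2 D.ne).mul_dvd_of_dvd_of_dvd (dv _ D.mem₁)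
    (dv _ D.mem₂)
  have oM : Odd M := Odd.of_dvd_nat odd (dvd_mul_left _ _)
  haveI : NeZero M := ⟨oM.pos.ne'⟩
  have e' : N = M * 2 ^ s * Q₁ * Q₂ := by rw [e]; ring
  have MN : M ∣ N := ⟨2 ^ s * Q₁ * Q₂, by rw [e']; ring⟩
  have n1 : ¬ Q₁ ∣ M := fun ⟨c, hc⟩ => sq _ D.mem₁ ⟨o1, Or.inl rfl⟩
    ⟨c * 2 ^ s * Q₂, by rw [e', hc]; ring⟩
  have n2 : ¬ Q₂ ∣ M := fun ⟨c, hc⟩ => sq _ D.mem₂ ⟨o2, Or.inr (Or.inl rfl)⟩
    ⟨c * 2 ^ s * Q₁, by rw [e', hc]; ring⟩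
  have dM : ∀ l ∈ S, l ≠ Q₁ → l ≠ Q₂ → l ∣ M := fun l hl a b =>
    (((Nat.coprime_primes (D.od l hl).1 p1).2 a).mul_right
      ((Nat.coprime_primes (D.od l hl).1 p2).2 b)).dvd_of_dvd_mul_left (dv l hl)
  have mS : ∀ l : ℕ, l.Prime → l ∣ M → l ∈ S := fun l hl d =>
    (Finset.mem_insert.1 ((hS l hl).1 (d.trans MN))).resolve_left fun e =>
      oM.not_two_dvd_nat (e ▸ d)
  have s3 : 3 ≤ s := (Nat.pow_dvd_pow_iff_le_right one_lt_two).1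
    ((Nat.coprime_two_left.2 odd).pow_left 3 |>.dvd_of_dvd_mul_right (e ▸ h8 :))
  have aux : ∀ Q, Q.Prime → ¬ Q ∣ M → 32 ∣ Q + 1 → Q = Q₁ ∨ Q = Q₂ → Maz.Aux ρ M Q :=
    fun Q a b c d => ⟨a, b, by omega, by
      obtain ⟨P, hP⟩ := ex_ov a
      obtain ⟨φ, hφ⟩ := P022D.W.exists_phi hP.1 hP.2.1 hP.2.2
      exact ⟨φ, ⟨P, hP.2.1, hP.2.2, hφ⟩, (D.frob Q d P φ hP hφ).1⟩⟩
  refine ⟨1, ρ, M, inferInstance, fun g => (one_smul _ _).symm, D.det, oM, ?_,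
    maz _ ρ M s Q₁ Q₂ oM s3 D.opn D.det D.big (fun l hl d g ⟨P, a, b, c⟩ => D.unr l (fun m => d ?_)
      P ⟨hl, a, b⟩ g c) (aux _ p1 n1 D.mod₁ (Or.inl rfl)) (aux _ p2 n2 D.mod₂ (Or.inr rfl)) D.ne
      (e' ▸ h), fun l hl d => D.ram l (mS l hl d) (fun e => n1 (e ▸ d)) fun e => n2 (e ▸ d),
    fun l hl d => ?_⟩
  · obtain ⟨l, hl, a, b⟩ := ht
    exact (D.od l hl).1.one_lt.trans_le (Nat.le_of_dvd oM.pos (dM l hl a b))
  · rcases Finset.mem_insert.1 m with rfl | m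
    · exact dvd_mul_right _ _
    · obtain ⟨a, m⟩ := Finset.mem_erase.1 m
      obtain ⟨b, m⟩ := Finset.mem_erase.1 m
      exact (dM l m b a).mul_left _
  · have m := mS l hl ((dvd_pow_self l two_ne_zero).trans d)
    by_contra c
    push Not at c
    exact sq l m ⟨(D.od l m).2, Or.inr (Or.inr c)⟩ (d.trans MN)

end Lq

open Vale.Agent.P022K.Sh Vale.Agent.P022K.QT

/-- **LEVB** -/
theorem levb (bet : BET) (gal : GALQ) (maz : Maz.MAZ) (A : Thy)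
    (hA : ∀ m S L a, A.AutQ m S L a → QT.AutQ m S L a)
    (hP : ∀ l c, A.Prin l c → ∃ _ : Fact l.Prime, IsCh c ∧ LvT (Bor (ZMod l)) c ∧
      ∀ g, ∀ z ∈ Subgroup.center _, c (g * z) = c g) : A.LEVB := by
  intro ρ S Q₁ Q₂ ι m L a D ht hc _ ha h
  obtain ⟨N, h1, h2, h3, h4, T, c, h5, h6, h7⟩ := Lq.lev_hom bet gal D ι
    (fun l hl c => (hc l hl c).imp fun _ e => ⟨e.1, hP _ _ e.2⟩) ha (hA _ _ _ _ h)
  exact Lq.serre_hom maz D ht h1 h2 h3 h4 ⟨T, c, h5, h6, fun l hl hT φ ⟨P, p1, p2, p3⟩ =>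
    h7 l hT P φ ⟨hl, p1, p2⟩ p3⟩

end Vale.Agent.P022K.CH
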