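import Mathlib.RepresentationTheory.Basic
import Mathlib.LinearAlgebra.Matrix.GeneralLinearGroup.Defs
import Mathlib.Data.ZMod.Units
import Mathlib.FieldTheory.Finite.Basic
import Mathlib.Tactic.LinearCombination
import Mathlib.Tactic.FieldSimp

/-!
P022K, block CH, row LEVQ, part NEWV: a non zero smooth representation of `PGL₂(ℚ_p)` which is
killed by two has a non zero vector fixed by some `K₀(p ^ n)`.
-/

set_option linter.all false

noncomputable section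

namespace Vale.Agent.P022K.CH.Nw

open Classical Finset

section gen

variable {Λ M : Type*} [CommRing Λ] [AddCommGroup M] [Module Λ M]

theorem fix_one (X : Submodule Λ M) (h2 : ∀ x ∈ X, x + x = 0) (d : Module.End Λ M)
    (hd : ∀ x ∈ X, d x ∈ X) (e : ℕ) : ∀ x ∈ X, x ≠ 0 → (d ^ 2 ^ e) x = x →
      ∃ w ∈ X, w ≠ 0 ∧ d w = w := by
  induction e with
  | zero => exact fun x hx h0 h => ⟨x, hx, h0, by simpa using h⟩
  | succ e ih =>
    intro x hx h0 h
    have hf : (d ^ 2 ^ e) x ∈ X := Module.End.pow_apply_mem_of_forall_mem _ hd x hx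
    by_cases h1 : (d ^ 2 ^ e) x = x
    · exact ih x hx h0 h1
    · refine ih ((d ^ 2 ^ e) x + x) (X.add_mem hf hx) (fun e0 => h1 ?_) ?_
      · exact add_right_cancel (e0.trans (h2 x hx).symm)
      · rw [map_add, ← Module.End.mul_apply, ← pow_add, ← two_mul, ← pow_succ', h, add_comm]

/-- commuting operators of two power order on a module killed by two have a common fixed vector -/
theorem fix_comm {ι : Type*} (d : ι → Module.End Λ M) (hc : ∀ i j, Commute (d i) (d j)) (e : ℕ)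
    (s : Finset ι) : ∀ (X : Submodule Λ M), (∀ x ∈ X, x + x = 0) → (∀ i, ∀ x ∈ X, d i x ∈ X) →
      (∀ i ∈ s, ∀ x ∈ X, (d i ^ 2 ^ e) x = x) → (∃ x ∈ X, x ≠ 0) →
      ∃ w ∈ X, w ≠ 0 ∧ ∀ i ∈ s, d i w = w := by
  induction s using Finset.induction_on with
  | empty => exact fun X _ _ _ ⟨x, hx, h0⟩ => ⟨x, hx, h0, by simp⟩
  | insert a s ha ih =>
    rintro X h2 hd he ⟨x, hx, h0⟩
    obtain ⟨y, hy, y0, e1⟩ := fix_one X h2 (d a) (hd a) e x hx h0 (he a (mem_insert_self _ _) x hx)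
    obtain ⟨w, hw, w0, e2⟩ := ih (X ⊓ LinearMap.eqLocus (d a) LinearMap.id)
      (fun x hx => h2 x hx.1) (fun i x hx => ⟨hd i x hx.1, by
        have : d a x = x := hx.2
        show d a (d i x) = d i x
        rw [← Module.End.mul_apply, (hc a i).eq, Module.End.mul_apply, this]⟩)
      (fun i hi x hx => he i (mem_insert_of_mem hi) x hx.1) ⟨y, ⟨hy, e1⟩, y0⟩
    refine ⟨w, hw.1, w0, fun i hi => ?_⟩
    rcases mem_insert.1 hi with rfl | hi
    · exact hw.2
    · exact e2 i hi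

/-- Vandermonde -/
theorem vander {ι : Type*} (F : ι → Module.End Λ M) (hc : ∀ i j, Commute (F i) (F j))
    (Y : Submodule Λ M) (hY : ∀ i, ∀ y ∈ Y, F i y ∈ Y)
    (hi : ∀ i j, i ≠ j → ∀ y ∈ Y, F i y = F j y → y = 0) (s : Finset ι) :
    ∀ y : ι → M, (∀ i, y i ∈ Y) → (∀ b : ℕ, ∑ i ∈ s, (F i ^ b) (y i) = 0) → ∀ i ∈ s, y i = 0 := by
  induction s using Finset.induction_on with
  | empty => simp
  | insert a s ha ih =>
    intro y hy h
    have k := ih (fun i => F i (y i) - F a (y i)) (fun i => Y.sub_mem (hY _ _ (hy i)) (hY _ _ (hy i)))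
      (fun b => by
        have h1 := h (b + 1)
        have h2 := congrArg (F a) (h b)
        rw [sum_insert ha] at h1 h2
        rw [map_add, map_sum, map_zero, ← Module.End.mul_apply, ← pow_succ'] at h2
        have : ∀ i, (F i ^ b) (F i (y i) - F a (y i)) =
            (F i ^ (b + 1)) (y i) - F a ((F i ^ b) (y i)) := fun i => by
          rw [map_sub, ← Module.End.mul_apply, ← pow_succ, ← Module.End.mul_apply,
            ((hc i a).pow_left b).eq, Module.End.mul_apply]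
        rw [Finset.sum_congr rfl (fun i _ => this i), Finset.sum_sub_distrib, sub_eq_zero]
        exact add_left_cancel (h1.trans h2.symm))
    have k1 : ∀ i ∈ s, y i = 0 := fun i his =>
      hi i a (fun e => ha (e ▸ his)) _ (hy i) (sub_eq_zero.1 (k i his))
    intro i hi
    rcases mem_insert.1 hi with rfl | hi
    · have := h 0
      rw [sum_insert ha, Finset.sum_eq_zero (fun j hj => by rw [k1 j hj, map_zero])] at this
      simpa using this
    · exact k1 i hi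

end gen

section mat

variable {K : Type} [Field K]

/-- upper unipotent -/
def nU (b : K) : GL (Fin 2) K :=
  Matrix.GeneralLinearGroup.mkOfDetNeZero !![1, b; 0, 1] (by simp [Matrix.det_fin_two])

/-- lower unipotent -/
def nL (c : K) : GL (Fin 2) K :=
  Matrix.GeneralLinearGroup.mkOfDetNeZero !![1, 0; c, 1] (by simp [Matrix.det_fin_two])

/-- `diag (a, 1)`, the identity for `a = 0` -/
def dG (a : K) : GL (Fin 2) K :=
  if h : a = 0 then 1 else
    Matrix.GeneralLinearGroup.mkOfDetNeZero !![a, 0; 0, 1] (by simpa [Matrix.det_fin_two] using h)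

theorem nU_val (b : K) : (nU b : Matrix (Fin 2) (Fin 2) K) = !![1, b; 0, 1] := rfl

theorem nL_val (b : K) : (nL b : Matrix (Fin 2) (Fin 2) K) = !![1, 0; b, 1] := rfl

theorem dG_val {a : K} (h : a ≠ 0) : (dG a : Matrix (Fin 2) (Fin 2) K) = !![a, 0; 0, 1] := by
  rw [dG, dif_neg h]
  rfl

theorem nU_add (a b : K) : nU (a + b) = nU a * nU b := by
  apply Units.ext
  simp [nU_val, add_comm]

theorem nU_zero : nU (0 : K) = 1 := by
  apply Units.ext
  rw [nU_val, Units.val_one, Matrix.one_fin_two]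

theorem nU_pow (b : K) (n : ℕ) : nU b ^ n = nU (n * b) := by
  induction n with
  | zero => simp [nU_zero]
  | succ n ih => rw [pow_succ, ih, ← nU_add, Nat.cast_succ, add_mul, one_mul]

theorem dG_mul {a b : K} (ha : a ≠ 0) (hb : b ≠ 0) : dG (a * b) = dG a * dG b := by
  apply Units.ext
  simp [dG_val, ha, hb]

theorem dG_one : dG (1 : K) = 1 := by
  apply Units.ext
  rw [dG_val one_ne_zero, Units.val_one, Matrix.one_fin_two]

theorem dG_comm (a b : K) : Commute (dG a) (dG b) := by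
  by_cases ha : a = 0
  · rw [dG, dif_pos ha]
    exact Commute.one_left _
  by_cases hb : b = 0
  · rw [dG.eq_def b, dif_pos hb]
    exact Commute.one_right _
  show _ = _
  rw [← dG_mul ha hb, ← dG_mul hb ha, mul_comm]

theorem dG_pow {a : K} (ha : a ≠ 0) (n : ℕ) : dG a ^ n = dG (a ^ n) := by
  induction n with
  | zero => simp [dG_one]
  | succ n ih => rw [pow_succ, ih, ← dG_mul (pow_ne_zero _ ha) ha, pow_succ]

theorem dG_nU {a : K} (ha : a ≠ 0) (b : K) : dG a * nU b = nU (a * b) * dG a := by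
  apply Units.ext
  simp [dG_val, nU_val, ha]

theorem nL_dG {a : K} (ha : a ≠ 0) (b : K) : nL b * dG a = dG a * nL (a * b) := by
  apply Units.ext
  simp [dG_val, nL_val, ha, mul_comm]

theorem wey_nU {c : K} (hc : c ≠ 0) (b : K) :
    nL b * (nU (-c⁻¹) * nL c * nU (-c⁻¹)) = nU (-c⁻¹) * nL c * nU (-c⁻¹) * nU (-(b / c ^ 2)) := by
  apply Units.ext
  simp only [Units.val_mul, nU_val, nL_val, Matrix.mul_fin_two]
  congr 2 <;> simp [hc] <;> field_simp

theorem dG_sq {a : K} (ha : a ≠ 0) : dG a * dG a =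
    Matrix.GeneralLinearGroup.scalar (Fin 2) (Units.mk0 a ha) *
      (nU (-1) * nL 1 * nU (-1) * (nU a⁻¹ * nL (-a) * nU a⁻¹)) := by
  apply Units.ext
  ext i j
  fin_cases i <;> fin_cases j <;>
    simp [dG_val, nU_val, nL_val, ha, Matrix.GeneralLinearGroup.scalar, Matrix.mul_apply,
      Fin.sum_univ_two, Matrix.diagonal]

theorem iwa (g : GL (Fin 2) K) (ha : g 0 0 ≠ 0) (δ : Kˣ)
    (hδ : g 0 0 * δ = g 0 0 * g 1 1 - g 0 1 * g 1 0) :
    g = Matrix.GeneralLinearGroup.scalar (Fin 2) δ *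
      (nL (g 1 0 / g 0 0) * dG (g 0 0 / δ) * nU (g 0 1 / g 0 0)) := by
  apply Units.ext
  have h : g 0 0 / δ ≠ 0 := div_ne_zero ha δ.ne_zero
  have hd := δ.ne_zero
  ext i j
  fin_cases i <;> fin_cases j <;>
    simp [dG_val h, nU_val, nL_val, Matrix.GeneralLinearGroup.scalar, Matrix.mul_apply,
      Fin.sum_univ_two, Matrix.diagonal] <;> field_simp
  linear_combination -hδ

theorem scalar_center (c : Kˣ) :
    Matrix.GeneralLinearGroup.scalar (Fin 2) c ∈ Subgroup.center (GL (Fin 2) K) := by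
  refine Subgroup.mem_center_iff.2 fun g => Units.ext ?_
  exact ((Matrix.scalar_commute (c : K) (fun _ => Commute.all _ _) (g : Matrix (Fin 2) (Fin 2) K)).eq).symm

end mat

/-- `R` looks like `ℤ_p` in `ℚ_p` -/
structure Zp {K : Type} [Field K] (R : Subring K) (p : ℕ) : Prop where
  pr : p.Prime
  ne : (p : K) ≠ 0
  inv : (p : K)⁻¹ ∉ R
  den : ∀ x : K, ∃ j : ℕ, (p : K) ^ j * x ∈ R
  apx : ∀ n : ℕ, ∀ x ∈ R, ∃ z : ℕ, ∃ y ∈ R, x = z + (p : K) ^ n * y
  un : ∀ x ∈ R, (p : K)⁻¹ * x ∉ R → x⁻¹ ∈ R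

/-- the units -/
def Un {K : Type} [Field K] (R : Subring K) (a : K) : Prop := a ≠ 0 ∧ a ∈ R ∧ a⁻¹ ∈ R

/-- the group `K₀(p ^ n)` -/
def K0 {K : Type} [Field K] (R : Subring K) (p n : ℕ) (g : GL (Fin 2) K) : Prop :=
  g 0 0 ∈ R ∧ g 0 1 ∈ R ∧ g 1 1 ∈ R ∧ (∃ c ∈ R, g 1 0 = (p : K) ^ n * c) ∧
    (g 0 0 * g 1 1 - g 0 1 * g 1 0)⁻¹ ∈ R

section main

variable {K : Type} [Field K] {R : Subring K} {p : ℕ}

theorem Un.mul {a b : K} (ha : Un R a) (hb : Un R b) : Un R (a * b) :=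
  ⟨mul_ne_zero ha.1 hb.1, R.mul_mem ha.2.1 hb.2.1, by
    rw [mul_inv]
    exact R.mul_mem ha.2.2 hb.2.2⟩

theorem Un.inv {a : K} (ha : Un R a) : Un R a⁻¹ :=
  ⟨inv_ne_zero ha.1, ha.2.2, by rw [inv_inv]; exact ha.2.1⟩

theorem Un.pow {a : K} (ha : Un R a) (n : ℕ) : Un R (a ^ n) :=
  ⟨pow_ne_zero _ ha.1, R.pow_mem ha.2.1 n, by rw [← inv_pow]; exact R.pow_mem ha.2.2 n⟩

theorem Zp.un_of (h : Zp R p) {a : K} (ha : a ∈ R) (h1 : (p : K)⁻¹ * a ∉ R) : Un R a :=
  ⟨fun e => h1 (by rw [e, mul_zero]; exact R.zero_mem), ha, h.un a ha h1⟩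

theorem Zp.not_mem (h : Zp R p) {a : K} (ha : Un R a) : (p : K)⁻¹ * a ∉ R := fun e =>
  h.inv (by simpa [ha.1] using R.mul_mem e ha.2.2)

theorem Zp.un_add (h : Zp R p) {a y : K} (ha : Un R a) (hy : y ∈ R) {n : ℕ} (hn : n ≠ 0) :
    Un R (a + (p : K) ^ n * y) := by
  obtain ⟨n, rfl⟩ := Nat.exists_eq_succ_of_ne_zero hn
  have k : (p : K) ^ n * y ∈ R := R.mul_mem (R.pow_mem (natCast_mem R p) n) hy
  refine h.un_of (R.add_mem ha.2.1 (R.mul_mem (R.pow_mem (natCast_mem R p) _) hy)) fun e => ?_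
  refine h.not_mem ha ?_
  have := R.sub_mem e k
  convert this using 1
  have := h.ne
  rw [pow_succ]
  field_simp
  ring

theorem Zp.un_nat (h : Zp R p) {z : ℕ} (hz : z.Coprime p) : Un R (z : K) := by
  refine h.un_of (natCast_mem R z) fun e => h.inv ?_
  have e1 := Nat.gcd_eq_gcd_ab z p
  rw [hz.gcd_eq_one] at e1
  have e2 := congrArg (Int.cast : ℤ → K) e1
  push_cast at e2
  have := R.add_mem (R.mul_mem e (intCast_mem R (z.gcdA p))) (intCast_mem R (z.gcdB p))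
  convert this using 1
  have := h.ne
  field_simp
  linear_combination e2

theorem Zp.ex_unit (h : Zp R p) {n : ℕ} (hn : n ≠ 0) {a : K} (ha : Un R a) :
    ∃ u : (ZMod (p ^ n))ˣ, ∃ y ∈ R, a = ((u : ZMod (p ^ n)).val : K) + (p : K) ^ n * y := by
  haveI : NeZero (p ^ n) := ⟨pow_ne_zero _ h.pr.ne_zero⟩
  obtain ⟨z, y, hy, e⟩ := h.apx n a ha.2.1
  have hz : z.Coprime (p ^ n) := by
    refine Nat.Coprime.pow_right _ (Nat.Coprime.symm (h.pr.coprime_iff_not_dvd.2 ?_))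
    rintro ⟨t, rfl⟩
    obtain ⟨n, rfl⟩ := Nat.exists_eq_succ_of_ne_zero hn
    refine h.not_mem ha ?_
    have := R.add_mem (natCast_mem R t) (R.mul_mem (R.pow_mem (natCast_mem R p) n) hy)
    convert this using 1
    have := h.ne
    rw [e, pow_succ]
    push_cast
    field_simp
  refine ⟨ZMod.unitOfCoprime z hz, (z / p ^ n : ℕ) + y, R.add_mem (natCast_mem R _) hy, ?_⟩
  rw [ZMod.coe_unitOfCoprime, ZMod.val_natCast, e]
  have := congrArg (Nat.cast : ℕ → K) (Nat.mod_add_div z (p ^ n))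
  rw [Nat.cast_add, Nat.cast_mul, Nat.cast_pow] at this
  linear_combination -this

theorem Zp.un_val (h : Zp R p) {n : ℕ} (hn : n ≠ 0) (u : (ZMod (p ^ n))ˣ) :
    Un R (((u : ZMod (p ^ n)).val : ℕ) : K) :=
  h.un_nat ((ZMod.val_coe_unit_coprime u).of_dvd_right (dvd_pow_self p hn))

variable {Λ M : Type*} [CommRing Λ] [AddCommGroup M] [Module Λ M]
  (π : Representation Λ (GL (Fin 2) K) M)

theorem app (g h : GL (Fin 2) K) (x : M) : π (g * h) x = π g (π h x) := by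
  rw [map_mul, Module.End.mul_apply]

theorem inj (g : GL (Fin 2) K) {x : M} (h : π g x = 0) : x = 0 := by
  have := congrArg (π g⁻¹) h
  rwa [← app, inv_mul_cancel, map_one, map_zero] at this

variable (R p) in
/-- the vectors fixed by `N(R)` and `diag (1 + p ^ n R, 1)` -/
def XX (n : ℕ) : Submodule Λ M where
  carrier := {x | (∀ b ∈ R, π (nU b) x = x) ∧ ∀ y ∈ R, π (dG (1 + (p : K) ^ n * y)) x = x}
  add_mem' {x x'} h h' := ⟨fun b hb => by rw [map_add, h.1 b hb, h'.1 b hb],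
    fun b hb => by rw [map_add, h.2 b hb, h'.2 b hb]⟩
  zero_mem' := ⟨fun _ _ => map_zero _, fun _ _ => map_zero _⟩
  smul_mem' c x h := ⟨fun b hb => by rw [map_smul, h.1 b hb], fun b hb => by rw [map_smul, h.2 b hb]⟩

variable {π}

theorem un_one : Un R (1 : K) := ⟨one_ne_zero, R.one_mem, by simpa using R.one_mem⟩

theorem dG_fix {n : ℕ} {x : M} (hx : ∀ y ∈ R, π (dG (1 + (p : K) ^ n * y)) x = x) (a : K) :
    ∀ y ∈ R, π (dG (1 + (p : K) ^ n * y)) (π (dG a) x) = π (dG a) x := fun y hy => by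
  rw [← app, (dG_comm _ _).eq, app, hx y hy]

theorem XX_dG {n : ℕ} {x : M} (hx : x ∈ XX R p π n) {a : K} (ha : Un R a) :
    π (dG a) x ∈ XX R p π n :=
  ⟨fun b hb => by
    have := dG_nU ha.1 (a⁻¹ * b)
    rw [mul_inv_cancel_left₀ ha.1] at this
    rw [← app, ← this, app, hx.1 _ (R.mul_mem ha.2.2 hb)], dG_fix hx.2 a⟩

theorem XX_nU (h : Zp R p) {n : ℕ} (hn : n ≠ 0) {x : M} (hx : x ∈ XX R p π n) {c : K}
    (hc : (p : K) ^ n * c ∈ R) : π (nU c) x ∈ XX R p π n :=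
  ⟨fun b hb => by rw [← app, ← nU_add, add_comm, nU_add, app, hx.1 b hb], fun y hy => by
    rw [← app, dG_nU (h.un_add un_one hy hn).1, app, hx.2 y hy,
      show (1 + (p : K) ^ n * y) * c = c + (p : K) ^ n * c * y by ring, nU_add, app,
      hx.1 _ (R.mul_mem hc hy)]⟩

theorem dG_cong (h : Zp R p) {n : ℕ} (hn : n ≠ 0) {x : M} (hx : x ∈ XX R p π n) {a y : K}
    (ha : Un R a) (hy : y ∈ R) : π (dG (a + (p : K) ^ n * y)) x = π (dG a) x := by
  have h1 : a⁻¹ * y ∈ R := R.mul_mem ha.2.2 hy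
  have e : a + (p : K) ^ n * y = a * (1 + (p : K) ^ n * (a⁻¹ * y)) := by
    have := ha.1
    field_simp
  rw [e, dG_mul ha.1 (h.un_add un_one h1 hn).1, app, hx.2 _ h1]

/-- the last step -/
theorem K0_of (h : Zp R p) (hz : ∀ z ∈ Subgroup.center (GL (Fin 2) K), π z = 1) {w : M}
    (h1 : ∀ b ∈ R, π (nU b) w = w) (h2 : ∀ a, Un R a → π (dG a) w = w) {m : ℕ} (hm : m ≠ 0)
    (h3 : ∀ c ∈ R, π (nL ((p : K) ^ m * c)) w = w) (g : GL (Fin 2) K) (hg : K0 R p m g) :
    π g w = w := by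
  obtain ⟨a1, a2, a3, ⟨c, hc, a4⟩, a5⟩ := hg
  have hD : g 0 0 * g 1 1 - g 0 1 * g 1 0 ≠ 0 := by
    have h := Matrix.GeneralLinearGroup.det_ne_zero g
    rwa [Matrix.det_fin_two] at h
  have u1 : Un R (g 0 0 * g 1 1 - g 0 1 * g 1 0) := ⟨hD, by
    rw [a4]
    exact R.sub_mem (R.mul_mem a1 a3)
      (R.mul_mem a2 (R.mul_mem (R.pow_mem (natCast_mem R p) m) hc)), a5⟩
  have u2 : Un R (g 0 0 * g 1 1) := by
    have := h.un_add u1 (R.mul_mem a2 hc) hm
    rwa [a4, show g 0 0 * g 1 1 - g 0 1 * ((p : K) ^ m * c) + (p : K) ^ m * (g 0 1 * c) =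
      g 0 0 * g 1 1 by ring] at this
  have h0 : g 0 0 ≠ 0 := left_ne_zero_of_mul u2.1
  have u3 : Un R (g 0 0) := ⟨h0, a1, by
    have := R.mul_mem u2.2.2 a3
    rwa [mul_inv, mul_assoc, inv_mul_cancel₀ (right_ne_zero_of_mul u2.1), mul_one] at this⟩
  have u4 := u3.inv.mul u1
  rw [iwa g h0 (Units.mk0 _ u4.1) (by rw [Units.val_mk0, mul_inv_cancel_left₀ h0]), app,
    hz _ (scalar_center _), Module.End.one_apply, app, app,
    h1 _ (by rw [div_eq_mul_inv]; exact R.mul_mem a2 u3.2.2),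
    h2 _ (by rw [div_eq_mul_inv]; exact u3.mul u4.inv), a4, mul_div_assoc,
    h3 _ (by rw [div_eq_mul_inv]; exact R.mul_mem hc u3.2.2)]

theorem tor_of (h : Zp R p) {n : ℕ} (hn : n ≠ 0) {w : M} (hw : w ∈ XX R p π n)
    (h1 : ∀ u : (ZMod (p ^ n))ˣ, π (dG (((u : ZMod (p ^ n)).val : ℕ) : K)) w = w) (a : K)
    (ha : Un R a) : π (dG a) w = w := by
  obtain ⟨u, y, hy, rfl⟩ := h.ex_unit hn ha
  rw [dG_cong h hn hw (h.un_val hn u) hy, h1]

/-- the torus acts through a two group -/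
theorem tor_two (h : Zp R p) {n : ℕ} (hn : n ≠ 0) (X : Submodule Λ M) (h2 : ∀ x ∈ X, x + x = 0)
    (hX : X ≤ XX R p π n) (hd : ∀ a, Un R a → ∀ x ∈ X, π (dG a) x ∈ X) (e : ℕ)
    (he : ∀ a, Un R a → ∀ x ∈ X, π (dG (a ^ 2 ^ e)) x = x) (h0 : ∃ x ∈ X, x ≠ 0) :
    ∃ w ∈ X, w ≠ 0 ∧ ∀ a, Un R a → π (dG a) w = w := by
  haveI : NeZero (p ^ n) := ⟨pow_ne_zero _ h.pr.ne_zero⟩
  obtain ⟨w, hw, w0, e1⟩ := fix_comm
    (fun u : (ZMod (p ^ n))ˣ => π (dG (((u : ZMod (p ^ n)).val : ℕ) : K)))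
    (fun i j => (dG_comm _ _).map π) e univ X h2 (fun u => hd _ (h.un_val hn u))
    (fun u _ x hx => by
      rw [← map_pow, dG_pow (h.un_val hn u).1]
      exact he _ (h.un_val hn u) x hx) h0
  exact ⟨w, hw, w0, tor_of h hn (hX hw) fun u => e1 u (mem_univ _)⟩

/-- the generic case -/
theorem tor_gen (h : Zp R p) (hp : Odd p) {n : ℕ} (hn : n ≠ 0) (X0 : Submodule Λ M)
    (h2 : ∀ x ∈ X0, x + x = 0) (hX : ∀ g, ∀ x ∈ X0, π g x ∈ X0) {v : M} (hv0 : v ∈ X0)
    (hv : v ∈ XX R p π n) (hne : π (nU (p : K)⁻¹) v ≠ v) :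
    ∃ w ∈ X0 ⊓ XX R p π n, w ≠ 0 ∧ ∀ a, Un R a → π (dG a) w = w := by
  haveI : NeZero (p ^ n) := ⟨pow_ne_zero _ h.pr.ne_zero⟩
  have p0 := h.ne
  obtain ⟨m, rfl⟩ := Nat.exists_eq_succ_of_ne_zero hn
  set n := m.succ with hnm
  let X := X0 ⊓ XX R p π n
  let z : (ZMod (p ^ n))ˣ → ℕ := fun u => (u : ZMod (p ^ n)).val
  let β : K := ((p : K) ^ n)⁻¹
  have hβ : ∀ j : ℕ, (p : K) ^ n * (j * β) ∈ R := fun j => by
    rw [mul_left_comm, mul_inv_cancel₀ (pow_ne_zero _ p0), mul_one]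
    exact natCast_mem R j
  have hXn : ∀ j : ℕ, ∀ x ∈ X, π (nU (j * β)) x ∈ X := fun j x hx =>
    ⟨hX _ _ hx.1, XX_nU h hn hx.2 (hβ j)⟩
  have hXd : ∀ a, Un R a → ∀ x ∈ X, π (dG a) x ∈ X := fun a ha x hx =>
    ⟨hX _ _ hx.1, XX_dG hx.2 ha⟩
  have eβ : (p : K)⁻¹ = ((p ^ m : ℕ) : K) * β := by
    simp only [β, hnm, pow_succ]
    push_cast
    field_simp
  let γ : Module.End Λ M := π (nU (p : K)⁻¹)
  have hγ : ∀ x ∈ X, γ x ∈ X := fun x hx => by
    simp only [γ, eβ]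
    exact hXn _ x hx
  let Y : Submodule Λ M := X.map (γ - 1)
  have hY : Y ≤ X := by
    rintro _ ⟨x, hx, rfl⟩
    exact X.sub_mem (hγ x hx) hx
  have cγ : ∀ b : K, Commute (π (nU b)) (γ - 1) := fun b =>
    Commute.sub_right (Commute.map (by
      show _ = _
      rw [← nU_add, ← nU_add, add_comm]) π) (Commute.one_right _)
  have hY0 : ∀ y ∈ Y, γ y = y → y = 0 := by
    rintro y ⟨x, hx, e⟩ e1
    have e2 : γ x = x + y := by rw [← e]; simp
    have k : ∀ i : ℕ, (γ ^ i) x = x + i • y := by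
      intro i
      induction i with
      | zero => simp
      | succ i ih => rw [pow_succ', Module.End.mul_apply, ih, map_add, map_nsmul, e1, e2,
          succ_nsmul', add_assoc]
    have k1 := k p
    rw [← map_pow, nU_pow, mul_inv_cancel₀ p0, hx.2.1 1 R.one_mem] at k1
    obtain ⟨t, ht⟩ := hp
    have k2 : p • y = y := by
      rw [ht, add_nsmul, one_nsmul, mul_nsmul, two_nsmul, h2 y (hY ⟨x, hx, e⟩).1, nsmul_zero,
        zero_add]
    rw [k2] at k1
    exact left_eq_add.1 k1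
  let v1 := (γ - 1) v
  have v1Y : v1 ∈ Y := ⟨v, ⟨hv0, hv⟩, rfl⟩
  obtain ⟨b, hb⟩ : ∃ b : ℕ, ∑ u, π (dG (z u : K)) (π (nU (b * β)) v1) ≠ 0 := by
    by_contra hn0
    push Not at hn0
    have k := vander (fun u => π (nU (z u * β))) (fun i j => Commute.map (by
        show _ = _
        rw [← nU_add, ← nU_add, add_comm]) π) Y ?_ ?_ univ (fun u => π (dG (z u : K)) v1) ?_ ?_ 1
      (mem_univ _)
    · exact hne (sub_eq_zero.1 (inj π _ k))
    · rintro u _ ⟨x, hx, rfl⟩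
      exact ⟨_, hXn _ x hx, by rw [← Module.End.mul_apply, ← (cγ _).eq, Module.End.mul_apply]⟩
    · intro i j hij y hy e
      apply hY0 y hy
      let H : AddSubgroup ℤ :=
        { carrier := {t | π (nU (t * β)) y = y}
          add_mem' := fun {a b} ha hb => by
            show π (nU (((a + b : ℤ) : K) * β)) y = y
            rw [Int.cast_add, add_mul, nU_add, app, show π (nU (b * β)) y = y from hb]
            exact ha
          zero_mem' := by
            show π (nU (((0 : ℤ) : K) * β)) y = y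
            rw [Int.cast_zero, zero_mul, nU_zero, map_one, Module.End.one_apply]
          neg_mem' := fun {a} ha => by
            show π (nU (((-a : ℤ) : K) * β)) y = y
            conv_lhs => rw [← show π (nU (a * β)) y = y from ha]
            rw [← app, ← nU_add, Int.cast_neg, neg_mul, neg_add_cancel, nU_zero, map_one,
              Module.End.one_apply] }
      have m1 : ((p ^ n : ℕ) : ℤ) ∈ H := by
        show π (nU ((((p ^ n : ℕ) : ℤ) : K) * β)) y = y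
        push_cast
        rw [mul_inv_cancel₀ (pow_ne_zero _ p0)]
        exact (hY hy).2.1 1 R.one_mem
      have m2 : ((z i : ℤ) - z j) ∈ H := by
        show π (nU ((((z i : ℤ) - z j : ℤ) : K) * β)) y = y
        push_cast
        rw [sub_mul, sub_eq_neg_add, nU_add, app, e, ← app, ← nU_add, neg_add_cancel, nU_zero,
          map_one, Module.End.one_apply]
      have m3 : (Int.gcd ((z i : ℤ) - z j) ((p ^ n : ℕ) : ℤ) : ℤ) ∈ H := by
        rw [Int.gcd_eq_gcd_ab, mul_comm, mul_comm ((p ^ n : ℕ) : ℤ)]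
        exact H.add_mem (H.zsmul_mem m2 _) (H.zsmul_mem m1 _)
      have d1 : Int.gcd ((z i : ℤ) - z j) ((p ^ n : ℕ) : ℤ) ∣ p ^ n :=
        Int.natCast_dvd_natCast.1 (Int.gcd_dvd_right _ _)
      obtain ⟨r, hr, e1⟩ := (Nat.dvd_prime_pow h.pr).1 d1
      have hr' : r ≤ m := by
        by_contra hc
        obtain rfl : r = n := by omega
        have d2 : ((p ^ n : ℕ) : ℤ) ∣ (z i : ℤ) - z j := e1 ▸ Int.gcd_dvd_left _ _
        have := (ZMod.intCast_eq_intCast_iff_dvd_sub _ _ _).2 d2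
        simp only [z] at this
        rw [Int.cast_natCast, Int.cast_natCast, ZMod.natCast_zmod_val, ZMod.natCast_zmod_val] at this
        exact hij (Units.ext this.symm)
      have m4 : ((p ^ m : ℕ) : ℤ) ∈ H := by
        obtain ⟨t, ht⟩ := pow_dvd_pow p hr'
        rw [ht, ← e1, Nat.cast_mul, mul_comm]
        exact H.zsmul_mem m3 _
      have m5 : π (nU ((((p ^ m : ℕ) : ℤ) : K) * β)) y = y := m4
      rwa [Int.cast_natCast, ← eβ] at m5
    · intro u
      have hu := h.un_val hn u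
      refine ⟨(∑ i ∈ range (z u), γ ^ i) (π (dG (z u : K)) v), ?_, ?_⟩
      · rw [LinearMap.sum_apply]
        exact X.sum_mem fun i _ =>
          Module.End.pow_apply_mem_of_forall_mem _ hγ _ (hXd _ hu v ⟨hv0, hv⟩)
      · rw [← Module.End.mul_apply, mul_geom_sum, ← map_pow, nU_pow]
        simp only [v1, γ, LinearMap.sub_apply, Module.End.one_apply, map_sub]
        rw [← app, ← app, dG_nU hu.1]
    · intro b
      rw [← hn0 b]
      refine Finset.sum_congr rfl fun u _ => ?_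
      rw [← map_pow, nU_pow, ← app, ← app, dG_nU (h.un_val hn u).1, mul_left_comm]
  have hx := hXn b v1 (hY v1Y)
  have hw : ∑ u, π (dG (z u : K)) (π (nU (b * β)) v1) ∈ X :=
    X.sum_mem fun u _ => hXd _ (h.un_val hn u) _ hx
  refine ⟨_, hw, hb, tor_of h hn hw.2 fun u => ?_⟩
  rw [map_sum]
  refine Fintype.sum_equiv (Equiv.mulLeft u) _ _ fun u' => ?_
  rw [Equiv.coe_mulLeft, ← app, ← dG_mul (h.un_val hn u).1 (h.un_val hn u').1,
    ← dG_cong h hn hx.2 (h.un_val hn (u * u')) (natCast_mem R (z u * z u' / p ^ n))]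
  congr 3
  have := congrArg (Nat.cast : ℕ → K) (Nat.mod_add_div (z u * z u') (p ^ n))
  rw [Nat.cast_add, Nat.cast_mul, Nat.cast_pow, Nat.cast_mul] at this
  rw [← this, Units.val_mul, ZMod.val_mul]

/-- **NEWV** -/
theorem newv (h : Zp R p) (hz : ∀ z ∈ Subgroup.center (GL (Fin 2) K), π z = 1)
    (X0 : Submodule Λ M) (h2 : ∀ x ∈ X0, x + x = 0) (hX : ∀ g, ∀ x ∈ X0, π g x ∈ X0)
    (sm : ∀ x ∈ X0, ∃ n : ℕ, ∀ y ∈ R, π (nU ((p : K) ^ n * y)) x = x ∧
      π (nL ((p : K) ^ n * y)) x = x ∧ π (dG (1 + (p : K) ^ n * y)) x = x)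
    (h0 : ∃ v ∈ X0, v ≠ 0) :
    ∃ w ∈ X0, w ≠ 0 ∧ ∃ m0, ∀ m, m0 ≤ m → ∀ g, K0 R p m g → π g w = w := by
  have p0 := h.ne
  have pw : ∀ (a b : ℕ) (y : K), y ∈ R → ∃ y' ∈ R, (p : K) ^ (a + b) * y = (p : K) ^ a * y' :=
    fun a b y hy => ⟨_, R.mul_mem (R.pow_mem (natCast_mem R p) b) hy, by rw [pow_add, mul_assoc]⟩
  suffices k : ∃ w ∈ X0, w ≠ 0 ∧ (∀ b ∈ R, π (nU b) w = w) ∧ ∀ a, Un R a → π (dG a) w = w by
    obtain ⟨w, hw, w0, e1, e2⟩ := k
    obtain ⟨m, hm⟩ := sm w hw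
    refine ⟨w, hw, w0, m + 1, fun m' hm' => K0_of h hz e1 e2 (by omega) fun c hc => ?_⟩
    obtain ⟨t, rfl⟩ := Nat.exists_eq_add_of_le (Nat.le_of_succ_le hm')
    obtain ⟨y, hy, e⟩ := pw m t c hc
    rw [e]
    exact (hm y hy).2.1
  obtain ⟨v0, hv0, v0ne⟩ := h0
  obtain ⟨n0, hn0⟩ := sm v0 hv0
  have hn : n0 + 1 ≠ 0 := Nat.succ_ne_zero _
  have hT : ∀ y ∈ R, π (dG (1 + (p : K) ^ (n0 + 1) * y)) v0 = v0 := fun y hy => by
    obtain ⟨y', hy', e⟩ := pw n0 1 y hy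
    rw [e]
    exact (hn0 y' hy').2.2
  have mv : ∀ c : K, c ≠ 0 → ∀ b, π (nU b) (π (dG c) v0) = π (dG c) (π (nU (c⁻¹ * b)) v0) := by
    intro c hc b
    rw [← app, ← app, dG_nU hc, mul_inv_cancel_left₀ hc]
  have hv1 : π (dG ((p : K) ^ n0)⁻¹) v0 ∈ XX R p π (n0 + 1) :=
    ⟨fun b hb => by rw [mv _ (inv_ne_zero (pow_ne_zero _ p0)), inv_inv, (hn0 b hb).1], dG_fix hT _⟩
  rcases h.pr.eq_two_or_odd' with rfl | hp
  · obtain ⟨w, hw, w0, e⟩ := tor_two h hn (X0 ⊓ XX R 2 π (n0 + 1)) (fun x hx => h2 x hx.1)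
      inf_le_right (fun a ha x hx => ⟨hX _ _ hx.1, XX_dG hx.2 ha⟩) n0 (fun a ha x hx => by
        obtain ⟨u, y, hy, e⟩ := h.ex_unit hn (ha.pow (2 ^ n0))
        obtain ⟨u', y', hy', e'⟩ := h.ex_unit hn ha
        have k : ∃ t ∈ R, a ^ 2 ^ n0 = 1 + ((2 : ℕ) : K) ^ (n0 + 1) * t := by
          have c1 := Nat.ModEq.pow_totient (ZMod.val_coe_unit_coprime u')
          rw [Nat.totient_prime_pow_succ Nat.prime_two] at c1
          simp only [Nat.add_one_sub_one, mul_one] at c1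
          obtain ⟨s, hs⟩ := c1.symm.dvd
          have c2 := congrArg (Int.cast : ℤ → K) hs
          push_cast at c2
          obtain ⟨r, hr⟩ := sub_dvd_pow_sub_pow (⟨a, ha.2.1⟩ : R)
            (((u' : ZMod (2 ^ (n0 + 1))).val : ℕ) : R) (2 ^ n0)
          have c3 := congrArg R.subtype hr
          simp only [map_sub, map_pow, map_mul, map_natCast, Subring.subtype_apply] at c3
          refine ⟨s + y' * r, R.add_mem (intCast_mem R s) (R.mul_mem hy' r.2), ?_⟩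
          push_cast at e' ⊢
          linear_combination c3 + c2 + (r : K) * e'
        obtain ⟨t, ht, e1⟩ := k
        rw [e1]
        exact hx.2.2 t ht) ⟨_, ⟨hX _ _ hv0, hv1⟩, fun e => v0ne (inj π _ e)⟩
    exact ⟨w, hw.1, w0, hw.2.1, e⟩
  by_cases hA : ∀ b, π (nU b) v0 = v0
  · have hL : ∀ c, π (nL c) v0 = v0 := by
      intro c
      have c0 : (p : K) ^ n0 ≠ 0 := pow_ne_zero _ p0
      have e1 : π (nL ((p : K) ^ n0)) v0 = v0 := by simpa using (hn0 1 R.one_mem).2.1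
      have e2 : π (nU (-((p : K) ^ n0)⁻¹) * nL ((p : K) ^ n0) * nU (-((p : K) ^ n0)⁻¹)) v0 = v0 := by
        rw [app, app, hA, e1, hA]
      conv_lhs => rw [← e2]
      rw [← app, wey_nU c0, app, hA, e2]
    let X1 : Submodule Λ M :=
      { carrier := {x | (∀ b, π (nU b) x = x) ∧ ∀ b, π (nL b) x = x}
        add_mem' := fun {x x'} h h' => ⟨fun b => by rw [map_add, h.1 b, h'.1 b],
          fun b => by rw [map_add, h.2 b, h'.2 b]⟩
        zero_mem' := ⟨fun _ => map_zero _, fun _ => map_zero _⟩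
        smul_mem' := fun c x h => ⟨fun b => by rw [map_smul, h.1 b], fun b => by
          rw [map_smul, h.2 b]⟩ }
    obtain ⟨w, hw, w0, e⟩ := tor_two h hn (X0 ⊓ XX R p π (n0 + 1) ⊓ X1) (fun x hx => h2 x hx.1.1)
      (inf_le_left.trans inf_le_right)
      (fun a ha x hx => ⟨⟨hX _ _ hx.1.1, XX_dG hx.1.2 ha⟩, fun b => by
        have := dG_nU ha.1 (a⁻¹ * b)
        rw [mul_inv_cancel_left₀ ha.1] at this
        rw [← app, ← this, app, hx.2.1], fun b => by
        rw [← app, nL_dG ha.1, app, hx.2.2]⟩) 1 (fun a ha x hx => by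
        rw [pow_one, pow_two, dG_mul ha.1 ha.1, dG_sq ha.1, app, hz _ (scalar_center _),
          Module.End.one_apply]
        simp only [app, hx.2.1, hx.2.2])
      ⟨v0, ⟨⟨hv0, fun b _ => hA b, hT⟩, hA, hL⟩, v0ne⟩
    exact ⟨w, hw.1.1, w0, hw.1.2.1, e⟩
  · have ex : ∃ j : ℕ, ¬ ∀ b ∈ R, π (nU ((p : K) ^ n0 * ((p : K) ^ j)⁻¹ * b)) v0 = v0 := by
      by_contra hc
      push Not at hc
      refine hA fun b => ?_
      obtain ⟨j, hj⟩ := h.den (((p : K) ^ n0)⁻¹ * b)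
      have := hc j _ hj
      rwa [show (p : K) ^ n0 * ((p : K) ^ j)⁻¹ * ((p : K) ^ j * (((p : K) ^ n0)⁻¹ * b)) = b by
        field_simp] at this
    have s1 := Nat.find_spec ex
    have f0 : Nat.find ex ≠ 0 := fun e => by
      rw [e] at s1
      exact s1 fun b hb => by simpa using (hn0 b hb).1
    obtain ⟨j, hj⟩ := Nat.exists_eq_succ_of_ne_zero f0
    have s2 := not_not.1 (Nat.find_min ex (hj ▸ Nat.lt_succ_self j))
    rw [hj] at s1
    have c0 : ((p : K) ^ n0 * ((p : K) ^ j)⁻¹)⁻¹ ≠ 0 := by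
      refine inv_ne_zero (mul_ne_zero (pow_ne_zero _ p0) (inv_ne_zero (pow_ne_zero _ p0)))
    obtain ⟨w, hw, w0, e⟩ := tor_gen h hp hn X0 h2 hX (hX (dG _) _ hv0)
      ⟨fun b hb => by rw [mv _ c0, inv_inv, s2 b hb], dG_fix hT _⟩ (fun e => s1 fun b hb => by
        rw [mv _ c0, inv_inv] at e
        have e1 := sub_eq_zero.1 (inj π _ (by rw [map_sub, e, sub_self] :
          π (dG ((p : K) ^ n0 * ((p : K) ^ j)⁻¹)⁻¹) (_ - v0) = 0))
        obtain ⟨z, y, hy, rfl⟩ := h.apx 1 b hb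
        rw [show (p : K) ^ n0 * ((p : K) ^ j.succ)⁻¹ * (z + (p : K) ^ 1 * y) =
          z * ((p : K) ^ n0 * ((p : K) ^ j)⁻¹ * (p : K)⁻¹) + (p : K) ^ n0 * ((p : K) ^ j)⁻¹ * y by
            rw [pow_succ]; field_simp, nU_add, app, s2 y hy, ← nU_pow, map_pow]
        rw [Module.End.pow_apply]
        exact Function.iterate_fixed e1 z)
    exact ⟨w, hw.1, w0, hw.2.1, e⟩

end main

end Vale.Agent.P022K.CH.Nw
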