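import Vale.Agent.P022K.CH.Lev3
import Mathlib.NumberTheory.Padics.RingHoms
import Mathlib.RingTheory.AdicCompletion.Functoriality
import Mathlib.GroupTheory.Sylow
import Mathlib.LinearAlgebra.FreeModule.PID
import Mathlib.Algebra.Module.ZMod
import Mathlib.RingTheory.Nakayama
import Mathlib.Algebra.Module.MinimalAxioms

/-!
P022K, block CH, row LEVQ: level control for divisible torsion groups (Tate modules).
-/

set_option linter.all false

noncomputable section

namespace Vale.Agent.P022K.CH.Lq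

open Classical Finset TensorProduct

section tate

variable {p : ℕ} [Fact p.Prime] {D : Type} [AddCommGroup D]

theorem zsmul_congr {v : D} {n : ℕ} (hv : p ^ n • v = 0) {z z' : ℤ}
    (h : (p : ℤ_[p]) ^ n ∣ (z : ℤ_[p]) - z') : z • v = z' • v := by
  rw [← Int.cast_sub, PadicInt.pow_p_dvd_int_iff] at h
  obtain ⟨t, ht⟩ := h
  rw [← sub_eq_zero, ← sub_smul, ht, mul_comm, mul_smul]
  have : ((p : ℤ) ^ n) • v = 0 := by
    rw [← hv, ← natCast_zsmul]
    norm_cast
  rw [this, smul_zero]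

theorem ex_int (a : ℤ_[p]) (n : ℕ) : ∃ z : ℤ, (p : ℤ_[p]) ^ n ∣ a - z :=
  ⟨a.appr n, by simpa using Ideal.mem_span_singleton.1 (PadicInt.appr_spec n a)⟩

theorem tor_mono {v : D} {n m : ℕ} (hv : p ^ n • v = 0) (h : n ≤ m) : p ^ m • v = 0 := by
  obtain ⟨k, rfl⟩ := Nat.exists_eq_add_of_le h
  rw [pow_add, mul_comm, mul_smul, hv, smul_zero]

/-- a `p`-power torsion group is a module over `ℤ_p` -/
theorem ex_mod (tor : ∀ v : D, ∃ k, p ^ k • v = 0) : Nonempty (Module ℤ_[p] D) := by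
  choose k hk using tor
  choose z hz using ex_int (p := p)
  have key : ∀ (a : ℤ_[p]) (v : D) (n : ℕ) (y : ℤ), p ^ n • v = 0 → (p : ℤ_[p]) ^ n ∣ a - y →
      z a (k v) • v = y • v := by
    intro a v n y hv hy
    have h1 : p ^ min n (k v) • v = 0 := by
      rcases min_choice n (k v) with e | e <;> rw [e]
      exacts [hv, hk v]
    refine zsmul_congr h1 ?_
    have := dvd_sub ((pow_dvd_pow _ (min_le_left n (k v))).trans hy)
      ((pow_dvd_pow _ (min_le_right n (k v))).trans (hz a (k v)))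
    convert this using 1
    ring
  letI : SMul ℤ_[p] D := ⟨fun a v => z a (k v) • v⟩
  have df : ∀ (a : ℤ_[p]) (v : D), a • v = z a (k v) • v := fun _ _ => rfl
  refine ⟨Module.ofMinimalAxioms (fun a x y => ?_) (fun a b x => ?_) (fun a b x => ?_)
    (fun x => ?_)⟩
  · have h1 := tor_mono (hk x) (Nat.le_add_right (k x) (k y))
    have h2 := tor_mono (hk y) (Nat.le_add_left (k y) (k x))
    rw [df, df, df, key a x _ _ h1 (hz _ _), key a y _ _ h2 (hz _ _),
      key a (x + y) _ _ (by rw [smul_add, h1, h2, add_zero]) (hz _ _), smul_add]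
  · rw [df, df, df, ← add_smul]
    refine key _ _ _ _ (hk x) ?_
    have := dvd_add (hz a (k x)) (hz b (k x))
    convert this using 1
    push_cast
    ring
  · rw [df, df, df, key a (z b (k x) • x) (k x) _ (by rw [smul_comm, hk, smul_zero]) (hz _ _),
      ← mul_smul]
    refine key _ _ _ _ (hk x) ?_
    have := dvd_add ((hz a (k x)).mul_right b) ((hz b (k x)).mul_left (z a (k x)))
    convert this using 1
    push_cast
    ring
  · rw [df, key 1 x _ 1 (hk x) (by simp), one_smul]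

variable [Module ℤ_[p] D]

theorem smul_eq {v : D} {n : ℕ} (hv : p ^ n • v = 0) {a : ℤ_[p]} {z : ℤ}
    (h : (p : ℤ_[p]) ^ n ∣ a - z) : a • v = z • v := by
  obtain ⟨b, hb⟩ := h
  rw [show a = z + b * (p : ℤ_[p]) ^ n by linear_combination hb, add_smul, mul_smul,
    ← Nat.cast_pow, Nat.cast_smul_eq_nsmul, hv, smul_zero, add_zero, Int.cast_smul_eq_zsmul]

/-- additive maps are linear -/
def lin (tor : ∀ v : D, ∃ k, p ^ k • v = 0) (f : D →+ D) : D →ₗ[ℤ_[p]] D where
  toFun := f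
  map_add' := f.map_add
  map_smul' a v := by
    obtain ⟨k, hk⟩ := tor v
    obtain ⟨z, hz⟩ := ex_int a k
    rw [RingHom.id_apply, smul_eq hk hz, smul_eq (by rw [← map_nsmul, hk, map_zero]) hz, map_zsmul]

variable (p D) in
/-- the Tate module -/
def Ta : Submodule ℤ_[p] (ℕ → D) where
  carrier := {x | p • x 0 = 0 ∧ ∀ n, p • x (n + 1) = x n}
  add_mem' {x y} h h' := ⟨by rw [Pi.add_apply, smul_add, h.1, h'.1, add_zero], fun n => by
    rw [Pi.add_apply, Pi.add_apply, smul_add, h.2, h'.2]⟩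
  zero_mem' := ⟨by simp, fun n => by simp⟩
  smul_mem' c x h := ⟨by rw [Pi.smul_apply, smul_comm, h.1, smul_zero], fun n => by
    rw [Pi.smul_apply, Pi.smul_apply, smul_comm, h.2]⟩

theorem Ta.tor (x : Ta p D) (n : ℕ) : p ^ (n + 1) • x.1 n = 0 := by
  induction n with
  | zero => simpa using x.2.1
  | succ n ih => rw [pow_succ, mul_smul, x.2.2, ih]

theorem Ta.ex (div : ∀ v : D, ∃ v', p • v' = v) (n : ℕ) (v : D) (hv : p ^ (n + 1) • v = 0) :
    ∃ x : Ta p D, x.1 n = v := by
  choose s hs using div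
  have k : ∀ m (y : D), p ^ m • s^[m] y = y := by
    intro m
    induction m with
    | zero => simp
    | succ m ih =>
      intro y
      rw [pow_succ, mul_smul, Function.iterate_succ_apply', hs, ih]
  refine ⟨⟨fun m => p ^ n • s^[m] v, ?_, fun m => ?_⟩, k n v⟩
  · show p • p ^ n • v = 0
    rw [← mul_smul, ← pow_succ', hv]
  · show p • p ^ n • s^[m + 1] v = p ^ n • s^[m] v
    rw [smul_comm, Function.iterate_succ_apply', hs]

theorem Ta.shift (x : Ta p D) (h : x.1 0 = 0) : ∃ y : Ta p D, x = (p : ℤ_[p]) • y := by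
  refine ⟨⟨fun n => x.1 (n + 1), (x.2.2 0).trans h, fun n => x.2.2 _⟩, Subtype.ext ?_⟩
  funext n
  show x.1 n = (p : ℤ_[p]) • x.1 (n + 1)
  rw [Nat.cast_smul_eq_nsmul, x.2.2]

theorem Ta.smul_zero (y : Ta p D) : ((p : ℤ_[p]) • y).1 0 = 0 := by
  show (p : ℤ_[p]) • y.1 0 = 0
  rw [Nat.cast_smul_eq_nsmul, y.2.1]

theorem Ta.tf0 (x : Ta p D) (k : ℕ) (h : (p : ℤ_[p]) ^ k • x = 0) : x = 0 := by
  induction k with
  | zero => simpa using h
  | succ k ih =>
    apply ih
    apply Subtype.ext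
    funext n
    have h1 : (p : ℤ_[p]) ^ (k + 1) • x.1 (n + 1) = 0 := congrFun (congrArg Subtype.val h) (n + 1)
    show (p : ℤ_[p]) ^ k • x.1 n = 0
    rw [← x.2.2 n, ← Nat.cast_smul_eq_nsmul ℤ_[p], ← mul_smul, ← pow_succ, h1]

instance : Module.IsTorsionFree ℤ_[p] (Ta p D) := by
  refine Module.IsTorsionFree.of_smul_eq_zero fun a x h => ?_
  by_cases ha : a = 0
  · exact Or.inl ha
  · refine Or.inr (Ta.tf0 x a.valuation ?_)
    rw [PadicInt.unitCoeff_spec ha, mul_smul] at h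
    exact (IsUnit.smul_eq_zero (Units.isUnit _)).1 h

theorem prec_pi {P : Type*} [CommRing P] (I : Ideal P) [IsPrecomplete I P] (ι : Type*) [Finite ι] :
    IsPrecomplete I (ι → P) := by
  have := Fintype.ofFinite ι
  refine ⟨fun f hf => ?_⟩
  have h1 : ∀ i, ∃ l : P, ∀ n, f n i ≡ l [SMOD (I ^ n • ⊤ : Submodule P P)] := fun i =>
    IsPrecomplete.prec inferInstance (f := fun n => f n i) fun {m n} hmn => by
      have h2 := SModEq.sub_mem.1 (hf hmn)
      rw [SModEq.sub_mem]
      have h3 := Submodule.mem_map_of_mem (f := LinearMap.proj (R := P) (φ := fun _ : ι => P) i) h2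
      rw [Submodule.map_smul''] at h3
      exact Submodule.smul_mono le_rfl le_top h3
  choose l hl using h1
  refine ⟨l, fun n => SModEq.sub_mem.2 ?_⟩
  rw [← Finset.univ_sum_single (f n - l)]
  refine Submodule.sum_mem _ fun i _ => ?_
  have h3 := Submodule.mem_map_of_mem (f := LinearMap.single P (fun _ : ι => P) i)
    (SModEq.sub_mem.1 (hl i n))
  rw [Submodule.map_smul''] at h3
  exact Submodule.smul_mono le_rfl le_top h3

theorem Ta.finite (div : ∀ v : D, ∃ v', p • v' = v) (fin : {v : D | p • v = 0}.Finite) :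
    Module.Finite ℤ_[p] (Ta p D) := by
  haveI := fin.fintype
  choose b hb using fun v : {v : D | p • v = 0} => Ta.ex div 0 v.1 (by rw [zero_add, pow_one]; exact v.2)
  let I := IsLocalRing.maximalIdeal ℤ_[p]
  haveI := prec_pi I {v : D | p • v = 0}
  haveI : IsHausdorff I (Ta p D) := ⟨fun x hx => by
    apply Subtype.ext
    funext n
    have h1 := SModEq.zero.1 (hx (n + 1))
    refine Submodule.smul_induction_on (p := fun y : Ta p D => y.1 n = 0) h1 ?_ ?_
    · intro a ha y _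
      rw [show I = _ from PadicInt.maximalIdeal_eq_span_p, Ideal.span_singleton_pow,
        Ideal.mem_span_singleton'] at ha
      obtain ⟨t, rfl⟩ := ha
      show (t * (p : ℤ_[p]) ^ (n + 1)) • y.1 n = 0
      rw [mul_smul, ← Nat.cast_pow, Nat.cast_smul_eq_nsmul, Ta.tor, _root_.smul_zero]
    · intro y y' h h'
      show y.1 n + y'.1 n = 0
      rw [h, h', add_zero]⟩
  refine Module.Finite.of_surjective (Fintype.linearCombination ℤ_[p] b)
    (surjective_of_mkQ_comp_surjective (I := I) fun q => ?_)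
  obtain ⟨x, rfl⟩ := Submodule.Quotient.mk_surjective _ q
  refine ⟨Pi.single ⟨x.1 0, x.2.1⟩ 1, ?_⟩
  rw [LinearMap.comp_apply, Fintype.linearCombination_apply_single, one_smul, Submodule.mkQ_apply,
    Submodule.Quotient.eq]
  obtain ⟨y, hy⟩ := Ta.shift (b ⟨x.1 0, x.2.1⟩ - x) (by
    show (b ⟨x.1 0, x.2.1⟩).1 0 - x.1 0 = 0
    rw [hb, sub_self])
  rw [hy]
  exact Submodule.smul_mem_smul (by
    rw [show I = _ from PadicInt.maximalIdeal_eq_span_p]
    exact Ideal.mem_span_singleton_self _) Submodule.mem_top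

variable {Δ : Type} [Group Δ]

/-- the action on the Tate module -/
def Ta.rep (tor : ∀ v : D, ∃ k, p ^ k • v = 0) (ρ : Δ →* AddMonoid.End D) :
    Representation ℤ_[p] Δ (Ta p D) where
  toFun g :=
    { toFun := fun x => ⟨fun n => ρ g (x.1 n), by rw [← map_nsmul, x.2.1, map_zero], fun n => by
        rw [← map_nsmul, x.2.2]⟩
      map_add' := fun x y => Subtype.ext (funext fun n => map_add _ _ _)
      map_smul' := fun a x => Subtype.ext (funext fun n => (lin tor (ρ g)).map_smul a _) }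
  map_one' := by
    ext x n
    simp
  map_mul' g h := by
    ext x n
    simp

theorem Ta.rep_apply (tor : ∀ v : D, ∃ k, p ^ k • v = 0) (ρ : Δ →* AddMonoid.End D) (g : Δ)
    (x : Ta p D) (n : ℕ) : (Ta.rep tor ρ g x).1 n = ρ g (x.1 n) := rfl

omit [Module ℤ_[p] D] in
/-- a `p`-group has a fixed vector -/
theorem fix_p [Finite Δ] (hΔ : IsPGroup p Δ) (ρ : Δ →* AddMonoid.End D) (X : AddSubgroup D)
    [Finite X] (hp : ∀ v ∈ X, p • v = 0) (hX : ∀ g, ∀ v ∈ X, ρ g v ∈ X) (h0 : X ≠ ⊥) :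
    ∃ v ∈ X, v ≠ 0 ∧ ∀ g, ρ g v = v := by
  letI : MulAction Δ X :=
    { smul := fun g v => ⟨ρ g v, hX g v v.2⟩
      one_smul := fun v => Subtype.ext (by
        show ρ 1 v = v
        rw [map_one]
        rfl)
      mul_smul := fun g h v => Subtype.ext (by
        show ρ (g * h) v = ρ g (ρ h v)
        rw [map_mul]
        rfl) }
  haveI := (AddSubgroup.nontrivial_iff_ne_bot X).2 h0
  obtain ⟨x, hx⟩ := exists_ne (0 : X)
  have hd : p ∣ Nat.card X := by
    have h1 : addOrderOf x = p := addOrderOf_eq_prime (Subtype.ext (hp x x.2)) hx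
    exact h1 ▸ addOrderOf_dvd_natCard x
  obtain ⟨b, hb, hne⟩ := hΔ.exists_fixed_point_of_prime_dvd_card_of_fixed_point X hd
    (a := (0 : X)) (fun g => Subtype.ext (map_zero (ρ g)))
  exact ⟨b, b.2, fun e => hne (Subtype.ext e).symm, fun g => congrArg Subtype.val (hb g)⟩

theorem hig_fin [Fintype Δ] (hΔ : IsPGroup p Δ) {X : Type} [AddCommGroup X] [Finite X]
    [Module (ZMod p) X] (hp : ∀ v : X, p • v = 0) (r : Δ →* AddMonoid.End X)
    (tro : ∀ v, (∀ s, r s v = v) → ∃ v', ∑ s, r s v' = v) :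
    ∃ e0 : X →+ X, Function.Surjective fun v => ∑ g, r g (e0 (r g⁻¹ v)) := by
  let Y : Submodule (ZMod p) X :=
    ⨅ g, LinearMap.eqLocus ((r g : X →+ X).toZModLinearMap p) LinearMap.id
  have mY : ∀ v : X, v ∈ Y ↔ ∀ g, r g v = v := fun v => by
    simp only [Y, Submodule.mem_iInf, LinearMap.mem_eqLocus, LinearMap.id_apply]
    rfl
  have hs : ∀ v : X, (∑ g, (r g : X →+ X).toZModLinearMap p) v = ∑ g, r g v := fun v => by
    rw [LinearMap.sum_apply]
    rfl
  let N : X →ₗ[ZMod p] Y := (∑ g, (r g : X →+ X).toZModLinearMap p).codRestrict Y fun v =>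
    (mY _).2 fun g => by
      rw [hs, map_sum]
      refine Fintype.sum_equiv (Equiv.mulLeft g) _ _ fun h => ?_
      rw [Equiv.coe_mulLeft, map_mul]
      rfl
  obtain ⟨s, hs'⟩ := N.exists_rightInverse_of_surjective (LinearMap.range_eq_top.2 fun y => by
    obtain ⟨v', h2⟩ := tro y.1 ((mY _).1 y.2)
    exact ⟨v', Subtype.ext ((hs _).trans h2)⟩)
  obtain ⟨l, hl⟩ := Y.subtype.exists_leftInverse_of_injective (Submodule.ker_subtype Y)
  let e0 : X →+ X := (s ∘ₗ l).toAddMonoidHom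
  have he0 : ∀ v : X, (∀ g, r g v = v) → ∑ g, r g (e0 v) = v := fun v hv => by
    have h1 : l v = ⟨v, (mY v).2 hv⟩ := LinearMap.congr_fun hl ⟨v, (mY v).2 hv⟩
    have h2 := congrArg Subtype.val (LinearMap.congr_fun hs' ⟨v, (mY v).2 hv⟩)
    rw [← hs, show e0 v = s (l v) from rfl, h1]
    exact h2
  let ub : X →+ X := ∑ g, (r g : X →+ X).comp (e0.comp (r g⁻¹ : X →+ X))
  have hub : ∀ v, ub v = ∑ g, r g (e0 (r g⁻¹ v)) := fun v => by
    rw [AddMonoidHom.finset_sum_apply]
    rfl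
  have ap : ∀ g h v, r (g * h) v = r g (r h v) := fun g h v => by
    rw [map_mul]
    rfl
  refine ⟨e0, ?_⟩
  rw [← show (ub : X → X) = _ from funext hub]
  refine Finite.surjective_of_injective ((AddMonoidHom.ker_eq_bot_iff ub).1 ?_)
  by_contra hn
  obtain ⟨v, hv, v0, hf⟩ := fix_p hΔ r ub.ker (fun v _ => hp v) (fun g v hv => by
    have hv' := congrArg (r g) ((hub v).symm.trans hv)
    rw [map_zero, map_sum] at hv'
    rw [AddMonoidHom.mem_ker, hub, ← hv']
    refine (Fintype.sum_equiv (Equiv.mulLeft g) _ _ fun h => ?_).symm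
    rw [Equiv.coe_mulLeft, ap, ← ap (g * h)⁻¹, mul_inv_rev, inv_mul_cancel_right]) hn
  have h1 := (hub v).symm.trans hv
  rw [Finset.sum_congr rfl (fun g _ => by rw [hf g⁻¹]), he0 v hf] at h1
  exact v0 h1

/-- Higman's condition for the Tate module, for a `p`-group -/
theorem Ta.hig [Fintype Δ] (hΔ : IsPGroup p Δ) (tor : ∀ v : D, ∃ k, p ^ k • v = 0)
    (div : ∀ v : D, ∃ v', p • v' = v) (fin : {v : D | p • v = 0}.Finite)
    (ρ : Δ →* AddMonoid.End D)
    (tro : ∀ v, p • v = 0 → (∀ s, ρ s v = v) → ∃ v', p • v' = 0 ∧ ∑ s, ρ s v' = v) :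
    Hig (Ta.rep tor ρ) := by
  haveI := Ta.finite div fin
  let X : AddSubgroup D := (nsmulAddMonoidHom p).ker
  have mX : ∀ v, v ∈ X ↔ p • v = 0 := fun v => Iff.rfl
  haveI : Finite X := fin
  have hX : ∀ g, ∀ v ∈ X, ρ g v ∈ X := fun g v hv => by
    rw [mX, ← map_nsmul, (mX v).1 hv, map_zero]
  let r : Δ →* AddMonoid.End X :=
    { toFun := fun g => ((ρ g : D →+ D).comp X.subtype).codRestrict X fun v => hX g v v.2
      map_one' := AddMonoidHom.ext fun v => Subtype.ext (by
        show ρ 1 v = v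
        rw [map_one]
        rfl)
      map_mul' := fun g h => AddMonoidHom.ext fun v => Subtype.ext (by
        show ρ (g * h) v = ρ g (ρ h v)
        rw [map_mul]
        rfl) }
  obtain ⟨e0, he0⟩ := @hig_fin p _ Δ _ _ hΔ X _ _
    (AddCommGroup.zmodModule fun v : X => Subtype.ext v.2) (fun v : X => Subtype.ext v.2) r
    fun v hv => by
    obtain ⟨v', h1, h2⟩ := tro v.1 v.2 fun s => congrArg Subtype.val (hv s)
    refine ⟨⟨v', h1⟩, Subtype.ext ?_⟩
    rw [AddSubgroup.val_finset_sum]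
    exact h2
  let b := Module.Free.chooseBasis ℤ_[p] (Ta p D)
  let q : Ta p D →+ X :=
    { toFun := fun x => ⟨x.1 0, x.2.1⟩
      map_zero' := rfl
      map_add' := fun _ _ => rfl }
  choose y hy using fun i => Ta.ex div 0 (e0 (q (b i)) : D) (by rw [zero_add, pow_one]; exact (e0 (q (b i))).2)
  let η : Module.End ℤ_[p] (Ta p D) := b.constr ℤ_[p] y
  have hη : ∀ x, (η x).1 0 = e0 (q x) := by
    intro x
    have hx : x ∈ Submodule.span ℤ_[p] (Set.range b) := b.span_eq ▸ Submodule.mem_top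
    induction hx using Submodule.span_induction with
    | mem x hx =>
      obtain ⟨i, rfl⟩ := hx
      rw [Module.Basis.constr_basis, hy]
    | zero => simp
    | add x x' _ _ h h' =>
      rw [map_add, map_add, map_add]
      exact congrArg₂ (· + ·) h h'
    | smul a x _ h =>
      obtain ⟨z, hz⟩ := ex_int a 1
      have e1 : q (a • x) = z • q x := Subtype.ext (smul_eq (by simpa using x.2.1) hz)
      rw [map_smul, e1, map_zsmul]
      show a • (η x).1 0 = z • (e0 (q x) : D)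
      rw [smul_eq (by simpa using (η x).2.1) hz, h]
  let R := Ta.rep tor ρ
  let u : Module.End ℤ_[p] (Ta p D) := ∑ g, R g * η * R g⁻¹
  have hu : ∀ g, R g * u = u * R g := fun g => by
    rw [Finset.mul_sum, Finset.sum_mul]
    refine Fintype.sum_equiv (Equiv.mulLeft g) _ _ fun h => ?_
    rw [Equiv.coe_mulLeft, map_mul, mul_inv_rev, map_mul]
    simp only [mul_assoc]
    rw [← map_mul R g⁻¹, inv_mul_cancel, map_one, mul_one]
  have hq : ∀ x, q (u x) = ∑ g, r g (e0 (r g⁻¹ (q x))) := fun x => Subtype.ext (by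
    rw [AddSubgroup.val_finset_sum]
    show (u x).1 0 = _
    rw [LinearMap.sum_apply, Submodule.coe_sum, Finset.sum_apply]
    refine Finset.sum_congr rfl fun g _ => ?_
    show ρ g ((η (R g⁻¹ x)).1 0) = _
    rw [hη]
    rfl)
  have hqs : Function.Surjective q := fun v => by
    obtain ⟨x, hx⟩ := Ta.ex div 0 v.1 (by rw [zero_add, pow_one]; exact v.2)
    exact ⟨x, Subtype.ext hx⟩
  have hsur : Function.Surjective u := by
    rw [← LinearMap.range_eq_top, eq_top_iff]
    refine Submodule.le_of_le_smul_of_le_jacobson_bot Module.Finite.fg_top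
      (IsLocalRing.maximalIdeal_le_jacobson _) fun x _ => ?_
    obtain ⟨v, hv⟩ := he0 (q x)
    obtain ⟨x', rfl⟩ := hqs v
    beta_reduce at hv
    obtain ⟨y, hy⟩ := Ta.shift (x - u x') (by
      have : q (x - u x') = 0 := by rw [map_sub, hq, hv, sub_self]
      exact congrArg Subtype.val this)
    rw [show x = u x' + (p : ℤ_[p]) • y by rw [← hy, add_sub_cancel]]
    refine Submodule.add_mem_sup ⟨x', rfl⟩ (Submodule.smul_mem_smul ?_ Submodule.mem_top)
    rw [PadicInt.maximalIdeal_eq_span_p]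
    exact Ideal.mem_span_singleton_self _
  obtain ⟨w, hw⟩ := (Module.End.isUnit_iff u).2
    ⟨OrzechProperty.injective_of_surjective_endomorphism u hsur, hsur⟩
  refine ⟨↑w⁻¹ * η, ?_⟩
  have hc : ∀ g, R g * ↑w⁻¹ = ↑w⁻¹ * R g := fun g =>
    (Commute.units_inv_right (show Commute (R g) (w : Module.End ℤ_[p] (Ta p D)) from
      hw ▸ hu g)).eq
  have : ∀ g, R g * (↑w⁻¹ * η) * R g⁻¹ = ↑w⁻¹ * (R g * η * R g⁻¹) := fun g => by
    rw [← mul_assoc, hc]
    simp only [mul_assoc]
  rw [Finset.sum_congr rfl (fun g _ => this g), ← Finset.mul_sum]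
  show ↑w⁻¹ * u = 1
  rw [← hw, Units.inv_mul]

end tate

/-- **level control for a divisible group** -/
theorem levD {D : Type} [AddCommGroup D] {Δ : Type} [Group Δ] [Fintype Δ]
    (ρ : Δ →* AddMonoid.End D) (tor : ∀ v : D, ∃ k, 2 ^ k • v = 0)
    (div : ∀ v : D, ∃ v', 2 • v' = v) (fin : {v : D | 2 • v = 0}.Finite)
    (tro : ∀ S : Subgroup Δ, IsPGroup 2 S → ∀ v, 2 • v = 0 → (∀ s ∈ S, ρ s v = v) →
      ∃ v', 2 • v' = 0 ∧ ∑ s : S, ρ s v' = v)
    {Γ : Type} [Group Γ] [Fintype Γ] (f : Γ →* Δ) (H : Subgroup Γ) (hk : f.ker ≤ H)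
    {A K : Type} [CommRing A] [Algebra ℤ_[2] A] [Field K] [CharZero K] [Algebra ℤ_[2] K]
    (φ : A →ₐ[ℤ_[2]] K) (hφ : Function.Injective φ) (c : Γ → A) (χ : Γ → K) (t : K)
    (hχ : ∀ g, φ (c g) = t * χ g) (hc : IsCh χ)
    (hL : LvT H χ) (hz : ∀ g, ∀ z ∈ f.ker, χ (g * z) = χ g)
    (hH : ∀ v, 2 • v = 0 → (∀ h ∈ H, ρ (f h) v = v) → v = 0)
    {P : Type*} [AddCommGroup P] (β : A →+ D →+ P) (x : D) :
    ∑ g, β (c g) (ρ (f g) x) = 0 := by
  obtain ⟨_⟩ := ex_mod tor
  haveI := Ta.finite div fin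
  let R := Ta.rep tor ρ
  obtain ⟨S⟩ : Nonempty (Sylow 2 Δ) := inferInstance
  have h2 : ¬ IsUnit (2 : ℤ_[2]) := by
    have := PadicInt.irreducible_p (p := 2)
    exact_mod_cast this.not_isUnit
  have hR : Hig R := by
    refine Hig.of_sub (S : Subgroup Δ) ?_ ?_
    · rw [PadicInt.isUnit_iff, ← Int.cast_natCast]
      refine le_antisymm (PadicInt.norm_le_one _) (not_lt.1 fun e => S.not_dvd_index ?_)
      exact_mod_cast (PadicInt.norm_int_lt_one_iff_dvd _).1 e
    · exact Ta.hig S.isPGroup' tor div fin (ρ.comp (S : Subgroup Δ).subtype) fun v hv hf =>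
        tro S S.isPGroup' v hv fun s hs => hf ⟨s, hs⟩
  have hH' : ∀ k (v : D), 2 ^ k • v = 0 → (∀ h ∈ H, ρ (f h) v = v) → v = 0 := by
    intro k
    induction k with
    | zero => exact fun v hv _ => by simpa using hv
    | succ k ih =>
      intro v hv hf
      refine hH v (ih _ (by rw [← mul_smul, ← pow_succ, hv]) fun h hh => ?_) hf
      rw [map_nsmul, hf h hh]
  have hN : ∑ h : H, R (f h) = 0 := by
    ext y n
    refine hH' (n + 1) _ (Ta.tor _ n) fun h hh => ?_
    rw [← Ta.rep_apply tor, ← Module.End.mul_apply, Finset.mul_sum]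
    have : ∑ a : H, R (f h) * R (f a) = ∑ a : H, R (f a) := by
      refine Fintype.sum_equiv (Equiv.mulLeft (⟨h, hh⟩ : H)) _ _ fun a => ?_
      rw [← map_mul, ← map_mul]
      rfl
    rw [this]
  have h0 : ∑ g, φ (c g) • ((bc K R).comp f) g = 0 := by
    suffices h0 : ∑ g, χ g • ((bc K R).comp f) g = 0 by
      simp only [hχ, mul_smul, ← Finset.smul_sum, h0, smul_zero]
    by_contra h0
    obtain ⟨v, v0, hv⟩ := lev_c ((bc K R).comp f) f (fun g hg => hR.van_bc h2 K (f g) hg) H hk hc hL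
      hz h0
    have h1 := congrArg (LinearMap.baseChangeHom ℤ_[2] K _ _) hN
    rw [map_sum, map_zero] at h1
    have h3 := LinearMap.congr_fun (show ∑ h : H, ((bc K R).comp f) h = 0 from h1) v
    rw [LinearMap.sum_apply, Finset.sum_congr rfl (fun (h : H) _ => hv h h.2), Finset.sum_const,
      LinearMap.zero_apply, ← Nat.cast_smul_eq_nsmul K] at h3
    exact v0 ((smul_eq_zero.1 h3).resolve_left (Nat.cast_ne_zero.2 Fintype.card_ne_zero))
  obtain ⟨n, hn⟩ := tor x
  obtain ⟨y, rfl⟩ := Ta.ex div n x (tor_mono hn n.le_succ)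
  have h1 : ∑ g, c g ⊗ₜ[ℤ_[2]] R (f g) y = 0 := by
    apply Module.Flat.rTensor_preserves_injective_linearMap (M := Ta 2 D) φ.toLinearMap hφ
    have := LinearMap.congr_fun h0 (1 ⊗ₜ y)
    rw [LinearMap.zero_apply, LinearMap.sum_apply] at this
    rw [map_zero, map_sum, ← this]
    refine Finset.sum_congr rfl fun g _ => ?_
    rw [LinearMap.rTensor_tmul, LinearMap.smul_apply, MonoidHom.comp_apply, bc_apply,
      LinearMap.baseChange_tmul, TensorProduct.smul_tmul', smul_eq_mul, mul_one]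
    rfl
  let ev : Ta 2 D →+ D :=
    { toFun := fun x => x.1 n
      map_zero' := rfl
      map_add' := fun _ _ => rfl }
  let B : A ⊗[ℤ_[2]] Ta 2 D →+ P := TensorProduct.liftAddHom (β.compl₂ ev) fun r a t => by
    obtain ⟨z, b, hb⟩ := ex_int r (n + 1)
    show β (r • a) (t.1 n) = β a (r • t.1 n)
    rw [smul_eq (Ta.tor t n) ⟨b, hb⟩, show r = z + ((2 ^ (n + 1) : ℕ) : ℤ_[2]) * b by
      push_cast at hb ⊢
      linear_combination hb, add_smul, mul_smul, Int.cast_smul_eq_zsmul, Nat.cast_smul_eq_nsmul,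
      map_add, map_zsmul, map_nsmul, AddMonoidHom.add_apply, AddMonoidHom.nsmul_apply, ← map_nsmul,
      Ta.tor, map_zero, add_zero, map_zsmul]
    rfl
  have h3 := congrArg B h1
  rw [map_sum, map_zero] at h3
  exact h3

end Vale.Agent.P022K.CH.Lq
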