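import Vale.Agent.P022K.CH.MazSpec
import Vale.Agent.P022K.QT.Hom1

/-!
# P022K, block CH, row LEVB: eigenvectors of level `Γ₀(N)` give the input of Mazur's principle
-/

set_option autoImplicit false

open scoped MatrixGroups TensorProduct

namespace Vale.Agent.P022K.CH

open Vale.Agent.P022 Vale.Agent.P019P Vale.Agent.P022K.Sh Vale.Agent.P022K.QT
open Vale.Agent.P022.H218.L3 (Mer)

theorem homAt_mod {p N : ℕ} [Fact p.Prime] {H : Type} [Group H]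
    {th : H → (G → Mer) → G → Mer} {M : Type} [AddCommGroup M] {a : Representation ℤ G M}
    {g : Representation ℤ H M} {im : ∀ k U, TQ.Hn (p ^ k) U →+ M} (hN : 0 < N) (h4 : 4 ∣ N)
    (lk : AQ.Lk p a g th im) (tor : ∀ v : M, ∃ k, p ^ k • v = 0) {O : Type} [CommRing O]
    (hp : (p : O) ∈ nonZeroDivisors O) [Finite (O ⧸ Ideal.span {(p : O)})] {k : Type} [Field k]
    (lam : O →+* k) (h0 : lam p = 0) {w : O ⊗[ℤ] M} (hw : w ∈ Fv (bc O a) (U0 N)) (w0 : w ≠ 0)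
    (hm : ∀ o, lam o = 0 → o • w = 0) (ρ : GQ →* GL (Fin 2) k) (S : Finset ℕ)
    (h : ∀ l : Pr, l.1 ∉ S → ∃ b, (lc l).Tv (bc O a) w = b • w ∧
      ∀ φ, IsFrob l.1 φ → lam b = Maz.tr ρ φ) : Maz.HomAt N ρ := by
  obtain ⟨c, h1, h2, h3⟩ := hom_mod hN h4 lk tor hp lam h0 hw w0 hm
  refine ⟨S ∪ N.primeFactors, c, h1, h2, fun l hl hS φ hφ => ?_⟩
  rw [Finset.mem_union, not_or, Nat.mem_primeFactors_of_ne_zero hN.ne'] at hS
  obtain ⟨b, e, e'⟩ := h ⟨l, hl⟩ hS.1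
  exact e' φ hφ ▸ h3 ⟨l, hl⟩ b (fun d => hS.2 ⟨hl, d⟩) e

end Vale.Agent.P022K.CH
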