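import Vale.Agent.P027M.I.All1

/-!
# P022K, block CH, row MAZ: unramified covers of nodal curves are unramified off the nodes
-/

set_option autoImplicit false
set_option linter.all false

noncomputable section

open IntermediateField Vale.Agent.P019P P025H746 P025H492 Module

namespace Vale.Agent.P022K.CH.Maz

open Vale.Agent.P027M.I Vale.Agent.P027M.I.Cov

variable {C : Type} [NontriviallyNormedField C] [IsUltrametricDist C] [IsAlgClosed C]
variable {F : Type} [Field F] [Algebra C F] {T : F}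
variable {L : Type} [Field L] [Algebra C L] [Algebra F L] [IsScalarTower C F L]
  [FiniteDimensional C⟮T⟯ F] [FiniteDimensional C⟮algebraMap F L T⟯ L]

theorem pair2 (w : WW C T) (v : WW C (algebraMap F L T)) [hx : NVExt w.1 v.1]
    [FiniteDimensional (kap w.1) (kap v.1)] [IsGalois (kap w.1) (kap v.1)]
    (cyc : IsCyclic (kap v.1 ≃ₐ[kap w.1] kap v.1))
    (hn : ((finrank (kap w.1) (kap v.1) : ℕ) : kC C) ≠ 0) (S : Finset (Br C T))
    (S' : Finset (Br C (algebraMap F L T)))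
    (hS' : ∀ b', b' ∈ S' ↔ ∃ b ∈ S, Tw (algebraMap F L) b b') (x₀ : Plk (kC C) (kap w.1))
    (h0 : x₀ ∉ fib S w) :
    (finrank (kap w.1) (kap v.1) : ℤ) * (2 * gen (kC C) (kap w.1) - 2 + (fib S w).ncard) -
      (fib S' v).ncard + ((finrank (kap w.1) (kap v.1) : ℤ) -
        Set.ncard {y : Plk (kC C) (kap v.1) | down (kap w.1) y = x₀}) ≤
      2 * gen (kC C) (kap v.1) - 2 := by
  classical
  have h := rhc (kC C) (kap w.1) (kap v.1) (insert x₀ (fib_card S w).1.toFinset) cyc hn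
  have h2 : ∑ x ∈ (fib_card S w).1.toFinset,
      Set.ncard {y : Plk (kC C) (kap v.1) | down (kap w.1) y = x} ≤ (fib S' v).ncard := by
    refine sum_fib_le _ (fib_card S' v).1 _ _ fun x hx' y hy => ?_
    obtain ⟨hf, hb⟩ := (Set.Finite.mem_toFinset _).1 hx'
    subst hy
    have hT : v.1.red (algebraMap F L T) ∈ y.1 := by
      rw [red_algebraMap' (w := w.1) (Itg.self (C := C) (T := T) w)]
      exact hf
    refine ⟨hT, (hS' _).2 ⟨_, hb, hx.out, fun z hz => ?_⟩⟩
    change v.1.red (algebraMap F L z) ∈ y.1 ↔ _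
    rw [red_algebraMap' (w := w.1) hz]
    rfl
  rw [Finset.sum_insert (fun e => h0 ((Set.Finite.mem_toFinset _).1 e)), Finset.sum_sub_distrib,
    Finset.sum_const, ← Set.ncard_eq_toFinset_card _ (fib_card S w).1, ← Nat.cast_sum] at h
  have h3 : ((∑ x ∈ (fib_card S w).1.toFinset,
      Set.ncard {y : Plk (kC C) (kap v.1) | down (kap w.1) y = x} : ℕ) : ℤ) ≤
        (fib S' v).ncard := by exact_mod_cast h2
  simp only [nsmul_eq_mul] at h
  linarith

variable [CharZero C] [CFF C F] [CFF C L] [FiniteDimensional F L] [IsGalois F L]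

/-- the orders off the nodes do not change -/
theorem off (hF : Full C T) {S : Finset (Br C T)} (hS : Nodal C T S) (hU : IsUnr C F L)
    (hn : ((finrank F L : ℕ) : kC C) ≠ 0) (hc : IsCyclic (L ≃ₐ[F] L)) (w₀ : WW C T)
    (x₀ : Plk (kC C) (kap w₀.1)) (h0 : x₀ ∉ fib S w₀) {m : ℕ} {f : F} {η : L}
    (hf : w₀.1 f = 1) (hη : η ^ m = algebraMap F L f) (hm : m ≠ 0) :
    (m : ℤ) ∣ ord x₀ (w₀.1.red f) := by
  classical
  have hcyc := fun u : WW C (algebraMap F L T) => I1b.cyc hc u.1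
  obtain ⟨hL, hw⟩ := dec C F L T hn hF
  obtain ⟨-, -, S', hN, hS'⟩ := cov' C F L T hF S hS hU hn hcyc
  have hn0 : finrank F L ≠ 0 := finrank_pos.ne'
  have hfin : Finite (Σ w : WW C T, {v : NV C L // NVExt w.1 v}) :=
    Finite.of_equiv _ (sg T L).symm
  have hfin' : ∀ w : WW C T, Finite {v : NV C L // NVExt w.1 v} := fun w =>
    Finite.of_injective _ (sigma_mk_injective (β := fun w : WW C T =>
      {v : NV C L // NVExt w.1 v}) (i := w))
  let _i : ∀ w : WW C T, Fintype {v : NV C L // NVExt w.1 v} := fun w => Fintype.ofFinite _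
  have fd : ∀ (w : WW C T) (v : {v : NV C L // NVExt w.1 v}),
      FiniteDimensional (kap w.1) (kap v.1) := fun w v =>
    FiniteDimensional.of_finrank_pos (Nat.pos_of_ne_zero fun h => hn0 (by
      have hd := ((hw w).2 v.1).2.1
      rw [h] at hd; exact Nat.eq_zero_of_zero_dvd hd))
  have hn' : ∀ (w : WW C T) (v : {v : NV C L // NVExt w.1 v}),
      ((finrank (kap w.1) (kap v.1) : ℕ) : kC C) ≠ 0 := fun w v h => by
    obtain ⟨c, hc'⟩ := ((hw w).2 v.1).2.1
    apply hn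
    rw [hc', Nat.cast_mul, h, zero_mul]
  let D : (Σ w : WW C T, {v : NV C L // NVExt w.1 v}) → ℤ := fun p =>
    ((2 * gen (kC C) (kap (sg T L p).1) - 2 : ℤ) + (fib S' (sg T L p)).ncard) -
      (finrank (kap p.1.1) (kap p.2.1) : ℤ) * (2 * gen (kC C) (kap p.1.1) - 2 + (fib S p.1).ncard)
  have D0 : ∀ p, 0 ≤ D p := fun ⟨w, v⟩ => by
    obtain ⟨hG, -, -, hc⟩ := (hw w).2 v.1
    have := @pair C _ _ _ F _ _ T L _ _ _ _ _ _ rhc w (sg T L ⟨w, v⟩) v.2 (fd w v) hG
      (hc (hcyc (sg T L ⟨w, v⟩))) (hn' w v) S S' hS'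
    exact sub_nonneg.2 (sub_le_iff_le_add.1 this)
  have D1 : ∑ p, D p = 0 := by
    have key : ∀ w : WW C T, ∑ v : {v : NV C L // NVExt w.1 v}, (finrank (kap w.1) (kap v.1) : ℤ) *
        (2 * gen (kC C) (kap w.1) - 2 + (fib S w).ncard) =
        (finrank F L : ℤ) * (2 * gen (kC C) (kap w.1) - 2 + (fib S w).ncard) := by
      intro w
      have hs := (hw w).1
      rw [finsum_eq_sum_of_fintype] at hs
      rw [← hs, Nat.cast_sum, Finset.sum_mul]
    rw [Finset.sum_sub_distrib,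
      Equiv.sum_comp (sg T L) (fun v => ((2 * gen (kC C) (kap v.1) - 2 : ℤ) + (fib S' v).ncard)),
      Fintype.sum_sigma, Finset.sum_congr rfl fun w _ => key w,
      ← Finset.mul_sum, Finset.sum_add_distrib, Finset.sum_add_distrib, ← Nat.cast_sum,
      ← Nat.cast_sum, ← card_fib, ← card_fib, hS.1, hN.1]
    have h2 := hU.genus
    have h3 : ∀ {ι : Type} [Fintype ι] (a : ι → ℤ), ∑ i, (2 * a i - 2) = 2 * ∑ i, (a i - 1) := by
      intro ι _ a
      rw [Finset.mul_sum]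
      exact Finset.sum_congr rfl fun i _ => by ring
    rw [h3, h3]
    unfold cd
    linarith
  obtain ⟨u, hu⟩ := Lift.exists_up (L := L) w₀
  let v : {v : NV C L // NVExt w₀.1 v} := ⟨u.1, ⟨hu⟩⟩
  haveI := v.2
  haveI := fd w₀ v
  haveI : CFF (kC C) (kap v.1) := u.2.cff
  obtain ⟨hG, -, -, hc⟩ := (hw w₀).2 v.1
  have h1 := @pair2 C _ _ _ F _ _ T L _ _ _ _ _ _ w₀ (sg T L ⟨w₀, v⟩) v.2 (fd w₀ v) hG
    (hc (hcyc (sg T L ⟨w₀, v⟩))) (hn' w₀ v) S S' hS' x₀ h0
  have h2 := Finset.single_le_sum (fun p _ => D0 p) (Finset.mem_univ ⟨w₀, v⟩)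
  rw [D1] at h2
  have h3 : (finrank (kap w₀.1) (kap v.1) : ℤ) ≤
      Set.ncard {y : Plk (kC C) (kap v.1) | down (kap w₀.1) y = x₀} := by
    have h4 : (finrank (kap w₀.1) (kap v.1) : ℤ) -
      Set.ncard {y : Plk (kC C) (kap v.1) | down (kap w₀.1) y = x₀} ≤ D ⟨w₀, v⟩ := by
      refine le_sub_iff_add_le'.2 ?_
      exact sub_le_iff_le_add.1 ((add_sub_right_comm _ _ _).le.trans h1)
    linarith
  obtain ⟨y, hy⟩ := exists_over (L := kap v.1) x₀
  have h5 : ram (kap w₀.1) y = 1 := by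
    have h6 := sum_ram (L := kap v.1) x₀
    rw [Set.ncard_eq_toFinset_card _ (over_finite (L := kap v.1) x₀), ← h6, Finset.card_eq_sum_ones,
      Nat.cast_le] at h3
    exact ((Finset.sum_eq_sum_iff_of_le fun y _ => ram_pos (K := kap w₀.1) y).1
      (le_antisymm (Finset.sum_le_sum fun y _ => ram_pos (K := kap w₀.1) y) h3) y
      (mem_over.2 hy)).symm
  have h7 : v.1 η ≤ 1 := by
    have : v.1.av η ^ m ≤ 1 := by
      rw [← map_pow, hη]
      exact ((hu f).trans hf).le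
    exact (pow_le_one_iff_of_nonneg (v.1.av.nonneg _) hm).1 this
  have h8 := ord_algebraMap y (w₀.1.red f)
  rw [h5, hy, Nat.cast_one, one_mul, ← red_algebraMap' hf.le, ← hη, NV.red_pow h7, ord_pow] at h8
  exact ⟨_, h8.symm⟩

end Vale.Agent.P022K.CH.Maz
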