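import Vale.Agent.P022K.CH.MazSpec
import Vale.Agent.P022K.Glue.Alg

/-!
# P022K, block CH, row CORE: the algebra of Mazur's principle
-/

set_option autoImplicit false
set_option linter.all false

open scoped MatrixGroups
open Matrix

noncomputable section

namespace Vale.Agent.P022K.CH.Maz

open Vale.Agent.P022 Vale.Agent.P022D

section alg

/-- the lemma of Boston, Lenstra and Ribet -/
theorem blr0 {G E : Type} [Group G] [Ring E] (b : G →* E) (n : G)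
    (h : ∀ u w, b (u * n * w) + b (u * n * w)⁻¹ = b (u * w) + b (u * w)⁻¹) (y z w : G) :
    (b (y * z * w) + b (y * z * w)⁻¹ - (b (z * y * w) + b (z * y * w)⁻¹)) * (b n - 1) = 0 := by
  have k1 : ∀ u w, b u * (b n - 1) * b w = b w⁻¹ * (b u * (b n - 1)) := fun u w => by
    have e1 := h u w
    have e2 := h u 1
    simp only [_root_.mul_inv_rev, map_mul, mul_one] at e1 e2
    linear_combination (norm := noncomm_ring) e1 - b w⁻¹ * e2
  have k2 : ∀ y z u, b z * b y * (b u * (b n - 1)) = b y * b z * (b u * (b n - 1)) :=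
    fun y z u => by
    have e1 := k1 u (y⁻¹ * z⁻¹)
    rw [map_mul, ← mul_assoc, k1, mul_assoc, k1, _root_.mul_inv_rev, map_mul] at e1
    simp only [inv_inv] at e1
    rw [← e1, mul_assoc]
  have e1 := k2 z y w
  have e2 := k2 y⁻¹ z⁻¹ 1
  simp only [_root_.mul_inv_rev, map_mul, map_one, one_mul] at e1 e2 ⊢
  linear_combination (norm := noncomm_ring) e1 + b w⁻¹ * e2

variable {k Y : Type} [Field k] [AddCommGroup Y]

/-- the part of `Y` cut out by the system of `ρ` -/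
def Vm (a : GQ →* AddMonoid.End Y) (ρ : GQ →* GL (Fin 2) k) : AddSubgroup Y where
  carrier := {y | ∀ Q, bW ρ Q = 0 → aW a Q y = 0}
  add_mem' hx hy Q h := by rw [map_add, hx Q h, hy Q h, add_zero]
  zero_mem' Q _ := map_zero _
  neg_mem' hx Q h := by rw [map_neg, hx Q h, neg_zero]

variable {a : GQ →* AddMonoid.End Y} {ρ : GQ →* GL (Fin 2) k}

theorem cm_aW {W : AddMonoid.End Y} (h : ∀ g, Commute W (a g + a g⁻¹)) (Q : Wg) :
    Commute W (aW a Q) := by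
  induction Q using FreeAlgebra.induction with
  | grade0 r => rw [eq_intCast, map_intCast]; exact Int.commute_cast _ _
  | grade1 g => rw [aW_t]; exact h g
  | mul P Q hP hQ => rw [map_mul]; exact hP.mul_right hQ
  | add P Q hP hQ => rw [map_add]; exact hP.add_right hQ

theorem Vm.map {W : AddMonoid.End Y} (h : ∀ g, Commute W (a g + a g⁻¹)) {v : Y}
    (hv : v ∈ Vm a ρ) : W v ∈ Vm a ρ := fun Q hQ =>
  (DFunLike.congr_fun (cm_aW h Q).eq v).symm.trans ((congrArg W (hv Q hQ)).trans (map_zero W))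

theorem Vm.eq {v : Y} (hv : v ∈ Vm a ρ) {P Q : Wg} (e : bW ρ P = bW ρ Q) :
    aW a P v = aW a Q v := by
  have := hv (P - Q) (by rw [map_sub, e, sub_self])
  rw [map_sub] at this
  exact sub_eq_zero.1 this

theorem Vm.word {v : Y} (hv : v ∈ Vm a ρ) (Q : Wg) : aW a Q v ∈ Vm a ρ := fun P hP => by
  have := hv (P * Q) (by rw [map_mul, hP, zero_mul])
  rwa [map_mul] at this

theorem pow_per [Finite Y] (s : AddMonoid.End Y) : ∃ m n : ℕ, s ^ (n + 1) * s ^ m = s ^ m := by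
  haveI : Finite (AddMonoid.End Y) := DFunLike.finite _
  obtain ⟨i, j, ne, e⟩ := Finite.exists_ne_map_eq_of_infinite fun i : ℕ => s ^ i
  rcases ne.lt_or_gt with h | h
  · obtain ⟨n, rfl⟩ := Nat.exists_eq_add_of_lt h
    exact ⟨i, n, by rw [← pow_add, show n + 1 + i = i + n + 1 by ring]; exact e.symm⟩
  · obtain ⟨n, rfl⟩ := Nat.exists_eq_add_of_lt h
    exact ⟨j, n, by rw [← pow_add, show n + 1 + j = j + n + 1 by ring]; exact e⟩

theorem Vm.inv [Finite Y] (occ : ∀ Q, aW a Q = 0 → bW ρ Q = 0) {Q : Wg} (hQ : bW ρ Q ≠ 0) :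
    ∃ n : ℕ, ∀ v ∈ Vm a ρ, aW a (Q ^ (n + 1)) v = v := by
  obtain ⟨m, n, e⟩ := pow_per (aW a Q)
  have := occ (Q ^ (n + 1) * Q ^ m - Q ^ m) (by rw [map_sub, map_mul, map_pow, map_pow, e, sub_self])
  rw [map_sub, map_mul, map_pow _ _ m, sub_eq_zero, mul_eq_right₀ (pow_ne_zero _ hQ)] at this
  refine ⟨n, fun v hv => (Vm.eq hv (Q := 1) (by rw [this, map_one])).trans ?_⟩
  rw [map_one]; rfl

theorem Vm.zero [Finite Y] (occ : ∀ Q, aW a Q = 0 → bW ρ Q = 0) {Q : Wg} (hQ : bW ρ Q ≠ 0)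
    {v : Y} (hv : v ∈ Vm a ρ) (e : aW a Q v = 0) : v = 0 := by
  obtain ⟨n, h⟩ := Vm.inv occ hQ
  rw [← h v hv, pow_succ, map_mul]
  exact (congrArg (aW a (Q ^ n)) e).trans (map_zero _)

theorem Vm.ne [Finite Y] (hc : ∀ g h, Commute (a g + a g⁻¹) (a h))
    (occ : ∀ Q, aW a Q = 0 → bW ρ Q = 0) : ∃ v ∈ Vm a ρ, v ≠ 0 := by
  have cm : ∀ P Q y, aW a P (aW a Q y) = aW a Q (aW a P y) := fun P Q y =>
    DFunLike.congr_fun (cm_aW (fun g => (cm_aW (fun h => (hc g h).add_right (hc g h⁻¹)) P).symm)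
      Q).eq y
  obtain ⟨Z, ⟨hs, hP⟩, hm⟩ := exists_minimal_of_wellFoundedLT
    (fun Z : AddSubgroup Y => (∀ Q, ∀ z ∈ Z, aW a Q z ∈ Z) ∧
      ∀ Q, (∀ z ∈ Z, aW a Q z = 0) → bW ρ Q = 0)
    ⟨⊤, fun _ _ _ => trivial, fun Q h => occ Q (AddMonoidHom.ext fun z => h z trivial)⟩
  have per : ∀ s, (∀ Q, (∀ z ∈ Z, aW a Q (aW a s z) = 0) → bW ρ Q = 0) →
      ∃ n : ℕ, ∀ z ∈ Z, aW a (s ^ (n + 1)) z = z := fun s h => by
    have le := hm (y := Z.map (aW a s)) ⟨by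
      rintro Q _ ⟨z, hz, rfl⟩
      exact ⟨_, hs Q z hz, cm s Q z⟩, fun Q hQ => h Q fun z hz => hQ _ ⟨z, hz, rfl⟩⟩ (by
      rintro _ ⟨z, hz, rfl⟩
      exact hs s z hz)
    obtain ⟨m, n, e⟩ := pow_per (aW a s)
    have su : ∀ i : ℕ, ∀ z ∈ Z, ∃ z' ∈ Z, (aW a s ^ i) z' = z := fun i => by
      induction i with
      | zero => exact fun z hz => ⟨z, hz, rfl⟩
      | succ i ih =>
        intro z hz
        obtain ⟨z1, h1, rfl⟩ := ih z hz
        obtain ⟨z2, h2, rfl⟩ := le h1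
        exact ⟨z2, h2, by rw [pow_succ]; rfl⟩
    refine ⟨n, fun z hz => ?_⟩
    obtain ⟨z', -, rfl⟩ := su m z hz
    rw [map_pow]
    exact DFunLike.congr_fun e z'
  by_contra hn
  push Not at hn
  refine one_ne_zero ((map_one (bW ρ)).symm.trans (hP 1 fun z hz => ?_))
  rw [hn z fun i hi => ?_, map_zero]
  by_cases h : ∀ Q, (∀ z ∈ Z, aW a Q (aW a i z) = 0) → bW ρ Q = 0
  · obtain ⟨n, e⟩ := per i h
    have := hP (i ^ (n + 1) - 1) fun z hz => by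
      rw [map_sub, map_one]
      exact sub_eq_zero.2 (e z hz)
    rw [map_sub, map_pow, hi, zero_pow n.succ_ne_zero, map_one, zero_sub, neg_eq_zero] at this
    exact absurd this one_ne_zero
  · push Not at h
    obtain ⟨s, h1, h2⟩ := h
    obtain ⟨n, e⟩ := per s fun Q hQ => (mul_eq_zero.1 ((map_mul _ Q s).symm.trans
      (hP (Q * s) fun z hz => by rw [map_mul]; exact hQ z hz))).resolve_right h2
    rw [← e _ (hs i z hz), pow_succ, map_mul]
    exact (congrArg (aW a (s ^ n)) (h1 z hz)).trans (map_zero _)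

/-- the base change -/
def bcM (ρ : GQ →* GL (Fin 2) k) : GQ →* Matrix (Fin 2) (Fin 2) (AlgebraicClosure k) :=
  (algebraMap k (AlgebraicClosure k)).mapMatrix.toMonoidHom.comp ((Units.coeHom _).comp ρ)

theorem bcM_tr (g : GQ) : (bcM ρ g).trace = algebraMap k _ (tr ρ g) :=
  (AddMonoidHom.map_trace (algebraMap k (AlgebraicClosure k)) _).symm

theorem Hy.scal (hy : Hy ρ) {φ : GQ} (h : ∀ g u, tr ρ (φ * g * u) = tr ρ (g * φ * u)) :
    ∃ c, bcM ρ φ = Matrix.scalar _ c := by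
  have sp := Glue.burnside (bcM ρ) hy.irr
  refine sp.schur fun g _ => sp.ext fun u _ => ?_
  rw [← map_mul, ← map_mul, ← map_mul, ← map_mul, bcM_tr, bcM_tr, h]

theorem Hy.three (hy : Hy ρ) : ∃ y z w, tr ρ (y * z * w) ≠ tr ρ (z * y * w) := by
  by_contra h
  push Not at h
  obtain ⟨g, hg⟩ := hy.irr ![1, 0] (by simp)
  obtain ⟨c, hc⟩ := hy.scal (h g)
  refine hg c ((congrArg (· *ᵥ ![1, 0]) hc).trans ?_)
  simp [scalar_apply, ← smul_one_eq_diagonal, smul_mulVec]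

theorem Hy.cen [CharP k 2] (hy : Hy ρ) {φ : GQ}
    (h : ∀ g u, tr ρ (φ * g * u) = tr ρ (g * φ * u)) : ρ φ = 1 := by
  obtain ⟨c, hc⟩ := hy.scal h
  have e : (bcM ρ φ).det = 1 :=
    ((RingHom.map_det _ _).symm.trans (congrArg _ (hy.det φ))).trans (map_one _)
  rw [hc, scalar_apply, det_diagonal, Fin.prod_univ_two, mul_self_eq_one_iff, CharTwo.neg_eq,
    or_self] at e
  rw [e, map_one] at hc
  refine Units.ext (Matrix.map_injective (algebraMap k (AlgebraicClosure k)).injective ?_)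
  exact hc.trans (Matrix.map_one _ (map_zero _) (map_one _)).symm

/-- the action on the part cut out -/
def rsV (hc : ∀ g h, Commute (a g + a g⁻¹) (a h)) (ρ : GQ →* GL (Fin 2) k) :
    GQ →* AddMonoid.End (Vm a ρ) where
  toFun g := ((a g).comp (Vm a ρ).subtype).codRestrict _ fun v =>
    Vm.map (fun h => (hc h g).symm) v.2
  map_one' := AddMonoidHom.ext fun v => Subtype.ext (DFunLike.congr_fun (map_one a) v.1)
  map_mul' g h := AddMonoidHom.ext fun v => Subtype.ext (DFunLike.congr_fun (map_mul a g h) v.1)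

theorem Vm.t {v : Y} (hv : v ∈ Vm a ρ) {g h : GQ} (e : tr ρ g = tr ρ h) :
    (a g + a g⁻¹) v = (a h + a h⁻¹) v := by
  rw [← aW_t, ← aW_t]
  exact Vm.eq hv (by rw [bW_t, bW_t, e])

theorem Vm.tr_eq [Finite Y] (occ : ∀ Q, aW a Q = 0 → bW ρ Q = 0) {v : Y} (hv : v ∈ Vm a ρ)
    (h0 : v ≠ 0) {g h : GQ} (e : (a g + a g⁻¹) v = (a h + a h⁻¹) v) : tr ρ g = tr ρ h := by
  by_contra ne
  refine h0 (Vm.zero occ (Q := FreeAlgebra.ι ℤ g - FreeAlgebra.ι ℤ h) ?_ hv ?_)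
  · rw [map_sub, bW_t, bW_t]
    exact sub_ne_zero.2 ne
  · rw [map_sub, aW_t, aW_t]
    exact sub_eq_zero.2 e

/-- the kernel of `ρ` acts trivially -/
theorem Vm.blr [Finite Y] (hy : Hy ρ) (hc : ∀ g h, Commute (a g + a g⁻¹) (a h))
    (occ : ∀ Q, aW a Q = 0 → bW ρ Q = 0) {n : GQ} (hn : ρ n = 1) {v : Y} (hv : v ∈ Vm a ρ) :
    a n v = v := by
  obtain ⟨y, z, w, ne⟩ := hy.three
  have e := blr0 (rsV hc ρ) n (fun u w => AddMonoidHom.ext fun v => Subtype.ext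
    (Vm.t (g := u * n * w) (h := u * w) v.2
      (by rw [tr, tr, map_mul, map_mul, hn, mul_one, map_mul]))) y z w
  rw [sub_mul, sub_eq_zero] at e
  have e' := congrArg Subtype.val (DFunLike.congr_fun e ⟨v, hv⟩)
  by_contra h
  exact ne (Vm.tr_eq occ (sub_mem (Vm.map (fun h => (hc h n).symm) hv) hv) (sub_ne_zero.2 h) e')

/-- an element central on the part cut out is in the kernel of `ρ` -/
theorem Vm.cen [CharP k 2] [Finite Y] (hy : Hy ρ) (hc : ∀ g h, Commute (a g + a g⁻¹) (a h))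
    (occ : ∀ Q, aW a Q = 0 → bW ρ Q = 0) {φ : GQ}
    (h : ∀ g, ∀ v ∈ Vm a ρ, a φ (a g v) = a g (a φ v)) : ρ φ = 1 := by
  obtain ⟨v, hv, h0⟩ := Vm.ne hc occ
  have c : ∀ g, Commute (rsV hc ρ φ) (rsV hc ρ g) := fun g =>
    AddMonoidHom.ext fun v => Subtype.ext (h g v.1 v.2)
  refine hy.cen fun g u => Vm.tr_eq occ hv h0 ?_
  have e1 : rsV hc ρ (φ * g) = rsV hc ρ (g * φ) := by rw [map_mul, map_mul, (c g).eq]
  have e2 : rsV hc ρ (φ * g)⁻¹ = rsV hc ρ (g * φ)⁻¹ :=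
    left_inv_eq_right_inv (a := rsV hc ρ (φ * g)) (by rw [← map_mul, inv_mul_cancel, map_one])
      (by rw [e1, ← map_mul, mul_inv_cancel, map_one])
  have e : rsV hc ρ (φ * g * u) + rsV hc ρ (φ * g * u)⁻¹ =
      rsV hc ρ (g * φ * u) + rsV hc ρ (g * φ * u)⁻¹ := by
    rw [_root_.mul_inv_rev (φ * g), _root_.mul_inv_rev (g * φ), map_mul _ (φ * g),
      map_mul _ (g * φ), map_mul _ u⁻¹, map_mul _ u⁻¹, e1, e2]
  exact congrArg Subtype.val (DFunLike.congr_fun e ⟨v, hv⟩)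

theorem Vm.le [CharP k 2] [Finite Y] (hy : Hy ρ) (occ : ∀ Q, aW a Q = 0 → bW ρ Q = 0)
    {Y0 : Set Y} (st : ∀ Q, ∀ y ∈ Y0, aW a Q y ∈ Y0)
    (mon : ∀ y ∈ Vm a ρ, ∀ y' ∈ Vm a ρ, y ∈ Y0 ∨ y' ∈ Y0 ∨ y + y' ∈ Y0) {v : Y}
    (hv : v ∈ Vm a ρ) : v ∈ Y0 := by
  obtain ⟨g, h0, h1⟩ := hy.big
  have key : ∀ Q, bW ρ Q ≠ 0 → aW a Q v ∈ Y0 → v ∈ Y0 := fun Q hQ h => by
    obtain ⟨n, e⟩ := Vm.inv occ hQ
    rw [← e v hv, pow_succ, map_mul]
    exact st _ _ h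
  rcases mon v hv _ (Vm.word hv (FreeAlgebra.ι ℤ g)) with h | h | h
  · exact h
  · exact key _ (by rwa [bW_t]) h
  · refine key (1 + FreeAlgebra.ι ℤ g) ?_ (by rw [map_add, map_one]; exact h)
    rw [map_add, map_one, bW_t]
    exact fun e => h1 (by rw [eq_neg_of_add_eq_zero_right e, CharTwo.neg_eq])

/-- **ALG** -/
theorem alg [CharP k 2] [Finite Y] (hy : Hy ρ) (a : GQ →* AddMonoid.End Y)
    (hc : ∀ g h, Commute (a g + a g⁻¹) (a h)) (occ : ∀ Q, aW a Q = 0 → bW ρ Q = 0)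
    (W : AddMonoid.End Y) (hW : ∀ g, Commute W (a g)) (φ : GQ) (Y0 : Set Y)
    (st : ∀ Q, ∀ y ∈ Y0, aW a Q y ∈ Y0) (σ : GQ) (hσ : ρ σ = 1)
    (mon : ∀ y y', a σ y = y → a σ y' = y' → y ∈ Y0 ∨ y' ∈ Y0 ∨ y + y' ∈ Y0) (T : Y → Prop)
    (Q0 : Wg) (h0 : bW ρ Q0 ≠ 0) (kil : ∀ y ∈ Y0, T (aW a Q0 y))
    (swp : ∀ y, T y → T (W y) → a φ (W y) = y) : ρ φ = 1 := by
  have hT : ∀ v ∈ Vm a ρ, T v := fun v hv => by
    obtain ⟨n, e⟩ := Vm.inv occ h0
    rw [← e v hv, pow_succ', map_mul]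
    exact kil _ (Vm.le hy occ st (fun y hy' y' hy'' => mon y y' (Vm.blr hy hc occ hσ hy')
      (Vm.blr hy hc occ hσ hy'')) (Vm.word hv _))
  have wV : ∀ v ∈ Vm a ρ, W v ∈ Vm a ρ := fun v hv =>
    Vm.map (fun g => (hW g).add_right (hW g⁻¹)) hv
  have e : ∀ v ∈ Vm a ρ, a φ⁻¹ v = W v := fun v hv => by
    rw [← swp v (hT v hv) (hT _ (wV v hv))]
    conv_rhs => rw [swp v (hT v hv) (hT _ (wV v hv))]
    change (a φ⁻¹ * a φ) (W v) = W v
    rw [← map_mul, inv_mul_cancel, map_one]; rfl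
  rw [← inv_eq_one, ← map_inv]
  refine Vm.cen hy hc occ fun g v hv => ?_
  rw [e v hv, e _ (Vm.map (fun h => (hc h g).symm) hv)]
  exact DFunLike.congr_fun (hW g).eq v

end alg

end Vale.Agent.P022K.CH.Maz
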