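import Vale.Agent.P022K.CH.MazSpec
import Vale.Agent.P022E.Br.Tri
import Vale.Agent.P022E.Gp.Std

/-!
# P022K, block CH, row BIG: a non solvable image
-/

set_option autoImplicit false
set_option linter.all false

open scoped MatrixGroups
open Matrix

noncomputable section

namespace Vale.Agent.P022K.CH.Maz

open Vale.Agent.P022 Vale.Agent.P022E

theorem irr0 {G k K : Type} [Group G] [Field k] [Field K] [Algebra k K] (ρ : G →* GL (Fin 2) k)
    (hn : ¬ Group.IsSolvable ρ.range) (w : Fin 2 → K) (hw : w ≠ 0) :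
    ∃ g, ∀ a : K, ((ρ g : Matrix (Fin 2) (Fin 2) k).map (algebraMap k K)) *ᵥ w ≠ a • w := by
  by_contra hc
  push Not at hc
  refine hn (Br.solv_of_ker ρ 2 fun g hg => ?_)
  have h1 := Br.line_ker ((GeneralLinearGroup.map (algebraMap k K)).comp ρ) ⊤ w hw
    (fun g _ => hc g) hg
  refine Units.ext (Matrix.map_injective (algebraMap k K).injective ?_)
  exact (congrArg Units.val h1).trans (Matrix.map_one _ (map_zero _) (map_one _)).symm

theorem big0 {k : Type} [Field k] [CharP k 2] (H : Subgroup (GL (Fin 2) k)) (hs : Gp.Sl H)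
    (hn : ¬ Group.IsSolvable H) : ∃ g ∈ H, g.1.trace ≠ 0 ∧ g.1.trace ≠ 1 := by
  obtain ⟨w, hw⟩ := Gp.std0 k H hs hn
  obtain ⟨a, a', h0, h0', ne, ha, ha'⟩ := hw.two
  obtain ⟨b, hb, hl⟩ := hw.low
  have key : ∀ c : k, Gp.uu c ∈ H.map (MulAut.conj w).toMonoidHom →
      ∃ g ∈ H, g.1.trace = c * b := by
    intro c hc
    obtain ⟨g, hg, e⟩ := Subgroup.mul_mem _ hc hl
    refine ⟨g, hg, ?_⟩
    have e1 : (w * g * w⁻¹).1.trace = (Gp.uu c * Gp.ll b).1.trace := congrArg (·.1.trace) e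
    rw [Units.val_mul, Units.val_mul, Matrix.trace_units_conj] at e1
    rw [e1, Units.val_mul]
    simp [Gp.uu, Gp.ll, Matrix.trace_fin_two]
    linear_combination CharTwo.two_eq_zero (R := k)
  by_cases h1 : a * b = 1
  · obtain ⟨g, hg, e⟩ := key a' ha'
    exact ⟨g, hg, e ▸ mul_ne_zero h0' hb, e ▸ fun h => ne (mul_right_cancel₀ hb (h1.trans h.symm))⟩
  · obtain ⟨g, hg, e⟩ := key a ha
    exact ⟨g, hg, e ▸ mul_ne_zero h0 hb, e ▸ h1⟩

theorem fin0 {G Γ : Type} [Group G] [TopologicalSpace G] [IsTopologicalGroup G] [CompactSpace G]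
    [Group Γ] (ρ : G →* Γ) (ho : IsOpen {g | ρ g = 1}) : Finite ρ.range :=
  haveI := ρ.ker.quotient_finite_of_isOpen ho
  Finite.of_equiv _ (QuotientGroup.quotientKerEquivRange ρ).toEquiv

theorem big : BIG := by
  intro k _ _ ρ ho hd hn
  obtain ⟨_, ⟨g, rfl⟩, h⟩ := big0 ρ.range ⟨fin0 ρ ho, by rintro _ ⟨g, rfl⟩; exact hd g⟩ hn
  exact ⟨ho, hd, irr0 ρ hn, g, h⟩

end Vale.Agent.P022K.CH.Maz
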