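import Vale.Agent.P022K.QT.Psl
import Mathlib.GroupTheory.FreeGroup.NielsenSchreier

/-!
# P022K, block CH, row MAZ: homomorphisms on subgroups of `Γ₀(4)` lift along surjections
-/

set_option autoImplicit false
set_option linter.all false

open UpperHalfPlane ModularGroup
open scoped MatrixGroups Pointwise

noncomputable section

namespace Vale.Agent.P022K.CH.Maz.Fr

open Vale.Agent.P022K.Sh.Psl

variable {U : SL(2, ℤ)}

theorem U_re (hU : S * U = T ^ (-4 : ℤ) * S) (τ : ℍ) : (S • U • τ).re = (S • τ).re - 4 := by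
  rw [← mul_smul, hU, mul_smul, modular_T_zpow_smul]
  simp
  ring

theorem re_S (τ : ℍ) : (S • τ).re * (τ.re ^ 2 + τ.im ^ 2) = -τ.re := by
  have h : Complex.normSq τ = τ.re ^ 2 + τ.im ^ 2 := by
    rw [Complex.normSq_apply, coe_re, coe_im]
    ring
  rw [S_re, ← h, div_mul_cancel₀ _ (Complex.normSq_pos.2 τ.ne_zero).ne']

theorem inj (hU : S * U = T ^ (-4 : ℤ) * S) :
    Function.Injective (FreeGroup.lift ![pm T, pm U]) := by
  have k : ∀ τ : ℍ, 0 < τ.im ^ 2 := fun τ => pow_pos τ.im_pos 2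
  have d1 : ∀ τ : ℍ, 1 / 2 ≤ τ.re → (S • τ).re ≤ -2 → False := fun τ a b => by
    nlinarith [re_S τ, k τ, sq_nonneg τ.re]
  have d2 : ∀ τ : ℍ, τ.re < -1 / 2 → 2 < (S • τ).re → False := fun τ a b => by
    nlinarith [re_S τ, k τ, sq_nonneg τ.re]
  have d3 : ∀ τ : ℍ, 1 / 2 ≤ τ.re → 2 < (S • τ).re → False := fun τ a b => by
    nlinarith [re_S τ, k τ, sq_nonneg τ.re]
  have d4 : ∀ τ : ℍ, τ.re < -1 / 2 → (S • τ).re ≤ -2 → False := fun τ a b => by
    nlinarith [re_S τ, k τ, sq_nonneg τ.re]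
  refine FreeGroup.injective_lift_of_ping_pong (α := ℍ) _
    ![{τ | 1 / 2 ≤ τ.re}, {τ | (S • τ).re ≤ -2}] ![{τ | τ.re < -1 / 2}, {τ | 2 < (S • τ).re}]
    ?_ ?_ ?_ ?_ ?_ ?_
  · intro i
    fin_cases i
    · exact ⟨T • I, by
        show 1 / 2 ≤ (T • I).re
        rw [T_re]; norm_num⟩
    · exact ⟨U • I, by
        show (S • U • I).re ≤ -2
        rw [U_re hU, fix_S]; norm_num⟩
  · intro i j hij
    fin_cases i <;> fin_cases j <;> simp at hij
    · exact Set.disjoint_left.2 fun τ a b => d1 τ a b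
    · exact Set.disjoint_left.2 fun τ a b => d1 τ b a
  · intro i j hij
    fin_cases i <;> fin_cases j <;> simp at hij
    · exact Set.disjoint_left.2 fun τ a b => d2 τ a b
    · exact Set.disjoint_left.2 fun τ a b => d2 τ b a
  · intro i j
    fin_cases i <;> fin_cases j <;> refine Set.disjoint_left.2 fun τ a b => ?_
    · have a' : 1 / 2 ≤ τ.re := a
      have b' : τ.re < -1 / 2 := b
      linarith
    · exact d3 τ a b
    · exact d4 τ b a
    · have a' : (S • τ).re ≤ -2 := a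
      have b' : 2 < (S • τ).re := b
      linarith
  · intro i
    fin_cases i <;> rintro _ ⟨τ, h, rfl⟩
    · have h' : ¬ τ.re < -1 / 2 := h
      show 1 / 2 ≤ (T • τ).re
      rw [T_re]
      linarith
    · have h' : ¬ 2 < (S • τ).re := h
      show (S • U • τ).re ≤ -2
      rw [U_re hU]
      linarith
  · intro i
    fin_cases i <;> rintro _ ⟨τ, h, rfl⟩
    · have h' : ¬ 1 / 2 ≤ τ.re := h
      have e := T_re (T⁻¹ • τ)
      rw [smul_inv_smul] at e
      show (T⁻¹ • τ).re < -1 / 2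
      linarith
    · have h' : ¬ (S • τ).re ≤ -2 := h
      have e := U_re hU (U⁻¹ • τ)
      rw [smul_inv_smul] at e
      show 2 < (S • U⁻¹ • τ).re
      linarith

/-- **lifting** -/
theorem lift_hom (hU : S * U = T ^ (-4 : ℤ) * S) {A B : Type} [AddCommGroup A] [AddCommGroup B]
    (π : A →+ B) (hπ : Function.Surjective π) {Γ : Subgroup SL(2, ℤ)}
    (hΓ : Γ ≤ Subgroup.closure {-1, T, U}) (h1 : -1 ∈ Γ) (c : SL(2, ℤ) → B)
    (add : ∀ γ ∈ Γ, ∀ δ ∈ Γ, c (γ * δ) = c γ + c δ) (neg : c (-1) = 0) :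
    ∃ u : SL(2, ℤ) → A, (∀ γ ∈ Γ, ∀ δ ∈ Γ, u (γ * δ) = u γ + u δ) ∧ ∀ γ ∈ Γ, π (u γ) = c γ := by
  classical
  let F : FreeGroup (Fin 2) →* SL(2, ℤ) := FreeGroup.lift ![T, U]
  have e : pm.comp F = FreeGroup.lift ![pm T, pm U] := FreeGroup.ext_hom _ _ fun i => by
    fin_cases i <;> simp [F]
  have hi : ∀ a b, pm (F a) = pm (F b) → a = b := fun a b h => inj hU (e ▸ h)
  have ex : ∀ γ ∈ Subgroup.closure {-1, T, U}, ∃ w, F w = γ ∨ F w = -1 * γ := fun γ hγ => by
    induction hγ using Subgroup.closure_induction with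
    | mem x hx =>
      rcases hx with rfl | rfl | rfl
      · exact ⟨1, Or.inr (by simp)⟩
      · exact ⟨FreeGroup.of 0, Or.inl (by simp [F])⟩
      · exact ⟨FreeGroup.of 1, Or.inl (by simp [F])⟩
    | one => exact ⟨1, Or.inl (map_one F)⟩
    | mul x y _ _ hx hy =>
      obtain ⟨a, ha⟩ := hx
      obtain ⟨b, hb⟩ := hy
      refine ⟨a * b, ?_⟩
      rw [map_mul]
      rcases ha with ha | ha <;> rcases hb with hb | hb <;> simp [ha, hb]
    | inv x _ hx =>
      obtain ⟨a, ha⟩ := hx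
      refine ⟨a⁻¹, ?_⟩
      rw [map_inv]
      rcases ha with ha | ha <;> simp [ha]
  choose! w hw using fun γ (h : γ ∈ Γ) => ex γ (hΓ h)
  have m : ∀ γ ∈ Γ, w γ ∈ Γ.comap F := fun γ h => by
    rcases hw γ h with k | k <;> rw [Subgroup.mem_comap, k]
    exacts [h, mul_mem h1 h]
  have p : ∀ γ ∈ Γ, pm (F (w γ)) = pm γ ∧ c (F (w γ)) = c γ := fun γ h => by
    rcases hw γ h with k | k <;> rw [k]
    · exact ⟨rfl, rfl⟩
    · rw [map_mul, pm_neg, one_mul, add _ h1 _ h, neg, zero_add]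
      exact ⟨rfl, rfl⟩
  let c' : Γ.comap F →* Multiplicative B := MonoidHom.mk'
    (fun x => Multiplicative.ofAdd (c (F x.1))) fun x y => by
      rw [Subgroup.coe_mul, map_mul, add _ x.2 _ y.2, ofAdd_add]
  choose s hs using hπ
  let u' : Γ.comap F →* Multiplicative A :=
    IsFreeGroup.lift fun a => Multiplicative.ofAdd (s (c' (IsFreeGroup.of a)).toAdd)
  have hu : π.toMultiplicative.comp u' = c' := IsFreeGroup.ext_hom fun a => by
    simp [u', hs]
  refine ⟨fun γ => if h : γ ∈ Γ then (u' ⟨w γ, m γ h⟩).toAdd else 0, fun γ h δ k => ?_,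
    fun γ h => ?_⟩
  · simp only [dif_pos h, dif_pos k, dif_pos (mul_mem h k)]
    rw [← toAdd_mul, ← map_mul]
    congr 2
    refine Subtype.ext (hi _ _ ?_)
    show _ = pm (F (w γ * w δ))
    rw [map_mul F, map_mul pm (F _), (p _ h).1, (p _ k).1, (p _ (mul_mem h k)).1, map_mul]
  · simp only [dif_pos h]
    rw [← (p γ h).2]
    exact congrArg Multiplicative.toAdd (DFunLike.congr_fun hu ⟨w γ, m γ h⟩)

end Vale.Agent.P022K.CH.Maz.Fr
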