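import Vale.Agent.P022K.CH.MazSpec
import Vale.Agent.P022K.CH.MazFree
import Vale.Agent.P027M.ES.All
import Vale.Agent.P027M.Fo.Dec
import Vale.Agent.P027M.F.Tra

/-!
# P022K, block CH, row MAZ: from Kummer classes modulo two to forms of weight two
-/

set_option autoImplicit false
set_option linter.all false

open UpperHalfPlane NumberField
open scoped MatrixGroups ModularForm Pointwise ComplexConjugate

noncomputable section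

namespace Vale.Agent.P022K.CH.Maz

open Vale.Agent.P022 Vale.Agent.P019P Vale.Agent.P022D P025H816 P025H492
open Vale.Agent.P027M.M (Mdl GH L Lv Act M2 mem_GH)
open Vale.Agent.P027M.TW (HA)
open Vale.Agent.P027M.Th (Par Kap)
open Vale.Agent.P027M.ES (Prim)
open Vale.Agent.P022.H231.L3 (IsDel al al_pos)
open Vale.Agent.P022.H218.L3 (IsMF)
open Vale.Agent.P022.H420.L3 (word_gen)

namespace Ek

/-- a choice of coset data for all Hecke operators -/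
structure Ch (E : ℕ) (Γ : Subgroup SL(2, ℤ)) where
  d : PA E → SL(2, ℤ)
  hd : ∀ ℓ, IsDel 1 E ℓ.1 (d ℓ)
  s : ∀ ℓ : PA E, Γ → Equiv.Perm (Option (Fin ℓ.1))
  g : ∀ ℓ : PA E, Γ → Option (Fin ℓ.1) → Γ
  eq : ∀ ℓ γ i, al 1 ℓ.1 (d ℓ) i * (γ.1 : M2) = ((g ℓ γ i).1 : M2) * al 1 ℓ.1 (d ℓ) (s ℓ γ i)

theorem nd {E : ℕ} (ℓ : PA E) : ¬ ℓ.1 ∣ E := fun h => ℓ.2.2 (h.mul_left 2)

theorem odd {E : ℕ} (ℓ : PA E) : Odd ℓ.1 := ℓ.2.1.odd_of_ne_two fun h =>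
  ℓ.2.2 (by rw [h]; exact dvd_mul_right 2 E)

theorem ex_ch {E : ℕ} (hE : 0 < E) (H : Subgroup (ZMod E)ˣ) : Nonempty (Ch E (GH E H)) := by
  choose d hd using fun ℓ : PA E => P027M.Fo.exists_del ℓ.2.1 (nd ℓ)
  choose s g k using fun (ℓ : PA E) (γ : GH E H) =>
    (P027M.Fo.stp E ℓ.1 hE ℓ.2.1).1 (nd ℓ) _ (hd ℓ) γ.1 (mem_GH.1 γ.2).1
  exact ⟨⟨d, hd, s, fun ℓ γ i => ⟨g ℓ γ i, P027M.Fo.mem_GH_of γ.2 (k ℓ γ i).2.1 (k ℓ γ i).2.2⟩,
    fun ℓ γ i => (k ℓ γ i).1⟩⟩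

variable {E : ℕ} {Γ : Subgroup SL(2, ℤ)} (C : Ch E Γ)

/-- the Hecke operator on functions -/
def Ch.T (A : Type) [AddCommGroup A] (ℓ : PA E) : AddMonoid.End (Γ → A) :=
  AddMonoidHom.mk' (fun c γ => ∑ i, c (C.g ℓ γ i)) fun _ _ => funext fun _ => Finset.sum_add_distrib

/-- words on functions -/
def Ch.W (A : Type) [AddCommGroup A] : G.Wd E →+* AddMonoid.End (Γ → A) :=
  (FreeAlgebra.lift ℤ (Sum.elim (C.T A) fun ℓ : PA E => (ℓ.1 : AddMonoid.End (Γ → A)))).toRingHom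

section

variable {A B : Type} [AddCommGroup A] [AddCommGroup B]

theorem Ch.W_T (ℓ : PA E) (c : Γ → A) (γ : Γ) :
    C.W A (FreeAlgebra.ι ℤ (Sum.inl ℓ)) c γ = ∑ i, c (C.g ℓ γ i) := by
  have e : C.W A (FreeAlgebra.ι ℤ (Sum.inl ℓ)) = C.T A ℓ := FreeAlgebra.lift_ι_apply _ _
  rw [e]
  rfl

theorem Ch.W_S (ℓ : PA E) (c : Γ → A) : C.W A (FreeAlgebra.ι ℤ (Sum.inr ℓ)) c = ℓ.1 • c :=
  DFunLike.congr_fun (FreeAlgebra.lift_ι_apply _ _) c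

theorem Ch.nat (φ : A →+ B) (Q : G.Wd E) (c : Γ → A) (γ : Γ) :
    φ (C.W A Q c γ) = C.W B Q (fun x => φ (c x)) γ := by
  refine congrFun (word_gen (φ.compLeft Γ) (C.W A) (C.W B) ?_ Q c) γ
  rintro (ℓ | ℓ) c
  · funext γ
    rw [C.W_T]
    show φ _ = _
    rw [C.W_T, map_sum]
    rfl
  · rw [C.W_S, C.W_S, map_nsmul]

end

variable [NeZero E]

/-- `u` is the period homomorphism of `f` -/
def Pd (f : ℍ → ℂ) (u : Γ → ℂ) : Prop := ∃ F, Prim f F ∧ ∀ (γ : Γ) τ, u γ = F (γ.1 • τ) - F τ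

theorem del0 {l : ℕ} {d : SL(2, ℤ)} (h : IsDel 1 E l d) : L3.IsDel E 0 l d := by
  simpa [L3.IsDel, IsDel] using h

theorem Ch.pd (Q : G.Wd E) : ∀ (f : MF E 2) (u : Γ → ℂ), G.Inv E 1 f → Pd f u →
    Pd (G.sg E 1 Q f : MF E 2) (C.W ℂ Q u) := by
  induction Q using FreeAlgebra.induction with
  | grade0 n =>
    rintro f u - ⟨F, h1, h2⟩
    rw [AlgHom.commutes, G.FormH.am, eq_intCast, map_intCast, AddMonoid.End.intCast_apply]
    exact ⟨_, h1.smul n, fun γ τ => by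
      simp only [Pi.smul_apply, smul_eq_mul, zsmul_eq_mul, h2 γ τ, mul_sub]⟩
  | grade1 s =>
    rintro f u hf ⟨F, h1, h2⟩
    rw [G.sg, FreeAlgebra.lift_ι_apply]
    rcases s with ℓ | ℓ
    · have e : (H783.Tl 2 ℓ f : ℍ → ℂ) = P027M.Fo.Tf ℓ.2.1.pos (C.d ℓ) f := by
        rw [H227.Tl_alp ℓ (del0 (C.hd ℓ))]
        refine Finset.sum_congr rfl fun i _ => ?_
        cases i <;> rfl
      refine ⟨_, e ▸ P027M.Fo.prim_T ℓ.2.1.pos (C.d ℓ) h1, fun γ τ => ?_⟩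
      rw [C.W_T, P027M.Fo.TF_step _ (C.eq ℓ γ)]
      exact Finset.sum_congr rfl fun i _ => h2 _ _
    · have e : (H783.dia 2 ℓ f : ℍ → ℂ) = f := by
        rw [H227.dia_isDel ℓ (del0 (C.hd ℓ))]
        exact hf _ (C.hd ℓ).1 (one_dvd _)
      refine ⟨(ℓ.1 : ℂ) • F, ?_, fun γ τ => ?_⟩
      · show Prim (((ℓ.1 : ℂ) ^ 1) • (H783.dia 2 ℓ f : ℍ → ℂ)) _
        rw [e, pow_one]
        exact h1.smul _
      · simp only [C.W_S, Pi.smul_apply, smul_eq_mul, nsmul_eq_mul, h2 γ τ, mul_sub]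
  | mul a b ha hb =>
    intro f u hf h
    rw [map_mul, map_mul]
    exact ha _ _ (G.FormH.word (w := 0) (one_dvd E) b f hf).1 (hb f u hf h)
  | add a b ha hb =>
    intro f u hf h
    obtain ⟨F, h1, h2⟩ := ha f u hf h
    obtain ⟨F', h3, h4⟩ := hb f u hf h
    rw [map_add, map_add]
    refine ⟨_, h1.add h3, fun γ τ => ?_⟩
    show C.W ℂ a u γ + C.W ℂ b u γ = _
    rw [h2 γ τ, h4 γ τ, Pi.add_apply, Pi.add_apply]
    ring

theorem mem_top {γ : SL(2, ℤ)} (h : (E : ℤ) ∣ γ 1 0) : γ ∈ GH E ⊤ := by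
  have h6 := congrArg (Int.cast : ℤ → ZMod E) (H527.L3.det_eq γ)
  push_cast at h6
  rw [(ZMod.intCast_zmod_eq_zero_iff_dvd _ _).2 h, mul_zero, sub_zero] at h6
  exact ⟨h, Units.mkOfMulEqOne _ _ ((mul_comm _ _).trans h6), trivial, rfl⟩

theorem ex_form {f : ℍ → ℂ} (h : IsMF (GH E ⊤) 2 f) :
    ∃ f' : MF E 2, (f' : ℍ → ℂ) = f ∧ G.Inv E 1 f' :=
  ⟨{ toFun := f
     slash_action_eq' := by
       rintro _ ⟨γ, hγ, rfl⟩
       exact h.slash γ (mem_top ((ZMod.intCast_zmod_eq_zero_iff_dvd _ _).1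
         ((CongruenceSubgroup.Gamma1_mem _ _).1 hγ).2.2))
     holo' := h.hol
     bdd_at_cusps' := fun hc => by
       rw [Subgroup.IsArithmetic.isCusp_iff_isCusp_SL2Z] at hc
       rw [OnePoint.isBoundedAt_iff_forall_SL2Z hc]
       exact fun γ _ => h.bdd γ }, rfl, fun γ a _ => h.slash γ (mem_top a)⟩

theorem kil_pd (C : Ch E (GH E ⊤)) {Q : G.Wd E} (hQ : G.Kil E E 1 {1} Q) {f F : ℍ → ℂ}
    (h : IsMF (GH E ⊤) 2 f) (hF : Prim f F) :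
    C.W ℂ Q (fun γ => F (γ.1 • I) - F I) = 0 := by
  obtain ⟨f', rfl, hf⟩ := ex_form h
  obtain ⟨F', a, b⟩ := C.pd Q f' (fun γ => F (γ.1 • I) - F I) hf
    ⟨F, hF, fun γ τ => hF.period (h.slash _ γ.2) _ _⟩
  have z : G.sg E 1 Q f' = 0 := hQ 1 (Finset.mem_singleton_self 1) f' hf
  rw [z] at a
  obtain ⟨c, hc⟩ := Prim.exists_const a
  funext γ
  rw [b γ I, hc, hc, sub_self]
  rfl

/-- a word which kills the forms of weight two kills the homomorphisms modulo two -/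
theorem kil_hom (hL : Lv E) (C : Ch E (GH E ⊤)) {Q : G.Wd E} (hQ : G.Kil E E 1 {1} Q)
    {c : SL(2, ℤ) → ZMod 2} (hc : Par (GH E ⊤) c) : C.W (ZMod 2) Q (fun γ => c γ.1) = 0 := by
  have m := ((P027M.M.grp E hL).2.2.2.2.2.2.2 ⊤).2.1 trivial
  obtain ⟨u, h1, h2⟩ := Fr.lift_hom (U := P027M.ES.U4) (by decide) (Int.castAddHom (ZMod 2))
    ZMod.intCast_surjective (m.hi.trans (le_of_eq P027M.ES.gen.symm)) (mem_top (by simp)) c hc.add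
    hc.neg
  obtain ⟨f, g, F, G', hf, hg, hF, hG, hφ⟩ := P027M.ES.esc.1 E _ m (fun γ => (u γ : ℂ))
    fun γ a δ b => by simp only [h1 γ a δ b, Int.cast_add]
  funext γ
  have e1 := C.nat (Int.castAddHom ℂ) Q (fun γ => u γ.1) γ
  have e2 := C.nat (starRingEnd ℂ).toAddMonoidHom Q (fun γ => G' (γ.1 • I) - G' I) γ
  have e3 : (fun x : GH E ⊤ => Int.castAddHom ℂ (u x.1)) = (fun γ : GH E ⊤ => F (γ.1 • I) - F I) +
      fun x : GH E ⊤ => (starRingEnd ℂ).toAddMonoidHom (G' (x.1 • I) - G' I) :=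
    funext fun x => hφ x.1 x.2 I
  rw [e3, map_add, Pi.add_apply, ← e2, kil_pd C hQ hf hF, kil_pd C hQ hg.1 hG] at e1
  have e4 : C.W ℤ Q (fun γ => u γ.1) γ = 0 := by simpa using e1
  have e5 := C.nat (Int.castAddHom (ZMod 2)) Q (fun γ => u γ.1) γ
  rw [e4, map_zero, funext fun x : GH E ⊤ => h2 x.1 x.2] at e5
  exact e5.symm

omit [NeZero E] in
theorem tr_frob {k : Type} [Field k] {ρ : GQ →* GL (Fin 2) k} (h : Un ρ E) (ℓ : PA E) {φ φ' : GQ}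
    (a : IsFrob ℓ.1 φ) (b : IsFrob ℓ.1 φ') : tr ρ φ = tr ρ φ' := by
  obtain ⟨P, hP, h1, h2⟩ := a
  obtain ⟨Q, hQ, h3, h4⟩ := b
  obtain ⟨g, rfl⟩ := P027M.F.Tra.trans ℓ.2.1 hP hQ h1 h3
  have e := h _ ℓ.2.1 ℓ.2.2 (g * φ * g⁻¹ * φ'⁻¹) ⟨_, hQ, h3, fun x => by
    have h6 := Ideal.smul_mem_pointwise_smul g _ P (h2 (g⁻¹ • φ'⁻¹ • x))
    have h7 := h4 (φ'⁻¹ • x)
    rw [smul_sub, smul_pow', smul_inv_smul] at h6
    rw [smul_inv_smul] at h7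
    have h8 := Ideal.sub_mem _ h6 h7
    rw [sub_sub_sub_cancel_right] at h8
    rw [mul_smul, mul_smul, mul_smul]
    exact h8⟩
  rw [map_mul, map_inv, mul_inv_eq_one] at e
  rw [tr, tr, ← e, map_mul, map_mul, map_inv, Units.val_mul, Units.val_mul,
    Matrix.trace_units_conj]

end Ek

open Ek in
/-- **ESK** -/
theorem esk : ESK := by
  intro k _ _ ρ X E _ h4 hu ho
  have hL : Lv E := ⟨Nat.pos_of_ne_zero (NeZero.ne E), h4⟩
  have hX := P027M.J.j_min X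
  have m := ((hX.grp E hL).2.2.2.2.2.2.2 ⊤).2.1 trivial
  haveI : CFF Qb (L (GH E ⊤)) := hX.cffs _ m.hi (P027M.ES.Mid.finiteIndex hX.grp m)
  obtain ⟨A⟩ := hX.act E ⊤ hL trivial 2
  obtain ⟨κ, hκ⟩ := P027M.Th.kap0 E _ m 2 two_pos
  obtain ⟨C⟩ := ex_ch hL.pos ⊤
  choose fr hfr using fun ℓ : PA E => (P027M.TW.cy.1 _ ℓ.2.1).2
  let θ : G.Wd E →+* Wg :=
    (FreeAlgebra.lift ℤ (Sum.elim (fun ℓ => FreeAlgebra.ι ℤ (fr ℓ)) fun _ => (1 : Wg))).toRingHom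
  have t1 : ∀ ℓ, θ (FreeAlgebra.ι ℤ (Sum.inl ℓ)) = FreeAlgebra.ι ℤ (fr ℓ) := fun ℓ =>
    FreeAlgebra.lift_ι_apply _ _
  have t2 : ∀ ℓ, θ (FreeAlgebra.ι ℤ (Sum.inr ℓ)) = 1 := fun ℓ => FreeAlgebra.lift_ι_apply _ _
  have od : ∀ {Y : Type} [AddCommGroup Y] (ℓ : PA E) (y : Y), 2 • y = 0 → ℓ.1 • y = y := by
    intro Y _ ℓ y hy
    obtain ⟨j, hj⟩ := odd ℓ
    rw [hj, add_nsmul, mul_nsmul, hy, nsmul_zero, zero_add, one_nsmul]
  refine ⟨{1}, by simp, (bW ρ).comp θ, fun ℓ φ hφ => ?_, fun ℓ => ?_, fun Q hQ => ?_⟩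
  · rw [RingHom.comp_apply, G.wT, t1, bW_t]
    exact tr_frob hu ℓ (hfr ℓ) hφ
  · rw [RingHom.comp_apply, G.wS, t2, map_one]
  refine ho ⊤ (fun _ => trivial) A _ (AddMonoidHom.ext fun x => hκ.ext fun γ hγ => ?_)
  have key := word_gen (A := HA Qb (L (GH E ⊤)) 2) (B := GH E ⊤ → ZMod 2)
    (AddMonoidHom.mk' (fun x γ => κ x γ.1) fun x y => by rw [map_add]; rfl)
    ((aW (Y := HA Qb (L (GH E ⊤)) 2) A.act).comp θ) (C.W (ZMod 2)) (by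
      rintro (ℓ | ℓ) x
      · funext γ
        rw [C.W_T, RingHom.comp_apply, t1, aW_t]
        have e := hX.es E ⊤ hL trivial 2 A ℓ.1 ℓ.2.1 (nd ℓ) (fun h => ℓ.2.2 (h.mul_right E)) _
          (hfr ℓ) (ZMod.unitOfCoprime ℓ.1 ℓ.coprime) rfl x
        rw [(hX.comm E ⊤ hL trivial 2 A).2.2.2.2 _ trivial] at e
        have e' := e.trans (congrArg (A.act (fr ℓ) x + ·)
          (od (Y := HA Qb (L (GH E ⊤)) 2) ℓ _ (P027M.TW.HA_tor _)))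
        exact (congrArg (fun y => κ y γ.1) e'.symm).trans (hκ.prod two_pos X _
          (al_pos ℓ.2.1.pos (C.d ℓ)) (T := A.T ℓ.1) (A.T_rep _ ℓ.2.1 (nd ℓ) _ (C.hd ℓ)) x γ.2
          (C.s ℓ γ) (fun i => (C.g ℓ γ i).1) (fun i => (C.g ℓ γ i).2) (C.eq ℓ γ))
      · rw [C.W_S, RingHom.comp_apply, t2, map_one, od ℓ _ (funext fun γ => by
          rw [Pi.smul_apply, two_nsmul]
          exact CharTwo.add_self_eq_zero _)]
        rfl) Q x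
  refine (congrFun key ⟨γ, hγ⟩).trans ((congrFun (kil_hom hL C hQ (hκ.par x)) _).trans ?_)
  exact (congrFun (map_zero κ) γ).symm

end Vale.Agent.P022K.CH.Maz
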