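import Vale.Agent.P022K.CH.MazSpec
import Vale.Agent.P022K.Cheb.Main

/-!
# P022K, block CH, row HOM: from homomorphisms to Kummer classes
-/

set_option autoImplicit false
set_option linter.all false

open scoped MatrixGroups
open Matrix

noncomputable section

namespace Vale.Agent.P022K.CH.Maz

open Vale.Agent.P022 Vale.Agent.P019P Vale.Agent.P022D P025H816 P025H492
open Vale.Agent.P027M.M (Mdl GH L Lv Act up)
open Vale.Agent.P027M.TW (HA)
open Vale.Agent.P027M.Th (Par Kap)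
open Vale.Agent.P022.H231.L3 (IsDel al al_pos)

section abs

variable {k Y I : Type} [Field k] [AddCommGroup Y]

/-- the letter `t g` -/
abbrev tg (a : GQ →* AddMonoid.End Y) (g : GQ) : AddMonoid.End Y := a g + a g⁻¹

/-- the letters are central -/
abbrev Cen (a : GQ →* AddMonoid.End Y) : Prop := ∀ g h, Commute (a g + a g⁻¹) (a h)

theorem tg_eq {a : GQ →* AddMonoid.End Y} {g h : GQ} (e1 : a g = a h) (e2 : a g⁻¹ = a h⁻¹) :
    tg a h = tg a g := by
  rw [tg, tg, e1, e2]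

theorem odd_smul (h : ∀ y : Y, 2 • y = 0) (j : ℕ) (y : Y) : (2 * j + 1) • y = y := by
  rw [add_nsmul, mul_nsmul', h, zero_add, one_nsmul]

/-- the operator `T` acts on the classes of `c` through the scalar `t` -/
def Sc (κ : Y →+ (I → ZMod 2)) (Γ : Set I) (c : I → k) (T : AddMonoid.End Y) (t : k) : Prop :=
  ∀ (f : k →+ ZMod 2) (y : Y), (∀ γ ∈ Γ, κ y γ = f (c γ)) → ∀ γ ∈ Γ, κ (T y) γ = f (t * c γ)

theorem sc_word {κ : Y →+ (I → ZMod 2)} {Γ : Set I} {c : I → k} {a : GQ →* AddMonoid.End Y}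
    {ρ : GQ →* GL (Fin 2) k} (h : ∀ g, Sc κ Γ c (tg a g) (tr ρ g)) (Q : Wg) :
    Sc κ Γ c (aW a Q) (bW ρ Q) := by
  induction Q using FreeAlgebra.induction with
  | grade0 r =>
    intro f y hy γ hγ
    rw [eq_intCast, map_intCast, map_intCast, AddMonoid.End.intCast_apply, map_zsmul,
      Pi.smul_apply, hy γ hγ, ← map_zsmul, zsmul_eq_mul]
  | grade1 g => rw [aW_t, bW_t]; exact h g
  | mul P Q hP hQ =>
    intro f y hy γ hγ
    rw [map_mul (aW a), map_mul (bW ρ), mul_comm (bW ρ P), mul_assoc]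
    exact hP (f.comp (AddMonoidHom.mulLeft (bW ρ Q))) _ (hQ f y hy) γ hγ
  | add P Q hP hQ =>
    intro f y hy γ hγ
    rw [map_add (aW a), map_add (bW ρ), add_mul, map_add, ← hP f y hy γ hγ, ← hQ f y hy γ hγ]
    exact congrFun (map_add κ _ _) γ

theorem sep2 [CharP k 2] {z : k} (h : ∀ f : k →+ ZMod 2, f z = 0) : z = 0 := by
  letI := ZMod.algebra k 2
  haveI : Fact (Nat.Prime 2) := ⟨Nat.prime_two⟩
  exact (Module.forall_dual_apply_eq_zero_iff (ZMod 2) z).1 fun f => h f.toAddMonoidHom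

/-- from Frobenius elements to all elements -/
theorem frob_eq {M M' : Type} [Monoid M] [Monoid M'] {a : GQ →* M} {b : GQ →* M'}
    (oa : IsOpen {g | a g = 1}) (ob : IsOpen {g | b g = 1}) (S : Finset ℕ) (g : GQ) :
    ∃ l φ, l.Prime ∧ l ∉ S ∧ IsFrob l φ ∧ a φ = a g ∧ a φ⁻¹ = a g⁻¹ ∧ b φ = b g ∧
      b φ⁻¹ = b g⁻¹ := by
  obtain ⟨l, φ, hl, hS, hφ, h1, h2⟩ := Cheb.cheb (a.ker ⊓ b.ker) inferInstance (oa.inter ob) g S
  have e : φ⁻¹ = (g⁻¹ * φ)⁻¹ * g⁻¹ := by group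
  refine ⟨l, φ, hl, hS, hφ, ?_, ?_, ?_, ?_⟩
  · rw [← mul_inv_cancel_left g φ, map_mul, show a (g⁻¹ * φ) = 1 from h1, mul_one]
  · rw [e, map_mul, show a (g⁻¹ * φ)⁻¹ = 1 from a.ker.inv_mem h1, one_mul]
  · rw [← mul_inv_cancel_left g φ, map_mul, show b (g⁻¹ * φ) = 1 from h2, mul_one]
  · rw [e, map_mul, show b (g⁻¹ * φ)⁻¹ = 1 from b.ker.inv_mem h2, one_mul]

/-- additive relations that respect the letters respect the words -/
theorem rel_word {Y' : Type} [AddCommGroup Y'] {a : GQ →* AddMonoid.End Y}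
    {b : GQ →* AddMonoid.End Y'} {R : Y → Y' → Prop} (h0 : R 0 0)
    (ha : ∀ x y x' y', R x y → R x' y' → R (x + x') (y + y')) (hn : ∀ x y, R x y → R (-x) (-y))
    (h : ∀ g x y, R x y → R (tg a g x) (tg b g y)) (Q : Wg) :
    ∀ x y, R x y → R (aW a Q x) (aW b Q y) := by
  induction Q using FreeAlgebra.induction with
  | grade0 r =>
    intro x y e
    rw [eq_intCast, map_intCast, map_intCast, AddMonoid.End.intCast_apply,
      AddMonoid.End.intCast_apply]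
    exact (⟨⟨⟨{p : Y × Y' | R p.1 p.2}, fun u v => ha _ _ _ _ u v⟩, h0⟩, fun u => hn _ _ u⟩ :
      AddSubgroup (Y × Y')).zsmul_mem (x := (x, y)) e r
  | grade1 g => rw [aW_t, aW_t]; exact h g
  | mul P Q hP hQ => rw [map_mul, map_mul]; exact fun x y e => hP _ _ (hQ x y e)
  | add P Q hP hQ => rw [map_add, map_add]; exact fun x y e => ha _ _ _ _ (hP x y e) (hQ x y e)

end abs

section lev

variable {X : Mdl} {N : ℕ} {H : Subgroup (ZMod N)ˣ} [CFF Qb (L (GH N H))] (A : Act X N H 2)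
  (hL : Lv N) (hH : ∀ u, u ∈ H)

include hL hH

theorem opn2 : IsOpen {g | A.act g = 1} := (P027M.J.j_min X).opn N H hL (hH _) 2 A two_ne_zero

/-- the Eichler-Shimura relation modulo two -/
theorem es2 {l : ℕ} (hl : l.Prime) (nd : ¬ l ∣ 2 * N) {φ : GQ} (hφ : IsFrob l φ) :
    tg (Y := HA Qb (L (GH N H)) 2) A.act φ = A.T l := by
  have J := P027M.J.j_min X
  have lN : ¬ l ∣ N := fun h => nd (h.mul_left 2)
  have l2 : ¬ l ∣ 2 := fun h => nd (h.mul_right N)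
  refine AddMonoidHom.ext fun y => ?_
  have e := J.es N H hL (hH _) 2 A l hl lN l2 φ hφ
    (ZMod.unitOfCoprime l ((Nat.Prime.coprime_iff_not_dvd hl).2 lN)) rfl y
  rw [(J.comm N H hL (hH _) 2 A).2.2.2.2 _ (hH _)] at e
  obtain ⟨j, rfl⟩ := hl.eq_two_or_odd'.resolve_left fun h => l2 (h ▸ dvd_rfl)
  exact (e.trans (congrArg (A.act φ y + ·)
    (odd_smul (Y := HA Qb (L (GH N H)) 2) P027M.TW.HA_tor j _))).symm

theorem not_dvd {S : Finset ℕ} {l : ℕ} (hl : l.Prime) (h : l ∉ S ∪ (2 * N).primeFactors) :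
    ¬ l ∣ 2 * N := fun e => h (Finset.mem_union_right _
  (Nat.mem_primeFactors.2 ⟨hl, e, mul_ne_zero two_ne_zero hL.1.ne'⟩))

/-- the letters are central -/
theorem cen2 : Cen (Y := HA Qb (L (GH N H)) 2) A.act := by
  intro g h
  obtain ⟨l, φ, hl, hS, hφ, e1, e2, -⟩ := frob_eq (opn2 A hL hH) (opn2 A hL hH)
    (∅ ∪ (2 * N).primeFactors) g
  have e := (tg_eq (Y := HA Qb (L (GH N H)) 2) e1 e2).trans
    (es2 A hL hH hl (not_dvd hL hH hl hS) hφ)
  change Commute (tg (Y := HA Qb (L (GH N H)) 2) A.act g) _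
  rw [e]
  exact ((P027M.J.j_min X).comm N H hL (hH _) 2 A).2.2.1 l h

/-- additive relations that respect the Hecke operators respect the words -/
theorem rel_T {N' : ℕ} {H' : Subgroup (ZMod N')ˣ} [CFF Qb (L (GH N' H'))] (A' : Act X N' H' 2)
    (hL' : Lv N') (hH' : ∀ u, u ∈ H')
    {R : HA Qb (L (GH N H)) 2 → HA Qb (L (GH N' H')) 2 → Prop} (h0 : R 0 0)
    (ha : ∀ x y x' y', R x y → R x' y' → R (x + x') (y + y')) (hn : ∀ x y, R x y → R (-x) (-y))
    (h : ∀ l, l.Prime → ¬ l ∣ 2 * N → ¬ l ∣ 2 * N' → ∀ x y, R x y → R (A.T l x) (A'.T l y))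
    (Q : Wg) : ∀ x y, R x y → R (aW (Y := HA Qb (L (GH N H)) 2) A.act Q x)
      (aW (Y := HA Qb (L (GH N' H')) 2) A'.act Q y) := by
  refine rel_word h0 ha hn (fun g => ?_) Q
  obtain ⟨l, φ, hl, hS, hφ, e1, e2, e3, e4⟩ := frob_eq (opn2 A hL hH) (opn2 A' hL' hH')
    ((2 * N').primeFactors ∪ (2 * N).primeFactors) g
  have n1 := not_dvd hL hH hl hS
  have n2 := not_dvd hL' hH' hl (by rwa [Finset.union_comm] at hS)
  rw [(tg_eq (Y := HA Qb (L (GH N H)) 2) e1 e2).trans (es2 A hL hH hl n1 hφ),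
    (tg_eq (Y := HA Qb (L (GH N' H')) 2) e3 e4).trans (es2 A' hL' hH' hl n2 hφ)]
  exact h l hl n1 n2

end lev

theorem hom : HOM := by
  intro k _ _ ρ X N hL hy ⟨S, c, hc, c0, hT⟩ H hH
  obtain rfl : H = ⊤ := eq_top_iff.2 fun u _ => hH u
  intro _ A Q hQ
  obtain ⟨κ, hκ⟩ := P027M.Th.kap0 N _
    (((P027M.M.grp N hL).2.2.2.2.2.2.2 ⊤).2.1 (hH _)) 2 two_pos
  have key := sc_word (Y := HA Qb (L (GH N ⊤)) 2) (κ := κ) (Γ := GH N ⊤) (c := c) (a := A.act) (ρ := ρ) (fun g => ?_) Q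
  · obtain ⟨γ, hγ⟩ := Function.ne_iff.1 c0
    have hm : γ ∈ GH N ⊤ := by_contra fun h => hγ (hc.out γ h)
    refine (mul_eq_zero.1 (sep2 fun f => ?_)).resolve_right hγ
    obtain ⟨y, hy⟩ := hκ.onto (fun γ => f (c γ))
      ⟨fun a ha b hb => by rw [hc.add a ha b hb, map_add],
        fun g h hh => by rw [hc.par g h hh, map_zero], by rw [hc.neg, map_zero],
        fun a ha => by rw [hc.out a ha, map_zero]⟩
    rw [← key f y (fun γ _ => congrFun hy γ) γ hm, hQ]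
    exact congrFun (map_zero κ) γ
  · obtain ⟨l, φ, hl, hS, hφ, e1, e2, e3, -⟩ := frob_eq (opn2 A hL hH) hy.opn
      (S ∪ (2 * N).primeFactors) g
    have nd := not_dvd hL hH hl hS
    rw [tg_eq e1 e2, tr, ← e3, es2 A hL hH hl nd hφ]
    intro f y e γ hγ
    obtain ⟨d, hd, hE⟩ := hT l hl (fun h => hS (Finset.mem_union_left _ h)) φ hφ
    obtain ⟨s, g, hg, hs, e1⟩ := hE γ hγ
    have e2 := hκ.prod two_pos X _ (al_pos hl.pos d)
      (A.T_rep l hl (fun h => nd (h.mul_left 2)) d hd) y hγ s g hg hs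
    rw [Finset.sum_congr rfl fun i _ => e _ (hg i), ← map_sum, e1] at e2
    exact e2

end Vale.Agent.P022K.CH.Maz
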