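import Vale.Agent.P022K.CH.MazC

/-!
# P022K, block CH, row MAZ: two of three invariant classes
-/

set_option autoImplicit false
set_option linter.all false

noncomputable section

open IntermediateField Vale.Agent.P019P P025H746 P025H492 P025H816 Module

namespace Vale.Agent.P022K.CH.Maz

open Vale.Agent.P027M.I Vale.Agent.P027M.I.Cov

variable {C : Type} [NontriviallyNormedField C] [IsUltrametricDist C] [IsAlgClosed C]
variable {F : Type} [Field F] [Algebra C F]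

/-- the reduction has even orders -/
def Evn [CFF C F] {T : F} [FiniteDimensional C⟮T⟯ F] (w : WW C T) (f : F) : Prop :=
  ∃ c : F, w.1 (c ^ 2 * f) = 1 ∧
    ∀ x : Plk (kC C) (kap w.1), (2 : ℤ) ∣ ord x (w.1.red (c ^ 2 * f))

theorem Opp.mul {T : F} [FiniteDimensional C⟮T⟯ F] {v : Fin 2 → WW C T} {σ : F ≃+* F} {f g : F}
    (h : Opp v σ f) (h' : Opp v σ g) : Same v σ (f * g) := by
  obtain ⟨z, a, b, c⟩ := h
  obtain ⟨z', a', b', c'⟩ := h'
  have o : ∀ w : NV C F, w 1 ≤ 1 := fun w => (Node.nv_one w).le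
  have o' : ∀ w : NV C F, w (-1) ≤ 1 := fun w => by rw [NV.map_neg']; exact o _
  exact ⟨z * z', by rw [map_mul, a, a']; ring, by simpa using b.mul b' (o _) (o _),
    by simpa using c.mul c' (o' _) (o' _)⟩

variable [CharZero C] [CFF C F] {T : F} [FiniteDimensional C⟮T⟯ F] {v : Fin 2 → WW C T} {S : Finset (Br C T)}
  {σ : F ≃+* F}

theorem Nd.evn (h : Nd T v S σ) {g : F} (g0 : g ≠ 0) (hg : ∀ P : Plk C F, ((2 : ℕ) : ℤ) ∣ ord P g)
    (og : Opp v σ g) {f : F} (f0 : f ≠ 0) (hf : ∀ P : Plk C F, ((2 : ℕ) : ℤ) ∣ ord P f)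
    (hs : Same v σ f) (w : WW C T) : Evn w f := by
  obtain ⟨c, hc⟩ := ex_c w f0
  obtain ⟨d, hd⟩ := ex_c w g0
  refine ⟨c, hc, fun x => ?_⟩
  by_cases hx : x ∈ fib S w
  swap
  · exact h.even_off f0 hf w hc x hx
  obtain ⟨hb, hx⟩ := hx
  have e : (c * d) ^ 2 * (f * g) = (c ^ 2 * f) * (d ^ 2 * g) := by ring
  have a1 := h.odd (mul_ne_zero f0 g0) (fun P => by
    rw [ord_mul P f0 g0]; exact dvd_add (hf P) (hg P)) (hs.mul og) hx (c := c * d)
    (by rw [e, nv_mul, hc, hd, one_mul])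
  have a2 := h.odd g0 hg og hx hd
  change ¬ (2 : ℤ) ∣ ord x (w.1.red _) at a1 a2
  rw [e, NV.red_mul hc.le hd.le, ord_mul x (NV.red_ne_zero hc) (NV.red_ne_zero hd)] at a1
  omega

/-- **MON** -/
theorem Nd.mon (h : Nd T v S σ) {g : F} (g0 : g ≠ 0) (hg : ∀ P : Plk C F, ((2 : ℕ) : ℤ) ∣ ord P g)
    (og : Opp v σ g) {f f' z z' : F} (f0 : f ≠ 0) (hf : ∀ P : Plk C F, ((2 : ℕ) : ℤ) ∣ ord P f)
    (hz : σ f = f * z ^ 2) (f0' : f' ≠ 0) (hf' : ∀ P : Plk C F, ((2 : ℕ) : ℤ) ∣ ord P f')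
    (hz' : σ f' = f' * z' ^ 2) (w : WW C T) : Evn w f ∨ Evn w f' ∨ Evn w (f * f') := by
  rcases h.same_or f0 hz with a | a
  · exact Or.inl (h.evn g0 hg og f0 hf a w)
  rcases h.same_or f0' hz' with b | b
  · exact Or.inr (Or.inl (h.evn g0 hg og f0' hf' b w))
  exact Or.inr (Or.inr (h.evn g0 hg og (mul_ne_zero f0 f0') (fun P => by
    rw [ord_mul P f0 f0']; exact dvd_add (hf P) (hf' P)) (a.mul b) w))

end Vale.Agent.P022K.CH.Maz
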