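import Vale.Agent.P027M.G.Sub
import Vale.Agent.P027M.I.Node
import Vale.Agent.P027M.I.Spec2
import Vale.Agent.P027M.TW.HA

/-!
# P022K, block CH, row MAZ: good reduction is onto on Kummer classes
-/

set_option autoImplicit false
set_option linter.all false

noncomputable section

namespace Vale.Agent.P022K.CH.Maz

open IntermediateField Vale.Agent.P019P P025H746 P025H492 P025H816 Vale.Agent.P027M
  Vale.Agent.P027M.I

variable {C K : Type} [NontriviallyNormedField C] [IsUltrametricDist C] [IsAlgClosed C] [Field K]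
  [Algebra C K] [CFF C K] {u : NV C K} {T : K} [CFF (kC C) (kap u)] {m : ℕ}

/-- Kummer functions reduce to Kummer functions -/
theorem gd_dvd (h : Gs.Gd u T) {f : K} (hf : u f = 1) (hd : ∀ P : Plk C K, (m : ℤ) ∣ ord P f)
    (x : Plk (kC C) (kap u)) : (m : ℤ) ∣ ord x (u.red f) := by
  obtain ⟨s, hs⟩ := h.exists_sp
  obtain ⟨E, hE⟩ := Gs.exists_half hd
  rw [hs.ord hf, ← hE, Finsupp.mapDomain_smul, Finsupp.smul_apply, nsmul_eq_mul]
  exact Dvd.intro _ rfl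

/-- every Kummer class of the reduction lifts -/
theorem gd_onto (h : Gs.Gd u T) (hm : (m : kC C) ≠ 0) {y : kap u} (hy : y ≠ 0)
    (hd : ∀ x : Plk (kC C) (kap u), (m : ℤ) ∣ ord x y) : ∃ f z : K, u f = 1 ∧ u z = 1 ∧
      (∀ P : Plk C K, (m : ℤ) ∣ ord P f) ∧ y * u.red z ^ m = u.red f := by
  have m0 := Node.ne_zero_of_cast hm
  have h1 : ∀ x : HK C K m, ∃ f : divU C K m, u (f : Kˣ) = 1 ∧ QuotientGroup.mk f = x := by
    intro x
    obtain ⟨⟨f, hf⟩, rfl⟩ := QuotientGroup.mk_surjective x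
    obtain ⟨c, c0, hc⟩ := h.toFull.scale f.ne_zero
    obtain ⟨d, rfl⟩ := IsAlgClosed.exists_pow_nat_eq c (Nat.pos_of_ne_zero m0)
    have d0 : algebraMap C K d ≠ 0 := (map_ne_zero _).2 fun e => c0 (by rw [e, zero_pow m0])
    refine ⟨⟨Units.mk0 _ d0 ^ m * f, mul_mem (powU_le m ⟨_, rfl⟩) hf⟩, ?_, ?_⟩
    · rwa [Algebra.smul_def, map_pow] at hc
    · rw [eq_comm, QuotientGroup.eq, Subgroup.mem_subgroupOf]
      exact ⟨Units.mk0 _ d0, by simp [mul_comm, mul_assoc]⟩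
  choose r r1 r2 using h1
  let ρ : HK C K m → HK (kC C) (kap u) m := fun x => QuotientGroup.mk
    ⟨Units.mk0 _ (NV.red_ne_zero (r1 x)), gd_dvd h (r1 x) (r x).2⟩
  have h2 : Function.Injective ρ := fun x x' e => by
    rw [QuotientGroup.eq, Subgroup.mem_subgroupOf, mem_powU'] at e
    obtain ⟨z, hz⟩ := e
    have a1 : u ((r x : Kˣ) : K)⁻¹ = 1 := by rw [map_inv₀, r1, inv_one]
    rw [← r2 x, ← r2 x', QuotientGroup.eq, Subgroup.mem_subgroupOf, mem_powU']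
    refine h.key hm ?_ ((r x)⁻¹ * r x').2 (hz.trans ?_) <;>
      simp only [Subgroup.coe_mul, Subgroup.coe_inv, Units.val_mul, Units.val_inv_eq_inv_val,
        Units.val_mk0]
    · rw [map_mul, a1, r1, one_mul]
    · rw [NV.red_mul a1.le (r1 x').le, NV.red_inv (r1 x)]
  haveI : Finite (HK (kC C) (kap u) m) := TW.HA_finite hm
  obtain ⟨x, e⟩ := (h2.bijective_of_nat_card_le (by
    rw [card_HK hm, card_HK (Node.cast_ne_zero hm), h.gen_eq])).2
    (QuotientGroup.mk ⟨Units.mk0 y hy, hd⟩)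
  rw [eq_comm, QuotientGroup.eq, Subgroup.mem_subgroupOf, mem_powU'] at e
  obtain ⟨z, hz⟩ := e
  obtain ⟨z, z1, rfl⟩ := NV.red_surj z
  have z2 : u.red z ^ m = y⁻¹ * u.red (r x : Kˣ) := by simpa using hz
  refine ⟨_, z, r1 x, Gs.w_eq_one z1 fun e => ?_, (r x).2, by rw [z2, mul_inv_cancel_left₀ hy]⟩
  rw [e, zero_pow m0] at z2
  exact mul_ne_zero (inv_ne_zero hy) (NV.red_ne_zero (r1 x)) z2.symm

variable {K₀ : Type} [Field K₀] [Algebra C K₀] [Algebra K K₀] [IsScalarTower C K K₀]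

/-- **RED**: a function whose reduction is a Kummer function comes from below -/
theorem red_lift (h : Gs.Gd u T) (hm : (m : kC C) ≠ 0) {v : NV C K₀} [CFF (kC C) (kap v)]
    (ext : ∀ y, v (algebraMap K K₀ y) = u y)
    (den : ∀ y, v y ≤ 1 → ∃ y', v (y - algebraMap K K₀ y') < 1) {f : K₀} {c : C}
    (h1 : v (algebraMap C K₀ c * f) = 1)
    (h2 : ∀ x : Plk (kC C) (kap v), (m : ℤ) ∣ ord x (v.red (algebraMap C K₀ c * f))) :
    ∃ f' : K, f' ≠ 0 ∧ (∀ P : Plk C K, (m : ℤ) ∣ ord P f') ∧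
      Triv m v (f / algebraMap K K₀ f') := by
  haveI : NVExt u v := ⟨ext⟩
  let e : kap u ≃ₐ[kC C] kap v := AlgEquiv.ofBijective (IsScalarTower.toAlgHom _ _ _)
    ⟨RingHom.injective _, rm_surj (algebraMap K K₀) ext den⟩
  have he : ∀ x, u x ≤ 1 → e (u.red x) = v.red (algebraMap K K₀ x) := fun x hx =>
    (red_algebraMap' hx).symm
  obtain ⟨y, hy⟩ := e.surjective (v.red (algebraMap C K₀ c * f))
  obtain ⟨g, z, a1, a2, a3, a4⟩ := gd_onto h hm (y := y)
    (fun e0 => NV.red_ne_zero h1 (by rw [← hy, e0, map_zero]))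
    fun x => by rw [← ord_tr e, hy]; exact h2 _
  obtain ⟨d, rfl⟩ := IsAlgClosed.exists_pow_nat_eq c (Nat.pos_of_ne_zero (Node.ne_zero_of_cast hm))
  refine ⟨g, Gs.ne_of_w a1, a3, algebraMap C K₀ d * algebraMap K K₀ z, ?_⟩
  have b1 : v (algebraMap K K₀ z) = 1 := (ext z).trans a2
  have b2 : v (algebraMap K K₀ g) = 1 := (ext g).trans a1
  have b3 := NV.mul_le_one h1.le (NV.pow_le_one' b1.le m)
  have b4 := (red_eq_iff b3 b2.le).1 (by
    rw [NV.red_mul h1.le (NV.pow_le_one' b1.le m), NV.red_pow b1.le, ← hy, ← he z a2.le,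
      ← he g a1.le, ← a4, map_mul, map_pow])
  have b5 := Gs.ne_of_w b2
  rw [show f / algebraMap K K₀ g * (algebraMap C K₀ d * algebraMap K K₀ z) ^ m - 1 =
    (algebraMap C K₀ (d ^ m) * f * algebraMap K K₀ z ^ m - algebraMap K K₀ g) *
      (algebraMap K K₀ g)⁻¹ by rw [map_pow, mul_pow]; field_simp, map_mul, map_inv₀, b2, inv_one, mul_one]
  exact b4

/-- the same for Kronecker data -/
theorem red_kr {T : K} [CFF C K₀] [FiniteDimensional C⟮T⟯ K]
    [FiniteDimensional C⟮algebraMap K K₀ T⟯ K₀] {q : ℕ} {W : K₀ ≃ₐ[C] K₀} {u' : WW C T}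
    {w : NV C K₀} {v : Fin 2 → WW C (algebraMap K K₀ T)} (kr : Kr C T q W u' w)
    (tw : Two C K (algebraMap K K₀ T) W w v) (hm : (m : kC C) ≠ 0) {f : K₀} {c : C}
    (h1 : (v 0).1 (algebraMap C K₀ c * f) = 1)
    (h2 : ∀ x : Plk (kC C) (kap (v 0).1), (m : ℤ) ∣ ord x ((v 0).1.red (algebraMap C K₀ c * f))) :
    ∃ f' : K, f' ≠ 0 ∧ (∀ P : Plk C K, (m : ℤ) ∣ ord P f') ∧
      Triv m w (f / algebraMap K K₀ f') := by
  haveI : Subsingleton (WW C T) := ⟨fun a b => (kr.one a).trans (kr.one b).symm⟩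
  have := red_lift (G.gd_of_cd kr.full kr.good.le u') hm (v := (v 0).1) (tw.v0 ▸ kr.ext)
    (tw.v0 ▸ tw.den) h1 h2
  rwa [tw.v0] at this

end Vale.Agent.P022K.CH.Maz
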