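import Vale.Agent.P022K.CH.MazSpec
import Vale.Agent.P022K.CH.MazRed
import Vale.Agent.P022K.CH.MazD
import Vale.Agent.P027M.J.All

/-!
# P022K, block CH, row MAZ: classes with trivial reduction are stable under the words
-/

set_option autoImplicit false
set_option linter.all false

open scoped MatrixGroups IntermediateField

noncomputable section

namespace Vale.Agent.P022K.CH.Maz

open Vale.Agent.P022 Vale.Agent.P019P P025H746 P025H492 P025H816 Vale.Agent.P027M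
  Vale.Agent.P027M.M Vale.Agent.P027M.TW Vale.Agent.P027M.G Vale.Agent.P027M.G.Wi
  Vale.Agent.P027M.J Vale.Agent.P027M.I.I2a Vale.Agent.P022.H542.L3 Vale.Agent.P022.H218.L3
  Vale.Agent.P022.H231.L3 Vale.Agent.P022.H236.L3
open Vale.Agent.P027M.I (Triv WW Kr Two)

section words

variable {Y Y' : Type} [AddCommGroup Y] [AddCommGroup Y']

/-- a ring which contains almost all Frobenius letters contains all words -/
theorem words_mem (a : GQ →* AddMonoid.End Y) (ho : IsOpen {g | a g = 1})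
    (R : Subring (AddMonoid.End Y)) (S : Finset ℕ)
    (h : ∀ l φ, l.Prime → l ∉ S → IsFrob l φ → a φ + a φ⁻¹ ∈ R) (Q : Wg) : aW a Q ∈ R := by
  have key : ∀ g, a g + a g⁻¹ ∈ R := fun g => by
    obtain ⟨l, φ, k, h1, h2, h3, h4⟩ := P022D.G.frob a.ker inferInstance ho g S
    have h5 : a (g⁻¹ * φ ^ k) = 1 := h4
    have e1 : a g = a (φ ^ k) := by
      rw [← mul_one (a g), ← h5, ← map_mul, mul_inv_cancel_left]
    have e2 : a g⁻¹ = a (φ ^ k)⁻¹ := by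
      rw [← one_mul (a (φ ^ k)⁻¹), ← h5, ← map_mul, mul_inv_cancel_right]
    have ht := h l φ h1 h2 h3
    have st : ∀ k, a (φ ^ k) + a (φ ^ k)⁻¹ ∈ R ∧ a (φ ^ (k + 1)) + a (φ ^ (k + 1))⁻¹ ∈ R := by
      intro k
      induction k with
      | zero =>
        rw [pow_zero, inv_one, map_one, zero_add, pow_one]
        exact ⟨add_mem (one_mem R) (one_mem R), ht⟩
      | succ k ih =>
        refine ⟨ih.2, ?_⟩
        have e : a (φ ^ (k + 1 + 1)) + a (φ ^ (k + 1 + 1))⁻¹ =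
            (a φ + a φ⁻¹) * (a (φ ^ (k + 1)) + a (φ ^ (k + 1))⁻¹) - (a (φ ^ k) + a (φ ^ k)⁻¹) := by
          rw [add_mul, mul_add, mul_add, ← map_mul, ← map_mul, ← map_mul, ← map_mul,
            show φ * φ ^ (k + 1) = φ ^ (k + 1 + 1) by group,
            show φ * (φ ^ (k + 1))⁻¹ = (φ ^ k)⁻¹ by group,
            show φ⁻¹ * φ ^ (k + 1) = φ ^ k by group,
            show φ⁻¹ * (φ ^ (k + 1))⁻¹ = (φ ^ (k + 1 + 1))⁻¹ by group]
          abel
        rw [e]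
        exact sub_mem (mul_mem ht ih.2) ih.1
    rw [e1, e2]
    exact (st k).1
  induction Q using FreeAlgebra.induction with
  | grade0 r =>
    rw [eq_intCast, map_intCast]
    exact intCast_mem R r
  | grade1 g =>
    rw [aW_t]
    exact key g
  | mul P Q hP hQ =>
    rw [map_mul]
    exact mul_mem hP hQ
  | add P Q hP hQ =>
    rw [map_add]
    exact add_mem hP hQ

/-- the endomorphisms which keep a subgroup -/
def stabR (B : AddSubgroup Y) : Subring (AddMonoid.End Y) where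
  carrier := {f | ∀ y ∈ B, f y ∈ B}
  mul_mem' hf hg y hy := hf _ (hg y hy)
  one_mem' _ hy := hy
  add_mem' hf hg y hy := B.add_mem (hf y hy) (hg y hy)
  zero_mem' _ _ := B.zero_mem
  neg_mem' hf y hy := B.neg_mem (hf y hy)

theorem words_stab (a : GQ →* AddMonoid.End Y) (ho : IsOpen {g | a g = 1}) (B : AddSubgroup Y)
    (S : Finset ℕ) (h : ∀ l φ, l.Prime → l ∉ S → IsFrob l φ → ∀ y ∈ B, a φ y + a φ⁻¹ y ∈ B)
    (Q : Wg) {y : Y} (hy : y ∈ B) : aW a Q y ∈ B :=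
  words_mem a ho (stabR B) S h Q y hy

/-- equivariant maps commute with the words -/
theorem aW_map {a : GQ →* AddMonoid.End Y} {a' : GQ →* AddMonoid.End Y'} (f : Y →+ Y')
    (h : ∀ g y, f (a g y) = a' g (f y)) (Q : Wg) : ∀ y, f (aW a Q y) = aW a' Q (f y) := by
  induction Q using FreeAlgebra.induction with
  | grade0 r =>
    intro y
    rw [eq_intCast, map_intCast, map_intCast, AddMonoid.End.intCast_apply,
      AddMonoid.End.intCast_apply, map_zsmul]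
  | grade1 g =>
    intro y
    rw [aW_t, aW_t]
    change f (a g y + a g⁻¹ y) = a' g (f y) + a' g⁻¹ (f y)
    rw [map_add, h, h]
  | mul P Q hP hQ =>
    intro y
    rw [map_mul, map_mul]
    exact (hP _).trans (congrArg (aW a' P) (hQ y))
  | add P Q hP hQ =>
    intro y
    rw [map_add, map_add]
    change f (aW a P y + aW a Q y) = aW a' P (f y) + aW a' Q (f y)
    rw [map_add, hP, hQ]

theorem sup_row {a : GQ →* AddMonoid.End Y} {a' : GQ →* AddMonoid.End Y'} (j : Y' →+ Y)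
    (hj : ∀ g y, j (a' g y) = a g (j y)) (B : AddSubgroup Y) (hB : ∀ Q, ∀ y ∈ B, aW a Q y ∈ B) :
    ∃ Y₀ : AddSubgroup Y, (∀ Q, ∀ y ∈ Y₀, aW a Q y ∈ Y₀) ∧
      (∀ Q, aW a' Q = 0 → ∀ y ∈ Y₀, aW a Q y ∈ B) ∧ ∀ y y', y - j y' ∈ B → y ∈ Y₀ := by
  have key : ∀ Q, ∀ y ∈ B ⊔ j.range, ∃ b ∈ B, ∃ c, aW a Q y = b + j (aW a' Q c) := fun Q y hy => by
    obtain ⟨b, hb, _, ⟨c, rfl⟩, rfl⟩ := AddSubgroup.mem_sup.1 hy
    exact ⟨_, hB Q b hb, c, by rw [map_add, aW_map j hj]⟩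
  refine ⟨B ⊔ j.range, fun Q y hy => ?_, fun Q hQ y hy => ?_, fun y y' h =>
    AddSubgroup.mem_sup.2 ⟨_, h, _, ⟨y', rfl⟩, sub_add_cancel _ _⟩⟩
  · obtain ⟨b, hb, c, e⟩ := key Q y hy
    exact AddSubgroup.mem_sup.2 ⟨b, hb, _, ⟨_, rfl⟩, e.symm⟩
  · obtain ⟨b, hb, c, e⟩ := key Q y hy
    rw [e, hQ]
    change b + j 0 ∈ _
    rwa [map_zero, add_zero]

end words

section tv

variable {C F : Type} [NontriviallyNormedField C] [IsUltrametricDist C] [IsAlgClosed C] [Field F]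
  [Algebra C F] (k : Type) [Field k] [Algebra k F] [CFF k F] (u : NV C F) (m : ℕ)

/-- the classes with trivial reduction -/
def Trv : AddSubgroup (HA k F m) where
  carrier := {y | ∃ x hx, cl x hx = y ∧ Triv m u (x : F)}
  add_mem' := by
    rintro _ _ ⟨x, hx, rfl, a⟩ ⟨y, hy, rfl, b⟩
    exact ⟨x * y, mul_mem hx hy, rfl, triv_mul a b⟩
  zero_mem' := ⟨1, one_mem _, rfl, 1, by simp⟩
  neg_mem' := by
    rintro _ ⟨x, hx, rfl, a⟩
    exact ⟨x⁻¹, inv_mem hx, rfl, by rw [Units.val_inv_eq_inv_val]; exact triv_inv a⟩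

variable {k u m}

theorem mem_Trv {x : Fˣ} {hx : x ∈ divU k F m} : cl x hx ∈ Trv k u m ↔ Triv m u (x : F) := by
  refine ⟨?_, fun h => ⟨x, hx, rfl, h⟩⟩
  rintro ⟨y, hy, e, z, hz⟩
  obtain ⟨c, hc⟩ := (cl_eq hy hx).1 e
  have e1 : (y : F) = x * c ^ m := by
    have : c ^ m = y / x := hc
    rw [← Units.val_pow_eq_pow_val, ← Units.val_mul, this, mul_div_cancel]
  exact ⟨c * z, by rwa [mul_pow, ← mul_assoc, ← e1]⟩

theorem one_prod {I : Type} (s : Finset I) (f : I → F) (h : ∀ i ∈ s, u (f i - 1) < 1) :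
    u (∏ i ∈ s, f i - 1) < 1 := by
  refine Finset.prod_induction f (fun x => u (x - 1) < 1) (fun x y hx hy => ?_) (by simp) h
  rw [show x * y - 1 = (x - 1) * y + (y - 1) by ring]
  refine NV.add_lt ?_ hy
  rwa [map_mul, eq_one_of hy, mul_one]

end tv

section inf

variable {A : AV} {O : ValuationSubring ℂ} {W : ValuationSubring LS} {w : NV (Qv A) FF}

theorem val_ze {N : ℕ} (hN : 0 < N) (b : ℤ) : O.valuation (ze N b) = 1 := by
  have h : ze N b ^ N = 1 := by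
    have : (N : ℂ) ≠ 0 := Nat.cast_ne_zero.2 hN.ne'
    rw [ze, ← Complex.exp_nat_mul, ← Complex.exp_int_mul_two_pi_mul_I b]
    congr 1
    field_simp
  have h1 := congrArg O.valuation h
  rw [map_pow, map_one] at h1
  exact (pow_eq_one_iff_of_nonneg zero_le' hN.ne').1 h1

theorem val_rs (hW : Wok O W) {ζ : ℂ} (h0 : ζ ≠ 0) (hζ : O.valuation ζ = 1) (m : ℕ) (hm : 0 < m)
    {a : LS} (h : ∀ n, a.coeff n ∈ O) (h1 : ∃ n, a.coeff n = 1) :
    W.valuation (sb m hm (rs ζ h0 a)) = 1 := by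
  have z : ∀ n : ℤ, ζ ^ n ∈ O := fun n =>
    (O.valuation_le_one_iff _).1 (by rw [map_zpow₀, hζ, one_zpow])
  have h2 : ∀ n, (sb m hm (rs ζ h0 a)).coeff n ∈ O := sb_mem m hm fun n => mul_mem (z n) (h n)
  obtain ⟨n, hn⟩ := h1
  have e : (sb m hm (rs ζ h0 a)).coeff (m * n) = ζ ^ n := by
    rw [coeff_sb_mul, coeff_rs, hn, mul_one]
  have h3 := (W.valuation_le_one_iff _).2 (hW.inv _ h2
    ⟨m * n, by rw [e, ← zpow_neg]; exact z _, by rw [e]; exact zpow_ne_zero _ h0⟩)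
  have h4 : sb m hm (rs ζ h0 a) ≠ 0 := fun h5 => by
    rw [h5] at e
    exact zpow_ne_zero n h0 e.symm
  refine le_antisymm (val_le hW h2) ?_
  rwa [map_inv₀, inv_le_one₀ ((Valuation.pos_iff _).2 h4)] at h3

/-- upper triangular matrices keep the norm at infinity -/
theorem w_up (X : Mdl) (hI : Inf O w) {a d : ℕ} (b : ℤ) (ha : 0 < a) (hd : 0 < d)
    (hA : 0 < (!![(a : ℤ), b; 0, (d : ℤ)] : M2).det) (x : FF) : w (X.pb _ hA x) = w x := by
  rcases eq_or_ne x 0 with rfl | x0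
  · rw [map_zero]
  obtain ⟨W, hW⟩ := H619.L3.chev O
  obtain ⟨N, hN, s, h⟩ := exists_ex x
  obtain ⟨c, u, v, c0, c1, -, -, a1, b1, a2, b2, e⟩ := x_prim x x0 N s hN h O
  obtain ⟨c, rfl⟩ := H116.exists_preimage io c1
  have d0 : c ≠ 0 := fun e => c0 (by rw [e, map_zero])
  have e1 := congrArg W.valuation e
  rw [map_mul, map_mul, prim_val hW a1 a2, prim_val hW b1 b2, mul_one, mul_one] at e1
  have h' := M.exp.2.1 N a d b ha hd hN hA s _ h
  rw [← X.pb_coe] at h'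
  have z := val_ze (O := O) (Nat.mul_pos hN hd) b
  have e2 := congrArg (fun z => W.valuation (sb a ha (rs (ze (N * d) b) (ze_ne _ _) z))) e
  simp only [map_mul, rs_C, sb_C] at e2
  rw [val_rs hW _ z a ha a1 a2, val_rs hW _ z a ha b1 b2, mul_one, mul_one] at e2
  rw [val_eq hI hW hN h d0 e1, val_eq hI hW (Nat.mul_pos hN hd) h' d0 e2]

variable {N : ℕ} {H : Subgroup (ZMod N)ˣ}

theorem w_al (X : Mdl) (hI : Inf O w) (hH : ∀ u, u ∈ H) {l : ℕ} (h0 : 0 < l) {d : SL(2, ℤ)}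
    (hd : (N : ℤ) ∣ d 1 0) {y : FF} (hy : y ∈ L (GH N H)) (i : Option (Fin l)) :
    w (X.pb (al 1 l d i) (al_pos h0 d i) y) = w y := by
  cases i with
  | none =>
    obtain ⟨u, hu⟩ := exists_unit hd
    exact (congrArg w (Wq_eq X h0 d y)).trans ((Kro.w_Vq x_prim M.exp X hI h0 _).trans
      (congrArg w ((Hec.mem_L_iff X).1 hy d ⟨hd, u, hH u, hu⟩)))
  | some j =>
    have e : (!![((1 : ℕ) : ℤ), ((j : ℕ) : ℤ); 0, (l : ℤ)] : M2) = al 1 l d (some j) := by simp [al]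
    rw [← Hec.pb_congr X e (e ▸ al_pos h0 d (some j))]
    exact w_up X hI _ one_pos h0 _ y

variable [CFF Qb (L (GH N H))] {X : Mdl}

/-- `T_l` keeps the classes with trivial reduction at infinity -/
theorem Trv_T (hI : Inf O w) (hN : Lv N) (hH : ∀ u, u ∈ H) {m : ℕ} (Ac : Act X N H m) {l : ℕ}
    (hl : l.Prime) (hd : ¬ l ∣ N) {u : NV (Qv A) (L (GH N H))} (hu : ∀ y, u y = w y)
    {y : HA Qb (L (GH N H)) m} (hy : y ∈ Trv Qb u m) : Ac.T l y ∈ Trv Qb u m := by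
  obtain ⟨d, hd'⟩ := IsDel.exists 1 N l (by
    rw [one_mul]
    exact Nat.isCoprime_iff_coprime.2 ((Nat.Prime.coprime_iff_not_dvd hl).2 hd))
  obtain ⟨x, hx, rfl⟩ := cl_surj y
  obtain ⟨x', hx', e1, e2⟩ := Ac.T_rep l hl hd d hd' x hx
  obtain ⟨z, hz⟩ := mem_Trv.1 hy
  rw [show Ac.T l (cl x hx) = cl x' hx' from e2, mem_Trv]
  refine ⟨⟨X.T hl.pos d z, ((x_hec1 X N H hN z z.2).2.2.1 l hl hd d hd').1⟩, ?_⟩
  rw [hu] at hz ⊢
  change w (((x' : L (GH N H)) : FF) * X.T hl.pos d z ^ m - 1) < 1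
  rw [e1, ← map_pow, ← map_mul, Hec.T_apply]
  refine one_prod _ _ fun i _ => ?_
  rw [← map_one (X.pb (al 1 l d i) (al_pos hl.pos d i)), ← map_sub]
  exact (w_al X hI hH hl.pos hd'.1 ((x : L (GH N H)) * z ^ m - 1).2 i).trans_lt hz

/-- the relation of Eichler and Shimura modulo two -/
theorem T_word (hN : Lv N) (hH : ∀ u, u ∈ H) (Ac : Act X N H 2) {l : ℕ} (hl : l.Prime)
    (hd : ¬ l ∣ N) {φ : GQ} (hφ : IsFrob l φ) (y : HA Qb (L (GH N H)) 2) :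
    Ac.T l y = Ac.act φ y + Ac.act φ⁻¹ y := by
  have h2 : ¬ l ∣ 2 := fun e => hd (e.trans (Dvd.dvd.trans ⟨2, rfl⟩ hN.four))
  obtain ⟨a, ha⟩ : ∃ a : (ZMod N)ˣ, (a : ZMod N) = l :=
    ⟨ZMod.unitOfCoprime l ((Nat.Prime.coprime_iff_not_dvd hl).2 hd), rfl⟩
  rw [(j_min X).es N H hN (hH _) 2 Ac l hl hd h2 φ hφ a ha,
    ((j_min X).comm N H hN (hH _) 2 Ac).2.2.2.2 a (hH a)]
  obtain ⟨k, rfl⟩ := hl.odd_of_ne_two (fun e => h2 (e ▸ dvd_rfl))
  rw [add_nsmul, one_nsmul, mul_nsmul', HA_tor]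
  exact congrArg _ (zero_add (M := HA Qb (L (GH N H)) 2) (Ac.act φ⁻¹ y))

/-- a subgroup which is stable under almost all `T_l` is stable under the words -/
theorem T_stab (hN : Lv N) (hH : ∀ u, u ∈ H) (Ac : Act X N H 2)
    (B : AddSubgroup (HA Qb (L (GH N H)) 2))
    (h : ∀ l : ℕ, l.Prime → ¬ l ∣ N → ∀ y ∈ B, Ac.T l y ∈ B) (Q : Wg)
    {y : HA Qb (L (GH N H)) 2} (hy : y ∈ B) : aW (Y := HA Qb (L (GH N H)) 2) Ac.act Q y ∈ B := by
  refine words_stab (Y := HA Qb (L (GH N H)) 2) Ac.act ((j_min X).opn N H hN (hH _) 2 Ac two_ne_zero) B N.primeFactors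
    (fun l φ hl hS hφ y hy => ?_) Q hy
  have hd : ¬ l ∣ N := fun e => hS (Nat.mem_primeFactors.2 ⟨hl, e, hN.pos.ne'⟩)
  rw [← T_word hN hH Ac hl hd hφ]
  exact h l hl hd y hy

/-- **the words keep the classes with trivial reduction at infinity** -/
theorem Trv_aW (hI : Inf O w) (hN : Lv N) (hH : ∀ u, u ∈ H) (Ac : Act X N H 2)
    {u : NV (Qv A) (L (GH N H))} (hu : ∀ y, u y = w y) (Q : Wg) {y : HA Qb (L (GH N H)) 2}
    (hy : y ∈ Trv Qb u 2) : aW (Y := HA Qb (L (GH N H)) 2) Ac.act Q y ∈ Trv Qb u 2 :=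
  T_stab hN hH Ac _ (fun _ hl hd _ hy => Trv_T hI hN hH Ac hl hd hu hy) Q hy

/-- **RED in the model** -/
theorem red_mod (hI : Inf O w) {N' : ℕ} (hd : N' ∣ N) {H' : Subgroup (ZMod N')ˣ} (hN : Lv N)
    (hN' : Lv N') (hH : ∀ u, u ∈ H) (hH' : ∀ u, u ∈ H') (h : GH N H ≤ GH N' H')
    [CFF Qb (L (GH N' H'))] (Ac : Act X N H 2) (A' : Act X N' H' 2)
    {u : NV (Qv A) (L (GH N H))} (hu : ∀ y, u y = w y) :
    ∃ Y₀ : AddSubgroup (HA Qb (L (GH N H)) 2), (∀ Q, ∀ y ∈ Y₀, aW (Y := HA Qb (L (GH N H)) 2) Ac.act Q y ∈ Y₀) ∧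
      (∀ Q, aW (Y := HA Qb (L (GH N' H')) 2) A'.act Q = 0 → ∀ y ∈ Y₀, aW (Y := HA Qb (L (GH N H)) 2) Ac.act Q y ∈ Trv Qb u 2) ∧
      letI := algL h
      ∀ (x : (L (GH N H))ˣ) (hx : x ∈ divU Qb (L (GH N H)) 2) (f : L (GH N' H')), f ≠ 0 →
        (∀ P : Plk Qb (L (GH N' H')), ((2 : ℕ) : ℤ) ∣ ord P f) →
        Triv 2 u (x / algebraMap (L (GH N' H')) (L (GH N H)) f) → cl x hx ∈ Y₀ := by
  obtain ⟨j, -, j1, -, j2, -⟩ := (j_min X).lev N' N hd H' H hN' hN (hH' _) (hH _) h 2 A' Ac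
  obtain ⟨Y₀, a, b, c⟩ := sup_row (Y := HA Qb (L (GH N H)) 2) (Y' := HA Qb (L (GH N' H')) 2)
    (a := Ac.act) (a' := A'.act) j j2 (Trv Qb u 2) fun Q _ hy => Trv_aW hI hN hH Ac hu Q hy
  refine ⟨Y₀, a, b, fun x hx f f0 f1 f2 => ?_⟩
  obtain ⟨y, hy, e1, e2⟩ := j1 (Units.mk0 f f0) f1
  refine c _ (cl (Units.mk0 f f0) f1) ?_
  rw [e2]
  refine (mem_Trv (hx := div_mem hx hy)).2 ?_
  rw [Units.val_div_eq_div_val]
  convert f2 using 2
  exact Subtype.ext e1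

/-- **RED**: the form used in the assembly -/
theorem red_row (hI : Inf O w) (h2 : ((2 : ℕ) : kC (Qv A)) ≠ 0) {N' : ℕ} (hd : N' ∣ N)
    {H' : Subgroup (ZMod N')ˣ} (hN : Lv N) (hN' : Lv N') (hH : ∀ u, u ∈ H) (hH' : ∀ u, u ∈ H')
    (h : GH N H ≤ GH N' H') [CFF Qb (L (GH N' H'))] (Ac : Act X N H 2) (A' : Act X N' H' 2) :
    letI := algL h
    haveI := towerV A h
    ∀ {T : L (GH N' H')} [FiniteDimensional (Qv A)⟮T⟯ (L (GH N' H'))]
      [FiniteDimensional (Qv A)⟮algebraMap (L (GH N' H')) (L (GH N H)) T⟯ (L (GH N H))] {q : ℕ}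
      {W : L (GH N H) ≃ₐ[Qv A] L (GH N H)} {u' : WW (Qv A) T}
      {v : Fin 2 → WW (Qv A) (algebraMap (L (GH N' H')) (L (GH N H)) T)},
      Kr (Qv A) T q W u' (w.comap (L (GH N H))) →
      Two (Qv A) (L (GH N' H')) (algebraMap (L (GH N' H')) (L (GH N H)) T) W
        (w.comap (L (GH N H))) v →
      ∃ Y₀ : AddSubgroup (HA Qb (L (GH N H)) 2), (∀ Q, ∀ y ∈ Y₀, aW (Y := HA Qb (L (GH N H)) 2) Ac.act Q y ∈ Y₀) ∧
        (∀ Q, aW (Y := HA Qb (L (GH N' H')) 2) A'.act Q = 0 → ∀ y ∈ Y₀, aW (Y := HA Qb (L (GH N H)) 2) Ac.act Q y ∈ Trv Qb (v 0).1 2) ∧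
        ∀ (x : (L (GH N H))ˣ) (hx : x ∈ divU Qb (L (GH N H)) 2),
          Evn (v 0) (x : L (GH N H)) → cl x hx ∈ Y₀ := by
  letI := algL h
  haveI := towerV A h
  intro T _ _ q W u' v kr tw
  obtain ⟨Y₀, a, b, c⟩ := red_mod hI hd hN hN' hH hH' h Ac A' (u := (v 0).1)
    fun y => by rw [tw.v0]; rfl
  refine ⟨Y₀, a, b, fun x hx ⟨z, z1, z2⟩ => ?_⟩
  obtain ⟨f, f0, f1, y, hy⟩ := red_kr kr tw h2 (f := z ^ 2 * x) (c := 1)
    (by rwa [map_one, one_mul]) (by rw [map_one, one_mul]; exact z2)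
  refine c x hx f f0 f1 ⟨z * y, ?_⟩
  rw [tw.v0]
  convert hy using 3
  ring

end inf

end Vale.Agent.P022K.CH.Maz
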