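import Vale.Agent.P022K.CH.MazGeo

/-!
# P022K, block CH, row CORE of MAZ: Frobenius on the toric part
-/

set_option autoImplicit false
set_option linter.all false

noncomputable section

open IntermediateField Vale.Agent.P019P P025H746 P025H492 Module

namespace Vale.Agent.P022K.CH.Maz

open Vale.Agent.P027M.I Vale.Agent.P027M.I.Node

namespace Sw

variable {C : Type} [NontriviallyNormedField C] [IsUltrametricDist C] [IsAlgClosed C]
variable {F : Type} [Field F] [Algebra C F] [CFF C F] {T : F} [FiniteDimensional C⟮T⟯ F]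

variable (C) in
/-- `g` keeps the model of `T` -/
structure Nm (g : F ≃+* F) (s : C ≃+* C) (T : F) : Prop where
  semi : Semi C g s
  up : ∀ w : WW C T, ∃ w' : WW C T, ∀ y, w'.1 (g y) = w.1 y
  dn : ∀ w' : WW C T, ∃ w : WW C T, ∀ y, w'.1 (g y) = w.1 y
  pl : ∀ P : Plk C F, T ∈ P.1 ↔ g T ∈ P.1

variable {g : F ≃+* F} {s : C ≃+* C}

theorem Nm.bb (h : Nm C g s T) {f : F} : BB C T (g f) ↔ BB C T f := by
  have key : ∀ (P : Plk C F) x, g x ∈ (plEquiv g s h.semi.1 P).1 ↔ x ∈ P.1 := fun P x => by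
    rw [AuxFAct.mem_plEquiv, g.symm_apply_apply]
  refine ⟨fun hf => ⟨fun w => ?_, fun P hP => ?_⟩, fun hf => ⟨fun w => ?_, fun P hP => ?_⟩⟩
  · obtain ⟨w', e⟩ := h.up w
    rw [← e]
    exact hf.1 w'
  · exact (key P f).1 (hf.2 _ ((h.pl _).2 ((key P T).2 hP)))
  · obtain ⟨w', e⟩ := h.dn w
    rw [e]
    exact hf.1 w'
  · obtain ⟨Q, rfl⟩ := (plEquiv g s h.semi.1).surjective P
    exact (key Q f).2 (hf.2 _ ((key Q T).1 ((h.pl _).1 hP)))

theorem Nm.tw (h : Nm C g s T) (b : Br C T) : ∃ b' : Br C T, Tw (g : F →+* F) b b' := by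
  obtain ⟨w', hw'⟩ := h.up b.w
  have h1 : BB C T (g.symm T) := h.bb.1 (by rw [g.apply_symm_apply]; exact BB.self)
  obtain ⟨b', -, hb'⟩ := exists_tw (g : F →+* F) h.semi.1 h.semi.2 b w' hw'
    (fun y' _ => ⟨g.symm y', by simp⟩) ⟨g.symm T, h1.1 _, h1.red_mem b, by simp⟩
  exact ⟨b', hb'⟩

theorem Nm.glue (h : Nm C g s T) {b₁ b₁' b₂ b₂' : Br C T} (h₁ : Tw (g : F →+* F) b₁ b₁')
    (h₂ : Tw (g : F →+* F) b₂ b₂') (hg : Glue b₁ b₂) : Glue b₁' b₂' := by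
  rw [glue_iff_zero] at hg ⊢
  intro f hf
  obtain ⟨f, rfl⟩ := g.surjective f
  have hf' := h.bb.1 hf
  exact (h₁.ev_zero (hf'.1 _) (hf'.red_mem _)).trans ((hg f hf').trans
    (h₂.ev_zero (hf'.1 _) (hf'.red_mem _)).symm)

variable {L : Type} [Field L] [Algebra C L] [Algebra F L] [IsScalarTower C F L] [CFF C L]
  [FiniteDimensional F L]

theorem Nm.lift (h : Nm C g s T) {G : L ≃+* L}
    (hG : ∀ x, G (algebraMap F L x) = algebraMap F L (g x)) : Nm C G s (algebraMap F L T) := by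
  have hs : Semi C G s := ⟨fun a => by
    rw [IsScalarTower.algebraMap_apply C F L, hG, h.semi.1, ← IsScalarTower.algebraMap_apply],
    h.semi.2⟩
  refine ⟨hs, fun w => ?_, fun w => ?_, fun P => ?_⟩
  · obtain ⟨u, hu⟩ := h.up ⟨w.1.comap F, w.2.comap⟩
    have : NVExt u.1 (pullNV (G.symm : L →+* L) hs.symm.1 hs.symm.2 w.1) := ⟨fun x => by
      obtain ⟨x, rfl⟩ := g.surjective x
      rw [hu, ← hG]
      exact congrArg w.1 (G.symm_apply_apply _)⟩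
    exact ⟨⟨_, (this.overG).2 u.2⟩, fun y => congrArg w.1 (G.symm_apply_apply y)⟩
  · obtain ⟨u, hu⟩ := h.dn ⟨w.1.comap F, w.2.comap⟩
    have : NVExt u.1 (pullNV (G : L →+* L) hs.1 hs.2 w.1) := ⟨fun x => by
      rw [← hu]
      exact congrArg w.1 (hG x)⟩
    exact ⟨⟨_, (this.overG).2 u.2⟩, fun y => rfl⟩
  · rw [hG]
    exact h.pl (down F P)

theorem pm {y : L} {f : F} (hy : y ^ 2 = algebraMap F L f) (τ : L ≃ₐ[F] L) :
    τ y = y ∨ τ y = -y :=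
  sq_eq_sq_iff_eq_or_eq_neg.1 (by rw [← map_pow, hy, τ.commutes])

theorem sq_one {Y : Set L} (hY : IntermediateField.adjoin F Y = ⊤)
    (hy : ∀ y ∈ Y, ∃ f : F, y ^ 2 = algebraMap F L f) (τ : L ≃ₐ[F] L) : τ * τ = 1 :=
  eq_one_of_gen hY fun y h => by
    obtain ⟨f, hf⟩ := hy y h
    rcases pm hf τ with e | e
    · rw [AlgEquiv.mul_apply, e, e]
    · rw [AlgEquiv.mul_apply, e, map_neg, e, neg_neg]

variable [FiniteDimensional C⟮algebraMap F L T⟯ L] [IsGalois F L]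

/-- glued pairs lie over glued pairs -/
theorem pair_down {S : Finset (Br C T)} (hS : Nodal C T S) (hF : Full C (algebraMap F L T))
    {S' : Finset (Br C (algebraMap F L T))} (hS' : Nodal C _ S')
    (hm : ∀ b', b' ∈ S' ↔ ∃ b ∈ S, Tw (algebraMap F L) b b') {c c' : Br C (algebraMap F L T)}
    (hc : c ∈ S') (hc' : c' ∈ S') (hne : c' ≠ c) (hg : Glue c c') :
    ∃ b ∈ S, ∃ b' ∈ S, b' ≠ b ∧ Glue b b' ∧ Tw (algebraMap F L) b c ∧ Tw (algebraMap F L) b' c' := by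
  obtain ⟨b, hb, t⟩ := (hm c).1 hc
  obtain ⟨b', hb', n, g'⟩ := hS.2 b hb
  obtain ⟨c₂, t₂, g₂⟩ := lift' C F L T b b' g' c t
  have e : c' = c₂ := (acl' C L _ hF S' hS').1 c hc c' hc' c₂ ((hm c₂).2 ⟨b', hb', t₂⟩) hne
    (by rintro rfl; exact n (t₂.inj_left t)) hg g₂
  exact ⟨b, hb, b', hb', n, g', t, e ▸ t₂⟩

theorem core [CharZero C] (hF : Full C T) {S : Finset (Br C T)} (hS : Nodal C T S)
    {v : Fin 2 → WW C T} (hne : v 0 ≠ v 1) (hall : ∀ u, ∃ i, u = v i)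
    (hsep : ∀ b b' : Br C T, b.w = b'.w → Glue b b' → b = b') (hm : ((2 : ℕ) : kC C) ≠ 0)
    (h : Nm C g s T) (hb : ∀ b b' : Br C T, b' ≠ b → Glue b b' → Tw (g : F →+* F) b b')
    {Y : Set L} (hY : IntermediateField.adjoin F Y = ⊤)
    (hy : ∀ y ∈ Y, ∃ f : F, y ^ 2 = algebraMap F L f ∧ (∀ P : Plk C F, ((2 : ℕ) : ℤ) ∣ ord P f) ∧
      ∀ w : WW C T, w.1 (f - 1) < 1)
    (G₀ : L ≃+* L) (hG₀ : ∀ x, G₀ (algebraMap F L x) = algebraMap F L (g x)) {y : L} {f : F}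
    (hy0 : y ≠ 0) (hyf : y ^ 2 = algebraMap F L f) : ∃ z : F, z ≠ 0 ∧ g f = f * z ^ 2 := by
  have hfree := free (T := T) hm hY fun y hyY => by
    obtain ⟨f, h1, -, h2⟩ := hy y hyY
    exact ⟨f, h1, h2⟩
  have hsq := sq_one hY fun y hyY => by
    obtain ⟨f, h1, -⟩ := hy y hyY
    exact ⟨f, h1⟩
  have hinv : ∀ τ : L ≃ₐ[F] L, τ⁻¹ = τ := fun τ => inv_eq_of_mul_eq_one_right (hsq τ)
  have hcom : ∀ τ ρ : L ≃ₐ[F] L, τ * ρ = ρ * τ := fun τ ρ => by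
    rw [← hinv (τ * ρ), mul_inv_rev, hinv, hinv]
  obtain ⟨hFL, -, S', hS', hS''⟩ := cov' C F L T hF S hS
    (isUnr_radicals hY fun y hyY => by
      obtain ⟨f, h1, h2, -⟩ := hy y hyY
      exact ⟨2, f, cast_ne_zero hm, h1, h2⟩)
    (deg_ne hm hY fun y hyY => by
      obtain ⟨f, h1, -⟩ := hy y hyY
      exact ⟨f, h1⟩)
    (fun v => ⟨1, fun τ => by
      rw [Subgroup.zpowers_one_eq_bot, Subgroup.mem_bot]
      exact ⟨hfree τ v, by rintro rfl y; rfl⟩⟩)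
  have huq := (acl' C L _ hFL S' hS').1
  obtain ⟨trw, trb'⟩ := trb C F L T
  obtain ⟨b₀, hb₀⟩ : ∃ b, b ∈ S := by
    by_contra hc
    rcases cong' C F T hF S hS {v 0} (fun b hb => absurd ⟨b, hb⟩ hc) with h3 | h3
    · exact absurd h3 (Set.singleton_ne_empty _)
    · exact hne (Set.mem_singleton_iff.1 (h3 ▸ Set.mem_univ (v 1))).symm
  obtain ⟨c₀, t₀⟩ := (trb' b₀).2.1
  have m₀ := (hS'' c₀).2 ⟨b₀, hb₀, t₀⟩
  obtain ⟨c₁, m₁, n₁, g₁⟩ := hS'.2 c₀ m₀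
  have hov : ∀ {G : L ≃+* L}, (∀ x, G (algebraMap F L x) = algebraMap F L (g x)) →
      ∀ {b b' : Br C T} {c c' : Br C (algebraMap F L T)}, Tw (g : F →+* F) b b' →
      Tw (algebraMap F L) b c → Tw (G : L →+* L) c c' → Tw (algebraMap F L) b' c' :=
    fun {G} hG _ _ _ _ h0 h1 h2 => ((h0.symm.comp h1).comp h2).congr fun x => by
      change _ = G (algebraMap F L (g.symm x))
      rw [hG, g.apply_symm_apply]
  obtain ⟨G, hG, r₀⟩ : ∃ G : L ≃+* L, (∀ x, G (algebraMap F L x) = algebraMap F L (g x)) ∧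
      Tw (G : L →+* L) c₀ c₁ := by
    obtain ⟨b, -, b', -, n, g', t, t'⟩ := pair_down hS hFL hS' hS'' m₀ m₁ n₁ g₁
    obtain ⟨c₂, r⟩ := (h.lift hG₀).tw c₀
    obtain ⟨τ, r'⟩ := (trb' b').2.2.2 c₂ c₁ (hov hG₀ (hb b b' n g') t r) t'
    exact ⟨G₀.trans (τ : L ≃+* L), fun x => by
      change τ (G₀ _) = _
      rw [hG₀, τ.commutes], r.comp r'⟩
  have hN := h.lift hG
  have r₁ : Tw (G : L →+* L) c₁ c₀ := by
    obtain ⟨b, hb', b', -, n, g', t, t'⟩ := pair_down hS hFL hS' hS'' m₀ m₁ n₁ g₁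
    obtain ⟨c₂, r⟩ := hN.tw c₁
    have t₂ := hov hG (hb b' b n.symm g'.symm) t' r
    rwa [huq c₁ m₁ c₀ m₀ c₂ ((hS'' _).2 ⟨b, hb', t₂⟩) n₁.symm
      (by rintro rfl; exact n (t'.inj_left t₂)) g₁.symm (hN.glue r₀ r g₁)]
  have hcj : ∀ a : L ≃ₐ[F] L, ∃ α : L ≃ₐ[F] L, ∀ y, α (G y) = G (a y) := fun a =>
    ⟨AlgEquiv.ofRingEquiv (f := (G.symm.trans (a : L ≃+* L)).trans G) fun x => by
      obtain ⟨x, rfl⟩ := g.surjective x
      change G (a (G.symm _)) = _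
      rw [← hG x, G.symm_apply_apply, a.commutes], fun y => by
      change G (a (G.symm _)) = _
      rw [G.symm_apply_apply]⟩
  have heq : ∀ (p : WW C (algebraMap F L T)) (a a' : L ≃ₐ[F] L), (∀ y, p.1 (a y) = p.1 (a' y)) →
      a = a' := fun p a a' e => mul_inv_eq_one.1 (hfree _ p fun y => by
        rw [AlgEquiv.mul_apply, e, ← AlgEquiv.mul_apply, mul_inv_cancel, AlgEquiv.one_apply])
  have hcw : ∀ (a a' : L ≃ₐ[F] L) y, a (a' y) = a' (a y) := fun a a' y => by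
    rw [← AlgEquiv.mul_apply, hcom, AlgEquiv.mul_apply]
  have hii : ∀ (a : L ≃ₐ[F] L) y, a (a y) = y := fun a y => by
    rw [← AlgEquiv.mul_apply, hsq, AlgEquiv.one_apply]
  have two : ∀ u u' u'' : WW C T, u ≠ u' → u ≠ u'' → u' = u'' := fun u u' u'' h1 h2 => by
    obtain ⟨i, rfl⟩ := hall u
    obtain ⟨j, rfl⟩ := hall u'
    obtain ⟨k, rfl⟩ := hall u''
    have a1 : i ≠ j := fun e => h1 (e ▸ rfl)
    have a2 : i ≠ k := fun e => h2 (e ▸ rfl)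
    rw [show j = k by omega]
  have step : ∀ d₀ d₁ : Br C (algebraMap F L T), d₀ ∈ S' → d₁ ∈ S' → d₁ ≠ d₀ → Glue d₀ d₁ →
      Tw (G : L →+* L) d₀ d₁ → Tw (G : L →+* L) d₁ d₀ → ∀ c ∈ S', ∀ c' ∈ S', c' ≠ c → Glue c c' →
      ∀ τ : L ≃ₐ[F] L, (∀ y, τ (G y) = G (τ y)) → (∀ y, c.w.1 y = d₀.w.1 (τ y)) →
      ∃ a : L ≃ₐ[F] L, (∀ y, a (G y) = G (a y)) ∧ ∀ y, c'.w.1 y = d₁.w.1 (a y) := by
    intro d₀ d₁ k₀ k₁ kn kg q₀ q₁ c mc c' mc' n gl τ hτ e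
    obtain ⟨b, -, b', -, nb, gb, t, t'⟩ := pair_down hS hFL hS' hS'' mc mc' n gl
    obtain ⟨e₀, -, e₁, -, ne', ge, u₀, u₁⟩ := pair_down hS hFL hS' hS'' k₀ k₁ kn kg
    have w₀ : b.w = e₀.w := Subtype.ext (P025H992.nv_ext fun x => by
      rw [← t.1, e, τ.commutes, u₀.1])
    have w₁ : b'.w = e₁.w := two b.w _ _ (fun e' => nb (hsep b b' e' gb).symm)
      fun e' => ne' (hsep e₀ e₁ (w₀ ▸ e') ge).symm
    obtain ⟨a, ha⟩ := trw c'.w d₁.w fun x => by rw [t'.1, u₁.1, w₁]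
    obtain ⟨α, hα⟩ := hcj a
    obtain ⟨c₂, r₂⟩ := hN.tw c
    obtain ⟨c₃, r₃⟩ := hN.tw c'
    have t₂ := hov hG (hb b b' nb gb) t r₂
    have t₃ := hov hG (hb b' b nb.symm gb.symm) t' r₃
    obtain ⟨ρ, rρ⟩ := (trb' b).2.2.2 c c₃ t t₃
    obtain ⟨c₄, t₄, r₄⟩ := I1b.ex_tw ρ t'
    obtain ⟨b₁, mb, tb⟩ := (hS'' c).1 mc
    obtain ⟨b₂, mb', tb'⟩ := (hS'' c').1 mc'
    obtain rfl := tb.inj_left t
    obtain rfl := tb'.inj_left t'
    obtain rfl : c₂ = c₄ := huq c₃ ((hS'' _).2 ⟨_, mb, t₃⟩) c₂ ((hS'' _).2 ⟨_, mb', t₂⟩) c₄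
      ((hS'' _).2 ⟨_, mb', t₄⟩) (by rintro rfl; exact nb (t₂.inj_left t₃))
      (by rintro rfl; exact nb (t₄.inj_left t₃)) (hN.glue r₃ r₂ gl.symm)
      ((Lift.semi (C := C) ρ).glue (ρ.commutes T) rρ r₄ gl)
    have f1 : τ * ρ = a := heq d₁.w _ _ fun x => by
      obtain ⟨z, hz⟩ := G.surjective (ρ x)
      have e1 : c₂.w.1 (G z) = c.w.1 z := r₂.1 z
      have e2 : c₂.w.1 (ρ x) = c'.w.1 x := r₄.1 x
      have e3 : d₁.w.1 (G (τ z)) = d₀.w.1 (τ z) := q₀.1 _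
      rw [AlgEquiv.mul_apply, ← hz, hτ, e3, ← e, ← e1, hz, e2, ha]
    have f2 : α * ρ = τ := heq d₀.w _ _ fun x => by
      obtain ⟨z, hz⟩ := G.surjective (ρ x)
      have e1 : c₃.w.1 (G z) = c'.w.1 z := r₃.1 z
      have e2 : c₃.w.1 (ρ x) = c.w.1 x := rρ.1 x
      have e3 : d₀.w.1 (G (a z)) = d₁.w.1 (a z) := q₁.1 _
      rw [AlgEquiv.mul_apply, ← hz, hα, e3, ha, ← e1, hz, e2, e]
    have f3 : α = a := by rw [← f1, ← f2, mul_assoc, hsq, mul_one]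
    exact ⟨a, f3 ▸ hα, fun y => (ha y).symm⟩
  have hcomm : ∀ (τ : L ≃ₐ[F] L) y, τ (G y) = G (τ y) := by
    rcases cong' C L _ hFL S' hS' {p | ∃ τ : L ≃ₐ[F] L, (∀ y, τ (G y) = G (τ y)) ∧
      ((∀ y, p.1 y = c₀.w.1 (τ y)) ∨ ∀ y, p.1 y = c₁.w.1 (τ y))} (fun c mc c' mc' gl hc => by
        by_cases n : c' = c
        · rwa [n]
        obtain ⟨τ, hτ, e | e⟩ := hc
        · obtain ⟨a, a1, a2⟩ := step c₀ c₁ m₀ m₁ n₁ g₁ r₀ r₁ c mc c' mc' n gl τ hτ e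
          exact ⟨a, a1, Or.inr a2⟩
        · obtain ⟨a, a1, a2⟩ := step c₁ c₀ m₁ m₀ n₁.symm g₁.symm r₁ r₀ c mc c' mc' n gl τ hτ e
          exact ⟨a, a1, Or.inl a2⟩) with h1 | h1
    · exact absurd h1 (Set.Nonempty.ne_empty ⟨c₀.w, 1, fun _ => rfl, Or.inl fun _ => rfl⟩)
    · intro τ
      obtain ⟨p, hp⟩ := (Lift.semi (C := C) τ).exists_w (τ.commutes T) c₀.w
      obtain ⟨τ', a1, e | e⟩ : p ∈ _ := h1 ▸ Set.mem_univ p
      · rw [heq c₀.w τ τ' fun x => by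
          rw [← e]
          exact (hp (τ x)).symm.trans (congrArg p.1 (hii τ x))]
        exact a1
      · obtain ⟨b, -, b', -, n, g', t, t'⟩ := pair_down hS hFL hS' hS'' m₀ m₁ n₁ g₁
        refine absurd (hsep b b' (Subtype.ext (P025H992.nv_ext fun x => ?_)) g').symm n
        rw [← t.1, ← t'.1, ← hp]
        exact (congrArg p.1 (τ.commutes x)).trans ((e _).trans (congrArg c₁.w.1 (τ'.commutes x)))
  obtain ⟨z, hz⟩ := (IsGalois.mem_range_algebraMap_iff_fixed (F := F) (G y / y)).2 fun τ => by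
    rcases pm hyf τ with e | e
    · rw [map_div₀, hcomm, e]
    · rw [map_div₀, hcomm, e, map_neg, neg_div_neg_eq]
  refine ⟨z, fun h0 => ?_, (algebraMap F L).injective ?_⟩
  · rw [h0, map_zero] at hz
    exact div_ne_zero ((map_ne_zero G).2 hy0) hy0 hz.symm
  · rw [← hG, ← hyf, map_mul, map_pow, map_pow, hz, ← hyf, div_pow,
      mul_div_cancel₀ _ (pow_ne_zero _ hy0)]

/-- an automorphism which inverts every node acts trivially on the toric part -/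
theorem swap [CharZero C] (hF : Full C T) {S : Finset (Br C T)} (hS : Nodal C T S)
    {v : Fin 2 → WW C T} (hne : v 0 ≠ v 1) (hall : ∀ u, ∃ i, u = v i)
    (hsep : ∀ b b' : Br C T, b.w = b'.w → Glue b b' → b = b') (hm : ((2 : ℕ) : kC C) ≠ 0)
    (h : Nm C g s T) (hb : ∀ b b' : Br C T, b' ≠ b → Glue b b' → Tw (g : F →+* F) b b')
    {f : F} (hf : ∀ P : Plk C F, ((2 : ℕ) : ℤ) ∣ ord P f) (htr : ∀ w : WW C T, Triv 2 w.1 f) :
    ∃ z : F, z ≠ 0 ∧ g f = f * z ^ 2 := by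
  let Ω := AlgebraicClosure F
  let Y : Set Ω := {y | ∃ f : F, y ^ 2 = algebraMap F Ω f ∧
    (∀ P : Plk C F, ((2 : ℕ) : ℤ) ∣ ord P f) ∧ ∀ w : WW C T, w.1 (f - 1) < 1}
  have hn0 : ∀ f : F, (∀ w : WW C T, w.1 (f - 1) < 1) → f ≠ 0 := fun f h1 h0 => by
    have := (eq_one_of_sub (h1 hF.nonempty.some)).2
    rw [h0, NV.red_zero] at this
    exact zero_ne_one this
  let L := IntermediateField.adjoin F Y
  haveI : FiniteDimensional F L := fin_roots (C := C) (cast_ne_zero hm) fun y ⟨f, h1, h2, h3⟩ =>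
    ⟨f, hn0 f h3, h1, h2⟩
  haveI : CFF C L := cff_of_finite (K := F)
  let H : Ω ≃+* Ω := IsAlgClosure.equivOfEquiv Ω Ω g
  have hH : ∀ x, H (algebraMap F Ω x) = algebraMap F Ω (g x) :=
    IsAlgClosure.equivOfEquiv_algebraMap Ω Ω g
  have hH' : ∀ x, H.symm (algebraMap F Ω x) = algebraMap F Ω (g.symm x) :=
    IsAlgClosure.equivOfEquiv_symm_algebraMap Ω Ω g
  have hY : ∀ y ∈ Y, H y ∈ Y := fun y ⟨f, h1, h2, h3⟩ =>
    ⟨g f, by rw [← map_pow, h1, hH], h.semi.dvd_ord h2, fun w => by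
      obtain ⟨w', e⟩ := h.dn w
      rw [← map_one g, ← map_sub, e]
      exact h3 w'⟩
  have hY' : ∀ y ∈ Y, H.symm y ∈ Y := fun y ⟨f, h1, h2, h3⟩ =>
    ⟨g.symm f, by rw [← map_pow, h1, hH'], h.semi.symm.dvd_ord h2, fun w => by
      obtain ⟨w', e⟩ := h.up w
      rw [← e, map_sub, map_one, g.apply_symm_apply]
      exact h3 w'⟩
  let G : L ≃+* L :=
    { toFun := fun x => ⟨H x, map_mem H g hH hY x.2⟩
      invFun := fun x => ⟨H.symm x, map_mem H.symm g.symm hH' hY' x.2⟩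
      left_inv := fun x => Subtype.ext (H.symm_apply_apply x)
      right_inv := fun x => Subtype.ext (H.apply_symm_apply x)
      map_mul' := fun x y => Subtype.ext (map_mul H x.1 y.1)
      map_add' := fun x y => Subtype.ext (map_add H x.1 y.1) }
  obtain ⟨z₀, hz₀, h1⟩ := exists_norm two_ne_zero htr hF.nonempty
  have hf1 := hn0 _ h1
  have hf0 : f ≠ 0 := left_ne_zero_of_mul hf1
  obtain ⟨y, hy⟩ := IsAlgClosed.exists_pow_nat_eq (algebraMap F Ω (f * z₀ ^ 2)) two_pos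
  have hyY : y ∈ Y := ⟨_, hy, fun P => by
    rw [ord_mul P hf0 (pow_ne_zero 2 hz₀), ord_pow]
    exact dvd_add (hf P) (dvd_mul_right _ _), h1⟩
  have hgen : IntermediateField.adjoin F {x : L | (x : Ω) ∈ Y} = ⊤ := lift_injective L (by
    rw [lift_adjoin, lift_top]
    congr 1
    ext x
    exact ⟨by rintro ⟨x, hx, rfl⟩; exact hx, fun hx => ⟨⟨x, subset_adjoin _ _ hx⟩, hx, rfl⟩⟩)
  haveI : IsGalois F L := isGalois_radicals (k := C) hgen fun x ⟨f, h1, _⟩ =>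
    ⟨2, f, cast_ne_zero hm, Subtype.ext h1⟩
  haveI : FiniteDimensional C⟮algebraMap F L T⟯ L := finite_adjoin_map
  obtain ⟨z, hz, h2⟩ := core (L := L) hF hS hne hall hsep hm h hb hgen
    (fun x ⟨f, h1, h2, h3⟩ => ⟨f, Subtype.ext h1, h2, h3⟩) G (fun x => Subtype.ext (hH x))
    (y := ⟨y, subset_adjoin _ _ hyY⟩) (f := f * z₀ ^ 2) (fun h0 => by
      have h3 : y = 0 := congrArg Subtype.val h0
      rw [h3, zero_pow two_ne_zero, eq_comm, map_eq_zero] at hy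
      exact hf1 hy) (Subtype.ext hy)
  have h3 : g z₀ ≠ 0 := (map_ne_zero g).2 hz₀
  refine ⟨z₀ * z / g z₀, div_ne_zero (mul_ne_zero hz₀ hz) h3, ?_⟩
  rw [map_mul, map_pow] at h2
  rw [div_pow, ← mul_div_assoc, eq_div_iff (pow_ne_zero 2 h3), h2]
  ring

end Sw

open Sw in
/-- **SWP** -/
theorem swp : SWP := by
  intro C K' K₀ _ _ _ _ _ _ _ _ _ _ _ _ _ T _ _ v S q W u φ s hF' hcd tw hS hm hq hφ hφT hWW huφ hE
    f hf htr
  let g : K₀ ≃+* K₀ := (W : K₀ ≃+* K₀).trans φ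
  have hg : ∀ y, g y = φ (W y) := fun _ => rfl
  have h01 : ∀ w, w = v 0 ∨ w = v 1 := fun w => by
    obtain ⟨i, rfl⟩ := tw.all w
    fin_cases i
    exacts [Or.inl rfl, Or.inr rfl]
  have g0 : ∀ y, (v 0).1 (g y) = (v 1).1 y := fun y => by rw [hg, tw.v0, huφ, tw.v1]
  have g1 : ∀ y, (v 1).1 (g y) = (v 0).1 y := fun y => by
    obtain ⟨w', e⟩ := hφ.exists_w hφT (v 1)
    rcases h01 w' with rfl | rfl
    · exact absurd (Subtype.ext (P025H992.nv_ext fun x => by rw [← e, tw.v0, huφ])) tw.ne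
    · rw [hg, e, tw.v1, hWW, tw.v0]
  have hN : Nm C g s (algebraMap K' K₀ T) := by
    refine ⟨⟨fun c => by rw [hg, W.commutes, hφ.1], hφ.2⟩, fun w => ?_, fun w => ?_, fun P => ?_⟩
    · rcases h01 w with rfl | rfl
      exacts [⟨_, g1⟩, ⟨_, g0⟩]
    · rcases h01 w with rfl | rfl
      exacts [⟨_, g0⟩, ⟨_, g1⟩]
    · obtain ⟨Q, rfl⟩ := (plEquiv φ s hφ.1).surjective P
      rw [hg, AuxFAct.mem_plEquiv, AuxFAct.mem_plEquiv, φ.symm_apply_apply, symm_fix hφT]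
      exact tw.pl Q
  obtain ⟨B1, hsepf⟩ := pts' C K' K₀ T (algebraMap K' K₀ T) (IsScalarTower.toAlgHom C K' K₀) hF' hcd
    (fun w => w.2) fun _ hP => hP
  have key : ∀ b b' : Br C (algebraMap K' K₀ T), b.w = v 0 → b'.w = v 1 → Glue b b' →
      Tw (g : K₀ →+* K₀) b' b ∧ Tw (g : K₀ →+* K₀) b b' := by
    intro b b' hb hb' gl
    obtain ⟨b₂, h₂⟩ := hN.tw b'
    obtain ⟨b₃, h₃⟩ := hN.tw b
    have w₂ : b₂.w = v 0 := Subtype.ext (P025H992.nv_ext fun y => by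
      obtain ⟨y, rfl⟩ := g.surjective y
      rw [g0, ← hb']
      exact h₂.1 y)
    have w₃ : b₃.w = v 1 := Subtype.ext (P025H992.nv_ext fun y => by
      obtain ⟨y, rfl⟩ := g.surjective y
      rw [g1, ← hb]
      exact h₃.1 y)
    obtain rfl : b = b₂ := by
      refine hsepf b b₂ (hb.trans w₂.symm) (by rw [hb, tw.v0]; exact tw.den) fun x hx => ?_
      have hx' : BB C (algebraMap K' K₀ T) (algebraMap K' K₀ x) := B1 x hx
      have e1 := h₂.ev_zero (hx'.1 _) (hx'.red_mem _)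
      have e2 : b₂.ev (redv C _ (g (algebraMap K' K₀ x))) =
          b₂.ev (redv C _ (algebraMap K' K₀ x)) ^ q := I2a.ev_frob b₂ hx' (by
        rw [w₂, tw.v0]
        exact hE x (tw.v0 ▸ hx'.1 (v 0)))
      change b.ev (redv C _ (algebraMap K' K₀ x)) = 0 ↔ b₂.ev (redv C _ (algebraMap K' K₀ x)) = 0
      rw [gl _ hx', ← e1, ← pow_eq_zero_iff (a := b₂.ev (redv C _ (algebraMap K' K₀ x))) hq, ← e2]
      rfl
    refine ⟨h₂, ?_⟩
    rwa [tw.sep b' b₃ (hb'.trans w₃.symm) (gl.symm.trans (hN.glue h₂ h₃ gl.symm))]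
  refine swap tw.full hS tw.ne tw.all tw.sep hm hN (fun b b' n gl => ?_) hf.2 htr
  have hw : b'.w ≠ b.w := fun e => n (tw.sep b' b e gl.symm)
  rcases h01 b.w with e | e
  · exact (key b b' e ((h01 b'.w).resolve_left (e ▸ hw)) gl).2
  · exact (key b' b ((h01 b'.w).resolve_right (e ▸ hw)) e gl.symm).1

end Vale.Agent.P022K.CH.Maz
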