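import Vale.Agent.P022K.CH.MazSpec
import Vale.Agent.P022K.CH.MazTwoA
import Vale.Agent.P022D.G.Ops
import Vale.Agent.P022D.V.IrrB
import Vale.Agent.P022.H353.Lift
import Vale.Agent.P022.H933.St.Bridge

/-!
# P022K, block CH, row MAZ: the powers of two leave the level
-/

set_option autoImplicit false
set_option linter.all false

open UpperHalfPlane hiding I
open Matrix CongruenceSubgroup Function.Periodic
open scoped MatrixGroups ModularForm

noncomputable section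

namespace Vale.Agent.P022K.CH.Maz

open Vale.Agent.P022 Vale.Agent.P022D Vale.Agent.P022.H353 Vale.Agent.P022.H218.L3
open Vale.Agent.P022.H220 (Ex)
open Vale.Agent.P022.H645 (two Gs)

namespace Tw

section ball

variable (ι : ℂ ≃+* ℂ_[2])

/-- the integers of the place -/
def ball : ValuationSubring ℂ where
  carrier := {z | ‖ι z‖ ≤ 1}
  mul_mem' {a b} h k := by
    show ‖ι (a * b)‖ ≤ 1
    rw [map_mul, norm_mul]
    exact mul_le_one₀ h (norm_nonneg _) k
  one_mem' := by simp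
  add_mem' {a b} h k := by
    show ‖ι (a + b)‖ ≤ 1
    rw [map_add]
    exact (IsUltrametricDist.norm_add_le_max _ _).trans (max_le h k)
  zero_mem' := by simp
  neg_mem' {a} h := by simpa using h
  mem_or_inv_mem' a := (le_total ‖ι a‖ 1).imp_right fun h => by
    show ‖ι a⁻¹‖ ≤ 1
    rw [map_inv₀, norm_inv]
    exact inv_le_one_of_one_le₀ h

theorem mem_ball {z : ℂ} : z ∈ ball ι ↔ ‖ι z‖ ≤ 1 := Iff.rfl

theorem arch : Irr.Arch (ball ι) := fun a h ha h0 => by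
  have p : 0 < ‖ι h‖ := norm_pos_iff.2 ((map_ne_zero ι).2 h0)
  obtain ⟨m, hm⟩ := pow_unbounded_of_one_lt ‖ι h‖⁻¹ (not_le.1 (mt (mem_ball ι).2 ha))
  refine ⟨m, ?_⟩
  rw [mem_ball, not_le, map_mul, map_pow, norm_mul, norm_pow]
  rwa [inv_lt_iff_one_lt_mul₀' p] at hm

theorem norm_two : ‖ι 2‖ = 2⁻¹ := by
  rw [map_ofNat, ← map_ofNat (algebraMap ℚ_[2] ℂ_[2]) 2]
  refine (PadicComplex.norm_extends' 2 _).trans ?_
  simpa using Padic.norm_p (p := 2)

theorem mem_two {m : ℤ} {z : ℂ} : z ∈ two (ball ι).toSubring m ↔ ‖ι z‖ ≤ 2⁻¹ ^ m := by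
  have p : (0 : ℝ) < 2⁻¹ ^ m := by positivity
  constructor
  · rintro ⟨y, hy, rfl⟩
    rw [map_mul, norm_mul, map_zpow₀, norm_zpow, norm_two]
    exact mul_le_of_le_one_right p.le hy
  · intro h
    refine ⟨(2 ^ m)⁻¹ * z, ?_, by rw [mul_inv_cancel_left₀ (zpow_ne_zero _ two_ne_zero)]⟩
    show ‖ι _‖ ≤ 1
    rwa [map_mul, norm_mul, map_inv₀, norm_inv, map_zpow₀, norm_zpow, norm_two,
      inv_mul_le_iff₀ p, mul_one]

/-- bounded denominators at all cusps -/
theorem bdd {N k : ℕ} [NeZero N] (f : MF N k) : ∃ B : ℕ, ∀ γ : SL(2, ℤ),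
    Ex (two (ball ι).toSubring (-(B : ℤ))) N ((f : ℍ → ℂ) ∣[(k : ℤ)] γ) := by
  have h1 : IsMF (Gamma N) k f := (isMF_of_form (Gamma1 N) f).mono fun γ h => by
    rw [Gamma_mem] at h
    rw [Gamma1_mem]
    exact ⟨h.1, h.2.2.2, h.2.2.1⟩
  obtain ⟨c, c0, hc⟩ := Irr.bnd (ball ι) (arch ι) (NeZero.pos N) h1
  have p : 0 < ‖ι c‖ := norm_pos_iff.2 ((map_ne_zero ι).2 c0)
  obtain ⟨B, hB⟩ := pow_unbounded_of_one_lt ‖ι c‖⁻¹ (one_lt_two (α := ℝ))
  refine ⟨B, fun γ => ⟨fun n => (qExpansion (N : ℝ) ((f : ℍ → ℂ) ∣[(k : ℤ)] γ)).coeff n,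
    fun n => (mem_two ι).2 ?_, fun τ => ?_⟩⟩
  · have h2 := (mem_ball ι).1 (hc γ n)
    rw [map_mul, norm_mul, ← le_inv_mul_iff₀ p, mul_one] at h2
    rw [_root_.inv_zpow', neg_neg, zpow_natCast]
    exact h2.trans hB.le
  · have h2 := Irr.conjN h1 γ
    have hr : (0 : ℝ) < N := by exact_mod_cast NeZero.pos N
    have h3 := h2.slash _ (Irr.T_pow_Gamma N)
    rw [← zpow_natCast] at h3
    have hp : Function.Periodic (((f : ℍ → ℂ) ∣[(k : ℤ)] γ) ∘ ofComplex) (N : ℝ) := by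
      generalize (f : ℍ → ℂ) ∣[(k : ℤ)] γ = g at h3
      intro z
      by_cases hz : 0 < z.im
      · have hz' : 0 < (z + (N : ℝ)).im := by simpa using hz
        have := congrFun h3 ⟨z, hz⟩
        rw [ModularForm.SL_slash_apply, ModularGroup.denom_apply, ModularGroup.coe_T_zpow,
          UpperHalfPlane.modular_T_zpow_smul] at this
        simp only [Function.comp_apply, ofComplex_apply_of_im_pos hz,
          ofComplex_apply_of_im_pos hz']
        rw [← this]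
        simp only [of_apply, cons_val', cons_val_zero, cons_val_one, cons_val_fin_one,
          Int.cast_zero, zero_mul, Int.cast_one, zero_add, _root_.one_zpow, mul_one]
        congr 1
        ext
        simp [add_comm]
      · have hz' : ¬ 0 < (z + (N : ℝ)).im := by simpa using hz
        simp only [Function.comp_apply]
        rw [ofComplex_apply_eq_of_im_nonpos (not_lt.1 hz') (not_lt.1 hz)]
    refine H220.hs_congr' (UpperHalfPlane.hasSum_qExpansion hr hp h2.hol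
      (by simpa using h2.bdd 1) τ) fun n => ?_
    rw [smul_eq_mul, qParam, ← Complex.exp_nat_mul]
    congr 2
    push_cast
    ring

end ball

section words

variable {M s : ℕ}

/-- the same prime, for the larger level -/
def up (s : ℕ) (ℓ : PA M) : PA (M * 2 ^ s) := ⟨ℓ.1, ℓ.2.1, fun h => ℓ.2.2 (by
  rw [← mul_assoc] at h
  exact (ℓ.2.1.dvd_mul.1 h).elim id fun h => (ℓ.2.1.dvd_of_dvd_pow h).mul_right M)⟩

/-- the same word, for the larger level -/
def ren (M s : ℕ) : G.Wd M →ₐ[ℤ] G.Wd (M * 2 ^ s) :=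
  FreeAlgebra.lift ℤ fun x => FreeAlgebra.ι ℤ (Sum.map (up s) (up s) x)

theorem wd_ren (P : G.Wd M) : H761.Wd ℂ (M * 2 ^ s) (ren M s P) = H761.Wd ℂ M P := by
  refine AlgHom.congr_fun (show (H761.Wd ℂ (M * 2 ^ s)).comp (ren M s) = H761.Wd ℂ M from
    FreeAlgebra.hom_ext (funext fun x => ?_)) P
  simp only [Function.comp_apply, AlgHom.comp_apply, ren, H761.Wd, FreeAlgebra.lift_ι_apply]
  cases x <;> rfl

theorem cop_up {δ : ℕ} (h : Nat.Coprime δ (2 * M)) : Nat.Coprime δ (2 * (M * 2 ^ s)) :=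
  Nat.Coprime.mul_right (Nat.Coprime.coprime_mul_right_right h) (cop_s s h)

variable {N : ℕ} [NeZero N] {i : ℕ}

theorem rep_ne {f : MF N (i + 1)} {c : ℕ → ℕ → ℂ} (h : Rep N i f c) (h0 : f ≠ 0) :
    ∃ n, c n 1 ≠ 0 := by
  by_contra h1
  push Not at h1
  have c1 : Nat.Coprime 1 (2 * N) := Nat.coprime_one_left _
  have e : (f : ℍ → ℂ) ∣[((i + 1 : ℕ) : ℤ)] gd N 1 (cop_N c1) = 0 := by
    funext τ
    have := (Hs.congr (h 1 c1) (fun _ => rfl) (fun n => (h1 n).symm) τ).unique (Hs.zero τ)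
    simpa using this
  refine h0 (DFunLike.coe_injective ?_)
  have e2 := congrArg (fun f : ℍ → ℂ => f ∣[((i + 1 : ℕ) : ℤ)] (gd N 1 (cop_N c1))⁻¹) e
  simp only [← SlashAction.slash_mul, mul_inv_cancel, SlashAction.slash_one,
    SlashAction.zero_slash] at e2
  exact e2

theorem rep_eig {f : MF N (i + 1)} {c : ℕ → ℕ → ℂ} (h : Rep N i f c) {P : G.Wd N} {z : ℂ}
    (e : G.sg N i P f = z • f) (n : ℕ) : H761.Wd ℂ N P c n 1 = z * c n 1 := by
  have c1 : Nat.Coprime 1 (2 * N) := Nat.coprime_one_left _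
  refine Hs.unique (a := fun n => H761.Wd ℂ N P c n 1) (h.wd P 1 c1)
    (Hs.congr (Hs.smul z (h 1 c1)) (fun τ => ?_) fun n => rfl) n
  rw [show FreeAlgebra.lift ℤ (fun s => gHk N s i) P f = z • f from e, FunLike.coe_smul,
    ModularForm.SL_smul_slash]
  simp only [Pi.smul_apply, smul_eq_mul]
  ring

variable (N) in
/-- the forms for `Γ₀(N)` -/
def iv (w : ℕ) : Submodule ℂ (MF N (w + 1 + 1)) where
  carrier := {f | G.Inv N 1 f}
  zero_mem' := (G.FormH.zer (one_dvd N)).1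
  add_mem' {f g} h k := by simpa using (G.FormH.lin (one_dvd N) 1 h k).1
  smul_mem' c f h := (G.FormH.smu (one_dvd N) c h).1

theorem pick {k : Type} [Field k] (β : G.Wd N →+* k) (K : Finset ℕ) : (∀ i ∈ K, 1 ≤ i) →
    (∀ Q, G.Kil N N 1 K Q → β Q = 0) →
    ∃ w, Oc (G.sg N (w + 1)).toRingHom β (iv N w) := by
  induction K using Finset.induction_on with
  | empty =>
    exact fun _ h => (one_ne_zero ((map_one β).symm.trans (h 1 fun i hi => by simp at hi))).elim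
  | insert i K _ ih =>
    intro h1 h2
    obtain ⟨w, rfl⟩ := Nat.exists_eq_add_of_le' (h1 i (Finset.mem_insert_self i K))
    by_cases h3 : ∀ Q, (∀ f ∈ iv N w, G.sg N (w + 1) Q f = 0) → β Q = 0
    · exact ⟨w, fun Q f hf => (G.FormH.word (one_dvd N) Q f hf).1, h3⟩
    push Not at h3
    obtain ⟨a, ha, a0⟩ := h3
    refine ih (fun j hj => h1 j (Finset.mem_insert_of_mem hj)) fun Q hQ => ?_
    refine (mul_eq_zero.1 ((map_mul β a Q).symm.trans (h2 _ fun j hj f hf => ?_))).resolve_left a0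
    rcases Finset.mem_insert.1 hj with rfl | hj
    · rw [map_mul, Module.End.mul_apply]
      exact ha _ (G.FormH.word (one_dvd N) Q f hf).1
    · rw [map_mul, Module.End.mul_apply, hQ j hj f hf, map_zero]

variable (N) in
/-- the words as elements of the Hecke ring -/
def toT (w : ℕ) : G.Wd N →+* St.TA N w :=
  (FreeAlgebra.lift ℤ (Sum.elim
    (fun ℓ => ⟨St.opT N w ℓ, Subring.subset_closure (Or.inl ⟨ℓ, rfl⟩)⟩)
    (fun ℓ => ⟨St.opS N w ℓ, Subring.subset_closure (Or.inr ⟨ℓ, rfl⟩)⟩) :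
      Gen N → St.TA N w)).toRingHom

theorem toT_T (w : ℕ) (ℓ : PA N) : (toT N w (G.wT ℓ)).1 = St.opT N w ℓ :=
  congrArg Subtype.val (FreeAlgebra.lift_ι_apply _ _)

theorem toT_S (w : ℕ) (ℓ : PA N) : (toT N w (G.wS ℓ)).1 = St.opS N w ℓ :=
  congrArg Subtype.val (FreeAlgebra.lift_ι_apply _ _)

theorem toT_surj (w : ℕ) : Function.Surjective (toT N w) := by
  rintro ⟨x, hx⟩
  have h : St.TA N w ≤ ((St.TA N w).subtype.comp (toT N w)).range := by
    refine Subring.closure_le.2 ?_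
    rintro _ (⟨ℓ, rfl⟩ | ⟨ℓ, rfl⟩)
    exacts [⟨_, toT_T w ℓ⟩, ⟨_, toT_S w ℓ⟩]
  obtain ⟨P, hP⟩ := h hx
  exact ⟨P, Subtype.ext hP⟩

theorem iW_toT (w : ℕ) (P : G.Wd N) (i : Fin w) : St.iW N w (toT N w P).1 i = G.sg N i P := by
  induction P using FreeAlgebra.induction with
  | grade0 n =>
    rw [AlgHom.commutes, eq_intCast, map_intCast, SubringClass.coe_intCast, map_intCast]
    rfl
  | grade1 x =>
    rcases x with ℓ | ℓ
    · refine (congrArg (St.iW N w · i) (toT_T w ℓ)).trans ?_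
      rw [St.iW_opT, G.sg, FreeAlgebra.lift_ι_apply]
      rfl
    · refine (congrArg (St.iW N w · i) (toT_S w ℓ)).trans ?_
      rw [St.iW_opS, G.sg, FreeAlgebra.lift_ι_apply]
      rfl
  | mul p q hp hq => rw [map_mul, Subring.coe_mul, map_mul, map_mul, Pi.mul_apply, hp, hq]
  | add p q hp hq => rw [map_add, Subring.coe_add, map_add, map_add, Pi.add_apply, hp, hq]

/-- a system which satisfies the relations of the weights below `w` is modular -/
theorem modAt_of {k : Type} [Field k] {ρ : GQ →* GL (Fin 2) k} (β : G.Wd N →+* k)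
    (hT : ∀ (ℓ : PA N) φ, IsFrob ℓ.1 φ → β (G.wT ℓ) = (ρ φ : Matrix (Fin 2) (Fin 2) k).trace)
    (hS : ∀ (ℓ : PA N) φ, IsFrob ℓ.1 φ → β (G.wS ℓ) = (ρ φ : Matrix (Fin 2) (Fin 2) k).det)
    (w : ℕ) (h : ∀ P, (∀ i < w, G.sg N i P = 0) → β P = 0) : St.ModAt N ρ := by
  let lam : St.TA N w →+* k := (toT N w).liftOfSurjective (toT_surj w) ⟨β, fun P hP =>
    h P fun i hi => by
      rw [← iW_toT w P ⟨i, hi⟩, (RingHom.mem_ker.1 hP : toT N w P = 0)]
      rfl⟩
  have e : ∀ P, lam (toT N w P) = β P := fun P => RingHom.liftOfRightInverse_comp_apply _ _ _ _ P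
  refine ⟨w, lam, fun ℓ t s ht hs g hg => ⟨?_, ?_⟩⟩
  · rw [← hT ℓ g hg, ← e]
    exact congrArg lam (Subtype.ext (ht.trans (toT_T w ℓ).symm))
  · rw [← hS ℓ g hg, ← e]
    exact congrArg lam (Subtype.ext (hs.trans (toT_S w ℓ).symm))

end words

end Tw

open Tw in
/-- **TWO** -/
theorem two : TWO := by
  rintro k _ _ ρ _ M s _ _ hM rfl hd ⟨K, hK, β, hT, hS, hk⟩
  obtain ⟨w, hw⟩ := pick β K hK hk
  obtain ⟨S, hS'⟩ := G.fin_words (N := M * 2 ^ s) {w + 1} (by simp)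
  have h1 : ∀ Q, ∃ Q' ∈ Submodule.span ℤ (S : Set (G.Wd (M * 2 ^ s))),
      (G.sg (M * 2 ^ s) (w + 1)).toRingHom (Q - Q') = 0 := fun Q =>
    (hS' Q).imp fun Q' h => ⟨h.1, h.2 _ (Finset.mem_singleton_self _)⟩
  obtain ⟨f, hf, f0, lam, h2, h3, h4⟩ := hw.eig (G.sg_comm (w + 1)) S h1
  obtain ⟨ι, hι⟩ := place 2 lam β S (fun Q => (h1 Q).imp fun Q' h => ⟨h.1, by
    have h5 := h2 (Q - Q')
    rw [h.2] at h5
    exact (smul_eq_zero.1 h5.symm).resolve_right f0⟩) h3 h4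
  obtain ⟨B, hB⟩ := bdd ι f
  obtain ⟨c, hc⟩ := exists_rep f
  obtain ⟨n, hn⟩ := rep_ne hc f0
  have h5 : c ∈ V M (ball ι).toSubring := lift0 (fun z hz => norm_le_of_int (hz.map_of_comp_eq
      (RingHom.id ℤ) ι.toRingHom (Subsingleton.elim _ _))) s (w + 1) B (M * 2 ^ s) (NeZero.pos _) f (fun γ hγ => hf γ (by
    rw [Nat.cast_mul]
    refine IsCoprime.mul_dvd (Nat.isCoprime_iff_coprime.2 ?_)
      (dvd_of_gamma0 (Gamma1_in_Gamma0 M hγ.1)) (dvd_of_gamma0 hγ.2)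
    exact Nat.Coprime.pow_right s hM.coprime_two_right) (by simp)) hB c fun δ h => hc δ (cop_up h)
  have p : 0 < ‖ι (c n 1)‖ := norm_pos_iff.2 ((map_ne_zero ι).2 hn)
  obtain ⟨m, hm⟩ := exists_pow_lt_of_lt_one p (show (2⁻¹ : ℝ) < 1 by norm_num)
  obtain ⟨b, hb⟩ := h5 m
  refine modAt_of (β.comp (ren M s).toRingHom) (fun ℓ φ h => ?_) (fun ℓ φ h => ?_) b fun P hP => ?_
  · exact (congrArg β (FreeAlgebra.lift_ι_apply _ _)).trans (hT (up s ℓ) φ h)
  · exact (congrArg β (FreeAlgebra.lift_ι_apply _ _)).trans ((hS (up s ℓ)).trans (hd φ).symm)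
  · have h6 := (mem_two ι).1 (hb P hP n 1 (Nat.coprime_one_left _))
    rw [← wd_ren (s := s), rep_eig hc (h2 _), map_mul, norm_mul, zpow_natCast] at h6
    exact hι _ (lt_of_mul_lt_mul_right ((h6.trans_lt hm).trans_eq (one_mul _).symm) p.le)

end Vale.Agent.P022K.CH.Maz
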