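import Vale.Agent.P022K.CH.MazF
import Vale.Agent.P022K.CH.MazSwp
import Vale.Agent.P022K.CH.MazRed2
import Vale.Agent.P022K.CH.MazBig
import Vale.Agent.P022K.CH.MazHom
import Vale.Agent.P022K.CH.MazEsk
import Vale.Agent.P022K.CH.MazTwo

/-!
# P022K, block CH, row MAZ: Mazur's principle modulo two
-/

set_option autoImplicit false
set_option linter.all false

noncomputable section

namespace Vale.Agent.P022K.CH.Maz

theorem red : RED := by
  intro X A O w N N' H H' _ _ _ hI h2 hd hN hN' hH hH' h Ac A' _ T _ _ q W u' v kr tw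
  obtain ⟨Y₀, a, b, c⟩ := red_row hI h2 hd hN hN' hH hH' h Ac A' kr tw
  exact ⟨Y₀, a, fun Q hQ y hy x hx e => mem_Trv.1 (e ▸ b Q hQ y hy), c⟩

theorem core : CORE := core_of swp red

/-- **MAZ** -/
theorem maz : MAZ := maz_of big hom core esk two

end Vale.Agent.P022K.CH.Maz
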