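import Vale.Agent.P022K.CH.MazA

/-!
# P022K, block CH, row MAZ: double covers, signs of inertia, odd slopes
-/

set_option autoImplicit false
set_option linter.all false

noncomputable section

open IntermediateField Vale.Agent.P019P P025H746 P025H492 Module

namespace Vale.Agent.P022K.CH.Maz

open Vale.Agent.P027M.I Vale.Agent.P027M.I.Cov

variable {C : Type} [NontriviallyNormedField C] [IsUltrametricDist C] [IsAlgClosed C]
variable {F : Type} [Field F] [Algebra C F]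

/-- `g` acts trivially at `w` -/
def Tv (w : NV C F) (g : F ≃+* F) : Prop :=
  (∀ y, w (g y) = w y) ∧ ∀ y, w y ≤ 1 → w (g y - y) < 1

/-- the sign of `z` at `w`, where `σ f = f z ^ 2` -/
def Sg (w : NV C F) (σ : F ≃+* F) (f z e : F) : Prop :=
  ∃ c, w (c ^ 2 * f) = 1 ∧ w (z * σ c / c - e) < 1

theorem nv_mul (w : NV C F) (x y : F) : w (x * y) = w x * w y := map_mul w.av x y

theorem nv_pow (w : NV C F) (x : F) (n : ℕ) : w (x ^ n) = w x ^ n := map_pow w.av x n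

theorem nv_inv (w : NV C F) (x : F) : w x⁻¹ = (w x)⁻¹ := map_inv₀ w.av x

theorem nv_ne {w : NV C F} {x : F} (h : w x = 1) : x ≠ 0 := by
  rintro rfl
  exact zero_ne_one ((map_zero w.av).symm.trans h)

theorem nv_two (h2 : ((2 : ℕ) : kC C) ≠ 0) (w : NV C F) : ¬ w 2 < 1 := fun h => by
  have h1 := NV.red_of_lt h
  rw [← one_add_one_eq_two, NV.red_add (Node.nv_one w).le (Node.nv_one w).le, NV.red_one,
    one_add_one_eq_two, ← map_ofNat (algebraMap (kC C) (kap w)) 2, map_eq_zero] at h1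
  exact h2 (by exact_mod_cast h1)

theorem nv_sq {w : NV C F} {x : F} (h : w (x ^ 2) = 1) : w x = 1 := by
  rw [nv_pow] at h
  exact (pow_eq_one_iff_of_nonneg (w.av.nonneg x) two_ne_zero).1 h

theorem near_mul {w : NV C F} {a b e d : F} (h : w (a - e) < 1) (h' : w (b - d) < 1)
    (he : w e ≤ 1) (hd : w d ≤ 1) : w (a * b - e * d) < 1 := by
  have hb : w b ≤ 1 := le_one_of_sub hd (by rw [← NV.map_neg', neg_sub]; exact h')
  rw [show a * b - e * d = (a - e) * b + e * (b - d) by ring]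
  refine NV.add_lt ?_ ?_ <;> rw [nv_mul]
  · exact (mul_le_of_le_one_right (w.av.nonneg _) hb).trans_lt h
  · exact (mul_le_of_le_one_left (w.av.nonneg _) he).trans_lt h'

theorem Sg.mul {w : NV C F} {σ : F ≃+* F} {f z e f' z' e' : F} (h : Sg w σ f z e)
    (h' : Sg w σ f' z' e') (he : w e ≤ 1) (he' : w e' ≤ 1) : Sg w σ (f * f') (z * z') (e * e') := by
  obtain ⟨c, h1, h2⟩ := h
  obtain ⟨c', h1', h2'⟩ := h'
  refine ⟨c * c', ?_, ?_⟩
  · rw [show (c * c') ^ 2 * (f * f') = (c ^ 2 * f) * (c' ^ 2 * f') by ring, nv_mul, h1, h1', one_mul]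
  · rw [show z * z' * σ (c * c') / (c * c') = z * σ c / c * (z' * σ c' / c') by
      rw [map_mul, div_mul_div_comm]; ring]
    exact near_mul h2 h2' he he'

theorem Sg.neg {w : NV C F} {σ : F ≃+* F} {f z e : F} (h : Sg w σ f z e) : Sg w σ f (-z) (-e) := by
  obtain ⟨c, h1, h2⟩ := h
  exact ⟨c, h1, by rw [← NV.map_neg', neg_mul, neg_div, neg_sub_neg, neg_sub]; exact h2⟩

theorem ex_c {T : F} [FiniteDimensional C⟮T⟯ F] (w : WW C T) {f : F} (hf : f ≠ 0) :
    ∃ c : F, w.1 (c ^ 2 * f) = 1 := by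
  obtain ⟨a, ha⟩ := exists_norm_eq w.2 f
  have ha0 : a ≠ 0 := by
    intro e
    rw [e, norm_zero, eq_comm, map_eq_zero] at ha
    exact hf ha
  obtain ⟨d, hd⟩ := IsAlgClosed.exists_pow_nat_eq a⁻¹ two_pos
  refine ⟨algebraMap C F d, ?_⟩
  rw [← map_pow, hd, nv_mul, w.1.ext', norm_inv, ← ha, inv_mul_cancel₀ (norm_ne_zero_iff.2 ha0)]

theorem ex_sg {T : F} [FiniteDimensional C⟮T⟯ F] (w : WW C T) {σ : F ≃+* F} (hσ : Tv w.1 σ)
    {f z : F} (hf : f ≠ 0) (hz : σ f = f * z ^ 2) : Sg w.1 σ f z 1 ∨ Sg w.1 σ f z (-1) := by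
  obtain ⟨c, hc⟩ := ex_c w hf
  have c0 : c ≠ 0 := by
    rintro rfl
    exact nv_ne hc (by simp)
  have h1 := hσ.2 _ hc.le
  have e : σ (c ^ 2 * f) - c ^ 2 * f = (c ^ 2 * f) * ((z * σ c / c - 1) * (z * σ c / c - -1)) := by
    rw [map_mul, map_pow, hz]
    field_simp
    ring
  rw [e, nv_mul, hc, one_mul, nv_mul] at h1
  by_contra hn
  rw [not_or] at hn
  have a1 := not_lt.1 fun h => hn.1 ⟨c, hc, h⟩
  have a2 := not_lt.1 fun h => hn.2 ⟨c, hc, h⟩
  exact absurd h1 (not_lt.2 (one_le_mul_of_one_le_of_one_le a1 a2))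

section cover

variable {L : Type} [Field L] [Algebra C L] [Algebra F L] [IsScalarTower C F L] [CFF C F] [CFF C L]
  [FiniteDimensional F L] [IsGalois F L] {T : F} [FiniteDimensional C⟮T⟯ F]
  [FiniteDimensional C⟮algebraMap F L T⟯ L]

theorem pm (τ : L ≃ₐ[F] L) {y : L} {f : F} (hy : y ^ 2 = algebraMap F L f) :
    τ y = y ∨ τ y = -y :=
  sq_eq_sq_iff_eq_or_eq_neg.1 (by rw [← map_pow, hy, τ.commutes])

/-- the sign upstairs -/
theorem sg_up {v : NV C F} {w : NV C L} (hw : ∀ y, w (algebraMap F L y) = v y) {σ : F ≃+* F}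
    {G : L ≃+* L} (hG : ∀ x, G (algebraMap F L x) = algebraMap F L (σ x)) {f z e c : F} {y : L}
    (hy : y ^ 2 = algebraMap F L f) (hz : G y = y * algebraMap F L z) (hc : v (c ^ 2 * f) = 1) :
    w (algebraMap F L c * y) = 1 ∧ w (G (algebraMap F L c * y) -
      algebraMap F L e * (algebraMap F L c * y)) = v (z * σ c / c - e) := by
  have h1 : w (algebraMap F L c * y) = 1 := nv_sq (by
    rw [mul_pow, hy, ← map_pow, ← map_mul, hw, hc])
  have c0 : algebraMap F L c ≠ 0 := left_ne_zero_of_mul (nv_ne h1)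
  refine ⟨h1, ?_⟩
  rw [← hw, ← one_mul (w (algebraMap F L _)), ← h1, ← nv_mul, map_mul G, hG, hz,
    map_sub (algebraMap F L), map_div₀ (algebraMap F L), map_mul (algebraMap F L)]
  congr 1
  field_simp

theorem comm_of {σ : F ≃+* F} {G : L ≃+* L}
    (hG : ∀ x, G (algebraMap F L x) = algebraMap F L (σ x)) {f z : F} {y : L}
    (hy : y ^ 2 = algebraMap F L f) (hz : G y = y * algebraMap F L z)
    (h : ∀ τ : L ≃ₐ[F] L, τ y = y → τ = 1) (τ : L ≃ₐ[F] L) (x : L) : G (τ x) = τ (G x) := by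
  let ρ : L ≃ₐ[F] L := AlgEquiv.ofRingEquiv
    (f := (((τ : L ≃+* L).trans G).trans (τ.symm : L ≃+* L)).trans G.symm) fun x => by
      change G.symm (τ.symm (G (τ _))) = _
      rw [τ.commutes, hG, τ.symm.commutes, ← hG, G.symm_apply_apply]
  have h1 : ρ = 1 := h ρ (by
    change G.symm (τ.symm (G (τ y))) = y
    rw [G.symm_apply_eq, τ.symm_apply_eq, hz, map_mul τ, τ.commutes]
    rcases pm τ hy with e | e
    · rw [e, hz]
    · rw [e, map_neg, hz, neg_mul])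
  have h2 : G.symm (τ.symm (G (τ x))) = x := AlgEquiv.congr_fun h1 x
  rwa [G.symm_apply_eq, τ.symm_apply_eq] at h2

/-- a lift which is trivial at a given component -/
theorem lifti (hF : Full C T) (hn : ((finrank F L : ℕ) : kC C) ≠ 0) (v : WW C T) {w : NV C L}
    (hw : ∀ y, w (algebraMap F L y) = v.1 y) {σ : F ≃+* F} {s : C ≃+* C} (hs : Semi C σ s)
    (hσ : Tv v.1 σ) {G : L ≃+* L} (hG : ∀ x, G (algebraMap F L x) = algebraMap F L (σ x)) :
    ∃ h : L ≃ₐ[F] L, Tv w ((h : L ≃+* L).trans G) := by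
  haveI : NVExt v.1 w := ⟨hw⟩
  obtain ⟨g, hg⟩ := I1b.exists_conj (K₀ := F) (u := w) (u' := pullNV (G : L →+* L) (s := s)
    (fun c => by
      change G _ = _
      rw [IsScalarTower.algebraMap_apply C F L, hG, hs.1, ← IsScalarTower.algebraMap_apply]) hs.2 w)
    fun y => by
      change w (G _) = _
      rw [hG, hw, hw, hσ.1]
  let G₁ : L ≃+* L := (g.symm : L ≃+* L).trans G
  have h1 : ∀ y, w ((G₁ : L →+* L) y) = w y := fun y => (hg (g.symm y)).trans (by simp)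
  have h2 : Function.Surjective (rm (G₁ : L →+* L) h1) :=
    rm_surj _ h1 fun y _ => ⟨G₁.symm y, by simp⟩
  let τ : kap w ≃ₐ[kap v.1] kap w := AlgEquiv.ofRingEquiv
    (f := RingEquiv.ofBijective (rm (G₁ : L →+* L) h1) ⟨RingHom.injective _, h2⟩) fun x => by
      obtain ⟨x, hx, rfl⟩ := NV.red_surj x
      change rm (G₁ : L →+* L) h1 _ = _
      rw [← red_algebraMap' hx, rm_red]
      change w.red (G (g.symm _)) = _
      rw [g.symm.commutes, hG, red_algebraMap' hx, red_algebraMap' (by rw [hσ.1]; exact hx),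
        (red_eq_iff (by rw [hσ.1]; exact hx) hx).2 (hσ.2 x hx)]
  obtain ⟨g', a, b⟩ := (((dec C F L T hn hF).2 v).2 w).2.2.1 τ
  have a' : ∀ y, w (g'.symm y) = w y := fun y => by rw [← a, g'.apply_symm_apply]
  refine ⟨g'.symm.trans g.symm, fun y => (h1 (g'.symm y)).trans (a' y), fun y hy => ?_⟩
  have h3 := b (g'.symm y) (by rw [a']; exact hy)
  rw [g'.apply_symm_apply] at h3
  exact (red_eq_iff ((h1 (g'.symm y)).trans_le (by rw [a']; exact hy)) hy).1
    ((rm_red _ h1 _).symm.trans h3)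

/-- a diamond which fixes a branch and changes the sign of the root: odd order -/
theorem odd_of (h2 : ((2 : ℕ) : kC C) ≠ 0) {s : L ≃ₐ[F] L} {b : Br C T}
    {b' : Br C (algebraMap F L T)} (hb : Tw (algebraMap F L) b b')
    (hs : Tw ((s : L ≃+* L) : L →+* L) b' b') {f c : F} {y : L} (hy : y ^ 2 = algebraMap F L f)
    (hsy : s y = -y) (hc : b.w.1 (c ^ 2 * f) = 1) :
    ¬ (2 : ℤ) ∣ ord b.x (b.w.1.red (c ^ 2 * f)) := by
  rintro ⟨n, hn⟩
  obtain ⟨π, π0, hπ⟩ := exists_unif b.x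
  obtain ⟨p, hp, e⟩ := NV.red_surj (π ^ (-n))
  have p1 : b.w.1 p = 1 := le_antisymm hp (not_lt.1 fun h =>
    zpow_ne_zero _ π0 (e.symm.trans (NV.red_of_lt h)))
  have hu : b.w.1 ((p * c) ^ 2 * f) = 1 := by
    rw [mul_pow, mul_assoc, nv_mul, hc, nv_pow, p1, one_pow, one_mul]
  have ho : ord b.x (b.w.1.red ((p * c) ^ 2 * f)) = 0 := by
    rw [mul_pow, mul_assoc, NV.red_mul (NV.pow_le_one' hp 2) hc.le, NV.red_pow hp, e,
      ord_mul _ (pow_ne_zero 2 (zpow_ne_zero _ π0)) (NV.red_ne_zero hc), hn, ord_pow, ord_zpow, hπ]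
    ring
  obtain ⟨η, hη⟩ : ∃ η, η = algebraMap F L (p * c) * y := ⟨_, rfl⟩
  have e2 : η ^ 2 = algebraMap F L ((p * c) ^ 2 * f) := by
    rw [hη, mul_pow, hy, ← map_pow, ← map_mul]
  have η1 : b'.w.1 η = 1 := nv_sq (by rw [e2, hb.1, hu])
  have m1 : b'.w.1.red (η ^ 2) ∈ b'.x.1 := by
    rw [e2, hb.2 _ hu.le, mem_iff_ord]
    exact Or.inr ho.ge
  have m2 : b'.w.1.red (η ^ 2) ∉ Mge b'.x 1 := by
    rw [e2, hb.van hu.le, mem_Mge, ho]
    exact fun h => h.elim (NV.red_ne_zero hu) (by decide)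
  rw [NV.red_pow η1.le] at m1 m2
  have m3 : b'.w.1.red η ∈ b'.x.1 := by
    rw [mem_iff_ord] at m1 ⊢
    refine Or.inr ?_
    have := m1.resolve_left (pow_ne_zero 2 (NV.red_ne_zero η1))
    rw [ord_pow] at this
    omega
  have h3 := hs.ev_eq (Lift.semi (C := C) s).1 η1.le m3
  have h4 : ((s : L ≃+* L) : L →+* L) η = -η := by
    change s η = _
    rw [hη, map_mul, s.commutes, hsy, mul_neg]
  rw [h4] at h3
  change vl b'.x (b'.w.1.red (-η)) = vl b'.x (b'.w.1.red η) at h3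
  rw [NV.red_neg η1.le, vl_neg' m3] at h3
  have h5 : vl b'.x (b'.w.1.red η) = 0 := by
    have : ((2 : ℕ) : kC C) * vl b'.x (b'.w.1.red η) = 0 := by
      rw [Nat.cast_ofNat]
      linear_combination -h3
    exact (mul_eq_zero.1 this).resolve_left h2
  refine m2 ((vl_eq_zero_iff (pow_mem m3 2)).1 ?_)
  rw [vl_pow' m3, h5, zero_pow two_ne_zero]

end cover

variable [CharZero C] [CFF C F]

/-- the double cover -/
theorem ex_quad (h2 : ((2 : ℕ) : kC C) ≠ 0) {f : F} (hf0 : f ≠ 0)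
    (hf : ∀ P : Plk C F, ((2 : ℕ) : ℤ) ∣ ord P f) :
    ∃ (L : Type) (_ : Field L) (_ : Algebra C L) (_ : Algebra F L) (_ : IsScalarTower C F L)
      (_ : CFF C L) (_ : FiniteDimensional F L) (_ : IsGalois F L) (y : L),
      y ^ 2 = algebraMap F L f ∧ IsUnr C F L ∧ ((finrank F L : ℕ) : kC C) ≠ 0 ∧
      (∀ τ : L ≃ₐ[F] L, τ y = y → τ = 1) ∧ ∀ (σ : F ≃+* F) (z : F), σ f = f * z ^ 2 →
        ∃ G : L ≃+* L, ∀ x, G (algebraMap F L x) = algebraMap F L (σ x) := by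
  let Ω := AlgebraicClosure F
  let Y : Set Ω := {y | ∃ h : F, h ≠ 0 ∧ y ^ 2 = algebraMap F Ω (f * h ^ 2)}
  have dv : ∀ h : F, h ≠ 0 → ∀ P : Plk C F, ((2 : ℕ) : ℤ) ∣ ord P (f * h ^ 2) := fun h h0 P => by
    rw [ord_mul P hf0 (pow_ne_zero 2 h0), ord_pow]
    exact dvd_add (hf P) (dvd_mul_right _ _)
  let L := IntermediateField.adjoin F Y
  haveI : FiniteDimensional F L := Node.fin_roots (C := C) (Node.cast_ne_zero h2)
    fun y ⟨h, h0, h1⟩ => ⟨_, mul_ne_zero hf0 (pow_ne_zero 2 h0), h1, dv h h0⟩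
  haveI : CFF C L := cff_of_finite (K := F)
  have hY : IntermediateField.adjoin F {x : L | (x : Ω) ∈ Y} = ⊤ := lift_injective L (by
    rw [lift_adjoin, lift_top]
    congr 1
    ext x
    exact ⟨by rintro ⟨x, hx, rfl⟩; exact hx, fun hx => ⟨⟨x, subset_adjoin _ _ hx⟩, hx, rfl⟩⟩)
  haveI : IsGalois F L := isGalois_radicals (k := C) hY fun y ⟨h, _, h1⟩ =>
    ⟨2, _, Node.cast_ne_zero h2, Subtype.ext h1⟩
  obtain ⟨y, hy⟩ := IsAlgClosed.exists_pow_nat_eq (algebraMap F Ω f) two_pos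
  have hyY : y ∈ Y := ⟨1, one_ne_zero, by rw [hy, one_pow, mul_one]⟩
  have hy' : (⟨y, subset_adjoin _ _ hyY⟩ : L) ^ 2 = algebraMap F L f := Subtype.ext hy
  refine ⟨L, inferInstance, inferInstance, inferInstance, inferInstance, inferInstance,
    inferInstance, inferInstance, ⟨y, subset_adjoin _ _ hyY⟩, hy',
    isUnr_radicals hY fun y ⟨h, h0, h1⟩ => ⟨2, _, Node.cast_ne_zero h2, Subtype.ext h1, dv h h0⟩,
    Node.deg_ne h2 hY fun y ⟨h, _, h1⟩ => ⟨_, Subtype.ext h1⟩, fun τ hτ => ?_, fun σ z hz => ?_⟩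
  · refine Node.eq_one_of_gen hY fun x ⟨h, _, h1⟩ => ?_
    have h3 : x ^ 2 = (⟨y, subset_adjoin _ _ hyY⟩ * algebraMap F L h) ^ 2 := by
      rw [mul_pow, hy', ← map_pow, ← map_mul]
      exact Subtype.ext h1
    rcases sq_eq_sq_iff_eq_or_eq_neg.1 h3 with e | e
    · rw [e, map_mul, hτ, τ.commutes]
    · rw [e, map_neg, map_mul, hτ, τ.commutes]
  · have z0 : z ≠ 0 := by
      rintro rfl
      exact (map_ne_zero σ).2 hf0 (by simpa using hz)
    let H : Ω ≃+* Ω := IsAlgClosure.equivOfEquiv Ω Ω σ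
    have hH : ∀ x, H (algebraMap F Ω x) = algebraMap F Ω (σ x) :=
      IsAlgClosure.equivOfEquiv_algebraMap Ω Ω σ
    have hH' : ∀ x, H.symm (algebraMap F Ω x) = algebraMap F Ω (σ.symm x) :=
      IsAlgClosure.equivOfEquiv_symm_algebraMap Ω Ω σ
    have a1 : ∀ y ∈ Y, H y ∈ Y := fun y ⟨h, h0, h1⟩ =>
      ⟨z * σ h, mul_ne_zero z0 ((map_ne_zero σ).2 h0), by
        rw [← map_pow, h1, hH, map_mul σ, map_pow σ, hz, mul_pow, mul_assoc]⟩
    have a2 : ∀ y ∈ Y, H.symm y ∈ Y := fun y ⟨h, h0, h1⟩ =>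
      ⟨σ.symm (h / z), (map_ne_zero _).2 (div_ne_zero h0 z0), by
        rw [← map_pow, h1, hH']
        congr 1
        apply σ.injective
        rw [σ.apply_symm_apply, map_mul, map_pow, σ.apply_symm_apply, hz]
        field_simp⟩
    exact ⟨{ toFun := fun x => ⟨H x, Node.map_mem H σ hH a1 x.2⟩
             invFun := fun x => ⟨H.symm x, Node.map_mem H.symm σ.symm hH' a2 x.2⟩
             left_inv := fun x => Subtype.ext (H.symm_apply_apply x)
             right_inv := fun x => Subtype.ext (H.apply_symm_apply x)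
             map_mul' := fun x y => Subtype.ext (map_mul H x.1 y.1)
             map_add' := fun x y => Subtype.ext (map_add H x.1 y.1) },
      fun x => Subtype.ext (hH x)⟩

theorem cyc_of {L : Type} [Field L] [Algebra F L] {y : L} {f : F}
    (hy : y ^ 2 = algebraMap F L f) (h : ∀ τ : L ≃ₐ[F] L, τ y = y → τ = 1) :
    IsCyclic (L ≃ₐ[F] L) := by
  have pm : ∀ τ : L ≃ₐ[F] L, τ y = y ∨ τ y = -y := fun τ =>
    sq_eq_sq_iff_eq_or_eq_neg.1 (by rw [← map_pow, hy, τ.commutes])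
  by_cases e : ∃ s : L ≃ₐ[F] L, s y = -y
  · obtain ⟨s, hs⟩ := e
    refine ⟨s, fun τ => ?_⟩
    rcases pm τ with e | e
    · exact ⟨0, by rw [h τ e]; exact zpow_zero s⟩
    · refine ⟨1, (zpow_one s).trans (inv_mul_eq_one.1 (h _ ?_))⟩
      rw [AlgEquiv.mul_apply, e, ← hs, ← AlgEquiv.mul_apply, inv_mul_cancel, AlgEquiv.one_apply]
  · exact ⟨1, fun τ => ⟨0, by
      rw [h τ ((pm τ).resolve_right fun e' => e ⟨τ, e'⟩)]; exact zpow_zero _⟩⟩

variable {T : F} [FiniteDimensional C⟮T⟯ F]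

/-- a nodal curve with two components and an inertia element -/
structure Nd (T : F) [FiniteDimensional C⟮T⟯ F] (v : Fin 2 → WW C T) (S : Finset (Br C T))
    (σ : F ≃+* F) : Prop where
  two : ((2 : ℕ) : kC C) ≠ 0
  full : Full C T
  nod : Nodal C T S
  ne : v 0 ≠ v 1
  all : ∀ u, ∃ i, u = v i
  sep : ∀ b b' : Br C T, b.w = b'.w → Glue b b' → b = b'
  semi : ∃ s, Semi C σ s
  fix : σ T = T
  tv : ∀ i, Tv (v i).1 σ

variable {v : Fin 2 → WW C T} {S : Finset (Br C T)} {σ : F ≃+* F}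

/-- even orders off the nodes -/
theorem Nd.even_off (h : Nd T v S σ) {f : F} (hf0 : f ≠ 0)
    (hf : ∀ P : Plk C F, ((2 : ℕ) : ℤ) ∣ ord P f) (w : WW C T) {c : F} (hc : w.1 (c ^ 2 * f) = 1)
    (x : Plk (kC C) (kap w.1)) (hx : x ∉ fib S w) : (2 : ℤ) ∣ ord x (w.1.red (c ^ 2 * f)) := by
  obtain ⟨L, _, _, _, _, _, _, _, y, a1, a2, a3, a4, -⟩ := ex_quad h.two hf0 hf
  haveI : FiniteDimensional C⟮algebraMap F L T⟯ L := finite_adjoin_map
  exact off h.full h.nod a2 a3 (cyc_of a1 a4) w x hx (m := 2) (η := algebraMap F L c * y) hc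
    (by rw [mul_pow, a1, map_mul, map_pow]) two_ne_zero

/-- opposite signs -/
def Opp (v : Fin 2 → WW C T) (σ : F ≃+* F) (f : F) : Prop :=
  ∃ z, σ f = f * z ^ 2 ∧ Sg (v 0).1 σ f z 1 ∧ Sg (v 1).1 σ f z (-1)

/-- equal signs -/
def Same (v : Fin 2 → WW C T) (σ : F ≃+* F) (f : F) : Prop :=
  ∃ z, σ f = f * z ^ 2 ∧ Sg (v 0).1 σ f z 1 ∧ Sg (v 1).1 σ f z 1

theorem Nd.same_or (h : Nd T v S σ) {f z : F} (hf : f ≠ 0) (hz : σ f = f * z ^ 2) :
    Same v σ f ∨ Opp v σ f := by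
  have hz' : σ f = f * (-z) ^ 2 := by rw [neg_sq]; exact hz
  rcases ex_sg (v 0) (h.tv 0) hf hz with a | a <;> rcases ex_sg (v 1) (h.tv 1) hf hz with b | b
  · exact Or.inl ⟨z, hz, a, b⟩
  · exact Or.inr ⟨z, hz, a, b⟩
  · exact Or.inr ⟨-z, hz', by simpa using a.neg, b.neg⟩
  · exact Or.inl ⟨-z, hz', by simpa using a.neg, by simpa using b.neg⟩

theorem Same.mul {f g : F} (h : Same v σ f) (h' : Opp v σ g) : Opp v σ (f * g) := by
  obtain ⟨z, a, b, c⟩ := h
  obtain ⟨z', a', b', c'⟩ := h'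
  have o : ∀ w : NV C F, w 1 ≤ 1 := fun w => (Node.nv_one w).le
  exact ⟨z * z', by rw [map_mul, a, a']; ring, by simpa using b.mul b' (o _) (o _),
    by simpa using c.mul c' (o _) (by rw [NV.map_neg']; exact o _)⟩

/-- odd orders at the nodes -/
theorem Nd.odd (h : Nd T v S σ) {f : F} (hf0 : f ≠ 0)
    (hf : ∀ P : Plk C F, ((2 : ℕ) : ℤ) ∣ ord P f) (ho : Opp v σ f) {b : Br C T} (hb : b ∈ S) {c : F}
    (hc : b.w.1 (c ^ 2 * f) = 1) : ¬ (2 : ℤ) ∣ ord b.x (b.w.1.red (c ^ 2 * f)) := by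
  obtain ⟨L, _, _, _, _, _, _, _, y, a1, a2, a3, a4, a5⟩ := ex_quad h.two hf0 hf
  haveI : FiniteDimensional C⟮algebraMap F L T⟯ L := finite_adjoin_map
  obtain ⟨z, hz, s0, s1⟩ := ho
  obtain ⟨G, hG⟩ := a5 σ z hz
  obtain ⟨s, hs⟩ := h.semi
  have cy := cyc_of a1 a4
  have hc' : ∀ (g g' : L ≃ₐ[F] L) y, g (g' y) = g' (g y) := fun g g' y => by
    obtain ⟨d, hd⟩ := IsCyclic.exists_generator (α := L ≃ₐ[F] L)
    obtain ⟨a, rfl⟩ := hd g
    obtain ⟨b, rfl⟩ := hd g'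
    rw [← AlgEquiv.mul_apply, ← AlgEquiv.mul_apply, (Commute.refl d).zpow_zpow a b |>.eq]
  choose w hw using fun i => Lift.exists_up (L := L) (v i)
  choose g hg using fun i => lifti h.full a3 (v i) (hw i) hs (h.tv i) hG
  have hGi : ∀ i x, ((g i : L ≃+* L).trans G) (algebraMap F L x) = algebraMap F L (σ x) :=
    fun i x => (congrArg G ((g i).commutes x)).trans (hG x)
  have sq : ∀ i, ((g i : L ≃+* L).trans G) y = y * algebraMap F L z ∨
      ((g i : L ≃+* L).trans G) y = y * algebraMap F L (-z) := fun i => by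
    rw [map_neg, mul_neg]
    exact sq_eq_sq_iff_eq_or_eq_neg.1 (by
      rw [← map_pow, a1, hGi, hz, mul_pow, a1, map_mul, map_pow])
  have key : ∀ i {z' e : F}, ((g i : L ≃+* L).trans G) y = y * algebraMap F L z' →
      ¬ Sg (v i).1 σ f z' (-1) := by
    rintro i z' e h1 ⟨c, h3, h4⟩
    obtain ⟨k1, k2⟩ := sg_up (e := 1) (hw i) (hGi i) a1 h1 h3
    rw [map_one, one_mul] at k2
    have h5 := NV.sub_lt h4 (k2 ▸ (hg i).2 _ k1.le)
    rw [show ∀ a : F, a - -1 - (a - 1) = 2 from fun a => by ring] at h5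
    exact nv_two h.two _ h5
  have e0 := (sq 0).resolve_right fun e => key 0 (e := 1) e s0.neg
  have e1 := (sq 1).resolve_left fun e => key 1 (e := 1) e s1
  have hsy : ((g 1)⁻¹ * g 0) y = -y := by
    have : g 0 y = g 1 (-y) := G.injective (by
      rw [map_neg, map_neg]
      exact e0.trans (by rw [show G (g 1 y) = _ from e1, map_neg, mul_neg, neg_neg]))
    rw [AlgEquiv.mul_apply, this, ← AlgEquiv.mul_apply, inv_mul_cancel, AlgEquiv.one_apply]
  have e2 : ∀ x, G (g 0 x) = G (g 1 (((g 1)⁻¹ * g 0) x)) := fun x => by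
    rw [← AlgEquiv.mul_apply, mul_inv_cancel_left]
  have inr : Inr C (algebraMap F L T) (fun i => (w i).1) ((g 0 : L ≃+* L).trans G)
      ((g 1)⁻¹ * g 0) := by
    refine ⟨⟨s, fun a => ?_, hs.2⟩, by rw [hGi, h.fix], fun τ x => ?_, (hg 0).1, (hg 0).2,
      fun x => (congrArg (w 1).1 (e2 x)).trans ((hg 1).1 _), fun x hx => ?_⟩
    · rw [IsScalarTower.algebraMap_apply C F L, hGi, hs.1, ← IsScalarTower.algebraMap_apply]
    · exact comm_of (hGi 0) a1 e0 a4 τ x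
    · have := (hg 1).2 _ hx
      change (w 1).1 (G (g 1 _) - _) < 1 at this
      rw [← e2] at this
      exact this
  obtain ⟨hL, -, S', hS', hm⟩ := cov' C F L T h.full S h.nod a2 a3 fun u => I1b.cyc cy u.1
  obtain ⟨b', hb'⟩ := ((trb C F L T).2 b).2.1
  exact odd_of h.two hb' (I1b.fixes acl' lift' hc' h.nod h.all h.sep hw inr hL hS' hm b'
    ((hm b').2 ⟨b, hb, hb'⟩)) a1 hsy hc

end Vale.Agent.P022K.CH.Maz
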