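import Vale.Agent.P022K.CH.MazB
import Vale.Agent.P027M.TW.HA

/-!
# P022K, block CH, row MAZ: the Igusa class and the number of toric classes
-/

set_option autoImplicit false
set_option linter.all false

noncomputable section

open IntermediateField Vale.Agent.P019P P025H746 P025H492 P025H816 Module

namespace Vale.Agent.P022K.CH.Maz

open Vale.Agent.P027M.I Vale.Agent.P027M.I.Cov Vale.Agent.P027M.TW

variable {C : Type} [NontriviallyNormedField C] [IsUltrametricDist C] [IsAlgClosed C]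
variable {F : Type} [Field F] [Algebra C F] [CFF C F] {T : F} [FiniteDimensional C⟮T⟯ F]

section cover

variable {L : Type} [Field L] [Algebra C L] [Algebra F L] [IsScalarTower C F L] [CFF C L]
  [FiniteDimensional F L] [IsGalois F L]

theorem tv_of {v : Fin 2 → WW C T} {w : Fin 2 → NV C L}
    (hw : ∀ i y, w i (algebraMap F L y) = (v i).1 y) {σ : F ≃+* F} {G : L ≃+* L}
    (hG : ∀ x, G (algebraMap F L x) = algebraMap F L (σ x)) {s : L ≃ₐ[F] L}
    (h : Inr C (algebraMap F L T) w G s) : ∀ i, Tv (v i).1 σ := by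
  refine Fin.forall_fin_two.2 ⟨⟨fun y => ?_, fun y hy => ?_⟩, fun y => ?_, fun y hy => ?_⟩
  · rw [← hw, ← hw, ← hG, h.n0]
  · rw [← hw, map_sub (algebraMap F L), ← hG]
    exact h.t0 _ (by rw [hw]; exact hy)
  · rw [← hw, ← hw, ← hG, h.n1, s.commutes]
  · have := h.t1 (algebraMap F L y) (by rw [s.commutes, hw]; exact hy)
    rwa [s.commutes, hG, ← map_sub (algebraMap F L), hw] at this

/-- a class with opposite signs -/
theorem igu (hU : IsUnr C F L) {s : L ≃ₐ[F] L} (hs : s ≠ 1) (hall : ∀ g, g = 1 ∨ g = s)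
    {v : Fin 2 → WW C T} {w : Fin 2 → NV C L} (hw : ∀ i y, w i (algebraMap F L y) = (v i).1 y)
    {σ : F ≃+* F} {G : L ≃+* L} (hG : ∀ x, G (algebraMap F L x) = algebraMap F L (σ x))
    (h : Inr C (algebraMap F L T) w G s) :
    ∃ g : F, g ≠ 0 ∧ (∀ P : Plk C F, ((2 : ℕ) : ℤ) ∣ ord P g) ∧ Opp v σ g := by
  obtain ⟨x, hx⟩ : ∃ x, s x ≠ x := by
    by_contra hn
    push Not at hn
    exact hs (AlgEquiv.ext hn)
  have ss : s * s = 1 := (hall _).resolve_right fun e => hs (mul_eq_left.1 e)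
  obtain ⟨y, hy⟩ : ∃ y, y = x - s x := ⟨_, rfl⟩
  have y0 : y ≠ 0 := by rw [hy]; exact sub_ne_zero.2 hx.symm
  have sy : s y = -y := by
    rw [hy, map_sub, ← AlgEquiv.mul_apply, ss, AlgEquiv.one_apply, neg_sub]
  have fx : ∀ a : L, s a = a → ∃ b, algebraMap F L b = a := fun a ha =>
    (IsGalois.mem_range_algebraMap_iff_fixed (F := F) a).2 fun g => by
      rcases hall g with rfl | rfl
      · rfl
      · exact ha
  obtain ⟨g, hg⟩ := fx (y ^ 2) (by rw [map_pow, sy, neg_sq])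
  obtain ⟨z, hz⟩ := fx (G y / y) (by rw [map_div₀, ← h.com, sy, map_neg, neg_div_neg_eq])
  have hz' : G y = y * algebraMap F L z := by rw [hz, mul_div_cancel₀ _ y0]
  have g0 : g ≠ 0 := by
    rintro rfl
    exact pow_ne_zero 2 y0 (hg.symm.trans (map_zero _))
  refine ⟨g, g0, fun P => ?_, z, (algebraMap F L).injective ?_, ?_, ?_⟩
  · obtain ⟨Q, rfl⟩ := exists_over (L := L) P
    have := ord_algebraMap Q g
    rw [hU Q, Nat.cast_one, one_mul, hg, ord_pow] at this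
    exact ⟨_, this.symm⟩
  · rw [← hG, hg, map_pow, hz', map_mul, hg, map_pow, mul_pow]
  · obtain ⟨c, hc⟩ := ex_c (v 0) g0
    obtain ⟨k1, k2⟩ := sg_up (e := 1) (hw 0) hG hg.symm hz' hc
    refine ⟨c, hc, ?_⟩
    rw [← k2, map_one, one_mul]
    exact h.t0 _ k1.le
  · obtain ⟨c, hc⟩ := ex_c (v 1) g0
    obtain ⟨k1, k2⟩ := sg_up (e := -1) (hw 1) hG hg.symm hz' hc
    have e : s (algebraMap F L c * y) = -(algebraMap F L c * y) := by
      rw [map_mul, s.commutes, sy, mul_neg]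
    refine ⟨c, hc, ?_⟩
    rw [← k2, map_neg, map_one, neg_one_mul, ← e]
    exact h.t1 _ (by rw [e, NV.map_neg']; exact k1.le)

variable [FiniteDimensional C⟮algebraMap F L T⟯ L]

/-- the group of a totally split cover is generated by the nodes -/
theorem gens (hF : Full C T) {S : Finset (Br C T)} (hS : Nodal C T S) {u₀ u₁ : WW C T}
    (ne : u₀ ≠ u₁) (all : ∀ u, u = u₀ ∨ u = u₁)
    (sep : ∀ b b' : Br C T, b.w = b'.w → Glue b b' → b = b')
    (hfree : ∀ (τ : L ≃ₐ[F] L) (v : WW C (algebraMap F L T)), (∀ y, v.1 (τ y) = v.1 y) → τ = 1)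
    (hL : Full C (algebraMap F L T)) {S' : Finset (Br C (algebraMap F L T))} (hS' : Nodal C _ S')
    (hm : ∀ b', b' ∈ S' ↔ ∃ b ∈ S, Tw (algebraMap F L) b b')
    (hsu : ∀ (v : WW C (algebraMap F L T)) (y : L), v.1 y ≤ 1 →
      ∃ y₀ : F, v.1 (y - algebraMap F L y₀) < 1) :
    ∃ (γ : Br C T → L ≃ₐ[F] L) (b₀ : Br C T), b₀ ∈ S ∧ b₀.w = u₀ ∧ γ b₀ = 1 ∧
      ∀ y : L, (∀ b ∈ S, b.w = u₀ → γ b y = y) → ∀ τ : L ≃ₐ[F] L, τ y = y := by
  have uq := (acl' C L _ hL S' hS').1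
  obtain ⟨tw, -⟩ := trb C F L T
  obtain ⟨b₀, hb₀, e₀⟩ : ∃ b ∈ S, b.w = u₀ := by
    by_contra hn
    push Not at hn
    rcases cong' C F T hF S hS {u₀} fun b hb _ _ _ e => absurd e (hn b hb) with e | e
    · exact (Set.singleton_nonempty u₀).ne_empty e
    · exact ne (Set.mem_singleton_iff.1 (e ▸ Set.mem_univ u₁)).symm
  obtain ⟨v₀, hv₀⟩ := Lift.exists_up (L := L) u₀
  have par : ∀ c ∈ S', ∀ b, Tw (algebraMap F L) b c → b ∈ S → ∃ c' ∈ S', c' ≠ c ∧ Glue c c' ∧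
      ∃ b', Tw (algebraMap F L) b' c' ∧ b'.w ≠ b.w := fun c hc b t hb => by
    obtain ⟨b', hb', n, g⟩ := hS.2 b hb
    obtain ⟨c', t', g'⟩ := lift' C F L T b b' g c t
    exact ⟨c', (hm _).2 ⟨b', hb', t'⟩, fun e => n (t'.inj_left (e ▸ t)), g', b', t',
      fun e => n (sep _ _ e g.symm)⟩
  have up : ∀ b : Br C T, ∃ c c' : Br C (algebraMap F L T), b ∈ S → b.w = u₀ → c.w = v₀ ∧
      Tw (algebraMap F L) b c ∧ c' ∈ S' ∧ c' ≠ c ∧ Glue c c' ∧
      ∀ y, c'.w.1 (algebraMap F L y) = u₁.1 y := fun b => by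
    by_cases hb : b ∈ S ∧ b.w = u₀
    · obtain ⟨c, e, t⟩ := exists_tw (algebraMap F L) (s := RingEquiv.refl C)
        (fun c => (IsScalarTower.algebraMap_apply C F L c).symm) (fun _ => rfl) b v₀
        (by rw [hb.2]; exact hv₀) (hsu v₀) ⟨T, b.w.2.apply_T.le, b.fin, by simp⟩
      obtain ⟨c', a1, a2, a3, b', a4, a5⟩ := par c ((hm _).2 ⟨b, hb.1, t⟩) b t hb.1
      exact ⟨c, c', fun _ _ => ⟨e, t, a1, a2, a3, fun y => by
        rw [a4.1, (all b'.w).resolve_left (hb.2 ▸ a5)]⟩⟩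
    · obtain ⟨c, -⟩ := ((trb C F L T).2 b).2.1
      exact ⟨c, c, fun h h' => absurd ⟨h, h'⟩ hb⟩
  choose p p' hp using up
  have ex : ∀ b : Br C T, ∃ g : L ≃ₐ[F] L, b ∈ S → b.w = u₀ →
      ∀ y, (p' b).w.1 (g y) = (p' b₀).w.1 y := fun b => by
    by_cases hb : b ∈ S ∧ b.w = u₀
    · obtain ⟨g, hg⟩ := tw (p' b₀).w (p' b).w fun y => by
        rw [(hp b hb.1 hb.2).2.2.2.2.2, (hp b₀ hb₀ e₀).2.2.2.2.2]
      exact ⟨g, fun _ _ => hg⟩
    · exact ⟨1, fun h h' => absurd ⟨h, h'⟩ hb⟩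
  choose γ hγ using ex
  have hv₁ := (hp b₀ hb₀ e₀).2.2.2.2.2
  refine ⟨γ, b₀, hb₀, e₀, hfree _ _ (hγ b₀ hb₀ e₀), fun y hy => ?_⟩
  generalize (p' b₀).w = v₁ at hγ hv₁
  have same : ∀ (u : WW C (algebraMap F L T)) (g g' : L ≃ₐ[F] L),
      (∀ x, u.1 (g x) = u.1 (g' x)) → g = g' := fun u g g' e =>
    mul_inv_eq_one.1 (hfree _ u fun x => by
      rw [AlgEquiv.mul_apply, e, ← AlgEquiv.mul_apply, mul_inv_cancel, AlgEquiv.one_apply])
  have step : ∀ c ∈ S', ∀ c' ∈ S', c' ≠ c → Glue c c' → ∀ g : L ≃ₐ[F] L,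
      (∀ x, c.w.1 (g x) = v₀.1 x) → ∃ b ∈ S, b.w = u₀ ∧ ∀ x, c'.w.1 ((g * γ b) x) = v₁.1 x := by
    intro c hc c' hc' n gl g hg
    obtain ⟨b, hb, t⟩ := (hm c).1 hc
    obtain ⟨b', hb', t'⟩ := (hm c').1 hc'
    have e : b.w = u₀ := Subtype.ext (P025H992.nv_ext fun x =>
      (t.1 x).symm.trans ((congrArg c.w.1 (g.commutes x).symm).trans ((hg _).trans (hv₀ x))))
    obtain ⟨d, td, rd, -⟩ := Lift.ev_gal g t
    obtain ⟨d', td', rd', -⟩ := Lift.ev_gal g t'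
    obtain ⟨q1, q2, q3, q4, q5, -⟩ := hp b hb e
    have e1 : d = p b := td.inj_right q2 (q1 ▸ Subtype.ext (P025H992.nv_ext fun x =>
      (rd.1 x).symm.trans (hg x))) (hsu _)
    have sg := Lift.semi (C := C) g
    have g1 : Glue d d' := sg.symm.glue (symm_fix (g.commutes T))
      (Tw.symm (g := (g : L ≃+* L)) rd) (Tw.symm (g := (g : L ≃+* L)) rd') gl
    have e2 : d' = p' b := uq d ((hm _).2 ⟨b, hb, td⟩) d' ((hm _).2 ⟨b', hb', td'⟩) _ q3
      (fun e => n (Tw.inj_equiv (g := (g : L ≃+* L)) rd' (e ▸ rd))) (e1 ▸ q4) g1 (e1 ▸ q5)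
    exact ⟨b, hb, e, fun x => (rd'.1 _).trans (by rw [e2]; exact hγ b hb e x)⟩
  have n01 : ∀ (u : WW C (algebraMap F L T)) (g g' : L ≃ₐ[F] L), (∀ x, u.1 (g x) = v₀.1 x) →
      (∀ x, u.1 (g' x) = v₁.1 x) → False := fun u g g' a b =>
    ne (Subtype.ext (P025H992.nv_ext fun x => by
      rw [← hv₀, ← hv₁, ← a, ← b, g.commutes, g'.commutes]))
  rcases cong' C L _ hL S' hS' {u | ∃ τ : L ≃ₐ[F] L, τ y = y ∧
      ((∀ x, u.1 (τ x) = v₀.1 x) ∨ ∀ x, u.1 (τ x) = v₁.1 x)} (by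
    rintro c hc c' hc' gl ⟨τ, h1, h2⟩
    by_cases n : c' = c
    · rw [n]; exact ⟨τ, h1, h2⟩
    rcases h2 with h2 | h2
    · obtain ⟨b, hb, e, h3⟩ := step c hc c' hc' n gl τ h2
      exact ⟨_, by rw [AlgEquiv.mul_apply, hy b hb e, h1], Or.inr h3⟩
    · obtain ⟨b, hb, t⟩ := (hm c).1 hc
      obtain ⟨c₂, a1, a2, a3, b', a4, a5⟩ := par c hc b t hb
      obtain rfl : c' = c₂ := uq c hc c' hc' c₂ a1 n a2 gl a3
      have e : b.w = u₁ := Subtype.ext (P025H992.nv_ext fun x =>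
        (t.1 x).symm.trans ((congrArg c.w.1 (τ.commutes x).symm).trans ((h2 _).trans (hv₁ x))))
      obtain ⟨g, hg⟩ := tw v₀ c'.w fun x => by
        rw [hv₀, a4.1, (all b'.w).resolve_right (e ▸ a5)]
      obtain ⟨b₂, hb₂, e₂, h3⟩ := step c' hc' c hc (Ne.symm n) gl.symm g hg
      refine ⟨g, ?_, Or.inl hg⟩
      rw [← same c.w _ _ fun x => (h3 x).trans (h2 x).symm, AlgEquiv.mul_apply, hy b₂ hb₂ e₂] at h1
      exact h1) with e | e
  · exact absurd e (Set.Nonempty.ne_empty ⟨v₀, 1, rfl, Or.inl fun _ => rfl⟩)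
  · intro g
    obtain ⟨u, hu⟩ := (Lift.semi (C := C) g).exists_w (T := algebraMap F L T) (g.commutes T) v₀
    obtain ⟨τ, h1, h2 | h2⟩ : u ∈ _ := e ▸ Set.mem_univ u
    · rw [same u g τ fun x => (hu x).trans (h2 x).symm, h1]
    · exact (n01 u g τ hu h2).elim

end cover

variable (C T) in
/-- the toric classes -/
def Tor : AddSubgroup (HA C F 2) where
  carrier := {x | ∃ f hf, cl f hf = x ∧ ∀ w : WW C T, Triv 2 w.1 (f : F)}
  zero_mem' := ⟨1, one_mem _, cl_one, fun w => ⟨1, by simp⟩⟩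
  add_mem' := by
    rintro _ _ ⟨f, hf, rfl, a⟩ ⟨g, hg, rfl, b⟩
    exact ⟨f * g, mul_mem hf hg, rfl, fun w => I2a.triv_mul (a w) (b w)⟩
  neg_mem' := by
    rintro _ ⟨f, hf, rfl, a⟩
    exact ⟨f⁻¹, inv_mem hf, rfl, fun w => by
      rw [Units.val_inv_eq_inv_val]; exact I2a.triv_inv (a w)⟩

open Classical in
/-- **the number of toric classes** -/
theorem tor_card [CharZero C] (h2 : ((2 : ℕ) : kC C) ≠ 0) (hF : Full C T) {S : Finset (Br C T)}
    (hS : Nodal C T S) {u₀ u₁ : WW C T} (ne : u₀ ≠ u₁) (all : ∀ u, u = u₀ ∨ u = u₁)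
    (sep : ∀ b b' : Br C T, b.w = b'.w → Glue b b' → b = b') :
    Nat.card (Tor C T) * 2 ≤ 2 ^ (S.filter fun b => b.w = u₀).card := by
  let Ω := AlgebraicClosure F
  let Y : Set Ω := {y | ∃ f : F, y ^ 2 = algebraMap F Ω f ∧
    (∀ P : Plk C F, ((2 : ℕ) : ℤ) ∣ ord P f) ∧ ∀ w : WW C T, w.1 (f - 1) < 1}
  have hne : ∀ f : F, (∀ w : WW C T, w.1 (f - 1) < 1) → f ≠ 0 := fun f h1 =>
    nv_ne (I2a.eq_one_of (h1 u₀))
  let L := IntermediateField.adjoin F Y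
  haveI : FiniteDimensional F L := Node.fin_roots (C := C) (Node.cast_ne_zero h2)
    fun y ⟨f, h1, h2, h3⟩ => ⟨f, hne f h3, h1, h2⟩
  haveI : CFF C L := cff_of_finite (K := F)
  have hY : IntermediateField.adjoin F {x : L | (x : Ω) ∈ Y} = ⊤ := lift_injective L (by
    rw [lift_adjoin, lift_top]
    congr 1
    ext x
    exact ⟨by rintro ⟨x, hx, rfl⟩; exact hx, fun hx => ⟨⟨x, subset_adjoin _ _ hx⟩, hx, rfl⟩⟩)
  haveI : IsGalois F L := isGalois_radicals (k := C) hY fun y ⟨f, h1, _⟩ =>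
    ⟨2, f, Node.cast_ne_zero h2, Subtype.ext h1⟩
  haveI : FiniteDimensional C⟮algebraMap F L T⟯ L := finite_adjoin_map
  have hfree := Node.free (T := T) h2 hY fun y ⟨f, h1, _, h3⟩ => ⟨f, Subtype.ext h1, h3⟩
  obtain ⟨hL, hres, S', hS', hm⟩ := cov' C F L T hF S hS
    (isUnr_radicals hY fun y ⟨f, h1, h3, _⟩ => ⟨2, f, Node.cast_ne_zero h2, Subtype.ext h1, h3⟩)
    (Node.deg_ne h2 hY fun y ⟨f, h1, _⟩ => ⟨f, Subtype.ext h1⟩)
    (fun v => ⟨1, fun τ => by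
      rw [Subgroup.zpowers_one_eq_bot, Subgroup.mem_bot]
      exact ⟨hfree τ v, by rintro rfl y; rfl⟩⟩)
  obtain ⟨γ, b₀, hb₀, e₀, γ0, hγ⟩ := gens hF hS ne all sep hfree hL hS' hm
    fun v y hv => hres v y hv fun τ hτ => by rw [hfree τ v hτ]; simp
  have ex : ∀ t : Tor C T, ∃ (f : Fˣ) (hf : f ∈ divU C F 2) (y : L), cl f hf = t ∧
      y ^ 2 = algebraMap F L f := by
    rintro ⟨_, f, hf, rfl, tr⟩
    obtain ⟨z, z0, hz⟩ := Node.exists_norm two_ne_zero tr ⟨u₀⟩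
    have hz2 : Units.mk0 z z0 ^ 2 ∈ divU C F 2 := fun P => by
      rw [Units.val_pow_eq_pow_val, ord_pow]; exact dvd_mul_right _ _
    obtain ⟨y, hy⟩ := IsAlgClosed.exists_pow_nat_eq (algebraMap F Ω (f * z ^ 2)) two_pos
    refine ⟨f * Units.mk0 z z0 ^ 2, mul_mem hf hz2,
      ⟨y, subset_adjoin _ _ ⟨_, hy, mul_mem hf hz2, hz⟩⟩, ?_, Subtype.ext hy⟩
    rw [cl_mul hf hz2, (cl_eq_zero hz2).2 ⟨_, rfl⟩]; exact add_zero (cl f hf)
  choose f hf y h1 hy using ex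
  have mem : b₀ ∈ S.filter fun b => b.w = u₀ := Finset.mem_filter.2 ⟨hb₀, e₀⟩
  have inj : Function.Injective fun (t : Tor C T) (b : (S.filter fun b => b.w = u₀).erase b₀) =>
      γ b (y t) = y t := fun t t' e => by
    have y0 : ∀ t, y t ≠ 0 := fun t h => (f t).ne_zero ((algebraMap F L).injective (by
      rw [← hy, h, map_zero, zero_pow two_ne_zero]))
    obtain ⟨z, hz⟩ := (IsGalois.mem_range_algebraMap_iff_fixed (F := F) (y t / y t')).2
      (hγ _ fun b hb eb => by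
        by_cases n : b = b₀
        · rw [n, γ0]; rfl
        have e1 : γ b (y t) = y t ↔ γ b (y t') = y t' :=
          iff_of_eq (congrFun e ⟨b, Finset.mem_erase.2 ⟨n, Finset.mem_filter.2 ⟨hb, eb⟩⟩⟩)
        rw [map_div₀]
        by_cases e2 : γ b (y t) = y t
        · rw [e2, e1.1 e2]
        · rw [(pm _ (hy t)).resolve_left e2, (pm _ (hy t')).resolve_left fun h => e2 (e1.2 h),
            neg_div_neg_eq])
    refine Subtype.ext ?_
    rw [← h1, ← h1, cl_eq, mem_powU']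
    refine ⟨z, (algebraMap F L).injective ?_⟩
    rw [map_pow, hz, div_pow, hy, hy, Units.val_div_eq_div_val, map_div₀]
  have h3 := Nat.card_le_card_of_injective _ inj
  rw [Nat.card_fun, Nat.card_eq_fintype_card (α := Prop), Fintype.card_prop,
    Nat.card_eq_fintype_card (α := (S.filter fun b => b.w = u₀).erase b₀), Fintype.card_coe] at h3
  rw [← Finset.card_erase_add_one mem, pow_succ]
  exact Nat.mul_le_mul_right 2 h3

end Vale.Agent.P022K.CH.Maz
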