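import Vale.Agent.P022K.CH.MazD
import Vale.Agent.P022K.CH.MazSpec

/-!
# P022K, block CH, row MAZ: the modular curve of level `Γ₀(E q)`
-/

set_option autoImplicit false
set_option linter.all false

open scoped MatrixGroups IntermediateField

noncomputable section

namespace Vale.Agent.P022K.CH.Maz

open NumberField Vale.Agent.P022 Vale.Agent.P022.H218.L3 Vale.Agent.P022.H231.L3
  Vale.Agent.P019P P025H373 P025H746 P025H492 P025H816 Vale.Agent.P027M Vale.Agent.P027M.M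
  Vale.Agent.P027M.TW Vale.Agent.P027M.G Vale.Agent.P027M.J Vale.Agent.P027M.J.Igu
  Vale.Agent.P022D.I12

theorem mem_all {N : ℕ} {H : Subgroup (ZMod N)ˣ} (h : ∀ u, u ∈ H) {γ : SL(2, ℤ)}
    (hγ : (N : ℤ) ∣ γ 1 0) : γ ∈ GH N H := by
  have hdet := γ.det_coe
  rw [Matrix.det_fin_two] at hdet
  have e : ((γ 1 1 : ℤ) : ZMod N) * ((γ 0 0 : ℤ) : ZMod N) = 1 := by
    have h0 : ((γ 1 0 : ℤ) : ZMod N) = 0 := (ZMod.intCast_zmod_eq_zero_iff_dvd _ _).2 hγ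
    have h1 := congrArg (Int.cast : ℤ → ZMod N) hdet
    push_cast at h1
    rw [h0] at h1
    linear_combination h1
  exact ⟨hγ, Units.mkOfMulEqOne _ _ e, h _, rfl⟩

/-- Eichler-Shimura modulo two -/
theorem es_two (X : Mdl) {N : ℕ} {H : Subgroup (ZMod N)ˣ} (hN : Lv N) (h : ∀ u, u ∈ H)
    [CFF Qb (L (GH N H))] (A : Act X N H 2) {l : ℕ} (hl : l.Prime) (hd : ¬ l ∣ 2 * N) {φ : GQ}
    (hφ : IsFrob l φ) (x : HA Qb (L (GH N H)) 2) : A.T l x = A.act φ x + A.act φ⁻¹ x := by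
  have hX := j_min X
  have n1 : ¬ l ∣ N := fun e => hd (e.mul_left 2)
  have n2 : ¬ l ∣ 2 := fun e => hd (e.mul_right N)
  obtain ⟨k, hk⟩ := hl.odd_of_ne_two (by rintro rfl; exact n2 dvd_rfl)
  have e := hX.es N H hN (h _) 2 A l hl n1 n2 φ hφ
    (ZMod.unitOfCoprime l (hl.coprime_iff_not_dvd.2 n1)) (ZMod.coe_unitOfCoprime _ _) x
  rw [(hX.comm N H hN (h _) 2 A).2.2.2.2 _ (h _)] at e
  refine e.trans ?_
  change _ + l • A.act φ⁻¹ x = A.act φ x + A.act φ⁻¹ x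
  rw [hk, succ_nsmul, mul_nsmul', HA_tor]
  exact congrArg _ (zero_add (A.act φ⁻¹ x))

theorem cheb {R : Type} [Ring R] {a b c : R} (h : a * b = 1) (h' : b * a = 1)
    (hc : Commute (a + b) c) (n : ℕ) : Commute (a ^ n + b ^ n) c := by
  induction n using Nat.twoStepInduction with
  | zero => simpa using (Commute.one_left c).add_left (Commute.one_left c)
  | one => simpa using hc
  | more n i1 i2 =>
    have e : a ^ (n + 2) + b ^ (n + 2) = (a + b) * (a ^ (n + 1) + b ^ (n + 1)) - (a ^ n + b ^ n) := by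
      rw [add_mul, mul_add, mul_add, ← pow_succ', ← pow_succ' b, pow_succ' b n, pow_succ' a n,
        ← mul_assoc, ← mul_assoc, h, h', one_mul, one_mul]
      abel
    rw [e]
    exact (hc.mul_left i2).sub_left i1

theorem comm_gen {Y : Type} [AddCommGroup Y] (a : GQ →* AddMonoid.End Y) {N : ℕ} (hN : N ≠ 0)
    (ho : IsOpen {g | a g = 1}) (h : ∀ l : ℕ, l.Prime → ¬ l ∣ 2 * N → ∀ φ, IsFrob l φ →
      ∃ T : AddMonoid.End Y, (∀ x, T x = a φ x + a φ⁻¹ x) ∧ ∀ s, Commute T (a s)) (g s : GQ) :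
    Commute (a g + a g⁻¹) (a s) := by
  obtain ⟨l, φ, k, -, h2, h3⟩ := P022D.G.SubA.frob P022D.G.frob hN a.ker inferInstance ho g ∅
  have i : ∀ x : GQ, a x * a x⁻¹ = 1 := fun x => by rw [← map_mul, mul_inv_cancel, map_one]
  have h4 : a (g⁻¹ * φ ^ k) = 1 := h3
  have e1 : a φ ^ k = a g := by
    rw [← map_pow, ← mul_inv_cancel_left g (φ ^ k), map_mul, h4, mul_one]
  have e2 : a φ⁻¹ ^ k = a g⁻¹ := by
    rw [← map_pow, inv_pow, ← mul_inv_cancel_right g⁻¹ (φ ^ k), map_mul, h4, one_mul]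
  obtain ⟨T, t1, t2⟩ := h l.1 l.2.1 l.2.2 φ h2
  rw [← e1, ← e2]
  refine cheb (i φ) (by simpa using i φ⁻¹) ?_ k
  rw [← show T = a φ + a φ⁻¹ from AddMonoidHom.ext t1]
  exact t2 s

/-- the traces are central -/
def Cm {Y : Type} [AddCommGroup Y] (a : GQ →* AddMonoid.End Y) : Prop :=
  ∀ g s, Commute (a g + a g⁻¹) (a s)

theorem tr_comm (X : Mdl) {N : ℕ} {H : Subgroup (ZMod N)ˣ} (hN : Lv N) (h : ∀ u, u ∈ H)
    [CFF Qb (L (GH N H))] (A : Act X N H 2) : Cm (Y := HA Qb (L (GH N H)) 2) A.act := by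
  have hX := j_min X
  exact comm_gen (Y := HA Qb (L (GH N H)) 2) A.act hN.pos.ne'
    (hX.opn N H hN (h _) 2 A two_ne_zero) (fun l hl hd φ hφ =>
      ⟨A.T l, es_two X hN h A hl hd hφ, (hX.comm N H hN (h _) 2 A).2.2.1 _⟩)

/-- the Atkin-Lehner involution -/
theorem ex_W (X : Mdl) {E q : ℕ} (hq : q.Prime) {H : Subgroup (ZMod E)ˣ} (hE : Lv E)
    (h : ∀ u, u ∈ H) (hd : ¬ q ∣ E) {γ : SL(2, ℤ)} (hγ : AL E q γ)
    [CFF Qb (L (GH (E * q) (up H q)))] (A : Act X (E * q) (up H q) 2) :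
    ∃ W : AddMonoid.End (HA Qb (L (GH (E * q) (up H q))) 2), Rep (Wq X hq.pos γ) W ∧
      (∀ g y, W (A.act g y) = A.act g (W y)) ∧ ∀ y, W (W y) = y := by
  have hX := j_min X
  have hc : IsCoprime (E : ℤ) q :=
    Nat.isCoprime_iff_coprime.2 ((Nat.Prime.coprime_iff_not_dvd hq).2 hd).symm
  obtain ⟨d, hd'⟩ := In.ex_al hq hd
  obtain ⟨-, W, h1, -, h2, -⟩ := hX.alk E q hq H hE (h _) hd d hd' 2 A
  obtain ⟨ε, ε0, eε⟩ := Wq_change X hq.pos hc hγ (AL.of_isAL hd')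
  obtain ⟨D, D0, -, -, eD⟩ := Wq_sq X hq.pos hγ
  have fx : ∀ {δ : SL(2, ℤ)}, ((E * q : ℕ) : ℤ) ∣ δ 1 0 → ∀ x ∈ L (GH (E * q) (up H q)),
      X.pg δ x = x := fun e x hx => In.pg_fix X (mem_all (H := up H q) (fun u => h _) e) hx
  have r : Rep (Wq X hq.pos γ) W := h1.congr fun x hx _ =>
    (eε x).trans (by rw [fx ε0 x hx])
  refine ⟨W, r, fun g y => DFunLike.congr_fun (h2 g).eq y, fun y => ?_⟩
  exact DFunLike.congr_fun (((r.comp r).congr fun x hx _ => (eD x).trans (fx D0 x hx)).unique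
    rep_id) y

/-- the even quadratic character -/
def chi {E : ℕ} (q : ℕ) [Fact q.Prime] (h : 4 ∣ E * q) : (ZMod (E * q))ˣ →* ℤˣ :=
  (MulChar.toUnitHom ZMod.χ₄).comp (ZMod.unitsMap h) *
    (MulChar.toUnitHom (quadraticChar (ZMod q))).comp (ZMod.unitsMap (dvd_mul_left q E))

theorem chi_coe {E q : ℕ} [Fact q.Prime] (h : 4 ∣ E * q) {u : (ZMod (E * q))ˣ} {x : ℤ}
    (e : (u : ZMod (E * q)) = (x : ZMod (E * q))) : ((chi q h u : ℤˣ) : ℤ) =
      ZMod.χ₄ (x : ZMod 4) * quadraticChar (ZMod q) (ZMod.unitsMap (dvd_mul_left q E) u : (ZMod q)ˣ) := by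
  rw [← um_coe h e, ← MulChar.coe_toUnitHom, ← MulChar.coe_toUnitHom]
  rfl

theorem chi_neg {E q : ℕ} [Fact q.Prime] (h : 4 ∣ E * q) (h3 : q % 4 = 3) : chi q h (-1) = 1 := by
  refine Units.ext ?_
  rw [chi_coe h (x := -1) (by simp), um_coe (dvd_mul_left q E) (a := -1) (by simp),
    Int.cast_neg (R := ZMod q), Int.cast_one,
    quadraticChar_neg_one (by rw [ZMod.ringChar_zmod_n]; omega), ZMod.card,
    ZMod.χ₄_nat_three_mod_four h3, ZMod.χ₄_int_three_mod_four (by norm_num)]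
  rfl

/-- **MON on the modular curve** -/
theorem monM (X : Mdl) {E q : ℕ} (hq : q.Prime) {H : Subgroup (ZMod E)ˣ} (hE : Lv E) (h8 : 8 ∣ E)
    (hH : ∀ u, u ∈ H) (hd : ¬ q ∣ E) (h3 : q % 4 = 3) {P : Ideal (𝓞 Qb)} (hP : P.IsPrime)
    (hl : (q : 𝓞 Qb) ∈ P) {B : AV} {O : ValuationSubring ℂ} {w : NV (Qv B) FF}
    (hD : Dic q P B O w) [CFF Qb (L (GH (E * q) (up H q)))] (A : Act X (E * q) (up H q) 2)
    {γ : SL(2, ℤ)} (hγ : AL E q γ) {T : L (GH (E * q) (up H q))}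
    [FiniteDimensional (Qv B)⟮T⟯ (L (GH (E * q) (up H q)))] {v : Fin 2 → I.WW (Qv B) T}
    {S : Finset (I.Br (Qv B) T)} (hT : ∀ g, X.gal g T = T) (a1 : I.Full (Qv B) T)
    (a2 : I.Nodal (Qv B) T S) (a3 : v 0 ≠ v 1) (a4 : ∀ u, ∃ i, u = v i)
    (a5 : ∀ b b' : I.Br (Qv B) T, b.w = b'.w → I.Glue b b' → b = b') (a6 : ∀ y, (v 0).1 y = w y)
    (a7 : ∀ y, (v 1).1 y = w (Wq X hq.pos γ y)) :
    ∃ σ : GQ, P027M.S.Inert P σ ∧ ∀ x hx x' hx', A.act σ (cl x hx) = cl x hx →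
      A.act σ (cl x' hx') = cl x' hx' → Evn (v 0) (x : L (GH (E * q) (up H q))) ∨
        Evn (v 0) (x' : L (GH (E * q) (up H q))) ∨
        Evn (v 0) (x * x' : L (GH (E * q) (up H q))) := by
  have hX := j_min X
  haveI := Fact.mk hq
  have h := lv_mul hE hq.pos
  have hc : E.Coprime q := (hq.coprime_iff_not_dvd.2 hd).symm
  have q2 : ¬ q ∣ 2 := fun e => by
    have := (Nat.prime_dvd_prime_iff_eq hq Nat.prime_two).1 e
    omega
  have h' : -1 ∈ up H q := hH _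
  have hn : -1 ∈ (chi q h.four).ker := chi_neg h.four h3
  have le : GH (E * q) (chi q h.four).ker ≤ GH (E * q) (up H q) := fun γ e =>
    mem_all (H := up H q) (fun u => hH _) e.1
  haveI : CFF Qb (L (GH (E * q) (chi q h.four).ker)) :=
    hX.cffs _ (mid hX.grp h hn).hi (fidx hX.grp h hn)
  letI := algL le
  haveI := towerL le
  haveI := towerV B le
  haveI fd := (hX.artin _ _ le (fidx hX.grp h hn)).1
  obtain ⟨τ, τ1, τ2⟩ : ∃ τ : (ZMod (E * q))ˣ, ZMod.unitsMap (dvd_mul_right E q) τ = 1 ∧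
      chi q h.four τ = -1 := by
    obtain ⟨a, ha⟩ := quadraticChar_exists_neg_one (F := ZMod q)
      (by rw [ZMod.ringChar_zmod_n]; omega)
    have a0 : a ≠ 0 := by
      rintro rfl
      simp at ha
    obtain ⟨y, y1, y2⟩ := Spl.crt_ex hc 1 (Units.mk0 a a0)
    obtain ⟨x, hx⟩ := P022D.G.I1g.ex_int y
    have e : (E : ℤ) ∣ x - 1 := dvd_of_cast (by
      rw [← um_coe (dvd_mul_right E q) hx, y1]
      simp)
    have e4 := (Int.natCast_dvd_natCast.2 hE.four).trans e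
    refine ⟨y, y1, Units.ext ?_⟩
    rw [chi_coe _ hx, y2, ZMod.χ₄_int_one_mod_four (by omega), Units.val_mk0, ha]
    rfl
  obtain ⟨g1, θ, t1, t2⟩ := ex_theta (Δ := ℤˣ) (d := chi q h.four) hX h h' hn
    (fun u => ⟨fun e => ⟨hH _, e⟩, fun e => e.2⟩) (fun δ => by
      rcases Int.units_eq_one_or δ with rfl | rfl
      · exact ⟨1, hH _, map_one _⟩
      · exact ⟨τ, hH _, τ2⟩) le
  haveI := g1
  have hU : IsUnr (Qv B) (L (GH (E * q) (up H q))) (L (GH (E * q) (chi q h.four).ker)) := by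
    refine hX.unram (E * q) _ _ le (mid hX.grp h h') (mid hX.grp h hn)
      fun γ ⟨m1, u, hu, m2⟩ ht => ⟨m1, u, Units.ext ?_, m2⟩
    have a1 : ZMod.unitsMap (dvd_mul_left q E) u ^ q = 1 := In.Dm.unip (γ := γ)
      ⟨(Int.natCast_dvd_natCast.2 (dvd_mul_left q E)).trans m1, um_coe _ m2⟩ ht
    have a2 := ZMod.units_pow_card_sub_one_eq_one q (ZMod.unitsMap (dvd_mul_left q E) u)
    have a3 : ZMod.unitsMap (dvd_mul_left q E) u = 1 := by
      rw [← a1, ← pow_mul_pow_sub _ hq.one_le, a2, pow_one, mul_one]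
    have hdet := γ.det_coe
    rw [Matrix.det_fin_two] at hdet
    rw [Matrix.trace_fin_two] at ht
    have a4 : (8 : ℤ) ∣ (γ 1 1 - 1) ^ 2 := by
      have e : (γ 1 1 - 1) ^ 2 = -γ 0 1 * γ 1 0 := by linear_combination γ 1 1 * ht - hdet
      rw [e]
      exact ((Int.natCast_dvd_natCast.2 (h8.mul_right q)).trans m1).mul_left _
    have a5 := P022D.G.I1g.four_dvd a4
    rw [chi_coe _ m2, a3, ZMod.χ₄_int_one_mod_four (by omega)]
    simp
  obtain ⟨σ, hσ, hcy⟩ := ex_inert hE.pos hq hd hP hl τ1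
  obtain ⟨δ, hδ⟩ := In.ex_dm h.pos.ne' τ
  have inr := Vale.Agent.P022D.I12.inr hX M.exp cf2 (x_shim X) (g_wgal X) h hn hq hd hP hl hD hγ
    (K₀ := L (GH (E * q) (up H q))) (T := algebraMap _ _ T) hT (fun g => by
      obtain ⟨e, rfl⟩ := t1.2 g
      rcases Int.units_eq_one_or e with rfl | rfl
      · exact ⟨1, by simp, fun x => by
          rw [map_one]; exact (In.pg_fix X (one_mem _) x.2).symm⟩
      · exact ⟨δ, hδ.1, τ2 ▸ t2 τ (hH _) δ hδ⟩) hσ hcy hδ (t2 τ (hH _) δ hδ)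
  have hw : ∀ i y, ![side w AlgEquiv.refl (GH (E * q) (chi q h.four).ker),
      side w (Wq X hq.pos γ) _] i (algebraMap (L (GH (E * q) (up H q))) _ y) = (v i).1 y :=
    Fin.forall_fin_two.2 ⟨fun y => (a6 y).symm, fun y => (a7 y).symm⟩
  let σ₀ := resR (X.gal σ) (gal_mem_iff X hX.hec3 h h' σ)
  obtain ⟨g, g0, ge, go⟩ := igu (C := Qv B) (σ := σ₀) hU (s := θ (chi q h.four τ))
    (fun e => by
      rw [τ2] at e
      exact absurd (t1.1 (e.trans (map_one θ).symm)) (by decide))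
    (fun g => by
      obtain ⟨e, rfl⟩ := t1.2 g
      rw [τ2]
      exact (Int.units_eq_one_or e).imp (fun e => by rw [e, map_one]) fun e => by rw [e])
    hw (fun _ => rfl) inr
  have nd : Nd (C := Qv B) T v S σ₀ := ⟨hD.ne _ q2, a1, a2, a3, a4, a5,
    ⟨(σ : Qb ≃+* Qb), fun c => Subtype.ext (hX.galx.2.1 σ c), (hD.ine σ hσ).1⟩,
    Subtype.ext (hT σ), tv_of hw (fun _ => rfl) inr⟩
  have sq : ∀ x hx, A.act σ (cl x hx) = cl x hx →
      ∃ z, σ₀ (x : L (GH (E * q) (up H q))) = x * z ^ 2 := fun x hx e => by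
    obtain ⟨y, hy, e1, e2⟩ := A.act_rep σ x hx
    obtain ⟨z, hz⟩ := mem_powU'.1 ((cl_eq hy hx).1 (e2.symm.trans e))
    refine ⟨z, ?_⟩
    rw [hz, Units.val_div_eq_div_val, mul_div_cancel₀ _ x.ne_zero]
    exact Subtype.ext e1.symm
  refine ⟨σ, hσ, fun x hx x' hx' e e' => ?_⟩
  obtain ⟨z, hz⟩ := sq x hx e
  obtain ⟨z', hz'⟩ := sq x' hx' e'
  exact nd.mon g0 ge go x.ne_zero hx hz x'.ne_zero hx' hz' (v 0)

end Vale.Agent.P022K.CH.Maz
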