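import Vale.Agent.P027M.I.All1

/-!
# P022K, block CH, row CORE of MAZ: the geometric statements
-/

set_option autoImplicit false
set_option linter.all false

noncomputable section

open IntermediateField Vale.Agent.P019P P025H746 P025H492 Module

namespace Vale.Agent.P022K.CH.Maz

open Vale.Agent.P027M.I

/-- `f` is not zero and has an even divisor -/
def Dv (C : Type) {F : Type} [Field C] [Field F] [Algebra C F] [CFF C F] (f : F) : Prop :=
  f ≠ 0 ∧ ∀ P : Plk C F, ((2 : ℕ) : ℤ) ∣ ord P f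

/-- the reduction of `f` on the component `w` has an even divisor -/
def Ev {C F : Type} [NontriviallyNormedField C] [IsUltrametricDist C] [IsAlgClosed C] [Field F]
    [Algebra C F] {T : F} [FiniteDimensional C⟮T⟯ F] (w : WW C T) (f : F) : Prop :=
  ∃ c : C, w.1 (algebraMap C F c * f) = 1 ∧
    ∀ x : Plk (kC C) (kap w.1), ((2 : ℕ) : ℤ) ∣ ord x (w.1.red (algebraMap C F c * f))

/-- **MON**: the invariants of inertia modulo the classes with even reduction -/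
def MON : Prop :=
  ∀ (C K₀ K : Type) [NontriviallyNormedField C] [IsUltrametricDist C] [IsAlgClosed C] [CharZero C]
    [Field K₀] [Algebra C K₀] [CFF C K₀] [Field K] [Algebra C K] [CFF C K] [Algebra K₀ K]
    [IsScalarTower C K₀ K] [FiniteDimensional K₀ K] [IsGalois K₀ K] (T : K₀)
    [FiniteDimensional C⟮T⟯ K₀] (v : Fin 2 → WW C T) (S : Finset (Br C T)) (w : Fin 2 → NV C K)
    (σ : K ≃+* K) (s : K ≃ₐ[K₀] K) (σ₀ : K₀ ≃+* K₀),
    finrank K₀ K = 2 → IsUnr C K₀ K → Full C T → Nodal C T S → (∀ u, ∃ i, u = v i) →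
    (∀ b b' : Br C T, b.w = b'.w → Glue b b' → b = b') →
    (∀ i y, w i (algebraMap K₀ K y) = (v i).1 y) → ((2 : ℕ) : kC C) ≠ 0 →
    Inr C (algebraMap K₀ K T) w σ s → s ≠ 1 →
    (∀ y, σ (algebraMap K₀ K y) = algebraMap K₀ K (σ₀ y)) →
    ∀ f f' z z' : K₀, Dv C f → Dv C f' → σ₀ f = f * z ^ 2 → σ₀ f' = f' * z' ^ 2 →
      (∀ u : WW C T, Ev u f) ∨ (∀ u : WW C T, Ev u f') ∨ ∀ u : WW C T, Ev u (f * f')

/-- **SWP**: Frobenius on the toric part -/
def SWP : Prop :=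
  ∀ (C K' K₀ : Type) [NontriviallyNormedField C] [IsUltrametricDist C] [IsAlgClosed C] [CharZero C]
    [Field K'] [Algebra C K'] [CFF C K'] [Field K₀] [Algebra C K₀] [CFF C K₀] [Algebra K' K₀]
    [IsScalarTower C K' K₀] [FiniteDimensional K' K₀] (T : K') [FiniteDimensional C⟮T⟯ K']
    [FiniteDimensional C⟮algebraMap K' K₀ T⟯ K₀] (v : Fin 2 → WW C (algebraMap K' K₀ T))
    (S : Finset (Br C (algebraMap K' K₀ T))) (q : ℕ) (W : K₀ ≃ₐ[C] K₀) (u : NV C K₀)
    (φ : K₀ ≃+* K₀) (s : C ≃+* C),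
    Full C T → cd C T = 0 → Two C K' (algebraMap K' K₀ T) W u v → Nodal C (algebraMap K' K₀ T) S →
    ((2 : ℕ) : kC C) ≠ 0 → q ≠ 0 → Semi C φ s → φ (algebraMap K' K₀ T) = algebraMap K' K₀ T →
    (∀ y, u (W (W y)) = u y) → (∀ y, u (φ y) = u y) →
    (∀ f : K', u (algebraMap K' K₀ f) ≤ 1 →
      u (φ (W (algebraMap K' K₀ f)) - algebraMap K' K₀ f ^ q) < 1) →
    ∀ f : K₀, Dv C f → (∀ w : WW C (algebraMap K' K₀ T), Triv 2 w.1 f) →
      ∃ z : K₀, z ≠ 0 ∧ φ (W f) = f * z ^ 2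

end Vale.Agent.P022K.CH.Maz
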