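import Vale.Agent.P022K.CH.MazE
import Vale.Agent.P022K.CH.MazGeo
import Vale.Agent.P022K.CH.MazAlg

/-!
# P022K, block CH, row MAZ: the assembly of CORE
-/

set_option autoImplicit false
set_option linter.all false

open scoped MatrixGroups IntermediateField

noncomputable section

namespace Vale.Agent.P022K.CH.Maz

open NumberField Vale.Agent.P022 Vale.Agent.P022.H218.L3 Vale.Agent.P022.H231.L3
  Vale.Agent.P019P P025H373 P025H746 P025H492 P025H816 Vale.Agent.P027M Vale.Agent.P027M.M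
  Vale.Agent.P027M.TW Vale.Agent.P027M.G Vale.Agent.P027M.J Vale.Agent.P027M.J.Igu
  Vale.Agent.P022D.I12

theorem alg' {k : Type} [Field k] [CharP k 2] {ρ : GQ →* GL (Fin 2) k} (Y : Type)
    [AddCommGroup Y] [Finite Y] (a : GQ →* AddMonoid.End Y) (W : AddMonoid.End Y) (φ σ : GQ)
    (Y₀ : AddSubgroup Y) (T : Y → Prop) (Q₀ : Wg) (hy : Hy ρ) (hc : Cm a)
    (occ : ∀ Q, aW a Q = 0 → bW ρ Q = 0) (hW : ∀ g y, W (a g y) = a g (W y))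
    (st : ∀ Q, ∀ y ∈ Y₀, aW a Q y ∈ Y₀) (hσ : ρ σ = 1)
    (mon : ∀ y y', a σ y = y → a σ y' = y' → y ∈ Y₀ ∨ y' ∈ Y₀ ∨ y + y' ∈ Y₀) (h0 : bW ρ Q₀ ≠ 0)
    (kil : ∀ y ∈ Y₀, T (aW a Q₀ y)) (swp : ∀ y, T y → T (W y) → a φ (W y) = y) : ρ φ = 1 :=
  alg hy a hc occ W (fun g => AddMonoidHom.ext (hW g)) φ Y₀ st σ hσ mon T Q₀ h0 kil swp

theorem algH {k : Type} [Field k] [CharP k 2] {ρ : GQ →* GL (Fin 2) k} {F : Type} [Field F]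
    [Algebra Qb F] [CFF Qb F] (a : GQ →* AddMonoid.End (HA Qb F 2))
    (W : AddMonoid.End (HA Qb F 2)) (φ σ : GQ) (Y₀ : AddSubgroup (HA Qb F 2)) (R : F → Prop)
    (Q₀ : Wg) (hy : Hy ρ) (hc : Cm (Y := HA Qb F 2) a)
    (occ : ∀ Q, aW (Y := HA Qb F 2) a Q = 0 → bW ρ Q = 0) (hW : ∀ g y, W (a g y) = a g (W y))
    (st : ∀ Q, ∀ y ∈ Y₀, aW (Y := HA Qb F 2) a Q y ∈ Y₀) (hσ : ρ σ = 1)
    (mon : ∀ x hx x' hx', a σ (cl x hx) = cl x hx → a σ (cl x' hx') = cl x' hx' →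
      cl x hx ∈ Y₀ ∨ cl x' hx' ∈ Y₀ ∨ cl (x * x') (mul_mem hx hx') ∈ Y₀) (h0 : bW ρ Q₀ ≠ 0)
    (kil : ∀ y ∈ Y₀, ∀ x hx, cl x hx = aW (Y := HA Qb F 2) a Q₀ y → R x)
    (swp : ∀ x hx, ∃ x₁ hx₁ x₂ hx₂, W (cl x hx) = cl x₁ hx₁ ∧ a φ (cl x₁ hx₁) = cl x₂ hx₂ ∧
      (R x → R x₁ → ∃ z : F, x₂ = x * z ^ 2)) : ρ φ = 1 := by
  haveI : Finite (HA Qb F 2) := HA_finite (by norm_num)
  have o := alg' (HA Qb F 2) a W φ σ Y₀ (fun y => ∀ x hx, cl x hx = y → R x) Q₀ hy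
  refine o hc occ hW st hσ (fun y y' e e' => ?_) h0 kil fun y t t' => ?_
  · obtain ⟨x, hx, rfl⟩ := cl_surj y
    obtain ⟨x', hx', rfl⟩ := cl_surj y'
    exact mon x hx x' hx' e e'
  · obtain ⟨x, hx, rfl⟩ := cl_surj y
    obtain ⟨x₁, hx₁, x₂, hx₂, e2, e4, h⟩ := swp x hx
    obtain ⟨z, hz⟩ := h (t x hx rfl) (t' x₁ hx₁ e2.symm)
    refine (congrArg (a φ) e2).trans (e4.trans ((cl_eq hx₂ hx).2 (mem_powU'.2 ⟨z, ?_⟩)))
    rw [Units.val_div_eq_div_val, eq_div_iff x.ne_zero, mul_comm, hz]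

/-- **RED** -/
def RED : Prop := ∀ (X : Mdl) (A : AV) (O : ValuationSubring ℂ) (w : NV (Qv A) FF) (N N' : ℕ)
  (H : Subgroup (ZMod N)ˣ) (H' : Subgroup (ZMod N')ˣ) [CFF Qb (L (GH N H))]
  [CFF Qb (L (GH N' H'))], A.On O → Inf O w → ((2 : ℕ) : kC (Qv A)) ≠ 0 → N' ∣ N → Lv N → Lv N' →
  (∀ u, u ∈ H) → (∀ u, u ∈ H') → ∀ (h : GH N H ≤ GH N' H') (Ac : Act X N H 2)
  (A' : Act X N' H' 2),
  letI := algL h
  haveI := towerV A h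
  ∀ [FiniteDimensional (L (GH N' H')) (L (GH N H))] (T : L (GH N' H'))
    [FiniteDimensional (Qv A)⟮T⟯ (L (GH N' H'))]
    [FiniteDimensional (Qv A)⟮algebraMap (L (GH N' H')) (L (GH N H)) T⟯ (L (GH N H))] (q : ℕ)
    (W : L (GH N H) ≃ₐ[Qv A] L (GH N H)) (u' : I.WW (Qv A) T)
    (v : Fin 2 → I.WW (Qv A) (algebraMap (L (GH N' H')) (L (GH N H)) T)),
    I.Kr (Qv A) T q W u' (w.comap (L (GH N H))) →
    I.Two (Qv A) (L (GH N' H')) (algebraMap _ _ T) W (w.comap (L (GH N H))) v →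
    ∃ Y₀ : AddSubgroup (HA Qb (L (GH N H)) 2),
      (∀ Q, ∀ y ∈ Y₀, aW (Y := HA Qb (L (GH N H)) 2) Ac.act Q y ∈ Y₀) ∧
      (∀ Q, aW (Y := HA Qb (L (GH N' H')) 2) A'.act Q = 0 → ∀ y ∈ Y₀, ∀ x hx,
        cl x hx = aW (Y := HA Qb (L (GH N H)) 2) Ac.act Q y →
          I.Triv 2 (v 0).1 (x : L (GH N H))) ∧
      ∀ (x : (L (GH N H))ˣ) hx, Evn (v 0) (x : L (GH N H)) → cl x hx ∈ Y₀

/-- the setting at the prime `q` -/
theorem setup (hS : SWP) (hR : RED) (X : Mdl) {E q : ℕ} (hq : q.Prime) {H : Subgroup (ZMod E)ˣ}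
    (hE : Lv E) (h8 : 8 ∣ E) (hH : ∀ u, u ∈ H) (hd : ¬ q ∣ E) (h3 : q % 4 = 3) {P : Ideal (𝓞 Qb)}
    (hP : P.IsPrime) (hl : (q : 𝓞 Qb) ∈ P) {φ : GQ} (hφ : ∀ x : 𝓞 Qb, φ • x - x ^ q ∈ P)
    [CFF Qb (L (GH E H))] [CFF Qb (L (GH (E * q) (up H q)))] (A' : Act X E H 2)
    (A : Act X (E * q) (up H q) 2) {γ : SL(2, ℤ)} (hγ : AL E q γ) (hγ1 : (E : ℤ) ∣ γ 1 1 - 1) :
    ∃ (σ : GQ) (Y₀ : AddSubgroup (HA Qb (L (GH (E * q) (up H q))) 2))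
      (R : L (GH (E * q) (up H q)) → Prop), P027M.S.Inert P σ ∧
      (∀ Q, ∀ y ∈ Y₀, aW (Y := HA Qb (L (GH (E * q) (up H q))) 2) A.act Q y ∈ Y₀) ∧
      (∀ Q, aW (Y := HA Qb (L (GH E H)) 2) A'.act Q = 0 → ∀ y ∈ Y₀, ∀ x hx,
        cl x hx = aW (Y := HA Qb (L (GH (E * q) (up H q))) 2) A.act Q y → R x) ∧
      (∀ x hx x' hx', A.act σ (cl x hx) = cl x hx → A.act σ (cl x' hx') = cl x' hx' →
        cl x hx ∈ Y₀ ∨ cl x' hx' ∈ Y₀ ∨ cl (x * x') (mul_mem hx hx') ∈ Y₀) ∧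
      ∀ x ∈ divU Qb (L (GH (E * q) (up H q))) 2, ∀ x₁ x₂ : L (GH (E * q) (up H q)),
        (x₁ : FF) = Wq X hq.pos γ (x : L (GH (E * q) (up H q))) → (x₂ : FF) = X.gal φ x₁ →
        R x → R x₁ → ∃ z, x₂ = x * z ^ 2 := by
  have hX := j_min X
  have h := lv_mul hE hq.pos
  have h' : ∀ u, u ∈ up H q := fun u => hH _
  have q2 : ¬ q ∣ 2 := fun e => by
    have := (Nat.prime_dvd_prime_iff_eq hq Nat.prime_two).1 e
    omega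
  obtain ⟨B, O, w, hD⟩ := dic ave g_winf hq hP hl
  obtain ⟨iso, fr⟩ := hD.fro φ hφ
  have m := mid hX.grp hE (hH _)
  letI := algL (up_le (q := q) H)
  haveI := towerV B (up_le (q := q) H)
  let W₁ := resA B (Wq X hq.pos γ) (Wq_mem_iff X hq.pos hγ (split_up H))
  let φ₀ := resR (X.gal φ) (gal_mem_iff X hX.hec3 h (h' _) φ)
  obtain ⟨f1, f2, u', kr⟩ := j_krm X E q hq H hE (hH _) hd P B O w hD γ hγ hγ1 (up_le H) m.hi W₁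
    fun _ => rfl
  haveI f3 : FiniteDimensional (Qv B)⟮algebraMap _ (L (GH (E * q) (up H q))) (la X m.hi)⟯
    (L (GH (E * q) (up H q))) := finite_adjoin_map
  obtain ⟨v, S, tw, nod⟩ := I.n0' _ _ _ _ _ _ _ _ kr
  have hT : ∀ g, X.gal g (algebraMap _ (L (GH (E * q) (up H q))) (la X m.hi) :
      L (GH (E * q) (up H q))) = (algebraMap _ (L (GH (E * q) (up H q))) (la X m.hi) :
      L (GH (E * q) (up H q))) := fun g => by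
    change X.gal g ((2 - X.t) / 4) = (2 - X.t) / 4
    rw [map_div₀, map_sub, map_ofNat, map_ofNat, hX.galx.2.2.1]
  have v0 : ∀ y : L (GH (E * q) (up H q)), (v 0).1 y = w y := fun y => by rw [tw.v0]; rfl
  obtain ⟨σ, hσ, mon⟩ := monM X hq hE h8 hH hd h3 hP hl hD A hγ hT tw.full nod tw.ne tw.all tw.sep
    v0 tw.v1
  obtain ⟨Y₀, y1, y2, y3⟩ := hR X B O w _ _ _ _ hD.on hD.inf (hD.ne _ q2) (dvd_mul_right E q) h hE
    h' hH (up_le H) A A' _ q W₁ u' v kr tw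
  refine ⟨σ, Y₀, I.Triv 2 (v 0).1, hσ, y1, y2, fun x hx x' hx' e e' => (mon x hx x' hx' e e').imp
    (y3 x hx) fun o => o.imp (y3 x' hx') fun o => y3 (x * x') (mul_mem hx hx') o,
    fun x hx x₁ x₂ e1 e3 t t' => ?_⟩
  have e5 : W₁ x = x₁ := Subtype.ext e1.symm
  have e6 : φ₀ x₁ = x₂ := Subtype.ext e3.symm
  have fT : ∀ y : L (GH (E * q) (up H q)), X.pg ModularGroup.T y = y := fun y =>
    In.pg_fix X (mem_all h' (by simp [ModularGroup.T])) y.2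
  have tr : ∀ u : I.WW (Qv B) (algebraMap _ (L (GH (E * q) (up H q))) (la X m.hi)),
      I.Triv 2 u.1 (x : L (GH (E * q) (up H q))) := fun u => by
    obtain ⟨i, rfl⟩ := tw.all u
    revert i
    refine Fin.forall_fin_two.2 ⟨t, ?_⟩
    obtain ⟨c, hc⟩ := t'
    refine ⟨W₁.symm c, ?_⟩
    rw [tw.v1, ← tw.v0, map_sub, map_mul, map_pow, map_one, W₁.apply_symm_apply, e5]
    exact hc
  obtain ⟨z, -, hz⟩ := hS (Qv B) _ _ (la X m.hi) v S q W₁ _ φ₀ (φ : Qb ≃+* Qb) kr.full kr.good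
    tw nod (hD.ne _ q2) hq.ne_zero ⟨fun c => Subtype.ext (hX.galx.2.1 φ c), iso⟩
    (Subtype.ext (hT φ)) kr.wwu (fun y => (g_wgal X B O w hD.on hD.inf φ iso).1 y)
    (fun f hf => by
      have := j_kro1 X B O w hD.on hD.inf q hq hD.lt φ fr f (fT (algebraMap _ _ f)) hf
      rw [← Wq_low X hq.pos hγ hγ1 f.2] at this
      exact this) x ⟨x.ne_zero, hx⟩ tr
  exact ⟨z, by rw [← hz, e5, e6]⟩

theorem core_of (hS : SWP) (hR : RED) : CORE := by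
  intro k _ _ ρ X E q e0 h8 hq hd h3 hy hin ⟨φ, ⟨P, hP, hl, hφ⟩, hne⟩ occ H hH _ A' Q₀ hQ
  by_contra hb
  have hX := j_min X
  have hE : Lv E := ⟨Nat.pos_of_ne_zero e0, (by norm_num : 4 ∣ 8).trans h8⟩
  have h := lv_mul hE hq.pos
  have h' : ∀ u, u ∈ up H q := fun u => hH _
  haveI : CFF Qb (L (GH (E * q) (up H q))) :=
    hX.cffs _ (mid hX.grp h (h' _)).hi (fidx hX.grp h (h' _))
  obtain ⟨A⟩ := hX.act _ _ h (h' _) 2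
  obtain ⟨γ, hγ, hγ1⟩ := exists_AL (M := E) (q := q)
    (Nat.isCoprime_iff_coprime.2 ((Nat.Prime.coprime_iff_not_dvd hq).2 hd).symm)
  obtain ⟨σ, Y₀, R, hσ, y1, y2, y3, y4⟩ := setup hS hR X hq hE h8 hH hd h3 hP hl hφ A' A hγ hγ1
  obtain ⟨W, r, wc, -⟩ := ex_W X hq hE hH hd hγ A
  have o1 := tr_comm X h h' A
  have o2 := occ _ h' A
  have o3 := y2 Q₀ hQ
  refine hne (algH A.act W φ σ Y₀ R Q₀ hy o1 o2 wc y1 (hin σ ⟨P, hP, hl, hσ⟩) y3 hb o3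
    fun x hx => ?_)
  obtain ⟨x₁, hx₁, e1, e2⟩ := r x hx
  obtain ⟨x₂, hx₂, e3, e4⟩ := A.act_rep φ x₁ hx₁
  exact ⟨x₁, hx₁, x₂, hx₂, e2, e4, y4 x hx x₁ x₂ e1 e3⟩

end Vale.Agent.P022K.CH.Maz
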