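import Vale.Agent.P022K.CH.Eps

/-! # P022K, block CH: a system with a guard is not Eisenstein -/

set_option linter.all false

open NumberField Matrix

noncomputable section

namespace Vale.Agent.P022K.CH

open Vale.Agent.P022
open Vale.Agent.P022D.W (dec)
open Vale.Agent.P022E.GW (Ov Fb)
open Vale.Agent.P022K.Glue (Spans)

/-- a group of matrices of determinant one and trace `± 2` does not span -/
theorem not_spans {G k : Type} [Group G] [Field k] (h2 : (2 : k) ≠ 0) (ρ : G →* GL (Fin 2) k)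
    (Γ : Subgroup G) (hd : ∀ g ∈ Γ, dt ρ g = 1) (ht : ∀ g ∈ Γ, tr ρ g ^ 2 = 4) :
    ¬ Spans (fun g => (ρ g : Matrix (Fin 2) (Fin 2) k)) (Γ : Set G) := fun hs => by
  obtain ⟨g, hg, hv⟩ := hs.irr ![1, 0] (by simp)
  have e : (ρ g : Matrix (Fin 2) (Fin 2) k) = (tr ρ g / 2) • 1 := hs.ext fun t m => by
    have a : tr ρ (g * t) + tr ρ (g⁻¹ * t) = tr ρ g * tr ρ t := by
      have d := hd g hg
      simp only [tr, dt, map_mul, map_inv, Units.val_mul, coe_units_inv, inv_def, adjugate_fin_two]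
        at d ⊢
      rw [d]
      simp [trace_fin_two, mul_apply, Fin.sum_univ_two, vecMul, dotProduct]
      ring
    have b := ht _ (Γ.mul_mem hg m)
    have c := ht _ (Γ.mul_mem (Γ.inv_mem hg) m)
    have d : (tr ρ g * tr ρ t) ^ 2 = 16 := by rw [mul_pow, ht g hg, ht t m]; norm_num
    have f : tr ρ (g * t) = tr ρ (g⁻¹ * t) := by
      rcases sq_eq_sq_iff_eq_or_eq_neg.1 (b.trans c.symm) with f | f
      · exact f
      · rw [← a, f, neg_add_cancel, zero_pow two_ne_zero] at d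
        exact (pow_ne_zero 4 h2 (by rw [show (2 : k) ^ 4 = 16 by norm_num, ← d])).elim
    rw [smul_mul_assoc, one_mul, trace_smul, ← Units.val_mul, ← map_mul, smul_eq_mul]
    change tr ρ (g * t) = tr ρ g / 2 * tr ρ t
    field_simp
    linear_combination a + f
  exact hv (tr ρ g / 2) (by rw [e, smul_mulVec, one_mulVec])

/-- a representation which is residually irreducible on `Gz p` is not congruent to a member of a
system with `a l = ± (l + 1)` -/
theorem not_eis {p : ℕ} [Fact p.Prime] (p2 : p ≠ 2) {ι : Qb →+* Cp p}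
    {r r' : GQ →* GL (Fin 2) (Cp p)} (hr : Rep r) (hr' : Rep r') (hc : Cg r r')
    (hi : RIrr r (Gz p)) {S : Finset ℕ} {a : ℕ → Qb} (hs : Sys ι r' S a) :
    ¬ ∀ l ∉ S, l.Prime → a l ^ 2 = ((l : Qb) + 1) ^ 2 := fun h => by
  have e : ∀ g, tr r' g ^ 2 = (eps p g + 1) ^ 2 := fun g => by
    refine congrFun (Continuous.ext_on (Cheb.dense_fr (insert p S)) (f := fun g => tr r' g ^ 2)
      (g := fun g => (eps p g + 1) ^ 2) ((Units.continuous_val.comp hr'.cont).matrix_trace.pow 2)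
      ((eps_cont.add continuous_const).pow 2) ?_) g
    rintro φ ⟨l, l1, l2, P, p1, p3, p4⟩
    rw [Finset.mem_insert, not_or] at l2
    change tr r' φ ^ 2 = (eps p φ + 1) ^ 2
    rw [hs l l2.2 P φ ⟨l1, p1, p3⟩ p4, eps_frob ⟨l1, p1, p3⟩ l2.1 p4, ← map_pow, h l l2.2 l1,
      map_pow, map_add, map_natCast, map_one]
  obtain ⟨ρ, hρ, hs⟩ := hi
  have n1 : ‖(1 : Cp p)‖ ≤ 1 := norm_one.le
  have k : ∀ g ∈ Gz p, red (eps p g) = 1 := fun g hg => by
    rw [← red_one, red_eq_iff (norm_eps g).le n1]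
    exact mem_Gz_p.1 hg
  refine not_spans (cast_Kp.2 fun d => p2 ((Nat.prime_dvd_prime_iff_eq Fact.out Nat.prime_two).1 d))
    ρ (Gz p) (fun g hg => by rw [← hρ.det, hr.det, k g hg]) (fun g hg => ?_) hs
  have i1 : ‖tr r' g‖ ≤ 1 := by
    have := IsUltrametricDist.norm_add_le_max (tr r' g - tr r g) (tr r g)
    rw [sub_add_cancel] at this
    exact this.trans (max_le (hc.symm g).le (hρ.int g))
  have i2 : ‖eps p g + 1‖ ≤ 1 :=
    (IsUltrametricDist.norm_add_le_max _ _).trans (max_le (norm_eps g).le n1)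
  rw [← hρ.tr, (red_eq_iff (hρ.int g) i1).2 (hc g), sq, ← red_mul i1 i1, ← sq, e, sq, red_mul i2 i2,
    red_add (norm_eps g).le n1, k g hg, red_one]
  norm_num

/-- the same for a guard -/
theorem Gd.not_eis {p : ℕ} [Fact p.Prime] (p2 : p ≠ 2) {ι : Qb →+* Cp p}
    {r r' : GQ →* GL (Fin 2) (Cp p)} (hr : Rep r) (hr' : Rep r') (hc : Cg r r') {l0 : ℕ}
    (hg : Gd r l0) (hl : l0.Prime) {S : Finset ℕ} {a : ℕ → Qb} (hs : Sys ι r' S a) :
    ¬ ∀ l ∉ S, l.Prime → a l ^ 2 = ((l : Qb) + 1) ^ 2 := by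
  obtain ⟨P, hP⟩ := ex_ov hl
  exact CH.not_eis p2 hr hr' hc ((hg.2 P hP).1.mono inf_le_right) hs

end Vale.Agent.P022K.CH
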