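import Vale.Agent.P022K.CH.Rows
import Vale.Agent.P022K.CH.Weil
import Vale.Agent.P022K.CH.StB

/-! # P022K, block CH: representations which are not Eisenstein on the cyclotomic subgroups -/

set_option linter.all false

open NumberField Matrix
open scoped Pointwise

noncomputable section

namespace Vale.Agent.P022K.CH

open Vale.Agent.P022 Vale.Agent.P022.H853
open Vale.Agent.P022.H443 (inP)
open Vale.Agent.P022D.W (dec)
open Vale.Agent.P022E.GW (Ov Fb)
open Vale.Agent.P022K.Glue (Spans)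

namespace Ns

section alg

variable {G k : Type} [Group G] [Field k] {ρ : G →* GL (Fin 2) k}

theorem tr_id (u h : Matrix (Fin 2) (Fin 2) k) (h0 : u.trace = 0) (h1 : u.det = 0) :
    (u * (h * u * h.adjugate)).trace = -(u * h).trace ^ 2 := by
  simp only [trace_fin_two, det_fin_two, mul_apply, Fin.sum_univ_two, adjugate_fin_two, of_apply,
    cons_val', cons_val_zero, cons_val_one, cons_val_fin_one] at *
  linear_combination ((u 0 0 * h 0 0 + u 0 1 * h 1 0 + (u 1 0 * h 0 1 + u 1 1 * h 1 1)) *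
    (h 0 0 + h 1 1)) * h0 - (h 1 1 * h 1 1 + 2 * h 0 1 * h 1 0 + h 0 0 * h 0 0) * h1

theorem tr_mul (h2 : (2 : k) ≠ 0) {Γ : Subgroup G} (hd : ∀ g ∈ Γ, dt ρ g = 1)
    (ht : ∀ g ∈ Γ, tr ρ g ^ 2 = 4) {g t : G} (hg : g ∈ Γ) (m : t ∈ Γ) :
    tr ρ (g * t) = tr ρ g / 2 * tr ρ t := by
  have a : tr ρ (g * t) + tr ρ (g⁻¹ * t) = tr ρ g * tr ρ t := by
    have d := hd g hg
    simp only [tr, dt, map_mul, map_inv, Units.val_mul, coe_units_inv, inv_def, adjugate_fin_two]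
      at d ⊢
    rw [d]
    simp [trace_fin_two, mul_apply, Fin.sum_univ_two, vecMul, dotProduct]
    ring
  have b := ht _ (Γ.mul_mem hg m)
  have c := ht _ (Γ.mul_mem (Γ.inv_mem hg) m)
  have d : (tr ρ g * tr ρ t) ^ 2 = 16 := by rw [mul_pow, ht g hg, ht t m]; norm_num
  have f : tr ρ (g * t) = tr ρ (g⁻¹ * t) := by
    rcases sq_eq_sq_iff_eq_or_eq_neg.1 (b.trans c.symm) with f | f
    · exact f
    · rw [← a, f, neg_add_cancel, zero_pow two_ne_zero] at d
      exact (pow_ne_zero 4 h2 (by rw [show (2 : k) ^ 4 = 16 by norm_num, ← d])).elim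
  field_simp
  linear_combination a + f

/-- a normal subgroup of `±` unipotent elements acts by signs -/
theorem sgn_of (h2 : (2 : k) ≠ 0) {Γ : Subgroup G} [hn : Γ.Normal] (hd : ∀ g ∈ Γ, dt ρ g = 1)
    (ht : ∀ g ∈ Γ, tr ρ g ^ 2 = 4) (hs : Spans (co ρ) Set.univ) {g : G} (hg : g ∈ Γ) :
    ρ g = 1 ∨ ρ g = -1 := by
  set c := tr ρ g / 2 with hc
  have c1 : c * c = 1 := by
    rw [hc]; field_simp; linear_combination ht g hg
  have c2 : tr ρ g = 2 * c := by rw [hc]; field_simp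
  set u : Matrix (Fin 2) (Fin 2) k := (ρ g).1 - c • 1 with hu
  have u0 : u.trace = 0 := by
    rw [hu, trace_sub, trace_smul, trace_one, Fintype.card_fin, smul_eq_mul]
    change tr ρ g - _ = 0
    rw [c2]; push_cast; ring
  have u1 : u.det = 0 := by
    have d := hd g hg
    simp only [hu, tr, dt, det_fin_two, trace_fin_two, Matrix.sub_apply, Matrix.smul_apply, one_apply_eq,
      smul_eq_mul, mul_one, ne_eq, zero_ne_one, one_ne_zero, not_false_eq_true, one_apply_ne,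
      mul_zero, sub_zero] at d c2 ⊢
    linear_combination d - c * c2 - c1
  have e : u = 0 := hs.ext fun h _ => by
    have k1 : (u * (ρ (h * g * h⁻¹)).1).trace = 0 := by
      rw [hu, sub_mul, smul_mul_assoc, one_mul, trace_sub, trace_smul, ← Units.val_mul, ← map_mul]
      exact sub_eq_zero.2 (tr_mul h2 hd ht hg (hn.conj_mem g hg h))
    have k2 : (ρ h).1 * u * (ρ h⁻¹).1 = (ρ (h * g * h⁻¹)).1 - c • 1 := by
      rw [hu, mul_sub, sub_mul, mul_smul_comm, smul_mul_assoc, mul_one, ← Units.val_mul,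
        ← Units.val_mul, ← Units.val_mul, ← map_mul, ← map_mul, ← map_mul, mul_inv_cancel, map_one,
        Units.val_one]
    have k3 : (ρ h).1.adjugate = (ρ h).1.det • (ρ h⁻¹).1 := by
      rw [← mul_one (ρ h).1.adjugate, ← Units.val_one, ← map_one ρ, ← mul_inv_cancel h, map_mul,
        Units.val_mul, ← mul_assoc, adjugate_mul, smul_mul_assoc, one_mul]
    have k4 := tr_id u (ρ h).1 u0 u1
    rw [k3, mul_smul_comm, k2, mul_smul_comm, trace_smul, mul_sub, trace_sub, k1, mul_smul_comm,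
      mul_one, trace_smul, u0] at k4
    rw [zero_mul, trace_zero]
    exact pow_eq_zero_iff two_ne_zero |>.1 (neg_eq_zero.1 (k4.symm.trans (by simp)))
  rw [hu, sub_eq_zero] at e
  refine (mul_self_eq_one_iff.1 c1).imp (fun k => Units.ext ?_) fun k => Units.ext ?_ <;>
    simp [e, k]

/-- the projective image is abelian -/
def PA (ρ : G →* GL (Fin 2) k) : Prop :=
  ∀ g h, ρ g * ρ h = ρ h * ρ g ∨ ρ g * ρ h = -(ρ h * ρ g)

theorem PA.four (h : PA ρ) (hs : Spans (co ρ) Set.univ) {s : G} (hd : dt ρ s = 1) :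
    ρ s ^ 4 = 1 := by
  obtain ⟨c, hc⟩ := hs.schur (x := (ρ s * ρ s).1) fun t _ => by
    change (ρ s * ρ s * ρ t).1 = (ρ t * (ρ s * ρ s)).1
    congr 1
    rcases h s t with e | e
    · rw [mul_assoc, e, ← mul_assoc, e, mul_assoc]
    · rw [mul_assoc, e, mul_neg, ← mul_assoc, e, neg_mul, neg_neg, mul_assoc]
  have d := congrArg det hc
  rw [Units.val_mul, det_mul, show (ρ s).1.det = 1 from hd, mul_one, scalar_apply, det_diagonal,
    Fin.prod_univ_two] at d
  refine Units.ext ?_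
  rw [show ρ s ^ 4 = ρ s * ρ s * (ρ s * ρ s) by simp only [pow_succ, pow_zero, one_mul, mul_assoc], Units.val_mul, hc, ← map_mul, ← d, map_one,
    Units.val_one]

theorem ne_neg (h2 : (2 : k) ≠ 0) (x : GL (Fin 2) k) : x ≠ -x := fun e => by
  have : (1 : GL (Fin 2) k) = -1 := mul_left_cancel (a := x) (by rw [mul_neg, mul_one, ← e])
  have := congrArg (fun y : GL (Fin 2) k => y.1 0 0) this
  simp only [Units.val_one, Units.val_neg, Matrix.neg_apply, one_apply_eq] at this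
  exact h2 (by linear_combination this)

open Classical in
/-- the commutator signs -/
def PA.ch (h : PA ρ) (h2 : (2 : k) ≠ 0) (t : G) : G →* ℤˣ :=
  MonoidHom.mk' (fun g => if ρ g * ρ t = ρ t * ρ g then 1 else -1) fun a b => by
    have n : ∀ {g}, ρ g * ρ t = -(ρ t * ρ g) → ¬ ρ g * ρ t = ρ t * ρ g := fun e e' =>
      ne_neg h2 _ (e'.symm.trans e)
    rcases h a t with x | x <;> rcases h b t with y | y
    · rw [if_pos x, if_pos y, if_pos, mul_one]
      rw [map_mul, mul_assoc, y, ← mul_assoc, x, mul_assoc]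
    · rw [if_pos x, if_neg (n y), if_neg (n _), one_mul]
      rw [map_mul, mul_assoc, y, mul_neg, ← mul_assoc, x, mul_assoc]
    · rw [if_neg (n x), if_pos y, if_neg (n _), mul_one]
      rw [map_mul, mul_assoc, y, ← mul_assoc, x, neg_mul, mul_assoc]
    · rw [if_neg (n x), if_neg (n y), if_pos]
      · simp
      rw [map_mul, mul_assoc, y, mul_neg, ← mul_assoc, x, neg_mul, neg_neg, mul_assoc]

theorem PA.ch_one (h : PA ρ) (h2 : (2 : k) ≠ 0) {t g : G} :
    h.ch h2 t g = 1 ↔ ρ g * ρ t = ρ t * ρ g := by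
  refine ⟨fun e => by_contra fun n => ?_, fun e => if_pos e⟩
  rw [show h.ch h2 t g = -1 from if_neg n] at e
  exact absurd e (by decide)

end alg

section quad

variable {χ χ' : GQ →* ℤˣ}

/-- a quadratic character which is not ramified is trivial -/
theorem unr_one (ho : IsOpen (χ.ker : Set GQ))
    (hu : ∀ l P, Ov l P → ∀ s ∈ inP P, χ s = 1) (g : GQ) : χ g = 1 := by
  by_contra n
  obtain ⟨K, _, _, j, e⟩ : ∃ (L : Type) (_ : Field L) (_ : NumberField L) (jL : L →+* Qb),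
      GK jL = χ.ker := by
    obtain ⟨K, _, _, _, j, e, -⟩ := exists_field (j := algebraMap ℚ Qb) ho fun g _ x => g.commutes x
    exact ⟨K, _, inferInstance, j, e⟩
  have h2 : Module.finrank ℚ K = 2 := by
    rw [← index_GK j, e, Subgroup.index_ker, (MonoidHom.range_eq_top).2 fun u => ?_]
    · simp
    · rcases Int.units_eq_one_or u with rfl | rfl
      · exact ⟨1, map_one _⟩
      · exact ⟨g, (Int.units_eq_one_or _).resolve_left n⟩
  have d := abs_discr_gt_two (K := K) (by omega)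
  obtain ⟨l, l1, l2⟩ := Nat.exists_prime_and_dvd (n := (discr K).natAbs) fun k => by
    rw [Int.abs_eq_natAbs, k] at d
    omega
  obtain ⟨P, hP⟩ := ex_ov l1
  obtain ⟨s, s1, s2⟩ := H916.exists_inertia j h2 (Int.natCast_dvd.2 l2) hP.2.1 hP.2.2
  exact s2 (e ▸ hu l P hP s s1)

theorem all_ov {l : ℕ} {P P' : Id} (hP : Ov l P) (hP' : Ov l P') (h : ∀ s ∈ inP P, χ s = 1) :
    ∀ s ∈ inP P', χ s = 1 := fun s hs => by
  obtain ⟨g, rfl⟩ := Fld.ov_conj hP' hP
  have := h (g * s * g⁻¹) fun x => by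
    rw [Ideal.mem_pointwise_smul_iff_inv_smul_mem, smul_sub, mul_smul, mul_smul, inv_smul_smul]
    exact hs _
  rwa [map_mul, map_mul, map_inv, mul_inv_cancel_comm] at this

theorem sq1 (u : ℤˣ) : u * u = 1 := Int.units_mul_self u

theorem tame2 (ho : IsOpen (χ.ker : Set GQ)) (ho' : IsOpen (χ'.ker : Set GQ)) {l : ℕ} (l2 : l ≠ 2)
    (h : ¬ ∀ P, Ov l P → ∀ s ∈ inP P, χ s = 1) (h' : ¬ ∀ P, Ov l P → ∀ s ∈ inP P, χ' s = 1)
    (P : Id) (hP : Ov l P) (s : GQ) (hs : s ∈ inP P) : (χ * χ') s = 1 := by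
  obtain ⟨τ, -, k⟩ := H443.tame_cyclic (f := χ.prod χ') (by
    rw [MonoidHom.ker_prod]; exact ho.inter ho')
    (fun g => ⟨1, by rw [pow_one, sq]; exact Prod.ext (sq1 _) (sq1 _)⟩) hP.1 l2 hP.2.1 hP.2.2
  have key : ∀ ψ : GQ →* ℤˣ, (¬ ∀ P, Ov l P → ∀ s ∈ inP P, ψ s = 1) →
      (∀ g ∈ inP P, ∃ n : ℕ, ψ g = ψ τ ^ n) → ψ τ = -1 := fun ψ a b =>
    (Int.units_eq_one_or _).resolve_left fun e => a fun P' hP' => all_ov hP hP' fun s hs => by
      obtain ⟨n, hn⟩ := b s hs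
      rw [hn, e, one_pow]
  have a := key χ h fun g hg => (k g hg).imp fun n e => congrArg Prod.fst e
  have b := key χ' h' fun g hg => (k g hg).imp fun n e => congrArg Prod.snd e
  obtain ⟨n, e⟩ := k s hs
  rw [MonoidHom.mul_apply, show χ s = χ τ ^ n from congrArg Prod.fst e,
    show χ' s = χ' τ ^ n from congrArg Prod.snd e, a, b, sq1]

theorem open_mul (ho : IsOpen (χ.ker : Set GQ)) (ho' : IsOpen (χ'.ker : Set GQ)) :
    IsOpen ((χ * χ').ker : Set GQ) :=
  Subgroup.isOpen_mono (H₁ := χ.ker ⊓ χ'.ker) (fun g hg => by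
    rw [MonoidHom.mem_ker, MonoidHom.mul_apply, hg.1, hg.2, mul_one]) (ho.inter ho')

variable {p : ℕ} [Fact p.Prime]

theorem one_prime (p2 : p ≠ 2) (ho : IsOpen (χ.ker : Set GQ))
    (hu : ∀ l, l ≠ p → ∀ P, Ov l P → ∀ s ∈ inP P, χ s = 1) {g : GQ} (hg : g ∈ Gz p) :
    χ g = 1 := by
  have pp : p.Prime := Fact.out
  haveI : NeZero p := ⟨pp.ne_zero⟩
  by_cases c : ∀ P, Ov p P → ∀ s ∈ inP P, χ s = 1
  · refine unr_one ho (fun l P hP => ?_) g
    by_cases e : l = p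
    · exact c P (e ▸ hP)
    · exact hu l e P hP
  let η : GQ →* ℤˣ := (quadraticChar (ZMod p)).toUnitHom.comp (cyc p)
  have e1 : ∀ g ∈ Gz p, η g = 1 := fun g hg => by
    rw [MonoidHom.comp_apply, mem_Gz.1 hg, map_one]
  have o1 : IsOpen (η.ker : Set GQ) := Subgroup.isOpen_mono (H₁ := Gz p) e1 (Gz_open p)
  have r1 : ¬ ∀ P, Ov p P → ∀ s ∈ inP P, η s = 1 := fun k => by
    obtain ⟨P, hP⟩ := ex_ov pp
    obtain ⟨u, hu⟩ := quadraticChar_exists_neg_one' (F := ZMod p) (by rwa [ZMod.ringChar_zmod_n])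
    obtain ⟨s, s1, s2⟩ := H297.L3.inert_cyc (m := p) (k := 1) (m' := 1) pp (by simp)
      (Nat.coprime_one_right p) hP.2.1 hP.2.2 u Nat.modEq_one
    have := congrArg Units.val (k P hP s s1)
    rw [MonoidHom.comp_apply, s2, MulChar.coe_toUnitHom, hu] at this
    exact absurd this (by decide)
  have := unr_one (open_mul ho o1) (fun l P hP s hs => ?_) g
  · rwa [MonoidHom.mul_apply, e1 g hg, mul_one] at this
  by_cases e : l = p
  · exact tame2 ho o1 p2 c r1 P (e ▸ hP) s hs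
  · rw [MonoidHom.mul_apply, hu l e P hP s hs, e1 s (inP_le_Gz hP
      (fun d => e ((Nat.prime_dvd_prime_iff_eq hP.1 pp).1 d)) hs), mul_one]

theorem two_primes (p2 : p ≠ 2) {q : ℕ} (q2 : q ≠ 2) (ho : IsOpen (χ.ker : Set GQ))
    (ho' : IsOpen (χ'.ker : Set GQ))
    (hu : ∀ l, l ≠ q → l ≠ p → ∀ P, Ov l P → ∀ s ∈ inP P, χ s = 1)
    (hu' : ∀ l, l ≠ q → l ≠ p → ∀ P, Ov l P → ∀ s ∈ inP P, χ' s = 1)
    (n : ∃ g ∈ Gz p, χ g ≠ 1) (n' : ∃ g ∈ Gz p, χ' g ≠ 1) {g : GQ} (hg : g ∈ Gz p) :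
    (χ * χ') g = 1 := by
  have key : ∀ ψ : GQ →* ℤˣ, IsOpen (ψ.ker : Set GQ) →
      (∀ l, l ≠ q → l ≠ p → ∀ P, Ov l P → ∀ s ∈ inP P, ψ s = 1) →
      (∀ P, Ov q P → ∀ s ∈ inP P, ψ s = 1) → ∀ g ∈ Gz p, ψ g = 1 := fun ψ a b c g hg =>
    one_prime p2 a (fun l e => by
      by_cases e' : l = q
      · exact e' ▸ c
      · exact b l e' e) hg
  refine key _ (open_mul ho ho') (fun l a b P hP s hs => ?_) (tame2 ho ho' q2 (fun c => ?_)
    fun c => ?_) g hg
  · rw [MonoidHom.mul_apply, hu l a b P hP s hs, hu' l a b P hP s hs, mul_one]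
  · obtain ⟨g, a, b⟩ := n
    exact b (key χ ho hu c g a)
  · obtain ⟨g, a, b⟩ := n'
    exact b (key χ' ho' hu' c g a)

end quad

variable {p : ℕ} [Fact p.Prime] {r : GQ →* GL (Fin 2) (Cp p)} {ρ : GQ →* GL (Fin 2) (Kp p)}

theorem dt_one (hr : Rep r) (h : Rs r ρ) {g : GQ} (hg : g ∈ Gz p) : dt ρ g = 1 := by
  rw [← h.det, hr.det, ← red_one, red_eq_iff (norm_eps g).le norm_one.le]
  exact mem_Gz_p.1 hg

theorem pa_of (p2 : p ≠ 2) (hr : Rep r) (h : Rs r ρ) (hs : Spans (co ρ) Set.univ) (n : ¬ Nes r) :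
    PA ρ := by
  simp only [Nes, not_forall, not_exists, not_and, not_not] at n
  obtain ⟨N, N0, n⟩ := n
  haveI : NeZero N := ⟨N0.ne'⟩
  haveI : NeZero p := ⟨(Fact.out : p.Prime).ne_zero⟩
  intro a b
  have m : ∀ (n : ℕ) [NeZero n], a * b * (b * a)⁻¹ ∈ Gz n := fun n _ => by
    rw [mem_Gz, map_mul, map_inv, map_mul, map_mul, mul_comm (cyc n a), mul_inv_cancel]
  have := sgn_of (Γ := Gz N ⊓ Gz p) (two_Kp p2) (fun g hg => dt_one hr h hg.2) (fun g hg => by
    have i := h.int g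
    have i4 : ‖((4 : ℕ) : Cp p)‖ ≤ 1 := IsUltrametricDist.norm_natCast_le_one _ _
    have := (red_eq_iff (x := tr r g ^ 2) (by rw [_root_.norm_pow]; exact pow_le_one₀ (norm_nonneg _) i) i4).2
      (by exact_mod_cast n g hg.1)
    rw [sq, red_mul i i, h.tr, red_nat] at this
    rw [sq, this, Nat.cast_ofNat]) hs ⟨m N, m p⟩
  rw [map_mul, map_inv, map_mul, map_mul, mul_inv_eq_iff_eq_mul, mul_inv_eq_iff_eq_mul, one_mul,
    neg_mul, one_mul] at this
  exact this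

end Ns

open Ns

variable {p : ℕ} [Fact p.Prime] {r r' : GQ →* GL (Fin 2) (Cp p)}

theorem nes_ord (p2 : p ≠ 2) (hr : Rep r) {l : ℕ} (hl : l.Prime) (lp : l ≠ p) (he : Ex r l 32 16)
    (hi : RIrr r ⊤) : Nes r := by
  by_contra n
  haveI : NeZero p := ⟨(Fact.out : p.Prime).ne_zero⟩
  obtain ⟨ρ, h, hs⟩ := hi
  obtain ⟨P, hP⟩ := ex_ov hl
  obtain ⟨a, s, hs', b⟩ := he P hP
  have e := (pa_of p2 hr h hs n).four hs (dt_one hr h (inP_le_Gz hP
    (fun d => lp ((Nat.prime_dvd_prime_iff_eq hl Fact.out).1 d)) hs'))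
  have f : r s ^ 16 = -1 := Loc.eq_neg_one two_ne_zero (by
    rw [← map_pow]
    exact (hr.det _).trans (eps_inert hP lp (pow_mem hs' 16))) (by rw [← pow_mul]; exact a s hs') b
  have t := h.tr (s ^ 16)
  have t1 : tr r (s ^ 16) = ((-2 : ℤ) : Cp p) := by simp [tr, f]
  have t2 : tr ρ (s ^ 16) = 2 := by
    rw [tr, map_pow, show 16 = 4 * 4 from rfl, pow_mul, e]; simp
  rw [t1, t2, red_int] at t
  refine pow_ne_zero 2 (two_Kp p2) ?_
  push_cast at t
  linear_combination -t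

theorem nes_two (p2 : p ≠ 2) {q : ℕ} (q2 : q ≠ 2) (hr : Rep r) (hu : Unr r {q, p})
    (hi : RIrr r (Gz p)) : Nes r := by
  by_contra n
  obtain ⟨ρ, h, hs⟩ := hi
  have hs' : Spans (co ρ) Set.univ := hs.mono (Set.subset_univ _)
  have pa := pa_of p2 hr h hs' n
  have h2 := two_Kp p2
  have o : ∀ t, IsOpen ((pa.ch h2 t).ker : Set GQ) := fun t =>
    Subgroup.isOpen_mono (H₁ := ρ.ker) (fun g hg => (pa.ch_one h2).2 (by
      rw [show ρ g = 1 from hg, one_mul, mul_one])) h.opn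
  have u : ∀ t l, l ≠ q → l ≠ p → ∀ P, Ov l P → ∀ s ∈ inP P, pa.ch h2 t s = 1 :=
    fun t l a b P hP s hs => (pa.ch_one h2).2 (by
      have e : ρ s = 1 := Units.ext (hs'.ext fun x _ => by
        have := h.tr (s * x)
        rw [tr, map_mul, hu l (by simp [a, b]) P hP s hs, one_mul, ← tr, h.tr] at this
        simpa [tr] using this.symm)
      rw [e, one_mul, mul_one])
  obtain ⟨g, hg, hv⟩ := hs.irr ![1, 0] (by simp)
  obtain ⟨t, ht, c⟩ : ∃ t ∈ Gz p, ¬ ρ g * ρ t = ρ t * ρ g := by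
    by_contra c
    push Not at c
    obtain ⟨c, e⟩ := hs.schur (x := (ρ g).1) fun t ht => congrArg Units.val (c t ht)
    exact hv c (by rw [e]; ext i; fin_cases i <;> simp [mulVec_diagonal])
  have := two_primes p2 q2 (o t) (o g) (u t) (u g) ⟨g, hg, fun e => c ((pa.ch_one h2).1 e)⟩
    ⟨t, ht, fun e => c ((pa.ch_one h2).1 e).symm⟩ hg
  rw [MonoidHom.mul_apply, (pa.ch_one h2 (t := g) (g := g)).2 rfl, mul_one] at this
  exact c ((pa.ch_one h2).1 this)

theorem nesC : NES := fun p _ r l p2 hl hr hg h => by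
  rcases h with h | ⟨rfl, h⟩
  · exact nes_ord p2 hr hl hg.1 h (hg.irr hl)
  · obtain ⟨P, hP⟩ := ex_ov hl
    exact nes_two p2 (by norm_num) hr h ((hg.2 P hP).1.mono inf_le_right)

end Vale.Agent.P022K.CH
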