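import Vale.Agent.P022K.CH.Eps
import Vale.Agent.P022K.CH.Weil
import Vale.Agent.P022K.Cheb.Main
import Vale.Agent.P022K.Dk.Solv
import Vale.Agent.P022E.GW.Fix
import Vale.Agent.P022T.TateH92

/-!
# P022K, block CH: the rows QEX and TATE
-/

set_option linter.all false

open NumberField Matrix
open scoped Pointwise commutatorElement

noncomputable section

namespace Vale.Agent.P022K.CH

open Vale.Agent.P022 Vale.Agent.P022.H853
open Vale.Agent.P022.H443 (inP galQb)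
open Vale.Agent.P022D.W (dec)
open Vale.Agent.P022E.GW (Ov Fb)

theorem tateC : TATE := fun ρ S Q h => by
  by_contra c
  push Not at c
  refine h.big (P022T.H92.tate _ ρ h.opn fun l hl h2 P a b s hs => h.unr l (fun m => ?_) P
    ⟨hl, a, b⟩ s hs)
  exact (Finset.mem_erase.1 m).1 (c l (Finset.mem_erase.1 m).2 h2)

theorem fb_smul1 {a : ℕ} {P : Id} {φ : GQ} (h : Fb a P φ) (g : GQ) : Fb a (g • P) (g * φ * g⁻¹) :=
  fun x => by
    rw [Ideal.mem_pointwise_smul_iff_inv_smul_mem, smul_sub, smul_pow', mul_smul, mul_smul,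
      inv_smul_smul]
    exact h _

/-- the Frobenius elements at an unramified prime are conjugate -/
theorem frob_conj {Γ : Type*} [Group Γ] (ρ : GQ →* Γ) {l : ℕ} {P P' : Id} {φ φ' : GQ}
    (hP : Ov l P) (hP' : Ov l P') (h : Fb l P φ) (h' : Fb l P' φ') (u : ∀ s ∈ inP P', ρ s = 1) :
    ∃ g, ρ φ' = ρ g * ρ φ * (ρ g)⁻¹ := by
  obtain ⟨g, rfl⟩ := Fld.ov_conj hP hP'
  have := u _ (Weil.fb_div (a := 1) hP' (by rw [pow_one]; exact fb_smul1 h g) (by rwa [pow_one]))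
  rw [map_mul, map_inv, inv_mul_eq_one, map_mul, map_mul, map_inv] at this
  exact ⟨g, this.symm⟩

theorem fin_range {Γ : Type*} [Group Γ] (ρ : GQ →* Γ) (h : IsOpen {g | ρ g = 1}) :
    Finite ρ.range :=
  haveI := galQb
  haveI := ρ.ker.quotient_finite_of_isOpen h
  Finite.of_equiv _ (QuotientGroup.quotientKerEquivRange ρ).toEquiv

/-- a non solvable image in characteristic two does not see abelian extensions -/
theorem perf_img {k A : Type} [Field k] [IsAlgClosed k] [CharP k 2] [CommGroup A]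
    (ρ : GQ →* GL (Fin 2) k) (ho : IsOpen {g | ρ g = 1}) (hd : ∀ g, dt ρ g = 1)
    (hs : ¬ Group.IsSolvable ρ.range) (χ : GQ →* A) (g x : GQ) : ∃ y, ρ y = ρ g ∧ χ y = χ x := by
  haveI := fin_range ρ ho
  obtain ⟨y, hy, e⟩ := (Dk.perf2 ρ.range (by rintro _ ⟨g, rfl⟩; exact hd g) hs).1 (χ.ker.map ρ)
    (by
      rintro _ ⟨a, rfl⟩ _ ⟨b, rfl⟩
      exact ⟨⁅a, b⁆, by
        rw [SetLike.mem_coe, MonoidHom.mem_ker, map_commutatorElement,
          commutatorElement_eq_one_iff_mul_comm, mul_comm], map_commutatorElement ρ a b⟩)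
    ⟨x⁻¹ * g, rfl⟩
  exact ⟨x * y, by rw [map_mul, e, ← map_mul, mul_inv_cancel_left],
    by rw [map_mul, MonoidHom.mem_ker.1 hy, mul_one]⟩

/-- a guard: a prime in a given class modulo `N` at which `ρ` is not ramified and whose Frobenius
elements are involutions -/
theorem exists_guard {k : Type} [Field k] [IsAlgClosed k] [CharP k 2] (ρ : GQ →* GL (Fin 2) k)
    (ho : IsOpen {g | ρ g = 1}) (hd : ∀ g, dt ρ g = 1) (hs : ¬ Group.IsSolvable ρ.range) (N : ℕ)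
    [NeZero N] (u : (ZMod N)ˣ) (S : Finset ℕ) : ∃ Q, Q.Prime ∧ Q ∉ S ∧ (Q : ZMod N) = u ∧
      (∀ P, Ov Q P → ∀ s ∈ inP P, ρ s = 1) ∧
      ∀ P φ, Ov Q P → Fb Q P φ → ρ φ ≠ 1 ∧ ρ φ ^ 2 = 1 := by
  classical
  haveI := fin_range ρ ho
  obtain ⟨n, n0, hn⟩ := P022E.GW.Fx2.fin_ram ρ.ker ho
  obtain ⟨c, c1⟩ := Cheb.cyc_surj N u
  obtain ⟨_, ⟨x, rfl⟩, u1, u2⟩ := (Dk.perf2 ρ.range (by rintro _ ⟨g, rfl⟩; exact hd g) hs).2
  obtain ⟨y, y1, y2⟩ := perf_img ρ ho hd hs (cyc N) x c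
  obtain ⟨Q, φ, hQ, hS, ⟨P, p1, p2, p3⟩, z1, z2⟩ := Cheb.cheb (ρ.ker ⊓ (cyc N).ker) inferInstance
    (ho.inter (isOpen_cyc N)) y (S ∪ (n * N).primeFactors)
  rw [Finset.mem_union, not_or, Nat.mem_primeFactors_of_ne_zero (mul_ne_zero n0 (NeZero.ne N)),
    not_and] at hS
  change _ = _ at z1 z2
  rw [map_mul, map_inv, inv_mul_eq_one] at z1 z2
  have hP : Ov Q P := ⟨hQ, p1, p2⟩
  have unr : ∀ P, Ov Q P → ∀ s ∈ inP P, ρ s = 1 := fun P hP s hs =>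
    hn P hP.2.1 (not_mem_of_ov hP fun d => hS.2 hQ (d.mul_right N)) s hs
  refine ⟨Q, hQ, hS.1, ?_, unr, fun P' φ' hP' h' => ?_⟩
  · rw [← cyc_pow hP (fun d => hS.2 hQ (d.mul_left n)) p3, ← z2, y2, c1]
  · obtain ⟨g, e⟩ := frob_conj ρ hP hP' p3 h' (unr P' hP')
    rw [e, ← z1, y1, conj_pow, u2, mul_one, mul_inv_cancel, Ne, conj_eq_one_iff]
    exact ⟨u1, rfl⟩

/-- the same with congruences: `Q ≡ -1` modulo `A`, `Q ≡ 1` modulo the primes of `T` -/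
theorem exists_guard' {k : Type} [Field k] [IsAlgClosed k] [CharP k 2] (ρ : GQ →* GL (Fin 2) k)
    (ho : IsOpen {g | ρ g = 1}) (hd : ∀ g, dt ρ g = 1) (hs : ¬ Group.IsSolvable ρ.range) (A : ℕ)
    (hA : A ≠ 0) (T S : Finset ℕ) (hT : ∀ l ∈ T, l.Prime ∧ ¬ l ∣ A) : ∃ Q, Q.Prime ∧ Q ∉ S ∧
      A ∣ Q + 1 ∧ (∀ l ∈ T, l ∣ Q - 1) ∧ (∀ P, Ov Q P → ∀ s ∈ inP P, ρ s = 1) ∧
      ∀ P φ, Ov Q P → Fb Q P φ → ρ φ ≠ 1 ∧ ρ φ ^ 2 = 1 := by
  have c : A.Coprime (∏ l ∈ T, l) := Nat.Coprime.prod_right fun l h =>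
    ((hT l h).1.coprime_iff_not_dvd.2 (hT l h).2).symm
  haveI : NeZero (A * ∏ l ∈ T, l) :=
    ⟨mul_ne_zero hA (Finset.prod_ne_zero_iff.2 fun l h => (hT l h).1.ne_zero)⟩
  let e := ZMod.chineseRemainder c
  obtain ⟨Q, hQ, hS, h, h'⟩ := exists_guard ρ ho hd hs (A * ∏ l ∈ T, l)
    (Units.mkOfMulEqOne (e.symm (-1, 1)) (e.symm (-1, 1)) (by
      rw [← map_mul, ← map_one e.symm]; congr 1; ext <;> simp)) S
  have z : ((Q : ZMod A), (Q : ZMod (∏ l ∈ T, l))) = (-1, 1) := by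
    rw [← e.apply_symm_apply (-1, 1)]
    exact (map_natCast e Q).symm.trans (congrArg e h)
  refine ⟨Q, hQ, hS, ?_, fun l m => (Finset.dvd_prod_of_mem (fun l => l) m).trans ((Nat.modEq_iff_dvd'
    hQ.pos).1 ((ZMod.natCast_eq_natCast_iff _ _ _).1 ?_).symm), h'⟩
  · rw [← ZMod.natCast_eq_zero_iff, Nat.cast_add, show (Q : ZMod A) = -1 from congrArg Prod.fst z,
      Nat.cast_one, neg_add_cancel]
  · rw [Nat.cast_one]
    exact congrArg Prod.snd z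

/-- the set of the odd ramified primes -/
theorem exists_ram {R : Type} [CommRing R] (ρ : GQ →* GL (Fin 2) R) (ho : IsOpen {g | ρ g = 1}) :
    ∃ T : Finset ℕ, ∀ l, l ∈ T ↔ l.Prime ∧ ¬ ∀ P, Ov l P → ∀ s ∈ inP P, ρ s = 1 := by
  classical
  obtain ⟨n, n0, hn⟩ := P022E.GW.Fx2.fin_ram ρ.ker ho
  refine ⟨n.primeFactors.filter fun l => ¬ ∀ P, Ov l P → ∀ s ∈ inP P, ρ s = 1, fun l => ?_⟩
  rw [Finset.mem_filter, Nat.mem_primeFactors_of_ne_zero n0]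
  exact ⟨fun h => ⟨h.1.1, h.2⟩, fun h => ⟨⟨h.1, not_not.1 fun d => h.2 fun P hP =>
    hn P hP.2.1 (not_mem_of_ov hP d)⟩, h.2⟩⟩

theorem qexC : QEX := fun ρ ho hd hs => by
  classical
  obtain ⟨T, hT⟩ := exists_ram ρ ho
  have pr : ∀ l ∈ T.erase 2, l.Prime := fun l h => ((hT l).1 (Finset.mem_of_mem_erase h)).1
  obtain ⟨Q, hQ, hS, a, b, c, d⟩ := exists_guard' ρ ho hd hs 32 (by norm_num) (T.erase 2) ∅
    fun l h => ⟨pr l h, not_dvd (p := 2) (pr l h) (Finset.ne_of_mem_erase h) 5⟩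
  have mem : ∀ l ∈ insert 2 (insert Q T), l ≠ 2 → l ≠ Q → l ∈ T := fun l h a b =>
    (Finset.mem_insert.1 ((Finset.mem_insert.1 h).resolve_left a)).resolve_left b
  refine ⟨insert 2 (insert Q T), Q, ho, hd, hs, ⟨Finset.mem_insert_self _ _, fun l h => ?_⟩,
    by simp, a, fun l h x y => b l (Finset.mem_erase.2 ⟨x, mem l h x y⟩), fun l h P hP => ?_,
    fun l h x y z => ((hT l).1 (mem l h x y)).2 fun P hP => z P hP.2.1 hP.2.2, d⟩
  · rcases Finset.mem_insert.1 h with rfl | h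
    · exact Nat.prime_two
    · exact (Finset.mem_insert.1 h).elim (fun e => e ▸ hQ) fun m => ((hT l).1 m).1
  · by_cases e : l = Q
    · exact c P (e ▸ hP)
    · simp only [Finset.mem_erase, Finset.mem_insert, not_and, not_or] at h
      exact not_not.1 (fun z => (h e).2.2 ((hT l).2 ⟨hP.1, z⟩)) P hP

end Vale.Agent.P022K.CH
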