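import Vale.Agent.P022K.CH.Rows
import Vale.Agent.P022K.CH.Qex

/-!
# P022K, block CH: a finite image of inertia at `l` has order prime to `p` if `p ∤ l (l² - 1)`
-/

set_option linter.all false

open NumberField Matrix
open scoped Pointwise

noncomputable section

namespace Vale.Agent.P022K.CH

open Vale.Agent.P022
open Vale.Agent.P022.H443 (inP galQb)
open Vale.Agent.P022D.W (dec)
open Vale.Agent.P022E.GW (Ov Fb)

namespace Loc

theorem Tm.sylow {G Γ : Type*} [Group G] [Group Γ] {l : ℕ} {D I N U : Subgroup G} {τ φ : G}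
    (t : Tm l D I N U τ φ) (f : G →* Γ) (hU : ∀ u ∈ U ⊓ I, f u = 1) [Finite (I.map f)] {p : ℕ}
    [hp : Fact p.Prime] (hl : ¬ p ∣ l) (h : p ∣ Nat.card (I.map f)) :
    ∃ s ∈ I, ∃ (g : G) (a : ℕ), f s ≠ 1 ∧ f s ^ p ^ a = 1 ∧ f g * f s * (f g)⁻¹ = f s ^ l := by
  let J := (I.map f).subgroupOf (D.map f)
  have e := Subgroup.subgroupOfEquivOfLe (Subgroup.map_mono (f := f) t.ID)
  haveI : Finite J := Finite.of_equiv _ e.toEquiv.symm
  haveI : J.Normal := ⟨by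
    rintro ⟨_, _⟩ ⟨s, hs, rfl⟩ ⟨_, g, hg, rfl⟩
    exact ⟨_, t.cjI g hg s hs, by simp⟩⟩
  let P : Sylow p J := default
  obtain ⟨⟨⟨⟨y, m⟩, m0⟩, hx⟩, x1⟩ := (Subgroup.ne_bot_iff_exists_ne_one).1
    (P.ne_bot_of_dvd_card (by rwa [Nat.card_congr e.toEquiv]))
  obtain ⟨s, hs, rfl⟩ : ∃ s ∈ I, f s = y := m0
  have pg := P.isPGroup'.map J.subtype
  have m' : (⟨f s, m⟩ : D.map f) ∈ (P : Subgroup J).map J.subtype := ⟨_, hx, rfl⟩
  obtain ⟨n, hn, ⟨y, m1⟩, m2, e1⟩ := Subgroup.mem_sup_of_normal_right.1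
    ((P.normalizer_sup_eq_top).ge (Subgroup.mem_top (⟨f φ, φ, t.phi, rfl⟩ : D.map f)))
  obtain ⟨i, hi, rfl⟩ : ∃ s ∈ I, f s = y := m2
  have e2 : (n : Γ) = f (φ * i⁻¹) := by
    rw [map_mul, map_inv, eq_mul_inv_iff_mul_eq]; exact congrArg Subtype.val e1
  obtain ⟨a, ha⟩ := pg ⟨_, m'⟩
  refine ⟨s, hs, φ * i⁻¹, a, fun z => x1 (Subtype.ext (Subtype.ext (Subtype.ext z))),
    congrArg (fun y => (y.1.1 : Γ)) ha, ?_⟩
  obtain ⟨q, hq, c1⟩ := t.comm (I.inv_mem hi) hs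
  obtain ⟨w, hw, c2⟩ := t.rel s hs
  have c3 : φ * i⁻¹ * s * (φ * i⁻¹)⁻¹ = φ * q * φ⁻¹ * w * s ^ l := by
    rw [mul_assoc _ w, ← c2, show φ * q * φ⁻¹ * (φ * s * φ⁻¹) = φ * (q * s) * φ⁻¹ by group, ← c1]
    group
  have hv := N.mul_mem (t.cjN φ t.phi q hq) hw
  obtain ⟨b, hb⟩ := t.wild _ hv
  obtain ⟨c, hc⟩ := pg ⟨_, Subgroup.mul_mem _ ((Subgroup.mem_normalizer_iff.1 hn _).1 m')
    (Subgroup.inv_mem _ (Subgroup.pow_mem _ m' l))⟩
  have c4 : ((n : Γ) * f s * (n : Γ)⁻¹ * (f s ^ l)⁻¹) ^ p ^ c = 1 :=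
    congrArg (fun y => (y.1.1 : Γ)) hc
  have c5 : f (φ * i⁻¹) * f s * (f (φ * i⁻¹))⁻¹ = f (φ * q * φ⁻¹ * w) * f s ^ l := by
    rw [← map_pow, ← map_mul, ← map_mul, ← c3, ← map_inv, ← map_mul]
  rw [e2, c5, mul_inv_cancel_right] at c4
  have c6 := pow_gcd_eq_one.2 ⟨c4, (map_pow f _ _).symm.trans
    (hU _ ⟨hb, I.pow_mem (t.NI hv) _⟩)⟩
  rw [(Nat.Coprime.pow c b (hp.out.coprime_iff_not_dvd.2 hl) : Nat.gcd _ _ = 1), pow_one] at c6
  rw [c5, c6, one_mul]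

/-- an element of finite order which has the trace of its `l`-th power -/
theorem pow_of_tr {E : Type*} [Field E] [IsAlgClosed E] {x : Matrix (Fin 2) (Fin 2) E}
    (hd : x.det = 1) {m l : ℕ} (hm : (m : E) ≠ 0) (fin : x ^ m = 1) (hl : 0 < l)
    (h : (x ^ l).trace = x.trace) : x ^ (l ^ 2 - 1) = 1 := by
  obtain ⟨a, ha⟩ := IsAlgClosed.exists_root x.charpoly (by simp)
  rw [Polynomial.IsRoot, Matrix.charpoly_fin_two, hd] at ha
  simp only [Polynomial.eval_add, Polynomial.eval_sub, Polynomial.eval_mul, Polynomial.eval_pow,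
    Polynomial.eval_C, Polynomial.eval_X] at ha
  obtain ⟨b, hb⟩ : ∃ b, x.trace = a + b := ⟨x.trace - a, by ring⟩
  have ab : a * b = 1 := by rw [hb] at ha; linear_combination -ha
  have tp := tr_pow hb (hd.trans ab.symm)
  have e1 : a ^ l + b ^ l = a + b := by rw [← tp, h, hb]
  have e2 : a ^ l * b ^ l = 1 := by rw [← mul_pow, ab, one_pow]
  obtain ⟨j, rfl⟩ : ∃ j, l = j + 1 := ⟨l - 1, by omega⟩
  have e3 : a ^ ((j + 1) ^ 2 - 1) = 1 := by
    rw [show (j + 1) ^ 2 - 1 = j * (j + 2) from Nat.sub_eq_of_eq_add (by ring)]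
    rcases mul_eq_zero.1 (show (a ^ (j + 1) - a) * (a ^ (j + 1) - b) = 0 by
      linear_combination a ^ (j + 1) * e1 - e2 + ab) with h | h
    · rw [pow_mul, show a ^ j = 1 by linear_combination b * h - (a ^ j - 1) * ab, one_pow]
    · rw [mul_comm, pow_mul, show a ^ (j + 2) = 1 by linear_combination a * h + ab, one_pow]
  refine one_of_uni (n := m) ?_ (by rw [det_pow, hd, one_pow])
    (by rw [← pow_mul, mul_comm, pow_mul, fin, one_pow]) hm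
  have e4 : b ^ ((j + 1) ^ 2 - 1) = 1 := by rw [← one_mul (b ^ _), ← e3, ← mul_pow, ab, one_pow, e3]
  rw [tp, e3, e4, one_add_one_eq_two]

theorem fin_map {G Γ : Type*} [Group G] [Group Γ] {I U : Subgroup G} [U.FiniteIndex] (f : G →* Γ)
    (hU : ∀ u ∈ U ⊓ I, f u = 1) : Finite (I.map f) := by
  haveI : (f.comp I.subtype).ker.FiniteIndex :=
    Subgroup.finiteIndex_of_le (H := U.subgroupOf I) fun u hu => hU u ⟨hu, u.2⟩
  rw [← I.range_subtype, MonoidHom.map_range]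
  exact Finite.of_equiv _ (QuotientGroup.quotientKerEquivRange _).toEquiv

theorem ord_all {G E : Type*} [Group G] [Field E] [IsAlgClosed E] {l : ℕ}
    {D I N U : Subgroup G} {τ φ : G} (t : Tm l D I N U τ φ) [U.FiniteIndex]
    (r : G →* GL (Fin 2) E) (hU : ∀ u ∈ U ⊓ I, r u = 1)
    (hd : ∀ s ∈ I, (r s : Matrix (Fin 2) (Fin 2) E).det = 1) {p : ℕ} [hp : Fact p.Prime]
    (h0 : (p : E) ≠ 0) (hl : ¬ p ∣ l) (h2 : ¬ p ∣ l ^ 2 - 1) : ¬ p ∣ Nat.card (I.map r) := by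
  haveI := fin_map r hU
  intro h
  obtain ⟨s, hs, g, a, s1, s2, s3⟩ := t.sylow r hU hl h
  have e := pow_of_tr (hd s hs) (m := p ^ a) (by rw [Nat.cast_pow]; exact pow_ne_zero _ h0)
    (by rw [← Units.val_pow_eq_pow_val, s2, Units.val_one])
    (l := l) (Nat.pos_of_ne_zero fun z => hl (by rw [z]; exact dvd_zero p))
    (by rw [← Units.val_pow_eq_pow_val, ← s3, Units.val_mul, Units.val_mul, trace_units_conj])
  rw [← Units.val_pow_eq_pow_val, Units.val_eq_one] at e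
  have := pow_gcd_eq_one.2 ⟨s2, e⟩
  rw [(Nat.Coprime.pow_left a (hp.out.coprime_iff_not_dvd.2 h2) : Nat.gcd _ _ = 1), pow_one] at this
  exact s1 this

end Loc

theorem inP_smul {P : Id} {s : GQ} (g : GQ) (h : s ∈ inP P) : g * s * g⁻¹ ∈ inP (g • P) :=
  Weil.fb_zero (l := 1) |>.1 (fb_smul1 ((Weil.fb_zero (l := 1)).2 h) g)

/-- an exponent at one prime above `l` is an exponent at all of them -/
theorem pow_all {Γ : Type*} [Group Γ] (r : GQ →* Γ) {l n : ℕ} {P P' : Id} (hP : Ov l P)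
    (hP' : Ov l P') (h : ∀ s ∈ inP P, r s ^ n = 1) : ∀ s ∈ inP P', r s ^ n = 1 := fun s hs => by
  obtain ⟨g, rfl⟩ := Fld.ov_conj hP' hP
  have := h _ (inP_smul g hs)
  rwa [map_mul, map_mul, map_inv, conj_pow, conj_eq_one_iff] at this

/-- **the order of a finite type**: prime to `p` if `p ∤ l (l² - 1)`; `q` is the coefficient prime -/
theorem ord_prime {q : ℕ} [Fact q.Prime] {r : GQ →* GL (Fin 2) (Cp q)} (hr : Rep r) {l : ℕ}
    (hl : l.Prime) (hq : l ≠ q) (hf : Fn r l) {p : ℕ} (hp : p.Prime) (h1 : l ≠ p)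
    (h2 : ¬ p ∣ l ^ 2 - 1) : ∃ n, ¬ p ∣ n ∧ Ex r l n 2 := by
  have := galQb
  haveI := Fact.mk hp
  obtain ⟨P, hP⟩ := ex_ov hl
  obtain ⟨⟨U, hU, hU'⟩, -⟩ := hf P hP
  obtain ⟨τ, -, t⟩ := Loc.tame hP
  obtain ⟨φ, hφ⟩ := P022D.W.exists_phi hP.1 hP.2.1 hP.2.2
  obtain ⟨N, t⟩ := t φ hφ U hU
  haveI : Finite (GQ ⧸ U) := U.quotient_finite_of_isOpen hU
  haveI : U.FiniteIndex := Subgroup.finiteIndex_of_finite_quotient
  refine ⟨_, Loc.ord_all t r hU' (fun s hs => (hr.det s).trans (eps_inert hP hq hs))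
    (Nat.cast_ne_zero.2 hp.ne_zero) (fun e => h1 ((Nat.prime_dvd_prime_iff_eq hp hl).1 e).symm) h2,
    fun P' hP' => ⟨pow_all r hP hP' fun s hs => ?_, (hf P' hP').2⟩⟩
  exact congrArg Subtype.val (pow_card_eq_one' (x := (⟨r s, s, hs, rfl⟩ : (inP P).map r)))

end Vale.Agent.P022K.CH
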