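import Vale.Agent.P022K.CH.Eps

/-!
# P022K, block CH: the row RED (a finite coefficient field and a stable lattice)
-/

set_option linter.all false

open NumberField Matrix Polynomial IntermediateField

noncomputable section

namespace Vale.Agent.P022K.CH

open Vale.Agent.P022
open Vale.Agent.P022.H443 (galQb)

namespace Red

section lat

variable {G E : Type*} [Group G] [TopologicalSpace G] [CompactSpace G] [NormedField E]

/-- the stable lattice: two columns with the largest determinant -/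
theorem lat (r : G →* GL (Fin 2) E) (hr : Continuous r) : ∃ (P : GL (Fin 2) E),
    (∀ i k, ∃ g j, P i k = r g i j) ∧ ∀ s i k, ‖(P⁻¹ * r s * P : GL (Fin 2) E) i k‖ ≤ 1 := by
  let d : (G × Fin 2) × G × Fin 2 → E := fun x =>
    r x.1.1 0 x.1.2 * r x.2.1 1 x.2.2 - r x.2.1 0 x.2.2 * r x.1.1 1 x.1.2
  have c : ∀ i, Continuous fun x : G × Fin 2 => r x.1 i x.2 := fun i =>
    continuous_prod_of_discrete_right.2 fun j => (Units.continuous_val.comp hr).matrix_elem i j
  have hd : Continuous fun x => ‖d x‖ := (((c 0).comp continuous_fst).mul ((c 1).comp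
    continuous_snd) |>.sub (((c 0).comp continuous_snd).mul ((c 1).comp continuous_fst))).norm
  obtain ⟨⟨⟨g, j⟩, h, k⟩, -, hm⟩ := isCompact_univ.exists_isMaxOn Set.univ_nonempty hd.continuousOn
  have m : ∀ x, ‖d x‖ ≤ ‖d ((g, j), h, k)‖ := fun x => hm (Set.mem_univ x)
  have d0 : d ((g, j), h, k) ≠ 0 := norm_pos_iff.1 (lt_of_lt_of_le (by simp [d]) (m ((1, 0), 1, 1)))
  have q : ∀ x, ‖d x / d ((g, j), h, k)‖ ≤ 1 := fun x => by
    rw [norm_div]; exact div_le_one_of_le₀ (m x) (norm_nonneg _)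
  let P : GL (Fin 2) E := GeneralLinearGroup.mkOfDetNeZero !![r g 0 j, r h 0 k; r g 1 j, r h 1 k]
    (by rw [det_fin_two_of]; exact d0)
  refine ⟨P, fun i a => ?_, fun s => ?_⟩
  · fin_cases i <;> fin_cases a
    exacts [⟨g, j, rfl⟩, ⟨h, k, rfl⟩, ⟨g, j, rfl⟩, ⟨h, k, rfl⟩]
  have e : ((P⁻¹ * r s * P : GL (Fin 2) E) : Matrix (Fin 2) (Fin 2) E) =
      !![d ((s * g, j), h, k) / d ((g, j), h, k), d ((s * h, k), h, k) / d ((g, j), h, k);
        d ((g, j), s * g, j) / d ((g, j), h, k), d ((g, j), s * h, k) / d ((g, j), h, k)] := by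
    rw [mul_assoc, Units.val_mul, Units.inv_mul_eq_iff_eq_mul, Units.val_mul]
    ext a b
    fin_cases a <;> fin_cases b <;>
      simp only [P, GeneralLinearGroup.val_mkOfDetNeZero, Matrix.mul_apply, Fin.sum_univ_two,
        of_apply, cons_val', cons_val_zero, cons_val_one, cons_val_fin_one, Fin.zero_eta,
        Fin.mk_one, Fin.isValue] <;>
      rw [← mul_div_assoc, ← mul_div_assoc, ← add_div, eq_div_iff d0] <;>
      simp only [d, map_mul, Units.val_mul, Matrix.mul_apply, Fin.sum_univ_two] <;> ring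
  intro i a
  rw [e]
  fin_cases i <;> fin_cases a <;> exact q _

end lat

/-- a representation with entries in a subring -/
theorem exists_int {G A B n : Type*} [Group G] [CommRing A] [CommRing B] [Fintype n] [DecidableEq n]
    {j : A →+* B} (hj : Function.Injective j) (r : G →* GL n B) (h : ∀ g i k, r g i k ∈ j.range) :
    ∃ r₀ : G →* GL n A, ∀ g, GeneralLinearGroup.map j (r₀ g) = r g := by
  choose f hf using h
  have e : ∀ g, j.mapMatrix (of (f g)) = r g := fun g => Matrix.ext (hf g)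
  have i : Function.Injective (j.mapMatrix : Matrix n n A → Matrix n n B) := Matrix.map_injective hj
  exact ⟨MonoidHom.toHomUnits ⟨⟨fun g => of (f g), i (by rw [e, map_one, map_one, Units.val_one])⟩,
    fun g g' => i (by rw [map_mul, e, e, e, map_mul, Units.val_mul])⟩, fun g => Units.ext (e g)⟩

variable {p : ℕ} [Fact p.Prime]

theorem dense (a : Cp p) {δ : ℝ} (hδ : 0 < δ) : ∃ b : Cp p, IsAlgebraic ℚ b ∧ ‖a - b‖ < δ := by
  have hi : IsIntegral ℚ_[p] a := Algebra.IsIntegral.isIntegral a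
  set f := minpoly ℚ_[p] a
  have f0 : f.natDegree ≠ 0 := (minpoly.natDegree_pos hi).ne'
  have hε : (δ / (max ‖a‖ 1)) ^ f.natDegree / (f.natDegree + 1) > 0 := by positivity
  obtain ⟨g, gm, gd, gc⟩ := exists_monic_and_natDegree_eq_and_norm_map_algebraMap_coeff_sub_lt
    (K := ℚ) (Padic.denseRange_ratCast p) (minpoly.monic hi) hε
  obtain ⟨b, hb, hab⟩ := exists_aroots_norm_sub_lt_of_norm_coeff_sub_lt
    hε (minpoly.aeval ℚ_[p] a) (minpoly.monic hi) (gm.map _) (gd ▸ (g.natDegree_map _)) gc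
    (IsAlgClosed.splits _)
  refine ⟨b, ⟨g, gm.ne_zero, ?_⟩, ?_⟩
  · rw [← aeval_map_algebraMap ℚ_[p]]
    exact (mem_aroots.1 hb).2
  · rw [← Real.rpow_natCast, ← mul_comm_div, div_self, one_mul,
      ← Real.rpow_mul (div_pos hδ (by positivity)).le, mul_inv_cancel₀] at hab
    · simpa [mul_assoc, div_mul_cancel₀ _ (by positivity : (max ‖a‖ 1) > 0).ne'] using hab
    · simp [f0]
    · positivity

theorem kras (a : Cp p) : ∃ b : Cp p, IsAlgebraic ℚ b ∧ a ∈ ℚ_[p]⟮b⟯ := by
  classical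
  have hi : IsIntegral ℚ_[p] a := Algebra.IsIntegral.isIntegral a
  obtain ⟨δ, hδ, h⟩ : ∃ δ : ℝ, 0 < δ ∧ ∀ x ∈ ((minpoly ℚ_[p] a).aroots (Cp p)).toFinset.erase a,
      δ ≤ ‖a - x‖ := by
    rcases (((minpoly ℚ_[p] a).aroots (Cp p)).toFinset.erase a).eq_empty_or_nonempty with e | e
    · exact ⟨1, one_pos, by simp [e]⟩
    · obtain ⟨x, hx, m⟩ := Finset.exists_min_image _ (fun x => ‖a - x‖) e
      exact ⟨_, norm_pos_iff.2 (sub_ne_zero.2 (Finset.ne_of_mem_erase hx).symm), m⟩
  obtain ⟨b, hb, hab⟩ := dense a hδ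
  exact ⟨b, hb, IsKrasner.krasner (minpoly.irreducible hi).separable (IsAlgClosed.splits _)
    (Algebra.IsIntegral.isIntegral b) fun x h1 h2 => hab.trans_le (h x (Finset.mem_erase.2
      ⟨h2.symm, Multiset.mem_toFinset.2 ((isConjRoot_iff_mem_minpoly_aroots hi).1 h1)⟩))⟩

/-- a compact group has its image in a finite extension -/
theorem baire {G n : Type*} [Group G] [TopologicalSpace G] [IsTopologicalGroup G] [CompactSpace G]
    [T2Space G] [Fintype n] [DecidableEq n] (r : G →* GL n (Cp p)) (hr : Continuous r) :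
    ∃ E : IntermediateField ℚ_[p] (Cp p), FiniteDimensional ℚ_[p] E ∧ ∀ g i k, r g i k ∈ E := by
  classical
  have mul : ∀ (E : IntermediateField ℚ_[p] (Cp p)) g h, (∀ i k, r g i k ∈ E) →
      (∀ i k, r h i k ∈ E) → ∀ i k, r (g * h) i k ∈ E := fun E g h a b i k => by
    rw [map_mul, Units.val_mul, Matrix.mul_apply]
    exact sum_mem fun _ _ => mul_mem (a _ _) (b _ _)
  let H : IntermediateField ℚ_[p] (Cp p) → Subgroup G := fun E =>
    { carrier := {g | (∀ i k, r g i k ∈ E) ∧ ∀ i k, r g⁻¹ i k ∈ E}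
      mul_mem' := fun a b => ⟨mul E _ _ a.1 b.1, by rw [_root_.mul_inv_rev]; exact mul E _ _ b.2 a.2⟩
      one_mem' := by
        have : ∀ i k, r 1 i k ∈ E := fun i k => by
          rw [map_one, Units.val_one, Matrix.one_apply]
          split_ifs
          exacts [one_mem _, zero_mem _]
        exact ⟨this, by rwa [inv_one]⟩
      inv_mem' := fun a => ⟨a.2, by rw [inv_inv]; exact a.1⟩ }
  haveI : Countable {x : Cp p | IsAlgebraic ℚ x} := (Algebraic.countable ℚ (Cp p)).to_subtype
  let F : Finset {x : Cp p | IsAlgebraic ℚ x} → IntermediateField ℚ_[p] (Cp p) := fun T =>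
    adjoin ℚ_[p] (Subtype.val '' (T : Set {x : Cp p | IsAlgebraic ℚ x}))
  have fin : ∀ T, FiniteDimensional ℚ_[p] (F T) := fun T =>
    haveI := (T.finite_toSet.image Subtype.val).to_subtype
    finiteDimensional_adjoin fun x _ => Algebra.IsIntegral.isIntegral x
  obtain ⟨T, g₀, hT⟩ := nonempty_interior_of_iUnion_of_closed (f := fun T => (H (F T) : Set G))
    (fun T => by
      have c : IsClosed {g | ∀ i k, r g i k ∈ F T} := by
        simp only [Set.setOf_forall]
        haveI : FiniteDimensional ℚ_[p] (F T).toSubmodule := fin T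
        exact isClosed_iInter fun i => isClosed_iInter fun k =>
          (F T).toSubmodule.closed_of_finiteDimensional.preimage
            ((Units.continuous_val.comp hr).matrix_elem i k)
      exact c.inter (c.preimage continuous_inv))
    (Set.eq_univ_of_forall fun g => by
      choose b hb using kras (p := p)
      let β : Cp p → {x : Cp p | IsAlgebraic ℚ x} := fun a => ⟨b a, (hb a).1⟩
      have key : ∀ T a, β a ∈ T → a ∈ F T := fun T a h =>
        adjoin.mono _ _ _ (Set.singleton_subset_iff.2 (Set.mem_image_of_mem Subtype.val h)) (hb a).2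
      exact Set.mem_iUnion.2 ⟨Finset.univ.image (fun x : n × n => β (r g x.1 x.2)) ∪
        Finset.univ.image fun x : n × n => β (r g⁻¹ x.1 x.2),
        fun i k => key _ _ (Finset.mem_union_left _ (Finset.mem_image.2 ⟨(i, k), by simp, rfl⟩)),
        fun i k => key _ _ (Finset.mem_union_right _ (Finset.mem_image.2 ⟨(i, k), by simp, rfl⟩))⟩)
  haveI := (H (F T)).quotient_finite_of_isOpen
    (Subgroup.isOpen_of_mem_nhds _ (mem_interior_iff_mem_nhds.1 hT))
  let R : Set (Cp p) := Set.range fun x : (G ⧸ H (F T)) × n × n => r x.1.out x.2.1 x.2.2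
  haveI := fin T
  haveI : FiniteDimensional ℚ_[p] (adjoin ℚ_[p] R) :=
    finiteDimensional_adjoin fun x _ => Algebra.IsIntegral.isIntegral x
  refine ⟨F T ⊔ adjoin ℚ_[p] R, inferInstance, fun g => ?_⟩
  obtain ⟨h, e⟩ := QuotientGroup.mk_out_eq_mul (H (F T)) g
  rw [← mul_inv_cancel_right g h, ← e]
  exact mul _ _ _ (fun i k => (le_sup_right : _ ≤ F T ⊔ _) (subset_adjoin _ _ ⟨(_, i, k), rfl⟩))
    fun i k => (le_sup_left : _ ≤ _ ⊔ adjoin ℚ_[p] R) (h.2.2 i k)

end Red

variable {p : ℕ} [Fact p.Prime]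

/-- the reduction of an integral representation -/
abbrev rs {G : Type} [Group G] (r₀ : G →* GL (Fin 2) (Op p)) : G →* GL (Fin 2) (Kp p) :=
  (GeneralLinearGroup.map (IsLocalRing.residue (Op p))).comp r₀

section

variable {G : Type} [Group G] {r : G →* GL (Fin 2) (Cp p)} {g : GL (Fin 2) (Cp p)}
  {r₀ : G →* GL (Fin 2) (Op p)}
  (h : ∀ s, GeneralLinearGroup.map (Op p).subtype (r₀ s) = g * r s * g⁻¹)

include h

theorem tr_int (s : G) : tr r s = (tr r₀ s : Op p) := by
  have := congrArg (fun m : GL (Fin 2) (Cp p) => (m : Matrix (Fin 2) (Fin 2) (Cp p)).trace) (h s)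
  simp only [Units.val_mul] at this
  rw [Matrix.trace_units_conj] at this
  exact this.symm.trans (AddMonoidHom.map_trace (Op p).subtype _).symm

theorem dt_int (s : G) : dt r s = (dt r₀ s : Op p) := by
  have := congrArg (fun m : GL (Fin 2) (Cp p) => (m : Matrix (Fin 2) (Fin 2) (Cp p)).det) (h s)
  simp only [Units.val_mul] at this
  rw [Matrix.det_units_conj] at this
  exact this.symm.trans (RingHom.map_det (Op p).subtype _).symm

theorem pow_int (s : G) (n : ℕ) : r₀ s ^ n = 1 ↔ r s ^ n = 1 := by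
  rw [← map_pow, ← map_pow, ← conj_eq_one_iff (a := g), ← h, Units.ext_iff, Units.ext_iff]
  exact (map_eq_one_iff (Op p).subtype.mapMatrix (Matrix.map_injective Subtype.val_injective)).symm

theorem cont_int [TopologicalSpace G] (hr : Continuous r) :
    Continuous fun s => (r₀ s : Matrix (Fin 2) (Fin 2) (Op p)).map (Op p).subtype := by
  have : (fun s => (r₀ s : Matrix (Fin 2) (Fin 2) (Op p)).map (Op p).subtype) =
      fun s => ((g * r s * g⁻¹ : GL (Fin 2) (Cp p)) : Matrix (Fin 2) (Fin 2) (Cp p)) :=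
    funext fun s => congrArg Units.val (h s)
  rw [this]
  exact Units.continuous_val.comp ((continuous_const.mul hr).mul continuous_const)

theorem open_int [TopologicalSpace G] (hr : Continuous r) : IsOpen {s | rs r₀ s = 1} := by
  have : {s | rs r₀ s = 1} = ⋂ i, ⋂ k, {s | ‖((r₀ s : Matrix (Fin 2) (Fin 2) (Op p)).map
      (Op p).subtype - 1) i k‖ < 1} := by
    ext s
    simp only [Set.mem_setOf_eq, Set.mem_iInter, Units.ext_iff]
    change (IsLocalRing.residue (Op p)).mapMatrix (r₀ s).1 = 1 ↔ _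
    rw [← sub_eq_zero, ← map_one (IsLocalRing.residue (Op p)).mapMatrix, ← map_sub, ← Matrix.ext_iff,
      ← Matrix.map_one (Op p).subtype (map_zero _) (map_one _), ← Matrix.map_sub _ (map_sub _)]
    exact forall₂_congr fun i k => res_eq_zero _
  rw [this]
  exact isOpen_iInter_of_finite fun i => isOpen_iInter_of_finite fun k => isOpen_lt
    (((cont_int h hr).sub continuous_const).matrix_elem i k).norm continuous_const

theorem red_tr (s : G) : red (tr r s) = tr (rs r₀) s := by
  rw [tr_int h, red_coe]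
  exact AddMonoidHom.map_trace (IsLocalRing.residue (Op p)) _

theorem red_dt (s : G) : red (dt r s) = dt (rs r₀) s := by
  rw [dt_int h, red_coe]
  exact RingHom.map_det (IsLocalRing.residue (Op p)) _

end

/-- lattices for any compact group -/
theorem exists_lat {G : Type} [Group G] [TopologicalSpace G] [IsTopologicalGroup G] [CompactSpace G]
    [T2Space G] (r : G →* GL (Fin 2) (Cp p)) (hr : Continuous r) :
    ∃ (E : IntermediateField ℚ_[p] (Cp p)) (_ : FiniteDimensional ℚ_[p] E) (g : GL (Fin 2) (Cp p))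
      (r₀ : G →* GL (Fin 2) (Op p)), (∀ s, GeneralLinearGroup.map (Op p).subtype (r₀ s) =
        g * r s * g⁻¹) ∧ (∀ s i k, ((r₀ s i k : Op p) : Cp p) ∈ E) ∧ ∀ s i k, r s i k ∈ E := by
  obtain ⟨E, hE, h⟩ := Red.baire r hr
  obtain ⟨P, h1, h2⟩ := Red.lat r hr
  obtain ⟨r₀, e⟩ := Red.exists_int (j := (Op p).subtype) Subtype.val_injective
    ((MulAut.conj P⁻¹).toMonoidHom.comp r) fun s i k => (range_Op _).2 (by simpa using h2 s i k)
  refine ⟨E, hE, P⁻¹, r₀, e, fun s i k => ?_, h⟩
  have hP : ∀ i k, P i k ∈ E := fun i k => by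
    obtain ⟨g, j, e⟩ := h1 i k
    exact e ▸ h g i j
  have hQ : ∀ i k, (P⁻¹ : GL (Fin 2) (Cp p)) i k ∈ E := fun i k => by
    rw [Matrix.coe_units_inv, Matrix.inv_def, Ring.inverse_eq_inv', adjugate_fin_two, det_fin_two,
      Matrix.smul_apply, smul_eq_mul]
    refine mul_mem (inv_mem (sub_mem (mul_mem (hP _ _) (hP _ _)) (mul_mem (hP _ _) (hP _ _)))) ?_
    fin_cases i <;> fin_cases k
    exacts [hP _ _, neg_mem (hP _ _), neg_mem (hP _ _), hP _ _]
  have : ((r₀ s i k : Op p) : Cp p) = (P⁻¹ * r s * P⁻¹⁻¹ : GL (Fin 2) (Cp p)) i k :=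
    congrArg (fun m : GL (Fin 2) (Cp p) => m i k) (e s)
  rw [this, show (P⁻¹⁻¹ : GL (Fin 2) (Cp p)) = P from inv_inv P]
  simp only [GeneralLinearGroup.coe_mul, Matrix.mul_apply]
  exact sum_mem fun _ _ => mul_mem (sum_mem fun _ _ => mul_mem (hQ _ _) (h _ _ _)) (hP _ _)

theorem rs_int {r : GQ →* GL (Fin 2) (Cp p)} {g : GL (Fin 2) (Cp p)} {r₀ : GQ →* GL (Fin 2) (Op p)}
    (h : ∀ s, GeneralLinearGroup.map (Op p).subtype (r₀ s) = g * r s * g⁻¹) (hr : Continuous r) :
    Rs r (rs r₀) :=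
  ⟨open_int h hr, fun s => by rw [tr_int h]; exact norm_Op _, red_tr h, red_dt h⟩

theorem redC : RED := fun p _ r hr => by
  have := galQb
  obtain ⟨E, hE, g, r₀, h, h', -⟩ := exists_lat r hr
  exact ⟨E, hE, g, r₀, h, h', rs_int h hr⟩

end Vale.Agent.P022K.CH
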