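import Vale.Agent.P022K.CH.Tame
import Vale.Agent.P022K.Glue.Alg

/-!
# P022K, block CH: rigidity of the inertial type

If the residual image of inertia has a regular element and `l² ≠ 1` in the residue field (or
`l ≠ -1` and the residual representation of the decomposition group is absolutely irreducible),
reduction is injective on the image of inertia.
-/

set_option linter.all false

open Matrix

noncomputable section

namespace Vale.Agent.P022K.CH.Loc

open Vale.Agent.P022K.Glue (Spans)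

section

variable {G : Type*} [Group G] {k : Type*} [Field k]

theorem nil_comm {X t : Matrix (Fin 2) (Fin 2) k} (h0 : X.trace = 0) (h1 : X.det = 0)
    (hc : X * t = t * X) (ht : t.trace ^ 2 ≠ 4 * t.det) : X = 0 := by
  rw [trace_fin_two] at h0 ht
  rw [det_fin_two] at h1 ht
  have e0 := congrFun (congrFun hc 0) 0
  have e1 := congrFun (congrFun hc 0) 1
  have e2 := congrFun (congrFun hc 1) 0
  simp only [Matrix.mul_apply, Fin.sum_univ_two] at e0 e1 e2
  have hd := sub_ne_zero.2 ht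
  have hx : X 1 1 = -X 0 0 := by linear_combination h0
  rw [hx] at h1 e1 e2
  have y : X 0 1 = 0 := pow_eq_zero_iff two_ne_zero |>.1 ((mul_eq_zero.1 (by
    linear_combination (-(X 0 1 * (t 0 0 - t 1 1) + 2 * X 0 0 * t 0 1)) * e1 +
      4 * t 0 1 * X 0 1 * e0 - 4 * t 0 1 ^ 2 * h1)).resolve_right hd)
  have z : X 1 0 = 0 := pow_eq_zero_iff two_ne_zero |>.1 ((mul_eq_zero.1 (by
    linear_combination (X 1 0 * (t 0 0 - t 1 1) + 2 * X 0 0 * t 1 0) * e2 -
      4 * t 1 0 * X 1 0 * e0 - 4 * t 1 0 ^ 2 * h1)).resolve_right hd)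
  have x : X 0 0 = 0 := pow_eq_zero_iff two_ne_zero |>.1 (by
    linear_combination -h1 - X 1 0 * y)
  ext i j
  fin_cases i <;> fin_cases j <;> simp [hx, x, y, z]

theorem ch2 {R : Type*} [CommRing R] (g : Matrix (Fin 2) (Fin 2) R) :
    g * g = g.trace • g - g.det • 1 := by
  ext i j
  rw [trace_fin_two, det_fin_two]
  fin_cases i <;> fin_cases j <;> simp [Matrix.mul_apply, Fin.sum_univ_two] <;> ring

/-- an element of order prime to the characteristic and not dividing `2` is regular -/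
theorem reg_of {g : Matrix (Fin 2) (Fin 2) k} (hd : g.det = 1) {n : ℕ} (h : g ^ n = 1)
    (hn : (n : k) ≠ 0) (h2 : g ^ 2 ≠ 1) : g.trace ^ 2 ≠ 4 * g.det := by
  intro e
  have c := ch2 g
  rw [hd, mul_one] at e
  rw [hd, one_smul] at c
  have c2 : (g * g - 1) * (g * g - 1) = 0 := by
    have : g * g - 1 = g.trace • g - (2 : k) • 1 := by rw [c, two_smul, sub_sub]
    rw [this]
    simp only [sub_mul, mul_sub, smul_mul_assoc, mul_smul_comm, mul_one, one_mul, c, smul_sub,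
      smul_smul]
    rw [← pow_two, e]
    match_scalars
    · ring
    · ring
  have p : ∀ m : ℕ, (g * g) ^ m = 1 + (m : k) • (g * g - 1) := fun m => by
    induction m with
    | zero => simp
    | succ m ih =>
      rw [pow_succ, ih, Nat.cast_succ, add_smul, one_smul, add_mul, smul_mul_assoc, one_mul,
        show (g * g - 1) * (g * g) = (g * g - 1) * (g * g - 1) + (g * g - 1) by
          rw [mul_sub, mul_one, sub_add_cancel], c2, zero_add]
      abel
  have := p n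
  rw [← pow_two, ← pow_mul, mul_comm, pow_mul, h, one_pow, eq_comm, add_eq_left, smul_eq_zero,
    sub_eq_zero] at this
  exact h2 (this.resolve_left hn)

theorem Tm.comm {l : ℕ} {D I N U : Subgroup G} {τ φ : G} (t : Tm l D I N U τ φ) {g s : G}
    (hg : g ∈ I) (hs : s ∈ I) : ∃ p ∈ N, g * s * g⁻¹ = p * s := by
  obtain ⟨a, p, hp, rfl⟩ := t.cyc g hg
  obtain ⟨b, q, hq, rfl⟩ := t.cyc s hs
  have hτ := fun n => D.pow_mem (t.ID t.tau) n
  exact ⟨_, N.mul_mem (N.mul_mem (t.cjN _ (hτ a) _ hp) (t.cjN _ (hτ (a + b)) _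
    (N.mul_mem hq (N.inv_mem hp)))) (t.cjN _ (hτ b) _ (N.inv_mem hq)), by group⟩

theorem det_ne0 (r : G →* Matrix (Fin 2) (Fin 2) k) (g : G) : (r g).det ≠ 0 := fun h => by
  have := congrArg det (map_mul r g g⁻¹)
  rw [det_mul, h, mul_inv_cancel, map_one, det_one, zero_mul] at this
  exact one_ne_zero this

theorem cj_one {M : Type*} [Monoid M] (r : G →* M) (g : G) {s : G} (h : r s = 1) :
    r (g * s * g⁻¹) = 1 := by
  rw [map_mul, map_mul, h, mul_one, ← map_mul, mul_inv_cancel, map_one]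

/-- the infinitesimal rigidity -/
theorem rig0 {l : ℕ} {D I N U : Subgroup G} {τ φ : G} (t : Tm l D I N U τ φ)
    (r : G →* Matrix (Fin 2) (Fin 2) k) (X : G → Matrix (Fin 2) (Fin 2) k) (h2 : (2 : k) ≠ 0)
    (hl : (l : k) ≠ 0) (hU : ∀ u ∈ U, r u = 1) (hX : ∀ u ∈ U, X u = 0)
    (add : ∀ s ∈ I, r s = 1 → ∀ s' ∈ I, r s' = 1 → X (s * s') = X s + X s')
    (cj : ∀ g, ∀ s ∈ I, r s = 1 → g * s * g⁻¹ ∈ I → X (g * s * g⁻¹) * r g = r g * X s)
    (tr : ∀ s ∈ I, r s = 1 → (X s).trace = 0) {s₀ : G} (h0 : s₀ ∈ I)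
    (reg : (r s₀).trace ^ 2 ≠ 4 * (r s₀).det)
    (H : (l : k) ^ 2 ≠ 1 ∨ ((l : k) ≠ -1 ∧ Spans r (D : Set G))) {s : G} (hs : s ∈ I)
    (h1 : r s = 1) : X s = 0 := by
  have pw : ∀ s ∈ I, r s = 1 → ∀ n : ℕ, X (s ^ n) = (n : k) • X s := fun s hs h n => by
    induction n with
    | zero => rw [pow_zero, hX 1 U.one_mem, Nat.cast_zero, zero_smul]
    | succ n ih =>
      rw [pow_succ, add _ (I.pow_mem hs n) (by rw [map_pow, h, one_pow]) s hs h, ih,
        Nat.cast_succ, add_smul, one_smul]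
  have lf : ∀ p ∈ N, ∀ s ∈ I, r s = 1 → r (p * s) = 1 → X (p * s) = X s := fun p hp s hs h h' => by
    rw [map_mul, h, mul_one] at h'
    obtain ⟨n, hn⟩ := t.wild p hp
    have e := pw p (t.NI hp) h' (l ^ n)
    rw [hX _ hn, eq_comm, smul_eq_zero, Nat.cast_pow] at e
    rw [add p (t.NI hp) h' s hs h, e.resolve_left (pow_ne_zero n hl), zero_add]
  have cI : ∀ g ∈ I, X s * r g = r g * X s := fun g hg => by
    obtain ⟨p, hp, e⟩ := t.comm hg hs
    rw [← cj g s hs h1 (t.cjI _ (t.ID hg) _ hs), e, lf p hp s hs h1 (e ▸ cj_one r g h1)]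
  have cφ : ((l : k) • X s) * r φ = r φ * X s := by
    obtain ⟨p, hp, e⟩ := t.rel s hs
    rw [← cj φ s hs h1 (t.cjI _ t.phi _ hs), e, lf p hp _ (I.pow_mem hs l)
      (by rw [map_pow, h1, one_pow]) (e ▸ cj_one r φ h1), pw s hs h1]
  by_cases hq : (l : k) ^ 2 = 1
  · obtain ⟨H1, H2⟩ := H.resolve_left (not_not.2 hq)
    rw [(sq_eq_one_iff.1 hq).resolve_right H1, one_smul] at cφ
    obtain ⟨c, hc⟩ := H2.schur (x := X s) fun g hg => by
      obtain ⟨n, i, hi, u, hu, rfl⟩ := t.gen g hg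
      rw [map_mul, map_mul, hU u hu, one_mul, map_pow]
      exact (Commute.mul_right (Commute.pow_right cφ n) (cI i hi))
    have := tr s hs h1
    rw [hc, trace_fin_two, scalar_apply, diagonal_apply_eq, diagonal_apply_eq, ← two_mul,
      mul_eq_zero] at this
    rw [hc, this.resolve_left h2, map_zero]
  · refine nil_comm (tr s hs h1) ?_ (cI s₀ h0) reg
    have e := congrArg det cφ
    rw [det_mul, det_mul, det_smul, Fintype.card_fin] at e
    have : ((l : k) ^ 2 - 1) * ((X s).det * (r φ).det) = 0 := by linear_combination e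
    exact (mul_eq_zero.1 ((mul_eq_zero.1 this).resolve_left (sub_ne_zero.2 hq))).resolve_right
      (det_ne0 r φ)

variable {A : Type*} [CommRing A]

theorem exists_lam (π : A →+* k) (hm : (RingHom.ker π).IsMaximal) (J : Ideal A) {x : A}
    (hx : x ∈ J) (hx' : x ∉ RingHom.ker π * J) : ∃ Λ : A → k, Λ x ≠ 0 ∧
      (∀ y ∈ J, ∀ z ∈ J, Λ (y + z) = Λ y + Λ z) ∧ ∀ a, ∀ y ∈ J, Λ (a * y) = π a * Λ y := by
  classical
  letI := Ideal.Quotient.field (RingHom.ker π)
  let M := J ⧸ (RingHom.ker π • (⊤ : Submodule A J))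
  have h1 : (Submodule.Quotient.mk ⟨x, hx⟩ : M) ≠ 0 := fun e => hx' (by
    rw [Submodule.Quotient.mk_eq_zero] at e
    have := Submodule.mem_map_of_mem (f := J.subtype) e
    rwa [Submodule.map_smul'', Submodule.map_top, Submodule.range_subtype] at this)
  obtain ⟨f, hf⟩ : ∃ f : Module.Dual (A ⧸ RingHom.ker π) M,
      f (Submodule.Quotient.mk ⟨x, hx⟩) ≠ 0 := by
    by_contra c
    push Not at c
    exact h1 ((Module.forall_dual_apply_eq_zero_iff _ _).1 c)
  refine ⟨fun y => if h : y ∈ J then π.kerLift (f (Submodule.Quotient.mk ⟨y, h⟩)) else 0, ?_,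
    fun y hy z hz => ?_, fun a y hy => ?_⟩
  · simp only [dif_pos hx]
    exact fun e => hf (π.kerLift_injective (e.trans (map_zero _).symm))
  · simp only [dif_pos hy, dif_pos hz, dif_pos (J.add_mem hy hz)]
    rw [← map_add, ← map_add, ← Submodule.Quotient.mk_add]
    rfl
  · simp only [dif_pos hy, dif_pos (J.mul_mem_left a hy)]
    rw [← π.kerLift_mk a, ← map_mul, ← smul_eq_mul (Ideal.Quotient.mk _ a), ← map_smul]
    rfl

/-- the reduction of a representation -/
def red (π : A →+* k) (ρ : G →* Matrix (Fin 2) (Fin 2) A) : G →* Matrix (Fin 2) (Fin 2) k :=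
  (π.mapMatrix : Matrix (Fin 2) (Fin 2) A →+* _).toMonoidHom.comp ρ

theorem red_ap (π : A →+* k) (ρ : G →* Matrix (Fin 2) (Fin 2) A) (g : G) :
    red π ρ g = (ρ g).map π := rfl

/-- the congruence subgroup -/
def cong (ρ : G →* Matrix (Fin 2) (Fin 2) A) (J : Ideal A) : Subgroup G :=
  ((Ideal.Quotient.mk J).mapMatrix.toMonoidHom.comp ρ).toHomUnits.ker

theorem mem_cong {ρ : G →* Matrix (Fin 2) (Fin 2) A} {J : Ideal A} {g : G} :
    g ∈ cong ρ J ↔ ∀ i j, (ρ g - 1) i j ∈ J := by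
  rw [cong, MonoidHom.mem_ker, Units.ext_iff]
  change (Ideal.Quotient.mk J).mapMatrix (ρ g) = 1 ↔ _
  rw [← sub_eq_zero, ← map_one (Ideal.Quotient.mk J).mapMatrix, ← map_sub, ← Matrix.ext_iff]
  exact forall₂_congr fun i j => Ideal.Quotient.eq_zero_iff_mem

instance (ρ : G →* Matrix (Fin 2) (Fin 2) A) (J : Ideal A) : (cong ρ J).Normal :=
  MonoidHom.normal_ker _

theorem red_one {π : A →+* k} {ρ : G →* Matrix (Fin 2) (Fin 2) A} {g : G} :
    red π ρ g = 1 ↔ g ∈ cong ρ (RingHom.ker π) := by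
  rw [mem_cong]
  change π.mapMatrix (ρ g) = 1 ↔ _
  rw [← sub_eq_zero, ← map_one π.mapMatrix, ← map_sub, ← Matrix.ext_iff]
  rfl

theorem cong_mono {ρ : G →* Matrix (Fin 2) (Fin 2) A} {J J' : Ideal A} (h : J ≤ J') :
    cong ρ J ≤ cong ρ J' := fun g hg => mem_cong.2 fun i j => h (mem_cong.1 hg i j)

theorem cong_bot {ρ : G →* Matrix (Fin 2) (Fin 2) A} {g : G} : g ∈ cong ρ ⊥ ↔ ρ g = 1 := by
  rw [mem_cong, ← sub_eq_zero, ← Matrix.ext_iff]
  rfl

/-- the hypotheses of rigidity -/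
structure Rg (l : ℕ) (D I : Subgroup G) (π : A →+* k) (ρ : G →* Matrix (Fin 2) (Fin 2) A) :
    Prop where
  two : (2 : k) ≠ 0
  ell : (l : k) ≠ 0
  det : ∀ s ∈ I, (ρ s).det = 1
  reg : ∃ s ∈ I, (red π ρ s).trace ^ 2 ≠ 4 * (red π ρ s).det
  alt : (l : k) ^ 2 ≠ 1 ∨ ((l : k) ≠ -1 ∧ Spans (red π ρ) (D : Set G))

theorem rig1 {l : ℕ} {D I N : Subgroup G} {τ φ : G} {π : A →+* k}
    (hm : (RingHom.ker π).IsMaximal) {ρ : G →* Matrix (Fin 2) (Fin 2) A} (h : Rg l D I π ρ)
    (J : Ideal A) (t : Tm l D I N (cong ρ (RingHom.ker π * J)) τ φ)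
    (hJ : ∀ s ∈ I, red π ρ s = 1 → s ∈ cong ρ J) {s : G} (hs : s ∈ I) (h1 : red π ρ s = 1) :
    s ∈ cong ρ (RingHom.ker π * J) := by
  refine mem_cong.2 fun i j => ?_
  by_contra c
  simp only [mem_cong] at hJ
  obtain ⟨Λ, a0, a1, a2⟩ := exists_lam π hm J (hJ s hs h1 i j) c
  obtain ⟨s₀, h0, reg⟩ := h.reg
  have z0 : Λ 0 = 0 := by simpa using a2 0 0 J.zero_mem
  have z1 : ∀ x ∈ RingHom.ker π * J, Λ x = 0 := fun x hx => by
    refine (Submodule.mul_induction_on (C := fun x => x ∈ J ∧ Λ x = 0) hx (fun a ha y hy => ?_)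
      fun y z hy hz => ⟨J.add_mem hy.1 hz.1, by rw [a1 _ hy.1 _ hz.1, hy.2, hz.2, add_zero]⟩).2
    exact ⟨J.mul_mem_left _ hy, by rw [a2 _ _ hy, (RingHom.mem_ker.1 ha), zero_mul]⟩
  have L : ∀ (a y : Matrix (Fin 2) (Fin 2) A), (∀ i j, y i j ∈ J) →
      (a * y).map Λ = a.map π * y.map Λ := fun a y hy => by
    ext i j
    simp only [map_apply, Matrix.mul_apply, Fin.sum_univ_two]
    rw [a1 _ (J.mul_mem_left _ (hy _ _)) _ (J.mul_mem_left _ (hy _ _)), a2 _ _ (hy _ _),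
      a2 _ _ (hy _ _)]
  have R : ∀ (a y : Matrix (Fin 2) (Fin 2) A), (∀ i j, y i j ∈ J) →
      (y * a).map Λ = y.map Λ * a.map π := fun a y hy => by
    ext i j
    simp only [map_apply, Matrix.mul_apply, Fin.sum_univ_two]
    rw [mul_comm (y i 0), mul_comm (y i 1), a1 _ (J.mul_mem_left _ (hy _ _)) _
      (J.mul_mem_left _ (hy _ _)), a2 _ _ (hy _ _), a2 _ _ (hy _ _), mul_comm (π _), mul_comm (π _)]
  suffices key : (ρ s - 1).map Λ = 0 from a0 (congrFun (congrFun key i) j)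
  refine rig0 t (red π ρ) (fun g => (ρ g - 1).map Λ) h.two h.ell
    (fun u hu => red_one.2 (cong_mono Ideal.mul_le_left hu)) (fun u hu => ?_)
    (fun s hs e s' hs' e' => ?_) (fun g s hs e hg => ?_) (fun s hs e => ?_) h0 reg h.alt hs h1
  · ext i j
    exact z1 _ (mem_cong.1 hu i j)
  · have e1 : ρ (s * s') - 1 = (ρ s - 1) + ρ s * (ρ s' - 1) := by
      rw [map_mul, mul_sub, mul_one]; abel
    have e2 := L (ρ s) _ (hJ s' hs' e')
    rw [← red_ap, e, one_mul] at e2
    simp only [e1, ← e2]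
    ext i j
    refine a1 _ (hJ s hs e i j) _ ?_
    rw [Matrix.mul_apply]
    exact J.sum_mem fun _ _ => J.mul_mem_left _ (hJ s' hs' e' _ _)
  · simp only [red_ap]
    rw [← L _ _ (hJ s hs e), ← R _ _ (hJ _ hg (cj_one _ g e)), sub_mul, ← map_mul,
      inv_mul_cancel_right, map_mul, mul_sub, mul_one, one_mul]
  · have d := h.det s hs
    have m := mem_cong.1 (red_one.1 e)
    have n := hJ s hs e
    rw [trace_fin_two, map_apply, map_apply, ← a1 _ (n 0 0) _ (n 1 1)]
    have e3 : (ρ s - 1) 0 0 + (ρ s - 1) 1 1 =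
        (ρ s - 1) 0 1 * (ρ s - 1) 1 0 - (ρ s - 1) 0 0 * (ρ s - 1) 1 1 := by
      rw [det_fin_two] at d
      simp only [Matrix.sub_apply, one_apply_eq, one_apply_ne (zero_ne_one' (Fin 2)),
        one_apply_ne (zero_ne_one' (Fin 2)).symm]
      linear_combination d
    rw [e3]
    exact z1 _ (sub_mem (Ideal.mul_mem_mul (m _ _) (n _ _)) (Ideal.mul_mem_mul (m _ _) (n _ _)))

variable [TopologicalSpace G]

/-- **RIG** over a Noetherian local ring -/
theorem rig [IsNoetherianRing A] [IsLocalRing A] {l : ℕ} {D I : Subgroup G} {τ φ : G}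
    (t : TmA l D I τ φ) {π : A →+* k} (hm : RingHom.ker π = IsLocalRing.maximalIdeal A)
    {ρ : G →* Matrix (Fin 2) (Fin 2) A} (h : Rg l D I π ρ)
    (ho : ∀ n, IsOpen {g | ∀ i j, (ρ g - 1) i j ∈ IsLocalRing.maximalIdeal A ^ n})
    {s : G} (hs : s ∈ I) (h1 : red π ρ s = 1) : ρ s = 1 := by
  have key : ∀ n, ∀ s ∈ I, red π ρ s = 1 → s ∈ cong ρ (IsLocalRing.maximalIdeal A ^ n) := by
    intro n
    induction n with
    | zero => exact fun s _ _ => mem_cong.2 fun i j => by simp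
    | succ n ih =>
      intro s hs h1
      have e : IsLocalRing.maximalIdeal A ^ (n + 1) =
          RingHom.ker π * IsLocalRing.maximalIdeal A ^ n := by rw [hm, pow_succ']
      obtain ⟨N, t⟩ := t (cong ρ (IsLocalRing.maximalIdeal A ^ (n + 1))) (by
        convert ho (n + 1) using 1
        exact Set.ext fun g => mem_cong)
      rw [e] at t ⊢
      exact rig1 (hm ▸ inferInstance) h _ t ih hs h1
  refine cong_bot.1 (mem_cong.2 fun i j => ?_)
  rw [← Ideal.iInf_pow_eq_bot_of_isLocalRing _ (IsLocalRing.maximalIdeal.isMaximal A).ne_top,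
    Ideal.mem_iInf]
  exact fun n => mem_cong.1 (key n s hs h1) i j

/-- **RIG** over a local domain (for instance the integers of a non discrete valued field) -/
theorem rigV [IsDomain A] [IsLocalRing A] [IsTopologicalGroup G] [CompactSpace G] {l : ℕ}
    {D I : Subgroup G} {τ φ : G}
    (t : TmA l D I τ φ) {π : A →+* k} (hm : RingHom.ker π = IsLocalRing.maximalIdeal A)
    {ρ : G →* Matrix (Fin 2) (Fin 2) A} (h : Rg l D I π ρ)
    (ho : ∀ x : A, x ≠ 0 → IsOpen {g | ∀ i j, x ∣ (ρ g - 1) i j})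
    {s : G} (hs : s ∈ I) (h1 : red π ρ s = 1) : ρ s = 1 := by
  classical
  by_contra c
  obtain ⟨i, j, hx⟩ : ∃ i j, (ρ s - 1) i j ≠ 0 := by
    by_contra d
    push Not at d
    exact c (sub_eq_zero.1 (Matrix.ext d))
  have hxm : (ρ s - 1) i j ∈ RingHom.ker π := mem_cong.1 (red_one.1 h1) i j
  let x := (ρ s - 1) i j
  let U := cong ρ (Ideal.span {x * x})
  have hU : IsOpen (U : Set G) := by
    convert ho _ (mul_ne_zero hx hx) using 1
    exact Set.ext fun g => mem_cong.trans (by simp only [Ideal.mem_span_singleton]; rfl)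
  haveI : Finite (G ⧸ U) := U.quotient_finite_of_isOpen hU
  let K := {s : G // s ∈ I ∧ red π ρ s = 1}
  let sec : G ⧸ U → K := fun q => if h : ∃ a : K, (a.1 : G ⧸ U) = q then h.choose else ⟨s, hs, h1⟩
  have hsec : ∀ a : K, (sec a.1).1⁻¹ * a.1 ∈ U := fun a => by
    have e : ∃ b : K, (b.1 : G ⧸ U) = a.1 := ⟨a, rfl⟩
    simp only [sec, dif_pos e]
    exact QuotientGroup.eq.1 e.choose_spec
  let T : Set A := insert x (Set.range fun q : (G ⧸ U) × Fin 2 × Fin 2 =>
    (ρ (sec q.1).1 - 1) q.2.1 q.2.2)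
  let J := Ideal.span T
  have hxJ : x ∈ J := Ideal.subset_span (Set.mem_insert _ _)
  have hle : Ideal.span {x * x} ≤ RingHom.ker π * J :=
    (Ideal.span_singleton_le_iff_mem _).2 (Ideal.mul_mem_mul hxm hxJ)
  have hJ : ∀ a ∈ I, red π ρ a = 1 → a ∈ cong ρ J := fun a ha e => by
    have := (cong ρ J).mul_mem (show (sec (a : G ⧸ U)).1 ∈ cong ρ J from mem_cong.2 fun i j =>
      Ideal.subset_span (Set.mem_insert_of_mem _ ⟨((a : G ⧸ U), i, j), rfl⟩))
      (cong_mono (hle.trans Ideal.mul_le_right) (hsec ⟨a, ha, e⟩))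
    rwa [mul_inv_cancel_left] at this
  obtain ⟨N, t⟩ := t U hU
  have k1 := fun a ha e => mem_cong.1 (rig1 (hm ▸ inferInstance) h J (t.mono (cong_mono hle)) hJ
    (s := a) ha e)
  have hb : J = ⊥ := Submodule.eq_bot_of_le_smul_of_le_jacobson_bot (RingHom.ker π) J
    (Submodule.fg_span ((Set.finite_range _).insert x)) (Ideal.span_le.2 (by
      rintro _ (rfl | ⟨q, rfl⟩)
      · exact k1 s hs h1 i j
      · exact k1 _ (sec q.1).2.1 (sec q.1).2.2 _ _))
    (by rw [hm, IsLocalRing.jacobson_eq_maximalIdeal ⊥ bot_ne_top])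
  exact hx (by rw [hb] at hxJ; exact hxJ)

end

end Vale.Agent.P022K.CH.Loc
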