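import Vale.Agent.P022K.CH.Rig

/-!
# P022K, block CH: rigidity of the inertial type from a Frobenius element
-/

set_option linter.all false

open Matrix

noncomputable section

namespace Vale.Agent.P022K.CH.Loc

section

variable {G : Type*} [Group G] {k : Type*} [Field k]

theorem fr_comm {X t : Matrix (Fin 2) (Fin 2) k} {l : k} (h0 : X.trace = 0) (hl : l ≠ 1)
    (hc : (l • X) * t = t * X) (ht : l * t.trace ^ 2 ≠ (l + 1) ^ 2 * t.det) : X = 0 := by
  have h1 : (X * t).trace = 0 := by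
    have := congrArg trace hc
    rw [smul_mul_assoc, trace_smul, trace_mul_comm t, smul_eq_mul, ← sub_eq_zero,
      ← sub_one_mul, mul_eq_zero] at this
    exact this.resolve_left (sub_ne_zero.2 hl)
  have h2 : (l + 1) • (X * t) = t.trace • X := by
    rw [add_smul, one_smul, ← smul_mul_assoc, hc]
    rw [trace_fin_two] at h0 h1 ⊢
    simp only [Matrix.mul_apply, Fin.sum_univ_two] at h1
    ext i j
    fin_cases i <;> fin_cases j <;> simp [Matrix.mul_apply, Fin.sum_univ_two]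
    · linear_combination h1 - t 1 1 * h0
    · linear_combination t 0 1 * h0
    · linear_combination t 1 0 * h0
    · linear_combination h1 - t 0 0 * h0
  have h3 : (l + 1) • (t.trace • (X * t) - t.det • X) = t.trace • (X * t) := by
    have := congrArg (· * t) h2
    simp only [smul_mul_assoc] at this
    rwa [mul_assoc, ch2 t, mul_sub, mul_smul_comm, mul_smul_comm, mul_one] at this
  refine (smul_eq_zero.1 (?_ : (l * t.trace ^ 2 - (l + 1) ^ 2 * t.det) • X = 0)).resolve_left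
    (sub_ne_zero.2 ht)
  linear_combination (norm := module) (l + 1) • h3 - (l * t.trace) • h2

variable {A : Type*} [CommRing A]

theorem rig1' {l : ℕ} {D I N : Subgroup G} {τ φ : G} {π : A →+* k}
    (hm : (RingHom.ker π).IsMaximal) {ρ : G →* Matrix (Fin 2) (Fin 2) A} (l0 : (l : k) ≠ 0)
    (l1 : (l : k) ≠ 1) (hd : ∀ s ∈ I, (ρ s).det = 1)
    (fr : l * (red π ρ φ).trace ^ 2 ≠ (l + 1) ^ 2 * (red π ρ φ).det)
    (J : Ideal A) (t : Tm l D I N (cong ρ (RingHom.ker π * J)) τ φ)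
    (hJ : ∀ s ∈ I, red π ρ s = 1 → s ∈ cong ρ J) {s : G} (hs : s ∈ I) (h1 : red π ρ s = 1) :
    s ∈ cong ρ (RingHom.ker π * J) := by
  refine mem_cong.2 fun i j => ?_
  by_contra c
  simp only [mem_cong] at hJ
  obtain ⟨Λ, a0, a1, a2⟩ := exists_lam π hm J (hJ s hs h1 i j) c
  have z1 : ∀ x ∈ RingHom.ker π * J, Λ x = 0 := fun x hx => by
    refine (Submodule.mul_induction_on (C := fun x => x ∈ J ∧ Λ x = 0) hx (fun a ha y hy => ?_)
      fun y z hy hz => ⟨J.add_mem hy.1 hz.1, by rw [a1 _ hy.1 _ hz.1, hy.2, hz.2, add_zero]⟩).2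
    exact ⟨J.mul_mem_left _ hy, by rw [a2 _ _ hy, (RingHom.mem_ker.1 ha), zero_mul]⟩
  have L : ∀ (a y : Matrix (Fin 2) (Fin 2) A), (∀ i j, y i j ∈ J) →
      (a * y).map Λ = a.map π * y.map Λ := fun a y hy => by
    ext i j
    simp only [map_apply, Matrix.mul_apply, Fin.sum_univ_two]
    rw [a1 _ (J.mul_mem_left _ (hy _ _)) _ (J.mul_mem_left _ (hy _ _)), a2 _ _ (hy _ _),
      a2 _ _ (hy _ _)]
  have R : ∀ (a y : Matrix (Fin 2) (Fin 2) A), (∀ i j, y i j ∈ J) →
      (y * a).map Λ = y.map Λ * a.map π := fun a y hy => by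
    ext i j
    simp only [map_apply, Matrix.mul_apply, Fin.sum_univ_two]
    rw [mul_comm (y i 0), mul_comm (y i 1), a1 _ (J.mul_mem_left _ (hy _ _)) _
      (J.mul_mem_left _ (hy _ _)), a2 _ _ (hy _ _), a2 _ _ (hy _ _), mul_comm (π _), mul_comm (π _)]
  suffices key : (ρ s - 1).map Λ = 0 from a0 (congrFun (congrFun key i) j)
  let X := fun g => (ρ g - 1).map Λ
  have hX : ∀ u ∈ cong ρ (RingHom.ker π * J), X u = 0 := fun u hu => by
    ext i j
    exact z1 _ (mem_cong.1 hu i j)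
  have add : ∀ s ∈ I, red π ρ s = 1 → ∀ s' ∈ I, red π ρ s' = 1 → X (s * s') = X s + X s' :=
    fun s hs e s' hs' e' => by
      have e1 : ρ (s * s') - 1 = (ρ s - 1) + ρ s * (ρ s' - 1) := by
        rw [map_mul, mul_sub, mul_one]; abel
      have e2 := L (ρ s) _ (hJ s' hs' e')
      rw [← red_ap, e, one_mul] at e2
      simp only [X, e1, ← e2]
      ext i j
      refine a1 _ (hJ s hs e i j) _ ?_
      rw [Matrix.mul_apply]
      exact J.sum_mem fun _ _ => J.mul_mem_left _ (hJ s' hs' e' _ _)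
  have pw : ∀ s ∈ I, red π ρ s = 1 → ∀ n : ℕ, X (s ^ n) = (n : k) • X s := fun s hs h n => by
    induction n with
    | zero => rw [pow_zero, hX 1 (one_mem _), Nat.cast_zero, zero_smul]
    | succ n ih =>
      rw [pow_succ, add _ (I.pow_mem hs n) (by rw [map_pow, h, one_pow]) s hs h, ih,
        Nat.cast_succ, add_smul, one_smul]
  refine fr_comm (X := X s) ?_ l1 ?_ fr
  · have d := hd s hs
    have m := mem_cong.1 (red_one.1 h1)
    have n := hJ s hs h1
    show ((ρ s - 1).map Λ).trace = 0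
    rw [trace_fin_two, map_apply, map_apply, ← a1 _ (n 0 0) _ (n 1 1)]
    have e3 : (ρ s - 1) 0 0 + (ρ s - 1) 1 1 =
        (ρ s - 1) 0 1 * (ρ s - 1) 1 0 - (ρ s - 1) 0 0 * (ρ s - 1) 1 1 := by
      rw [det_fin_two] at d
      simp only [Matrix.sub_apply, one_apply_eq, one_apply_ne (zero_ne_one' (Fin 2)),
        one_apply_ne (zero_ne_one' (Fin 2)).symm]
      linear_combination d
    rw [e3]
    exact z1 _ (sub_mem (Ideal.mul_mem_mul (m _ _) (n _ _)) (Ideal.mul_mem_mul (m _ _) (n _ _)))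
  · obtain ⟨p, hp, e⟩ := t.rel s hs
    have h2 := cj_one (red π ρ) φ h1
    have h3 : red π ρ (s ^ l) = 1 := by rw [map_pow, h1, one_pow]
    have h4 : red π ρ p = 1 := by rwa [e, map_mul, h3, mul_one] at h2
    obtain ⟨n, hn⟩ := t.wild p hp
    have h5 := pw p (t.NI hp) h4 (l ^ n)
    rw [hX _ hn, eq_comm, smul_eq_zero, Nat.cast_pow] at h5
    rw [← pw s hs h1, ← zero_add (X _), ← h5.resolve_left (pow_ne_zero n l0),
      ← add p (t.NI hp) h4 _ (I.pow_mem hs l) h3, ← e]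
    simp only [X, red_ap]
    rw [← L _ _ (hJ s hs h1), ← R _ _ (hJ _ (t.cjI _ t.phi _ hs) h2), sub_mul, ← map_mul,
      inv_mul_cancel_right, map_mul, mul_sub, mul_one, one_mul]

/-- **RIG** from a Frobenius element -/
theorem rigV' [TopologicalSpace G] [IsDomain A] [IsLocalRing A] [IsTopologicalGroup G]
    [CompactSpace G] {l : ℕ} {D I : Subgroup G} {τ φ : G} (t : TmA l D I τ φ) {π : A →+* k}
    (hm : RingHom.ker π = IsLocalRing.maximalIdeal A) {ρ : G →* Matrix (Fin 2) (Fin 2) A}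
    (l0 : (l : k) ≠ 0) (l1 : (l : k) ≠ 1) (hd : ∀ s ∈ I, (ρ s).det = 1)
    (fr : l * (red π ρ φ).trace ^ 2 ≠ (l + 1) ^ 2 * (red π ρ φ).det)
    (ho : ∀ x : A, x ≠ 0 → IsOpen {g | ∀ i j, x ∣ (ρ g - 1) i j})
    {s : G} (hs : s ∈ I) (h1 : red π ρ s = 1) : ρ s = 1 := by
  classical
  by_contra c
  obtain ⟨i, j, hx⟩ : ∃ i j, (ρ s - 1) i j ≠ 0 := by
    by_contra d
    push Not at d
    exact c (sub_eq_zero.1 (Matrix.ext d))
  have hxm : (ρ s - 1) i j ∈ RingHom.ker π := mem_cong.1 (red_one.1 h1) i j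
  let x := (ρ s - 1) i j
  let U := cong ρ (Ideal.span {x * x})
  have hU : IsOpen (U : Set G) := by
    convert ho _ (mul_ne_zero hx hx) using 1
    exact Set.ext fun g => mem_cong.trans (by simp only [Ideal.mem_span_singleton]; rfl)
  haveI : Finite (G ⧸ U) := U.quotient_finite_of_isOpen hU
  let K := {s : G // s ∈ I ∧ red π ρ s = 1}
  let sec : G ⧸ U → K := fun q => if h : ∃ a : K, (a.1 : G ⧸ U) = q then h.choose else ⟨s, hs, h1⟩
  have hsec : ∀ a : K, (sec a.1).1⁻¹ * a.1 ∈ U := fun a => by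
    have e : ∃ b : K, (b.1 : G ⧸ U) = a.1 := ⟨a, rfl⟩
    simp only [sec, dif_pos e]
    exact QuotientGroup.eq.1 e.choose_spec
  let T : Set A := insert x (Set.range fun q : (G ⧸ U) × Fin 2 × Fin 2 =>
    (ρ (sec q.1).1 - 1) q.2.1 q.2.2)
  let J := Ideal.span T
  have hxJ : x ∈ J := Ideal.subset_span (Set.mem_insert _ _)
  have hle : Ideal.span {x * x} ≤ RingHom.ker π * J :=
    (Ideal.span_singleton_le_iff_mem _).2 (Ideal.mul_mem_mul hxm hxJ)
  have hJ : ∀ a ∈ I, red π ρ a = 1 → a ∈ cong ρ J := fun a ha e => by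
    have := (cong ρ J).mul_mem (show (sec (a : G ⧸ U)).1 ∈ cong ρ J from mem_cong.2 fun i j =>
      Ideal.subset_span (Set.mem_insert_of_mem _ ⟨((a : G ⧸ U), i, j), rfl⟩))
      (cong_mono (hle.trans Ideal.mul_le_right) (hsec ⟨a, ha, e⟩))
    rwa [mul_inv_cancel_left] at this
  obtain ⟨N, t⟩ := t U hU
  have k1 := fun a ha e => mem_cong.1 (rig1' (hm ▸ inferInstance) l0 l1 hd fr J
    (t.mono (cong_mono hle)) hJ (s := a) ha e)
  have hb : J = ⊥ := Submodule.eq_bot_of_le_smul_of_le_jacobson_bot (RingHom.ker π) J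
    (Submodule.fg_span ((Set.finite_range _).insert x)) (Ideal.span_le.2 (by
      rintro _ (rfl | ⟨q, rfl⟩)
      · exact k1 s hs h1 i j
      · exact k1 _ (sec q.1).2.1 (sec q.1).2.2 _ _))
    (by rw [hm, IsLocalRing.jacobson_eq_maximalIdeal ⊥ bot_ne_top])
  exact hx (by rw [hb] at hxJ; exact hxJ)

end

end Vale.Agent.P022K.CH.Loc
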