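import Vale.Agent.P022K.CH.StB
import Vale.Agent.P022K.CH.Ord
import Vale.Agent.P022K.CH.Exf

/-!
# P022K, block CH: the rows PRI, GR3, QEB, SEED
-/

set_option linter.all false

open NumberField Matrix

noncomputable section

namespace Vale.Agent.P022K.CH

open Vale.Agent.P022 Vale.Agent.P022.C
open Vale.Agent.P022.H443 (inP galQb)
open Vale.Agent.P022D.W (dec)
open Vale.Agent.P022E.GW (Ov Fb)
open Vale.Agent.P022K.Glue (Spans)

theorem priC : PRI := fun p _ r l _ hl hr hf h => ⟨hf, by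
  by_cases e : l.Prime
  · exact (ord_prime hr e hl hf Fact.out hl h).imp fun n k => ⟨k.1, fun P hP => (k.2 P hP).1⟩
  · exact ⟨1, (Fact.out : p.Prime).not_dvd_one, fun P hP => (e hP.1).elim⟩⟩

theorem gr3C : GR3 := fun p _ r b hr hf a => by
  obtain ⟨-, -, g, r₀, h, -, -⟩ := redC p r hr.cont
  obtain ⟨j, hj, e⟩ := Loc.odd_three (q := p) (by omega)
  have hl : 3 ≠ p := by omega
  exact ⟨hl, fun P hP => ⟨rirr_int h hr hP hl (n := 4) (fun e => by
    have := Nat.le_of_dvd four_pos e; omega) dvd_rfl (a P hP).1 (hf P hP).2 hj e, .inl (by omega)⟩⟩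

theorem qebC : QEB := fun ρ ho hd hs => by
  classical
  obtain ⟨T, hT⟩ := exists_ram ρ ho
  have pr : ∀ l ∈ T, l.Prime := fun l h => ((hT l).1 h).1
  have un : ∀ l ∉ T, ∀ P, Ov l P → ∀ s ∈ inP P, ρ s = 1 := fun l h P hP =>
    not_not.1 (fun z => h ((hT l).2 ⟨hP.1, z⟩)) P hP
  obtain ⟨Q, hQ, -, a, b, c, d⟩ := exists_guard' ρ ho hd hs 32 (by norm_num)
    (insert 3 (T.erase 2)) ∅ fun l h => by
      rcases Finset.mem_insert.1 h with rfl | h
      · exact ⟨Nat.prime_three, by norm_num⟩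
      · have := Finset.mem_erase.1 h
        exact ⟨pr l this.2, not_dvd (p := 2) (pr l this.2) this.1 5⟩
  have n96 : ∀ l : ℕ, l.Prime → l ≠ 2 → l ≠ 3 → ¬ l ∣ 96 := fun l h h2 h3 e =>
    ((Nat.Prime.dvd_mul h).1 (show l ∣ 2 ^ 5 * 3 from e)).elim (not_dvd (p := 2) h h2 5)
      fun e => h3 ((Nat.prime_dvd_prime_iff_eq h Nat.prime_three).1 e)
  obtain ⟨R, hR, -, a', b', c', d'⟩ := exists_guard' ρ ho hd hs 96 (by norm_num)
    (insert Q ((T.erase 2).erase 3)) ∅ fun l h => by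
      rcases Finset.mem_insert.1 h with rfl | h
      · exact ⟨hQ, n96 _ hQ (by omega) (by omega)⟩
      · simp only [Finset.mem_erase] at h
        exact ⟨pr l h.2.2, n96 l (pr l h.2.2) h.2.1 h.1⟩
  have b3 := b 3 (by simp)
  have q2 := hQ.two_le
  have mem : ∀ l ∈ insert Q (insert R (T.erase 2)), l ≠ Q → l ≠ R → l ≠ 2 ∧ l ∈ T := by
    intro l h x y
    simpa [x, y] using h
  refine ⟨insert Q (insert R (T.erase 2)), Q, R, ⟨ho, hd, hs, fun l h => ?_, by simp, by simp,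
    by omega, a, by omega, b3, by omega, fun l h x y => b l (by simp [mem l h x y]),
    fun l h y z => b' l ?_, fun l h P hP => ?_,
    fun l h x y z => ((hT l).1 (mem l h x y).2).2 fun P hP => z P hP.2.1 hP.2.2,
    fun q h => h.elim (· ▸ d) (· ▸ d')⟩, ?_⟩
  · by_cases x : l = Q
    · exact ⟨x ▸ hQ, by omega⟩
    by_cases y : l = R
    · exact ⟨y ▸ hR, by omega⟩
    exact ⟨pr l (mem l h x y).2, (mem l h x y).1⟩
  · by_cases x : l = Q
    · simp [x]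
    · simp [mem l h x y, z]
  · by_cases x : l = Q
    · exact c P (x ▸ hP)
    by_cases y : l = R
    · exact c' P (y ▸ hP)
    exact un l (fun m => h (by by_cases z : l = 2 <;> simp [x, y, z, m])) P hP
  · by_contra z
    push Not at z
    refine hs (P022T.H92.tate _ ρ ho fun l hl h2 P x y => ?_)
    by_cases m : l ∈ T
    · by_cases e : l = Q
      · exact c P ⟨hQ, x, e ▸ y⟩
      · exact c' P ⟨hR, x, z l (by simp [m, h2]) e ▸ y⟩
    · exact un l m P ⟨hl, x, y⟩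

section seed

variable {p : ℕ} [Fact p.Prime] {ι : Qb →+* Cp p} {S : Finset ℕ} {l0 : ℕ}
  {r : GQ →* GL (Fin 2) (Cp p)} {X : Fd} {b : X.Pl → Qb} {ρ : X.H →* GL (Fin 2) (Cp p)}

theorem cont_tr {Γ : Type} [Group Γ] [TopologicalSpace Γ] {ρ : Γ →* GL (Fin 2) (Cp p)}
    (h : Continuous ρ) : Continuous (tr ρ) := (Units.continuous_val.comp h).matrix_trace

/-- the traces of almost all Frobenius elements -/
theorem Thy.Lg.ae (k : Thy.Lg ι X S b ρ) : ∃ S' : Finset ℕ, ∀ l ∉ S', ∀ P w (φ : X.H), Ov l P →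
    below X.j P = w.asIdeal → FrI X.j w P φ → tr ρ φ = ι (b w) := by
  by_cases h : ∃ l P, Ov l P ∧ below X.j P = X.v0.asIdeal
  · obtain ⟨l0, Q, h, e⟩ := h
    refine ⟨insert l0 (insert p S), fun l hl P w φ hP hw hφ => ?_⟩
    simp only [Finset.mem_insert, not_or] at hl
    exact (k.2.2 l P w hP hl.2.1 hw ⟨e ▸ Sy.below_ne X hP h hl.1, .inl hl.2.2⟩).2 φ hφ
  · refine ⟨insert p S, fun l hl P w φ hP hw hφ => ?_⟩
    simp only [Finset.mem_insert, not_or] at hl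
    exact (k.2.2 l P w hP hl.1 hw ⟨fun e => h ⟨l, P, hP, e⟩, .inl hl.2⟩).2 φ hφ

/-- Chebotarev for a closed condition on the difference of the traces -/
theorem Thy.Lg.cheb (k : Thy.Lg ι X S b ρ) (hr : Continuous r) {C : Set (Cp p)} (hC : IsClosed C)
    {S' : Finset ℕ} (h : ∀ l ∉ S', ∀ P w (φ : X.H), Ov l P → FrI X.j w P φ →
      ι (b w) - tr r φ ∈ C) (g : X.H) : tr ρ g - tr r g ∈ C := by
  obtain ⟨T, hT⟩ := k.ae
  refine Dense.induction (P := fun g : X.H => tr ρ g - tr r g ∈ C)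
    ((Cheb.dense_fr (S' ∪ T)).preimage X.opn.isOpenMap_subtype_val) ?_
    (hC.preimage ((cont_tr k.1).sub ((cont_tr hr).comp continuous_subtype_val))) g
  rintro φ ⟨l, h1, h2, P, a, c, d⟩
  obtain ⟨w, hw⟩ := exists_below X.j (l := l) ⟨h1, a, c⟩
  rw [Finset.mem_union, not_or] at h2
  have f := Sy.fri_one X ⟨h1, a, c⟩ d φ.2 hw
  exact (hT l h2.2 P w φ ⟨h1, a, c⟩ hw f).symm ▸ h l h2.1 P w φ ⟨h1, a, c⟩ f

/-- rigidity for a representation of an open subgroup -/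
theorem rig_sub {H : Subgroup GQ} (hH : IsOpen (H : Set GQ)) {ρ : H →* GL (Fin 2) (Cp p)}
    (c : Continuous ρ) (hd : ∀ g, dt ρ g = eps p g) (hr : Rep r)
    (cg : ∀ g : H, ‖tr ρ g - tr r g‖ < 1) (irr : RIrr r H) {l : ℕ} {P : Id} (hP : Ov l P)
    (hD : dec P ≤ H) (h2 : p ≠ 2) (l2 : l ≠ 2) (hl : l ≠ p) (hf : Fn r l) (hn : ¬ p ∣ l ^ 2 - 1)
    {s : H} (hs : s.1 ∈ inP P) : ρ s = 1 ↔ r s = 1 := by
  have := galQb
  haveI : CompactSpace H := isCompact_iff_compactSpace.1 (H.isClosed_of_isOpen hH).isCompact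
  obtain ⟨-, -, g, r₀, h, -, R⟩ := redC p r hr.cont
  obtain ⟨-, -, g', ρ₀, h', -⟩ := exists_lat ρ c
  have e : ∀ x : H, tr (rs r₀) x = tr (rs ρ₀) x := fun x => by
    rw [← R.tr, ← red_tr h', eq_comm, red_eq_iff (by rw [tr_int h']; exact norm_Op _) (R.int x)]
    exact cg x
  have d : ∀ x : H, dt (rs r₀) x = dt (rs ρ₀) x := fun x => by
    rw [← R.det, ← red_dt h', hr.det, hd]
  have H0 := hy_int h hr hP hl h2 l2 ⟨hf, .inl hn⟩
  obtain ⟨σ, h3, h4⟩ := irr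
  have sp := spans_tr (H := H) (fun x => (h3.tr x).symm.trans (R.tr x)) h4
  have c0 := Glue.bn (ρ := co ((rs r₀).comp H.subtype)) (ρ' := co (rs ρ₀))
    (sp.of_image fun x m => ⟨⟨x, m⟩, trivial, rfl⟩) e
  have key : ∀ {a b : H →* GL (Fin 2) (Kp p)}, Glue.Cj (co a) (co b) → a s = 1 → b s = 1 :=
    fun ⟨A, B, x, _, z⟩ w => Units.val_eq_one.1 ((z s).trans (by
      rw [MonoidHom.comp_apply, w, map_one, mul_one, x]))
  rw [rig_int h hr hP hl h2 H0 hs, ← pow_one (ρ s), ← pow_int h', pow_one]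
  refine ⟨fun w => key c0.symm (by rw [MonoidHom.comp_apply, w, map_one]), fun w => ?_⟩
  obtain ⟨τ, φ, hφ, t⟩ := Loc.tameI (ι := H.subtype) hH.isOpenEmbedding_subtypeVal hP
    (by rwa [H.range_subtype])
  obtain ⟨⟨u, u1, u2⟩, -⟩ := H0
  have m := hD (P022D.W.inP_le_dec u1)
  rw [e ⟨u, m⟩, d ⟨u, m⟩] at u2
  refine Units.val_eq_one.1 (Loc.rigV (t φ hφ) (π := IsLocalRing.residue (Op p)) (ρ := co ρ₀)
    IsLocalRing.ker_residue ⟨two_Kp h2, prime_Kp hP.1 hl, fun s hs => Subtype.ext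
      ((dt_int h' s).symm.trans ((hd s).trans (eps_inert hP hl hs))),
      ⟨⟨u, m⟩, u1, u2⟩, .inl fun z => cast_Kp.2 hn ?_⟩
    (Loc.dvd_open (ρ := co ρ₀) (Op p).subtype Subtype.val_injective range_Op (cont_int h' c)) hs
    (Units.val_eq_one.2 (key c0 w)))
  rw [Nat.cast_sub (Nat.one_le_pow _ _ hP.1.pos), Nat.cast_pow, z, Nat.cast_one, sub_self]

theorem tr_one_mul {Γ R : Type} [Group Γ] [CommRing R] {ρ : Γ →* GL (Fin 2) R} {s : Γ}
    (h : ρ s = 1) (g : Γ) : tr ρ (s * g) = tr ρ g := by rw [tr, map_mul, h, one_mul, tr]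

end seed

theorem seedC (A : Thy) (h : A.REP) : A.SEED := fun p _ ι S L l0 r X hr => by
  refine ⟨fun m ⟨b, a, S', k⟩ => ?_, fun h2 od ok ⟨σ, s1, s2, _⟩ hS ⟨m, b, a, S', k⟩ => ?_⟩
  · obtain ⟨ρ, g⟩ := h X m S L b a p ι
    have e : ∀ x : X.H, tr ρ x = tr r x := fun x => sub_eq_zero.1 (g.cheb hr.cont
      isClosed_singleton (fun l hl P w φ hP f => sub_eq_zero.2 (k l hl P w φ hP f).symm) x)
    exact ⟨m, b, ρ, a, g, fun x => by simp [e], fun l _ _ P _ s x _ z => by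
      rw [e, e, Subgroup.coe_mul, tr_one_mul z]⟩
  · obtain ⟨ρ, g⟩ := h X m S L b a p ι
    have e : ∀ x : X.H, ‖tr ρ x - tr r x‖ < 1 := fun x => mem_ball_zero_iff.1 (g.cheb hr.cont
      (IsUltrametricDist.isClosed_ball 0 1) (fun l hl P w φ hP f => mem_ball_zero_iff.2 (by
        rw [norm_sub_rev]; exact k l hl P w φ hP f)) x)
    refine ⟨m, b, ρ, a, g, e, fun l hl lp P hP s x hs z => tr_one_mul ?_ x⟩
    by_cases hD : dec P ≤ X.H
    · exact (rig_sub X.opn g.1 g.2.1 hr e ⟨σ, s1, s2.mono fun _ y => y.1⟩ hP hD h2 (od l hl).2 lp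
        (hS l hl lp).1 (hS l hl lp).2 hs).2 z
    · obtain ⟨w, hw⟩ := exists_below X.j hP
      obtain ⟨Q, q1, q2, q3⟩ := ok.v0
      exact (g.2.2 l P w hP lp hw ⟨fun e => hD (Sy.dec_of_below X q1.2.1 hP.2.1 (q2.trans e.symm)
        q3), .inr hD⟩).1 s hs

end Vale.Agent.P022K.CH
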