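import Vale.Agent.P022K.CH.Red
import Vale.Agent.P022K.CH.Gk

/-!
# P022K, block CH: the rows RIG and GRD
-/

set_option linter.all false

open NumberField Matrix

noncomputable section

namespace Vale.Agent.P022K.CH

open Vale.Agent.P022
open Vale.Agent.P022.H443 (inP galQb)
open Vale.Agent.P022D.W (dec)
open Vale.Agent.P022E.GW (Ov Fb)
open Vale.Agent.P022K.Glue (Spans)

namespace Loc

theorem tr_pow {R : Type*} [CommRing R] {t : Matrix (Fin 2) (Fin 2) R} {a b : R}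
    (h1 : t.trace = a + b) (h2 : t.det = a * b) (m : ℕ) : (t ^ m).trace = a ^ m + b ^ m := by
  induction m using Nat.twoStepInduction with
  | zero => rw [pow_zero, pow_zero, pow_zero, trace_one, Fintype.card_fin]; norm_num
  | one => rw [pow_one, pow_one, pow_one, h1]
  | more m i0 i1 =>
    rw [show t ^ (m + 2) = t * t * t ^ m by rw [pow_add, pow_two, (Commute.refl t).pow_left m
      |>.mul_right ((Commute.refl t).pow_left m) |>.eq], tr_sq, ← pow_succ', i0, i1, h1, h2]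
    ring

/-- a finite inertia image which is not scalar has an element of order dividing `l^a (l² - 1)` -/
theorem ord_fin {G E : Type*} [Group G] [Field E] [IsAlgClosed E] [CharZero E] {l : ℕ}
    {D I N U : Subgroup G} {τ φ : G} (t : Tm l D I N U τ φ) (hl : Odd l) [U.FiniteIndex]
    (r : G →* Matrix (Fin 2) (Fin 2) E) (hU : ∀ u ∈ U ⊓ I, r u = 1) (hd : ∀ s ∈ I, (r s).det = 1)
    (h2 : ∃ s ∈ I, r s ^ 2 ≠ 1) : ∃ s ∈ I, ∃ a, r s ^ 2 ≠ 1 ∧ r s ^ (l ^ a * (l ^ 2 - 1)) = 1 := by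
  by_cases w : ∀ p ∈ N, r p = 1
  swap
  · push Not at w
    obtain ⟨p, hp, e⟩ := w
    obtain ⟨a, ha⟩ := t.wild p hp
    have e1 : r p ^ l ^ a = 1 := by rw [← map_pow]; exact hU _ ⟨ha, I.pow_mem (t.NI hp) _⟩
    refine ⟨p, t.NI hp, a, fun z => e ?_, by rw [pow_mul, e1, one_pow]⟩
    have := pow_gcd_eq_one.2 ⟨z, e1⟩
    rwa [(Nat.coprime_two_left.2 hl.pow : Nat.gcd 2 _ = 1), pow_one] at this
  obtain ⟨s, hs, h2⟩ := h2
  obtain ⟨m, hm, -, e⟩ := U.exists_pow_mem_of_index_ne_zero Subgroup.FiniteIndex.index_ne_zero τ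
  have fin : r τ ^ m = 1 := by rw [← map_pow]; exact hU _ ⟨e, I.pow_mem t.tau _⟩
  refine ⟨τ, t.tau, 0, fun z => h2 ?_, ?_⟩
  · obtain ⟨k, p, hp, rfl⟩ := t.cyc s hs
    rw [map_mul, w p hp, mul_one, map_pow, ← pow_mul, mul_comm, pow_mul, z, one_pow]
  obtain ⟨a, ha⟩ := IsAlgClosed.exists_root (r τ).charpoly (by simp)
  rw [Polynomial.IsRoot, Matrix.charpoly_fin_two, hd _ t.tau] at ha
  simp only [Polynomial.eval_add, Polynomial.eval_sub, Polynomial.eval_mul, Polynomial.eval_pow,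
    Polynomial.eval_C, Polynomial.eval_X] at ha
  obtain ⟨b, hb⟩ : ∃ b, (r τ).trace = a + b := ⟨(r τ).trace - a, by ring⟩
  have ab : a * b = 1 := by rw [hb] at ha; linear_combination -ha
  have tp := tr_pow hb ((hd _ t.tau).trans ab.symm)
  have e1 : a ^ l + b ^ l = a + b := by
    obtain ⟨p, hp, e⟩ := t.rel τ t.tau
    rw [← tp, ← hb, ← map_pow, ← one_mul (r (τ ^ l)), ← w p hp, ← map_mul, ← e, map_mul,
      trace_mul_comm, ← map_mul, inv_mul_cancel_left]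
  have e2 : a ^ l * b ^ l = 1 := by rw [← mul_pow, ab, one_pow]
  obtain ⟨j, rfl⟩ : ∃ j, l = j + 1 := ⟨l - 1, by have := hl.pos; omega⟩
  have e3 : a ^ ((j + 1) ^ 2 - 1) = 1 := by
    rw [show (j + 1) ^ 2 - 1 = j * (j + 2) from Nat.sub_eq_of_eq_add (by ring)]
    rcases mul_eq_zero.1 (show (a ^ (j + 1) - a) * (a ^ (j + 1) - b) = 0 by
      linear_combination a ^ (j + 1) * e1 - e2 + ab) with h | h
    · rw [pow_mul, show a ^ j = 1 by linear_combination b * h - (a ^ j - 1) * ab, one_pow]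
    · rw [mul_comm, pow_mul, show a ^ (j + 2) = 1 by linear_combination a * h + ab, one_pow]
  rw [pow_zero, one_mul]
  refine one_of_uni (n := m) ?_ (by rw [det_pow, hd _ t.tau, one_pow])
    (by rw [← pow_mul, mul_comm, pow_mul, fin, one_pow]) (Nat.cast_ne_zero.2 hm.ne')
  have e4 : b ^ ((j + 1) ^ 2 - 1) = 1 := by rw [← one_mul (b ^ _), ← e3, ← mul_pow, ab, one_pow, e3]
  rw [tp, e3, e4, one_add_one_eq_two]

theorem eq_neg_one {k : Type*} [Field k] (h2 : (2 : k) ≠ 0) {x : GL (Fin 2) k}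
    (hd : (x : Matrix (Fin 2) (Fin 2) k).det = 1) (h : x ^ 2 = 1) (h1 : x ≠ 1) : x = -1 := by
  have e := ch2 (x : Matrix (Fin 2) (Fin 2) k)
  rw [← Units.val_mul, ← pow_two, h, hd, Units.val_one, one_smul, eq_sub_iff_add_eq,
    ← two_smul k] at e
  have e1 := congrArg trace e
  rw [trace_smul, trace_smul, trace_one, Fintype.card_fin, Nat.cast_ofNat, smul_eq_mul,
    smul_eq_mul] at e1
  rcases mul_self_eq_mul_self_iff.1 e1.symm with t | t <;> rw [t] at e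
  · exact absurd (Units.ext (smul_right_injective _ h2 e).symm) h1
  · rw [neg_smul, ← smul_neg] at e
    exact Units.ext (neg_eq_iff_eq_neg.1 (smul_right_injective _ h2 e).symm)

end Loc

/-- the matrix valued representation -/
abbrev co {G R : Type} [Group G] [CommRing R] (r : G →* GL (Fin 2) R) :
    G →* Matrix (Fin 2) (Fin 2) R := (Units.coeHom _).comp r

theorem co_pow {G R : Type} [Group G] [CommRing R] {r : G →* GL (Fin 2) R} {s : G} {n : ℕ} :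
    co r s ^ n = 1 ↔ r s ^ n = 1 := by
  rw [← map_pow, ← map_pow]; exact Units.val_eq_one

variable {p : ℕ} [Fact p.Prime]

theorem two_Kp (h : p ≠ 2) : (2 : Kp p) ≠ 0 := cast_Kp.2 fun e =>
  h ((Nat.prime_dvd_prime_iff_eq Fact.out Nat.prime_two).1 e)

theorem prime_Kp {l : ℕ} (hl : l.Prime) (h : l ≠ p) : (l : Kp p) ≠ 0 := cast_Kp.2 fun e =>
  h ((Nat.prime_dvd_prime_iff_eq Fact.out hl).1 e).symm

/-- the residual hypotheses of rigidity -/
def Hy (l : ℕ) (P : Id) (ρ : GQ →* GL (Fin 2) (Kp p)) : Prop :=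
  (∃ s ∈ inP P, tr ρ s ^ 2 ≠ 4 * dt ρ s) ∧
    ((l : Kp p) ^ 2 ≠ 1 ∨ ((l : Kp p) ≠ -1 ∧ Spans (co ρ) (dec P : Set GQ)))

theorem spans_tr {ρ ρ' : GQ →* GL (Fin 2) (Kp p)} (h : ∀ g, tr ρ g = tr ρ' g) {H : Subgroup GQ}
    (s : Spans (co ρ) (H : Set GQ)) : Spans (co ρ') (H : Set GQ) :=
  Glue.spans_sub.1 (Glue.spans_of_trace (ρ := (co ρ).comp H.subtype) (ρ' := (co ρ').comp H.subtype)
    (Glue.spans_sub.2 s) fun x => h x)

section

variable {r : GQ →* GL (Fin 2) (Cp p)} {g : GL (Fin 2) (Cp p)} {r₀ : GQ →* GL (Fin 2) (Op p)}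
  (h : ∀ s, GeneralLinearGroup.map (Op p).subtype (r₀ s) = g * r s * g⁻¹) (hr : Rep r)
  {l : ℕ} {P : Id} (hP : Ov l P) (hl : l ≠ p)

include h hr hP hl

theorem det_int {s : GQ} (hs : s ∈ inP P) : (co r₀ s).det = 1 :=
  Subtype.ext ((dt_int h s).symm.trans ((hr.det s).trans (eps_inert hP hl hs)))

theorem ty_int {n : ℕ} (hn : ¬ p ∣ n) (h1 : ∀ s ∈ inP P, r s ^ n = 1)
    (h2 : ∃ s ∈ inP P, r s ^ 2 ≠ 1) : Loc.Ty (MonoidHom.id GQ) l P n (co (rs r₀)) :=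
  (Loc.Ty.red (ι := .id GQ) (π := IsLocalRing.residue (Op p)) (ρ := co r₀) ⟨.id, hP, fun g _ => ⟨g, rfl⟩,
    fun s hs => co_pow.2 ((pow_int h s n).2 (h1 s hs)), fun s hs => det_int h hr hP hl hs,
    h2.imp fun s hs => ⟨hs.1, fun e => hs.2 ((pow_int h s 2).1 (co_pow.1 e))⟩⟩ (cast_Kp.2 hn)).1

theorem open_co : IsOpen {s | co (rs r₀) s = 1} := by
  have : {s | co (rs r₀) s = 1} = {s | rs r₀ s = 1} := Set.ext fun s => Units.val_eq_one
  rw [this]
  exact open_int h hr.cont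

theorem rig_int (h2 : p ≠ 2) (H : Hy l P (rs r₀)) {s : GQ} (hs : s ∈ inP P) :
    r s = 1 ↔ rs r₀ s = 1 := by
  have := galQb
  have e := pow_int h s 1
  rw [pow_one, pow_one] at e
  rw [← e]
  refine ⟨fun z => by rw [MonoidHom.comp_apply, z, map_one], fun z => ?_⟩
  obtain ⟨τ, -, t⟩ := Loc.tame hP
  obtain ⟨φ, hφ⟩ := P022D.W.exists_phi hP.1 hP.2.1 hP.2.2
  exact Units.val_eq_one.1 (Loc.rigV (t φ hφ) (π := IsLocalRing.residue (Op p)) (ρ := co r₀)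
    IsLocalRing.ker_residue ⟨two_Kp h2, prime_Kp hP.1 hl, fun s hs => det_int h hr hP hl hs,
      H.1, H.2⟩ (Loc.dvd_open (ρ := co r₀) (Op p).subtype Subtype.val_injective range_Op
        (cont_int h hr.cont)) hs (Units.val_eq_one.2 z))

theorem hy_int (h2 : p ≠ 2) (l2 : l ≠ 2) (H : Rg r l) : Hy l P (rs r₀) := by
  have := galQb
  obtain ⟨⟨U, hU, hU'⟩, h3⟩ := H.1 P hP
  rcases H.2 with a | ⟨a, b, c⟩ | a
  · obtain ⟨τ, -, t⟩ := Loc.tame hP
    obtain ⟨φ, hφ⟩ := P022D.W.exists_phi hP.1 hP.2.1 hP.2.2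
    obtain ⟨N, t⟩ := t φ hφ U hU
    haveI : Finite (GQ ⧸ U) := U.quotient_finite_of_isOpen hU
    haveI : U.FiniteIndex := Subgroup.finiteIndex_of_finite_quotient
    obtain ⟨s, hs, m, e1, e2⟩ := Loc.ord_fin t (hP.1.odd_of_ne_two l2) (co r)
      (fun u hu => Units.val_eq_one.2 (hU' u hu))
      (fun s hs => (hr.det s).trans (eps_inert hP hl hs))
      (h3.imp fun s hs => ⟨hs.1, mt co_pow.1 hs.2⟩)
    have hn : ((l ^ m * (l ^ 2 - 1) : ℕ) : Kp p) ≠ 0 := by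
      rw [Nat.cast_mul, Nat.cast_pow]
      exact mul_ne_zero (pow_ne_zero _ (prime_Kp hP.1 hl)) (cast_Kp.2 a)
    have e3 := co_pow.2 ((pow_int h s _).2 (co_pow.1 e2))
    refine ⟨⟨s, hs, Loc.reg_of (g := co (rs r₀) s) ?_ ?_ hn fun z => e1 (co_pow.2
      ((pow_int h s 2).1 (co_pow.1 (Loc.mink (π := IsLocalRing.residue (Op p)) ?_ hn ?_))))⟩,
      .inl fun z => cast_Kp.2 a ?_⟩
    · exact (red_dt h s).symm.trans (by rw [hr.det, eps_inert hP hl hs, red_one])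
    · rw [co_pow, MonoidHom.comp_apply, ← map_pow, co_pow.1 e3, map_one]
    · rw [← pow_mul, mul_comm, pow_mul, e3, one_pow]
    · rw [map_pow]; exact z
    · rw [Nat.cast_sub (Nat.one_le_pow _ _ hP.1.pos), Nat.cast_pow, z, Nat.cast_one, sub_self]
  · have hn : ¬ p ∣ 32 := fun e => h2 ((Nat.prime_dvd_prime_iff_eq Fact.out Nat.prime_two).1
      ((Fact.out : p.Prime).dvd_of_dvd_pow (n := 5) e))
    have t := ty_int h hr hP hl hn (b P hP).1 h3
    refine ⟨t.reg (cast_Kp.2 hn), .inr ⟨fun z => cast_Kp.2 a ?_, (Loc.grd t c (open_co h hr hP hl)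
      (cast_Kp.2 hn) (M := 1) odd_one (Subsingleton.elim _ _)).mono fun g hg => hg.1⟩⟩
    rw [Nat.cast_add, z, Nat.cast_one, neg_add_cancel]
  · exact absurd a.2.1 l2

theorem rirr_int {n j : ℕ} (hn : ¬ p ∣ n) (hd : n ∣ l + 1) (h1 : ∀ s ∈ inP P, r s ^ n = 1)
    (h2 : ∃ s ∈ inP P, r s ^ 2 ≠ 1) (hj : Odd j) (hM : (l : ZMod p) ^ j = 1) :
    RIrr r (dec P ⊓ Gz p) :=
  ⟨rs r₀, rs_int h hr.cont, (Loc.grd (ty_int h hr hP hl hn h1 h2) hd (open_co h hr hP hl)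
    (cast_Kp.2 hn) hj hM).mono fun g hg => ⟨hg.1, mem_Gz.2 hg.2⟩⟩

end

theorem rigC : RIG := fun p _ r r' l h2 hl l2 hr hr' hc ⟨ρ, h3, h4⟩ H P hP s hs => by
  obtain ⟨-, -, g, r₀, h, -, R⟩ := redC p r hr.cont
  obtain ⟨-, -, g', r₀', h', -, R'⟩ := redC p r' hr'.cont
  have e : ∀ x, tr (rs r₀) x = tr (rs r₀') x := fun x => by
    rw [← R.tr, ← R'.tr, red_eq_iff (R.int x) (R'.int x)]; exact hc x
  have d : ∀ x, dt (rs r₀) x = dt (rs r₀') x := fun x => by rw [← R.det, ← R'.det, hr.det, hr'.det]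
  have H0 := hy_int h hr hP hl h2 l2 H
  have H1 : Hy l P (rs r₀') := ⟨H0.1.imp fun x hx => ⟨hx.1, by rw [← e, ← d]; exact hx.2⟩,
    H0.2.imp_right fun a => ⟨a.1, spans_tr e a.2⟩⟩
  rw [rig_int h hr hP hl h2 H0 hs, rig_int h' hr' hP hl h2 H1 hs]
  have c := Glue.bn (ρ := co (rs r₀)) (ρ' := co (rs r₀'))
    (spans_tr (H := ⊤) (fun x => (h3.tr x).symm.trans (R.tr x)) h4) e
  have key : ∀ {a b : GQ →* GL (Fin 2) (Kp p)}, Glue.Cj (co a) (co b) → a s = 1 → b s = 1 :=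
    fun ⟨A, B, x, _, z⟩ w => Units.val_eq_one.1 ((z s).trans (by
      rw [MonoidHom.comp_apply, w, map_one, mul_one, x]))
  exact ⟨key c, key c.symm⟩

theorem grdC : GRD := fun p _ r l h2 hl hr hf => by
  obtain ⟨-, -, g, r₀, h, -, -⟩ := redC p r hr.cont
  have hp : p.Prime := Fact.out
  refine ⟨fun a b c => ⟨hl, fun P hP => ⟨rirr_int h hr hP hl (fun e => h2
    ((Nat.prime_dvd_prime_iff_eq hp Nat.prime_two).1 (hp.dvd_of_dvd_pow (n := 5) e))) b (a P hP).1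
    (hf P hP).2 odd_one ?_, .inr ((a P hP).2.imp fun s hs => ⟨hs.1, Loc.eq_neg_one two_ne_zero ?_
      (by rw [← pow_mul]; exact (a P hP).1 s hs.1) hs.2⟩)⟩⟩, fun e a b => ?_⟩
  · rw [pow_one, ← sub_eq_zero, ← Nat.cast_one, ← Nat.cast_sub hP.1.pos, ZMod.natCast_eq_zero_iff]
    exact c
  · rw [Units.val_pow_eq_pow_val, det_pow, show (r s).1.det = 1 from
      (hr.det s).trans (eps_inert hP hl hs.1), one_pow]
  · subst e
    obtain ⟨j, hj, e⟩ := Loc.odd_two (q := p) (by omega)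
    exact ⟨hl, fun P hP => ⟨rirr_int h hr hP hl (fun e => by
      have := Nat.le_of_dvd three_pos e; omega) dvd_rfl (a P hP).1 (hf P hP).2 hj e,
      .inl (by omega)⟩⟩

end Vale.Agent.P022K.CH
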