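import Vale.Agent.P022K.CH.Exf
import Vale.Agent.P022K.CH.Eps

/-! # P022K, block CH: compatible systems -/

set_option linter.all false

open NumberField IsDedekindDomain Matrix
open scoped Pointwise

noncomputable section

namespace Vale.Agent.P022K.CH

open Vale.Agent.P022 Vale.Agent.P022.H916 Vale.Agent.P022.H853
open Vale.Agent.P022.H443 (inP)
open Vale.Agent.P022.C (FrI)
open Vale.Agent.P022D.W (dec)
open Vale.Agent.P022E.GW (Ov Fb)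
open Vale.Agent.P022K.Glue Vale.Agent.P022K.Cheb

namespace Sy

section

variable {E : Type*} [Field E]

/-- a semisimple representation is trivial on the elements which do not change the traces -/
theorem one_of_trace {G : Type*} [Group G] (h2 : (2 : E) ≠ 0)
    {ρ : G →* Matrix (Fin 2) (Fin 2) E} {D : Subgroup G} (h : Spans ρ D ∨ ∃ χ χ', ρ = dg χ χ')
    {s : G} (hs : s ∈ D) (k : ∀ x ∈ D, (ρ (s * x)).trace = (ρ x).trace) : ρ s = 1 := by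
  rcases h with h | ⟨χ, χ', rfl⟩
  · exact h.ext fun x m => by rw [← map_mul, one_mul, k x m]
  · have a := k 1 D.one_mem
    have b := k s hs
    simp only [trace_dg, mul_one, map_one, map_mul χ, map_mul χ', trace_one, Fintype.card_fin,
      Nat.cast_ofNat] at a b
    have c : 2 * (χ s - 1) ^ 2 = 0 := by
      linear_combination b - (χ' s - χ s + 1) * a
    have d : χ s = 1 := sub_eq_zero.1 (pow_eq_zero_iff two_ne_zero |>.1
      ((mul_eq_zero.1 c).resolve_left h2))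
    rw [dg_apply, d, show χ' s = 1 by linear_combination a - d, one_fin_two]

variable [TopologicalSpace E] [IsTopologicalRing E] [T2Space E]

/-- **uniqueness**: the traces on two disjoint fields determine all traces -/
theorem uniqT [IsAlgClosed E] (h2 : (2 : E) ≠ 0) {r : GQ →* Matrix (Fin 2) (Fin 2) E}
    (hr : Continuous r) {A : Subgroup GQ} [hn : A.Normal] (hA : IsOpen (A : Set GQ))
    (hne : ∀ U : Subgroup GQ, IsOpen (U : Set GQ) → ∃ a ∈ U, (r a).trace ^ 2 ≠ 4 * (r a).det) :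
    ∃ W : Subgroup GQ, W.Normal ∧ IsOpen (W : Set GQ) ∧ ∀ C : Subgroup GQ, IsOpen (C : Set GQ) →
      Dsj C W → ∀ D : Subgroup GQ, IsOpen (D : Set GQ) → Dsj D (W ⊓ C) →
      ∀ t : D →* Matrix (Fin 2) (Fin 2) E, Continuous t →
      (∀ x : D, x.1 ∈ A → (t x).trace = (r x).trace) →
      (∀ x : D, x.1 ∈ C → (t x).trace = (r x).trace) → ∀ x : D, (t x).trace = (r x).trace := by
  by_cases hs : Spans (r.comp A.subtype) Set.univ
  · obtain ⟨W, W1, W2, W3, W4⟩ := hs.exists_open open_unit hA (hr.comp continuous_subtype_val)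
    refine ⟨W, W1, W2, fun C hC d D hD d' t _ a b x => ?_⟩
    refine (uniq (ρ := r.comp D.subtype) (ρ' := t) (A := A.subgroupOf D) (C := C.subgroupOf D)
      (fun g => ?_) ?_ (fun x m => (a x m).symm) fun x m => (b x m).symm).trace x
    · obtain ⟨y, y1, z, z1, e⟩ := dsj_prod d d' g
      exact ⟨y, W3 y1, z, z1, e⟩
    · refine (W4 ((C : Set GQ) ∩ D) fun g _ => ?_).of_image fun x m =>
        ⟨⟨x, m.2⟩, ⟨x.2, m.1⟩, rfl⟩
      obtain ⟨x, x1, x2⟩ := d g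
      obtain ⟨z, z1, z2⟩ := d' x
      have k1 := mul_mem x1 z2.2
      have k2 := mul_mem x2 z2.1
      rw [mul_inv_cancel_left] at k1
      rw [mul_assoc, mul_inv_cancel_left] at k2
      exact ⟨z, ⟨k1, z1⟩, k2⟩
  obtain ⟨χ, χ', h⟩ := red_chars hs
  refine ⟨A, hn, hA, fun C hC d D hD d' t ht a b x => ?_⟩
  obtain ⟨z, z1, z2⟩ := hne (A ⊓ C ⊓ D) ((hA.inter hC).inter hD)
  have ne : χ ⟨z, z1.1.1⟩ ≠ χ' ⟨z, z1.1.1⟩ := fun e => z2 (by
    have k : ∀ y : A, (r y).trace = χ y + χ' y := h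
    have := two_det (r z)
    have k' : (r (z * z)).trace = _ := k (⟨z, z1.1.1⟩ * ⟨z, z1.1.1⟩)
    rw [← map_mul, k ⟨z, z1.1.1⟩, k', map_mul, map_mul, e] at this
    rw [k ⟨z, z1.1.1⟩, e]
    linear_combination (-2) * this)
  let i : A.subgroupOf D →* A := (D.subtype.comp (A.subgroupOf D).subtype).codRestrict A
    fun x => x.2
  obtain ⟨t', -, t2, t3⟩ := semi h2 ht (A.subgroupOf D) (χ := χ.comp i) (χ' := χ'.comp i)
    (fun x => (a x x.2).trans (h (i x))) (z := ⟨⟨z, z1.2⟩, z1.1.1⟩) ne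
  obtain ⟨ρ, -, r2, r3⟩ := semi h2 hr A h ne
  obtain ⟨y, y1, w, w1, rfl⟩ := dsj_prod d d' x
  have tc : ∀ v : D, (v : GQ) ∈ C → (t' v).trace = (ρ v).trace := fun v m => by
    rw [t2, r2, b v m]
  have k1 : t' ⟨z, z1.2⟩ = !![χ ⟨z, z1.1.1⟩, 0; 0, χ' ⟨z, z1.1.1⟩] := t3 ⟨⟨z, z1.2⟩, z1.1.1⟩
  have k2 : ρ z = !![χ ⟨z, z1.1.1⟩, 0; 0, χ' ⟨z, z1.1.1⟩] := r3 ⟨z, z1.1.1⟩
  have k3 := tc (w * ⟨z, z1.2⟩) (C.mul_mem w1 z1.1.2)
  rw [Subgroup.coe_mul, map_mul, map_mul, k1, k2] at k3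
  obtain ⟨e1, e2⟩ := ent0 (x := t' w) (a := χ ⟨z, z1.1.1⟩) (b := χ' ⟨z, z1.1.1⟩)
  obtain ⟨e3, e4⟩ := ent0 (x := ρ w) (a := χ ⟨z, z1.1.1⟩) (b := χ' ⟨z, z1.1.1⟩)
  rw [k3, tc w w1, ← e3] at e1
  rw [k3, tc w w1, ← e4] at e2
  have k4 : t' y = dg χ χ' ⟨y, y1⟩ := t3 ⟨y, y1⟩
  rw [← t2, ← r2, Subgroup.coe_mul, map_mul, map_mul, k4, r3 ⟨y, y1⟩, dg_apply]
  simp only [trace_fin_two, mul_apply, Fin.sum_univ_two, of_apply, cons_val', cons_val_zero,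
    cons_val_one, cons_val_fin_one, zero_mul, add_zero, zero_add,
    mul_right_cancel₀ (sub_ne_zero.2 ne) e1, mul_right_cancel₀ (sub_ne_zero.2 ne) e2]

end

/-- a number field contains the square roots of finitely many primes only -/
theorem sqrt_fin (K : IntermediateField ℚ Qb) [FiniteDimensional ℚ K] :
    {l : ℕ | l.Prime ∧ ∃ x ∈ K, x ^ 2 = 4 * (l : Qb)}.Finite := by
  have := H443.galQb
  by_contra hf
  have : Infinite {l : ℕ | l.Prime ∧ ∃ x ∈ K, x ^ 2 = 4 * (l : Qb)} := Set.Infinite.to_subtype hf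
  obtain ⟨N, n1, n2, n3⟩ := exists_normal (K.fixingSubgroup_isOpen.mem_nhds (one_mem _))
  have : Finite (GQ ⧸ N) := N.quotient_finite_of_isOpen n2
  choose x x1 x2 using fun l : {l : ℕ | l.Prime ∧ ∃ x ∈ K, x ^ 2 = 4 * (l : Qb)} => l.2.2
  obtain ⟨a, b, ne, e⟩ := Finite.exists_ne_map_eq_of_infinite
    fun l (c : GQ ⧸ N) => c.out (x l) = x l
  have k1 : ∀ l (g : GQ), (g : GQ ⧸ N).out (x l) = g (x l) := fun l g => by
    obtain ⟨u, hu⟩ := QuotientGroup.mk_out_eq_mul N g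
    rw [hu, AlgEquiv.mul_apply, (IntermediateField.mem_fixingSubgroup_iff _ _).1 (n3 u.2) _ (x1 l)]
  have k2 : ∀ l (g : GQ), g (x l) = x l ∨ g (x l) = -x l := fun l g =>
    sq_eq_sq_iff_eq_or_eq_neg.1 (by rw [← map_pow, x2, map_mul, map_ofNat, map_natCast])
  obtain ⟨y, hy⟩ := (InfiniteGalois.mem_range_algebraMap_iff_fixed (k := ℚ) (x a * x b)).2 fun g => by
    have := congrFun e (g : GQ ⧸ N)
    rw [k1, k1] at this
    by_cases c : g (x a) = x a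
    · rw [map_mul, c, this.mp c]
    · rw [map_mul, (k2 a g).resolve_left c, (k2 b g).resolve_left fun n => c (this.mpr n),
        neg_mul_neg]
  have s : IsSquare (((a : ℕ) * b : ℕ) : ℚ) := ⟨y / 4, (algebraMap ℚ Qb).injective (by
    rw [map_mul, map_div₀, hy, map_natCast, map_ofNat, Nat.cast_mul]
    linear_combination (-(x b) ^ 2 / 16) * x2 a - ((a : ℕ) / 4 : Qb) * x2 b)⟩
  obtain ⟨z, hz⟩ := Rat.isSquare_natCast_iff.1 s
  have q := (Nat.squarefree_mul ((Nat.coprime_primes a.2.1 b.2.1).2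
    fun h => ne (Subtype.ext h))).2 ⟨a.2.1.squarefree, b.2.1.squarefree⟩ z (hz ▸ dvd_rfl)
  rw [Nat.isUnit_iff.1 q] at hz
  exact a.2.1.one_lt.ne' (Nat.eq_one_of_mul_eq_one_right hz)

/-- the matrices of a representation -/
abbrev mat {Γ R : Type} [Group Γ] [CommRing R] (ρ : Γ →* GL (Fin 2) R) :
    Γ →* Matrix (Fin 2) (Fin 2) R := (Units.coeHom _).comp ρ

theorem tr_mat {Γ R : Type} [Group Γ] [CommRing R] (ρ : Γ →* GL (Fin 2) R) (g : Γ) :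
    (mat ρ g).trace = tr ρ g := rfl

theorem mat_one {Γ R : Type} [Group Γ] [CommRing R] {ρ : Γ →* GL (Fin 2) R} {g : Γ} :
    mat ρ g = 1 ↔ ρ g = 1 := Units.val_eq_one

theorem tr_conj {Γ R : Type} [Group Γ] [CommRing R] (ρ : Γ →* GL (Fin 2) R) (g x : Γ) :
    tr ρ (g * x * g⁻¹) = tr ρ x := by
  show (mat ρ (g * x * g⁻¹)).trace = (mat ρ x).trace
  rw [map_mul, trace_mul_comm, ← map_mul, inv_mul_cancel_left]

variable {q : ℕ} [Fact q.Prime]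

theorem cont_mat {Γ : Type} [Group Γ] [TopologicalSpace Γ] {ρ : Γ →* GL (Fin 2) (Cp q)}
    (h : Continuous ρ) : Continuous (mat ρ) := Units.continuous_val.comp h

theorem dt_of_tr {D : Subgroup GQ} {ρ : D →* GL (Fin 2) (Cp q)} {r : GQ →* GL (Fin 2) (Cp q)}
    (h : ∀ x : D, tr ρ x = tr r x) (x : D) : dt ρ x = dt r x := by
  have a := two_det (mat ρ x)
  have b := two_det (mat r x)
  rw [← map_mul] at a b
  exact mul_left_cancel₀ two_ne_zero (a.trans ((congrArg₂ (· ^ 2 - ·) (h x) (h (x * x))).trans b.symm))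

section

variable {p : ℕ} [Fact p.Prime] (A : Thy) (ι : Qb →+* Cp p) (S Z : Finset ℕ) (L : Lv) (l0 m : ℕ)
  (r : GQ →* GL (Fin 2) (Cp p))

/-- a field over which `r` is automorphic -/
structure Gx (X : Fd) (b : X.Pl → Qb) : Prop where
  ok : X.Ok S l0 r
  aut : A.Aut X m S L b
  mt : Mt ι X b r

/-- the hypotheses of `SYS` -/
structure Hy : Prop where
  rep : A.REP
  bnd : A.BND
  od : Od S
  zs : Z ⊆ S
  mem : l0 ∈ S
  cont : Continuous r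
  fam : FamZ S Z l0 r (A.AutR ι m S L r)

/-- `r'` restricts to the representations attached to the fields disjoint from `W` -/
def Rst (μ : Qb →+* Cp q) (r' : GQ →* GL (Fin 2) (Cp q)) (W : Subgroup GQ) : Prop :=
  W.Normal ∧ IsOpen (W : Set GQ) ∧ ∀ X b ρ, Gx A ι S L l0 m r X b → Dsj X.H W →
    Thy.Lg μ X S b ρ → ∀ x : X.H, tr ρ x = tr r' x

variable {A ι S Z L l0 m r} {μ : Qb →+* Cp q} {X : Fd} {b : X.Pl → Qb} {l : ℕ} {P : Id} {φ : GQ}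
  {ρ : X.H →* GL (Fin 2) (Cp q)} {r' : GQ →* GL (Fin 2) (Cp q)}

theorem Hy.ex (h : Hy A ι S Z L l0 m r) (U : Subgroup GQ) (hn : U.Normal)
    (hU : IsOpen (U : Set GQ)) (T : Finset ℕ) : ∃ X b, X.H.Normal ∧ Spl X.H (S ∪ T) ∧ Dsj X.H U ∧
      Gx A ι S L l0 m r X b := by
  obtain ⟨X, a, b, c, d, e, -⟩ := exb _ S l0 r _ h.od h.mem h.fam U T hn hU
  obtain ⟨e, f, g⟩ := e (b.mono (h.zs.trans Finset.subset_union_left))
  exact ⟨X, e, a, b, c, d, f, g⟩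

theorem Hy.sph (h : Hy A ι S Z L l0 m r) (g : Gx A ι S L l0 m r X b) (hl : l ∉ S) (hP : Ov l P) :
    X.Sph S l P := by
  obtain ⟨Q, a, b, -⟩ := g.ok.v0
  exact ⟨b ▸ below_ne X hP a fun e => hl (e ▸ h.mem), Or.inl hl⟩

theorem Hy.frob (h : Hy A ι S Z L l0 m r) (g : Gx A ι S L l0 m r X b) (k : Thy.Lg μ X S b ρ)
    (hl : l ∉ insert q S) (hP : Ov l P) (hφ : Fb l P φ) (m : φ ∈ X.H) {w : X.Pl}
    (hw : below X.j P = w.asIdeal) : tr ρ ⟨φ, m⟩ = μ (b w) :=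
  (k.2.2 l P w hP (fun e => hl (by simp [e])) hw
    (h.sph g (fun e => hl (by simp [e])) hP)).2 _ (fri_one X hP hφ m hw)

theorem Hy.cm (h : Hy A ι S Z L l0 m r) (g : Gx A ι S L l0 m r X b) (k : Thy.Lg μ X S b ρ) :
    Cm (tau ι μ (tr r)) X.H (mat ρ) := by
  obtain ⟨S', hS⟩ := g.mt
  refine ⟨cont_mat k.1, S' ∪ insert q S, fun l φ h1 h2 ⟨P, a, c, d⟩ => ?_⟩
  obtain ⟨w, hw⟩ := exists_below X.j (l := l) ⟨h1, a, c⟩
  rw [Finset.mem_union, not_or] at h2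
  rw [tau_eq ι.injective μ (hS l h2.1 P w φ ⟨h1, a, c⟩ (fri_one X ⟨h1, a, c⟩ d φ.2 hw)).symm]
  exact h.frob g k h2.2 ⟨h1, a, c⟩ d φ.2 hw

theorem Hy.self (h : Hy A ι S Z L l0 m r) : Rst A ι S L l0 m r ι r ⊤ := by
  refine ⟨inferInstance, isOpen_univ, fun X b ρ g _ k x => ?_⟩
  obtain ⟨S', hS⟩ := g.mt
  refine congrFun (ext_fr X.opn (f := tr ρ) (f' := fun x => tr r x) (cont_mat k.1).matrix_trace
    ((cont_mat h.cont).comp continuous_subtype_val).matrix_trace (S' ∪ insert p S)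
    fun l φ h1 h2 ⟨P, a, c, d⟩ => ?_) x
  obtain ⟨w, hw⟩ := exists_below X.j (l := l) ⟨h1, a, c⟩
  rw [Finset.mem_union, not_or] at h2
  exact (h.frob g k h2.2 ⟨h1, a, c⟩ d φ.2 hw).trans
    (hS l h2.1 P w φ ⟨h1, a, c⟩ (fri_one X ⟨h1, a, c⟩ d φ.2 hw)).symm

theorem Hy.ne (h : Hy A ι S Z L l0 m r) (g : Gx A ι S L l0 m r X b) (k : Thy.Lg μ X S b ρ)
    (U : Subgroup GQ) (hU : IsOpen (U : Set GQ)) :
    ∃ a : X.H, a.1 ∈ U ∧ tr ρ a ^ 2 ≠ 4 * dt ρ a := by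
  obtain ⟨C, hC⟩ := h.bnd m
  obtain ⟨K, _, hK⟩ := hC X S L b g.aut
  obtain ⟨R, hR⟩ := dec_le_of X.opn
  obtain ⟨l, φ, h1, h2, ⟨P, a, c, d⟩, e⟩ := exists_fr (hU.inter X.opn)
    (g := 1) ⟨U.one_mem, X.H.one_mem⟩ ((sqrt_fin K).toFinset ∪ R ∪ insert q S)
  simp only [Finset.mem_union, not_or, Set.Finite.mem_toFinset] at h2
  have hP : Ov l P := ⟨h1, a, c⟩
  obtain ⟨w, hw⟩ := exists_below X.j hP
  refine ⟨⟨φ, e.2⟩, e.1, fun n => h2.1.1 ⟨h1, b w, (hK l P w hP hw (h.sph g (fun e => h2.2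
    (by simp [e])) hP) (hR l h2.1.2 P φ hP d e.2)).1, μ.injective ?_⟩⟩
  rw [h.frob g k h2.2 hP d e.2 hw, k.2.1, eps_frob q hP (fun e => h2.2 (by simp [e])) d] at n
  rw [map_pow, n, map_mul, map_ofNat, map_natCast]

/-- the members of the system -/
theorem Hy.mem' (h : Hy A ι S Z L l0 m r) (μ : Qb →+* Cp q) :
    ∃ (r' : GQ →* GL (Fin 2) (Cp q)) (W : Subgroup GQ), Rep r' ∧ Rst A ι S L l0 m r μ r' W ∧
      (Spans (mat r') Set.univ ∨ ∃ χ χ', mat r' = dg χ χ') := by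
  obtain ⟨X, b, n, -, -, g⟩ := h.ex ⊤ inferInstance isOpen_univ ∅
  obtain ⟨ρ, k⟩ := h.rep X m S L b g.aut q μ
  obtain ⟨W, w1, w2, w3, w4⟩ := compT two_ne_zero (tau_conj ι μ (tr_conj r)) X.opn (h.cm g k)
    (h.ne g k)
  obtain ⟨X', b', n', -, d, g'⟩ := h.ex W w1 w2 ∅
  obtain ⟨ρ', k'⟩ := h.rep X' m S L b' g'.aut q μ
  obtain ⟨s, s1, s2, s3, s4⟩ := w4 X'.H n' X'.opn d _ (h.cm g' k')
  have rs : Rst A ι S L l0 m r μ s.toHomUnits (W ⊓ X'.H) := ⟨inferInstance, w2.inter X'.opn,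
    fun Y c σ a1 a2 a3 => s4 Y.H Y.opn a2 _ (h.cm a1 a3)⟩
  refine ⟨s.toHomUnits, _, ⟨Units.continuous_iff.2 ⟨s1, s1.comp continuous_inv⟩, fun x => ?_⟩, rs, s2⟩
  obtain ⟨Y, c, -, -, d', g''⟩ := h.ex _ rs.1 rs.2.1 ∅
  obtain ⟨σ, k''⟩ := h.rep Y m S L c g''.aut q μ
  obtain ⟨y, y1, y2⟩ := d' x⁻¹
  have e1 := (dt_of_tr (r := s.toHomUnits) (fun a => (s3 a).symm) ⟨_, w3 y2.1⟩).symm.trans (k.2.1 _)
  have e2 := (dt_of_tr (rs.2.2 Y c σ g'' d' k'') ⟨y⁻¹, inv_mem y1⟩).symm.trans (k''.2.1 _)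
  have e3 : x = x⁻¹⁻¹ * y * y⁻¹ := by group
  rw [e3, eps_mul, ← e1, ← e2]
  simp only [dt, map_mul, Units.val_mul, det_mul]

/-- the values of the system are read on all fields disjoint from `W` -/
def Vl (A : Thy) (ι : Qb →+* Cp p) (S : Finset ℕ) (L : Lv) (l0 m : ℕ)
    (r : GQ →* GL (Fin 2) (Cp p)) (a : ℕ → Qb) (W : Subgroup GQ) : Prop :=
  W.Normal ∧ IsOpen (W : Set GQ) ∧ ∀ X b, Gx A ι S L l0 m r X b → Dsj X.H W → ∀ l ∉ S,
    ∀ P (w : X.Pl), Ov l P → dec P ≤ X.H → below X.j P = w.asIdeal → b w = a l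

theorem Hy.val0 (h : Hy A ι S Z L l0 m r) (q : ℕ) [Fact q.Prime] : ∃ (a : ℕ → Qb)
    (W : Subgroup GQ), W.Normal ∧ IsOpen (W : Set GQ) ∧ ∀ X b, Gx A ι S L l0 m r X b → Dsj X.H W →
    ∀ l ∉ insert q S, ∀ P (w : X.Pl), Ov l P → dec P ≤ X.H → below X.j P = w.asIdeal →
      b w = a l := by
  have := H443.algQb
  let μ : Qb →+* Cp q := (IsAlgClosed.lift (R := ℚ) (S := Qb) (M := Cp q)).toRingHom
  obtain ⟨r', W, -, ⟨w1, w2, w3⟩, -⟩ := h.mem' μ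
  have : ∀ l : ℕ, l.Prime → ∃ P φ, Ov l P ∧ Fb l P φ := fun l hl => by
    obtain ⟨P, hP⟩ := ex_ov hl
    obtain ⟨φ, hφ⟩ := ex_fb hP
    exact ⟨P, φ, hP, hφ⟩
  choose! P φ h1 h2 using this
  refine ⟨fun l => Function.invFun μ (tr r' (φ l)), W, w1, w2, fun X b g d l hl Q w hQ e hw => ?_⟩
  obtain ⟨ρ, k⟩ := h.rep X m S L b g.aut q μ
  obtain ⟨s, rfl⟩ := Fld.ov_conj (h1 l hQ.1) hQ
  have f := fb_smul (h2 l hQ.1) s
  have := h.frob g k hl hQ f (e (fb_dec hQ f)) hw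
  rw [w3 X b ρ g d k, tr_conj] at this
  simp only [this, Function.leftInverse_invFun μ.injective (b w)]

theorem Hy.val (h : Hy A ι S Z L l0 m r) : ∃ a W, Vl A ι S L l0 m r a W := by
  have : Fact (Nat.Prime 3) := ⟨Nat.prime_three⟩
  obtain ⟨a, W, a1, a2, a3⟩ := h.val0 2
  obtain ⟨a', W', b1, b2, b3⟩ := h.val0 3
  refine ⟨fun l => if l = 2 then a' l else a l, W ⊓ W', inferInstance, a2.inter b2,
    fun X b g d l hl P w hP e hw => ?_⟩
  by_cases c : l = 2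
  · simp only [if_pos c]
    exact b3 X b g (Dsj.mono d le_rfl inf_le_right) l (by simp [hl]; omega) P w hP e hw
  · simp only [if_neg c]
    exact a3 X b g (Dsj.mono d le_rfl inf_le_left) l (by simp [hl, c]) P w hP e hw

variable {a : ℕ → Qb} {W W' : Subgroup GQ}

theorem Hy.sys (h : Hy A ι S Z L l0 m r) (v : Vl A ι S L l0 m r a W)
    (s : Rst A ι S L l0 m r μ r' W') : Sys μ r' (insert q S) a := fun l hl P φ hP hφ => by
  have := v.1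
  have := s.1
  obtain ⟨X, b, -, c, d, g⟩ := h.ex (W ⊓ W') inferInstance (v.2.1.inter s.2.1) {l}
  obtain ⟨ρ, k⟩ := h.rep X m S L b g.aut q μ
  obtain ⟨w, hw⟩ := exists_below X.j hP
  have e := c l (by simp) P hP
  rw [← v.2.2 X b g (Dsj.mono d le_rfl inf_le_left) l (fun e => hl (by simp [e])) P w hP e hw,
    ← h.frob g k hl hP hφ (e (fb_dec hP hφ)) hw, s.2.2 X b ρ g (Dsj.mono d le_rfl inf_le_right) k]

/-- the values at almost all places of degree one, for every field -/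
theorem Hy.ae (h : Hy A ι S Z L l0 m r) (v : Vl A ι S L l0 m r a W) (g : Gx A ι S L l0 m r X b) :
    ∃ S' : Finset ℕ, ∀ l ∉ S', ∀ P φ (w : X.Pl), Ov l P → Fb l P φ → φ ∈ X.H →
      below X.j P = w.asIdeal → b w = a l := by
  obtain ⟨S', hS⟩ := g.mt
  refine ⟨S' ∪ insert p S, fun l hl P φ w hP hφ m hw => ι.injective ?_⟩
  rw [Finset.mem_union, not_or] at hl
  rw [← hS l hl.1 P w _ hP (fri_one X hP hφ m hw), h.sys v h.self l hl.2 P φ hP hφ]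

theorem Hy.rst (h : Hy A ι S Z L l0 m r) (v : Vl A ι S L l0 m r a W) (c : Continuous r')
    (s : Sys μ r' (insert q S) a) (g : Gx A ι S L l0 m r X b) (k : Thy.Lg μ X S b ρ) (x : X.H) :
    tr ρ x = tr r' x := by
  obtain ⟨S', hS⟩ := h.ae v g
  refine congrFun (ext_fr X.opn (f := tr ρ) (f' := fun x => tr r' x) (cont_mat k.1).matrix_trace
    ((cont_mat c).comp continuous_subtype_val).matrix_trace (S' ∪ insert q S)
    fun l φ h1 h2 ⟨P, a, c, d⟩ => ?_) x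
  obtain ⟨w, hw⟩ := exists_below X.j (l := l) ⟨h1, a, c⟩
  rw [Finset.mem_union, not_or] at h2
  exact (h.frob g k h2.2 ⟨h1, a, c⟩ d φ.2 hw).trans ((congrArg μ
    (hS l h2.1 P φ w ⟨h1, a, c⟩ d φ.2 hw)).trans (s l h2.2 P φ ⟨h1, a, c⟩ d).symm)

/-- the field of coefficients -/
theorem Hy.alg (h : Hy A ι S Z L l0 m r) (v : Vl A ι S L l0 m r a W) : Alg S a := by
  have := H443.algQb
  have := H443.galQb
  have := v.1
  let μ : Qb →+* Cp 2 := (IsAlgClosed.lift (R := ℚ) (S := Qb) (M := Cp 2)).toRingHom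
  obtain ⟨r', W', c, s, -⟩ := h.mem' μ
  have s := h.sys v s
  obtain ⟨C, hC⟩ := h.bnd m
  obtain ⟨X, b, n, -, -, g⟩ := h.ex ⊤ inferInstance isOpen_univ ∅
  obtain ⟨ρ, k⟩ := h.rep X m S L b g.aut 2 μ
  obtain ⟨U, u1, u2, u3⟩ := uniqT two_ne_zero (cont_mat c.cont) X.opn fun U hU => by
    obtain ⟨x, x1, x2⟩ := h.ne g k U hU
    rw [h.rst v c.cont s g k, dt_of_tr (h.rst v c.cont s g k)] at x2
    exact ⟨x, x1, x2⟩
  obtain ⟨X', b', n', -, d, g'⟩ := h.ex U u1 u2 ∅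
  obtain ⟨K, _, hK⟩ := hC X S L b g.aut
  obtain ⟨K', _, hK'⟩ := hC X' S L b' g'.aut
  have := IntermediateField.adjoin.finiteDimensional (Algebra.IsIntegral.isIntegral (R := ℚ) (a 2))
  refine ⟨K ⊔ K' ⊔ IntermediateField.adjoin ℚ {a 2}, inferInstance, C, fun l hl l1 => ?_⟩
  obtain ⟨P, hP⟩ := ex_ov l1
  obtain ⟨φ, hφ⟩ := ex_fb hP
  obtain ⟨Y, e, -, y1, y2, y3⟩ := h.ex (U ⊓ X'.H ⊓ W) inferInstance
    ((u2.inter X'.opn).inter v.2.1) {l}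
  obtain ⟨w, hw⟩ := exists_below Y.j hP
  have y4 := y1 l (by simp) P hP
  have y5 := v.2.2 Y e y3 (Dsj.mono y2 le_rfl inf_le_right) l hl P w hP y4 hw
  obtain ⟨_, _, hY⟩ := hC Y S L e y3.aut
  refine ⟨?_, y5 ▸ (hY l P w hP hw (h.sph y3 hl hP) y4).2⟩
  by_cases c2 : l = 2
  · exact (le_sup_right : _ ≤ K ⊔ K' ⊔ _) (c2 ▸ IntermediateField.mem_adjoin_simple_self ℚ (a l))
  refine (le_sup_left : K ⊔ K' ≤ _) ?_
  rw [← InfiniteGalois.fixedField_fixingSubgroup (K ⊔ K'), IntermediateField.mem_fixedField_iff]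
  intro σ hσ
  rw [IntermediateField.mem_fixingSubgroup_iff] at hσ
  obtain ⟨t, kt⟩ := h.rep Y m S L e y3.aut 2 (μ.comp σ)
  have key : ∀ (Z : Fd) (f : Z.Pl → Qb) (M : IntermediateField ℚ Qb), Gx A ι S L l0 m r Z f →
      M ≤ K ⊔ K' → (∀ l P (w : Z.Pl), Ov l P → below Z.j P = w.asIdeal → Z.Sph S l P →
        dec P ≤ Z.H → f w ∈ M) → ∀ x : Y.H, x.1 ∈ Z.H → tr t x = tr r' x :=
    fun Z f M z1 z2 z3 x hx => by
      obtain ⟨S1, h1⟩ := h.ae v y3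
      obtain ⟨S2, h2⟩ := h.ae v z1
      obtain ⟨R, hR⟩ := dec_le_of Z.opn
      refine congrFun (ext_fr (H := Y.H ⊓ Z.H) (Y.opn.inter Z.opn)
        (f := fun y => tr t ⟨y, y.2.1⟩) (f' := fun y => tr r' y)
        ((cont_mat kt.1).comp (continuous_subtype_val.subtype_mk _)).matrix_trace
        ((cont_mat c.cont).comp continuous_subtype_val).matrix_trace (S1 ∪ S2 ∪ R ∪ insert 2 S)
        fun l φ h3 h4 ⟨P, a1, a2, a3⟩ => ?_) ⟨x, x.2, hx⟩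
      simp only [Finset.mem_union, not_or] at h4
      have hP : Ov l P := ⟨h3, a1, a2⟩
      obtain ⟨w, hw⟩ := exists_below Y.j hP
      obtain ⟨w', hw'⟩ := exists_below Z.j hP
      have b1 := z3 l P w' hP hw' (h.sph z1 (fun e => h4.2 (by simp [e])) hP)
        (hR l h4.1.2 P φ hP a3 φ.2.2)
      rw [h2 l h4.1.1.2 P φ w' hP a3 φ.2.2 hw'] at b1
      refine (h.frob y3 kt h4.2 hP a3 φ.2.1 hw).trans ?_
      rw [h1 l h4.1.1.1 P φ w hP a3 φ.2.1 hw, s l h4.2 P φ hP a3]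
      exact congrArg μ (hσ _ (z2 b1))
  have e1 := u3 X'.H X'.opn d Y.H Y.opn (Dsj.mono y2 le_rfl inf_le_left) (mat t) (cont_mat kt.1)
    (key X b K g le_sup_left fun l P w a1 a2 a3 a4 => (hK l P w a1 a2 a3 a4).1)
    (key X' b' K' g' le_sup_right fun l P w a1 a2 a3 a4 => (hK' l P w a1 a2 a3 a4).1)
    ⟨φ, y4 (fb_dec hP hφ)⟩
  have l2 : l ∉ insert 2 S := by simp [hl, c2]
  have e2 := h.frob y3 kt l2 hP hφ (y4 (fb_dec hP hφ)) hw
  rw [y5] at e2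
  exact μ.injective (e2.symm.trans (e1.trans (s l l2 P φ hP hφ)))

end

/-- a semisimple representation stays semisimple on the fields disjoint from a fixed field -/
theorem ex_ss {r' : GQ →* GL (Fin 2) (Cp q)} (c : Continuous r')
    (h : Spans (mat r') Set.univ ∨ ∃ χ χ', mat r' = dg χ χ') : ∃ U : Subgroup GQ, U.Normal ∧
      IsOpen (U : Set GQ) ∧ ∀ D : Subgroup GQ, Dsj D U →
        Spans (mat r') D ∨ ∃ χ χ', mat r' = dg χ χ' := by
  rcases h with h | h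
  · obtain ⟨W, a, b, -, d⟩ := Spans.exists_open open_unit (H := ⊤) isOpen_univ
      (r := fun x => mat r' x) ((cont_mat c).comp continuous_subtype_val)
      (h.of_image fun x _ => ⟨⟨x, trivial⟩, trivial, rfl⟩)
    exact ⟨W, a, b, fun D hD => Or.inl ((d D fun g _ => hD g).of_image fun x m => ⟨x, m, rfl⟩)⟩
  · exact ⟨⊤, inferInstance, isOpen_univ, fun _ _ => Or.inr h⟩

section

variable {p : ℕ} [Fact p.Prime] {A : Thy} {ι : Qb →+* Cp p} {S Z : Finset ℕ} {L : Lv} {l0 m : ℕ}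
  {r : GQ →* GL (Fin 2) (Cp p)} {μ : Qb →+* Cp q} {r' : GQ →* GL (Fin 2) (Cp q)}

variable (A ι S L l0 m r μ r') in
/-- a member of the system -/
structure Mb (U : Subgroup GQ) : Prop where
  nor : U.Normal
  opn : IsOpen (U : Set GQ)
  eq : ∀ X b ρ, Gx A ι S L l0 m r X b → Thy.Lg μ X S b ρ → ∀ x : X.H, tr ρ x = tr r' x
  ss : ∀ D : Subgroup GQ, Dsj D U → Spans (mat r') D ∨ ∃ χ χ', mat r' = dg χ χ'

variable {U : Subgroup GQ} {X : Fd} {b : X.Pl → Qb} {ρ : X.H →* GL (Fin 2) (Cp q)}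

theorem Mb.one (M : Mb A ι S L l0 m r μ r' U) (g : Gx A ι S L l0 m r X b) (d : Dsj X.H U)
    (k : Thy.Lg μ X S b ρ) (x : X.H) (e : ∀ y, tr ρ (x * y) = tr ρ y) : r' x = 1 := by
  refine mat_one.1 (one_of_trace (ρ := mat r') two_ne_zero (M.ss X.H d) x.2 fun y hy => ?_)
  have a := M.eq X b ρ g k (x * ⟨y, hy⟩)
  rw [e, M.eq X b ρ g k, Subgroup.coe_mul] at a
  rw [tr_mat, tr_mat]
  exact a.symm

theorem Mb.one' (M : Mb A ι S L l0 m r μ r' U) (g : Gx A ι S L l0 m r X b) (d : Dsj X.H U)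
    (k : Thy.Lg μ X S b ρ) (x : X.H) (e : ρ x = 1) : r' x = 1 :=
  M.one g d k x fun y => by rw [tr, map_mul, e, one_mul, tr]

/-- the fields which are adapted to a prime of the level -/
theorem Hy.aux (h : Hy A ι S Z L l0 m r) (u1 : U.Normal) (u2 : IsOpen (U : Set GQ)) {l : ℕ}
    (hl : l ∈ S) (l2 : l ∉ Z) {P : Id} (hP : Ov l P) {s1 : GQ} (s2 : s1 ∈ inP P) (s3 : r s1 ≠ 1) :
    ∃ (U' : Subgroup GQ) (T : Finset ℕ), U'.Normal ∧ IsOpen (U' : Set GQ) ∧ l ∉ T ∧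
      ∀ H, Aux U' T l P H → Even H.index → (∀ s ∈ H, s ∈ inP P → r s = 1) →
      ∃ X b, Gx A ι S L l0 m r X b ∧ Dsj X.H U ∧ X.Sph S l P ∧ X.H ⊓ dec P = H ⊓ dec P := by
  classical
  obtain ⟨H0, W0, T0, a1, a2, a3, a4, a5, a6, a7, a8, a9⟩ := h.fam U {2} u1 u2
  refine ⟨H0 ⊓ W0 ⊓ U, (insert 2 S ∪ T0).erase l, inferInstance, (a2.inter a4).inter u2,
    Finset.notMem_erase _ _, fun H b1 b2 b5 => ?_⟩
  have sp : ∀ l' ∈ insert 2 S ∪ T0, l' ≠ l → ∀ Q, Ov l' Q → dec Q ≤ H := fun l' c1 c2 Q hQ =>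
    (b1.spl l' (Finset.mem_erase.2 ⟨c2, c1⟩) Q hQ).trans H.normalCore_le
  have s0 : ∀ l' ∈ S, ∀ Q, Ov l' Q → dec Q ≤ H0 := fun l' c1 => a6 l' (by simp [c1])
  obtain ⟨Q, q1, q2⟩ : ∃ Q, Ov l0 Q ∧ dec Q ≤ H := by
    by_cases e : l0 = l
    · exact e ▸ b1.one
    · obtain ⟨Q, hQ⟩ := ex_ov (h.od l0 h.mem).1
      exact ⟨Q, hQ, sp l0 (by simp [h.mem]) e Q hQ⟩
  obtain ⟨X, e, v0⟩ := exists_fd (H := H0 ⊓ H) (a2.inter b1.opn) q1
  obtain ⟨x1, x2⟩ := over_of (T0 := T0) e (Dsj.mono b1.dsj H.normalCore_le le_rfl) a7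
    (fun l' c1 => a6 l' (by simp [c1])) fun l' c1 => sp l' (by simp [c1])
      fun e => Finset.disjoint_left.1 a8 c1 (e ▸ hl)
  have q3 : dec Q ≤ X.H := (le_inf (s0 l0 h.mem Q q1) q2).trans e.ge
  have ok : X.Ok S l0 r := ⟨fun c hc => e.ge ⟨a5 c hc, H.normalCore_le (b1.conj c hc)⟩,
    even_of_le (e.le.trans inf_le_right) b2, ⟨Q, q1, v0, q3⟩, fun l' c1 Q' hQ => by
      obtain rfl := Finset.mem_singleton.1 c1
      exact (le_inf (a6 2 (by simp) Q' hQ) (sp 2 (by simp) (h.od l hl).2.symm Q' hQ)).trans e.ge,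
    fun l' c1 Q' hQ => by
      by_cases c2 : l' = l
      · rcases b1.oth Q' (c2 ▸ hQ) with c3 | ⟨g, c3, rfl⟩
        · exact Or.inl ((le_inf (s0 l' c1 Q' hQ) c3).trans e.ge)
        · refine Or.inr fun x hx => ?_
          have c4 : r (g⁻¹ * x * g) = 1 := b5 _ (H.mul_mem (H.mul_mem (H.inv_mem c3)
            (e.le hx.1).2) c3) (in_smul hx.2)
          rwa [map_mul, map_mul, map_inv, mul_assoc, inv_mul_eq_one, right_eq_mul] at c4
      · exact Or.inl ((le_inf (s0 l' c1 Q' hQ) (sp l' (by simp [c1]) c2 Q' hQ)).trans e.ge)⟩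
  obtain ⟨b, c1, c2⟩ := a9 X x1 ok fun l' c1 Q' hQ => (le_inf (s0 l' (h.zs c1) Q' hQ)
    (sp l' (by simp [h.zs c1]) (fun e => l2 (e ▸ c1)) Q' hQ)).trans e.ge
  have ns : ¬ dec P ≤ X.H := fun n => s3 (b5 s1 (e.le (n (P022D.W.inP_le_dec s2))).2 s2)
  refine ⟨X, b, ⟨ok, c1, c2⟩, x2,
    ⟨fun n => ns (dec_of_below X q1.2.1 hP.2.1 (v0.trans n.symm) q3), Or.inr ns⟩, ?_⟩
  rw [e, inf_comm H0, inf_assoc, inf_eq_right.2 (s0 l hl P hP)]

theorem Mb.sk (M : Mb A ι S L l0 m r μ r' U) (h : Hy A ι S Z L l0 m r) {l : ℕ} (hl : l ∈ S)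
    (l2 : l ∉ Z) (lp : l ≠ p) (lq : l ≠ q) (fn : Fn r l) : Sk r r' l := fun P hP s0 hs0 => by
  obtain ⟨⟨V, v1, v2⟩, s1, s2, s3⟩ := fn P hP
  obtain ⟨U', T, u1, u2, u3, u4⟩ := h.aux M.nor M.opn hl l2 hP s2 fun e => s3 (by rw [e, one_pow])
  have := (transport (lam := ι) (mu := μ) (r := mat r) (r' := mat r') U' u2 T u3 hP inf_even v1
    (fun x a b => congrArg Units.val (v2 x ⟨a, b⟩)) fun H n φ b1 b2 b3 b4 b5 => ?_).2 s0 hs0
  · exact ⟨fun e => Units.ext (this.1 (congrArg Units.val e)),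
      fun e => Units.ext (this.2 (congrArg Units.val e))⟩
  obtain ⟨X, b, g, x2, sph, e⟩ := u4 H b1 b2 fun s a b => Units.ext (b5 s a b)
  obtain ⟨w, hw⟩ := exists_below X.j hP
  obtain ⟨ρ, k⟩ := h.rep X m S L b g.aut p ι
  obtain ⟨ρ', k'⟩ := h.rep X m S L b g.aut q μ
  have fr : Frb X.H l n P φ := b4.congr hP e
  refine ⟨fun x d1 d2 => congrArg Units.val (M.one' g x2 k'
    ⟨x, (e.ge ⟨d1, P022D.W.inP_le_dec d2⟩).1⟩ ((k'.2.2 l P w hP lq hw sph).1 _ d2)), b w, ?_, ?_⟩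
  · exact (h.self.2.2 X b ρ g (fun g => ⟨1, one_mem _, trivial⟩) k ⟨φ, fr.1⟩).symm.trans
      ((k.2.2 l P w hP lp hw sph).2 _ (fr.fri hP hw))
  · exact (M.eq X b ρ' g k' ⟨φ, fr.1⟩).symm.trans ((k'.2.2 l P w hP lq hw sph).2 _ (fr.fri hP hw))

theorem Mb.unr (M : Mb A ι S L l0 m r μ r' U) (h : Hy A ι S Z L l0 m r) : Unr r' (insert q S) :=
  fun l hl P hP x hx => by
    obtain ⟨X, b, -, d1, d2, g⟩ := h.ex U M.nor M.opn {l}
    obtain ⟨ρ, k⟩ := h.rep X m S L b g.aut q μ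
    obtain ⟨w, hw⟩ := exists_below X.j hP
    exact M.one' g d2 k ⟨x, d1 l (by simp) P hP (P022D.W.inP_le_dec hx)⟩
      ((k.2.2 l P w hP (fun e => hl (by simp [e])) hw
        (h.sph g (fun e => hl (by simp [e])) hP)).1 _ hx)

theorem Mb.the (M : Mb A ι S L l0 m r μ r' U) (h : Hy A ι S Z L l0 m r) (c : Rep r') (hs : A.THE)
    (q2 : 5 ≤ q) (h3 : 3 ∈ S) (l2 : l0 ≠ 3) (hL : L 3 = some cth) : Fn r' 3 ∧ Ex r' 3 4 2 := by
  obtain ⟨X, b, -, d1, d2, g⟩ := h.ex U M.nor M.opn ∅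
  obtain ⟨ρ, k⟩ := h.rep X m S L b g.aut q μ
  obtain ⟨Q, q1, q3, -⟩ := g.ok.v0
  have key : ∀ P, Ov 3 P → (∀ x ∈ inP P, r' x ^ 4 = 1) ∧ (∃ V : Subgroup GQ,
      IsOpen (V : Set GQ) ∧ ∀ x ∈ V ⊓ inP P, r' x = 1) ∧ ∃ x ∈ inP P, r' x ^ 2 ≠ 1 := fun P hP => by
    have d := d1 3 (by simp [h3]) P hP
    obtain ⟨b1, ⟨V, b2, b3⟩, x, b4, b5⟩ := hs X m S L b g.aut h3 hL q μ ρ q2 k P hP d
      (q3 ▸ below_ne X hP q1 l2.symm)
    refine ⟨fun y hy => ?_, ⟨V, b2, fun y hy => M.one g d2 k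
      ⟨y, d (P022D.W.inP_le_dec hy.2)⟩ fun z => b3 _ z hy⟩, x, b4, fun e => ?_⟩
    · have := M.one g d2 k (⟨y, d (P022D.W.inP_le_dec hy)⟩ ^ 4) fun z => b1 _ z hy
      rwa [Subgroup.coe_pow, map_pow] at this
    · have t := two_det (mat r' x)
      rw [← map_mul, ← sq, map_pow, tr_mat, ← M.eq X b ρ g k, b5] at t
      have e' : mat r' x ^ 2 = 1 := congrArg Units.val e
      have d' : (mat r' x).det = 1 := (c.det x).trans (eps_inert hP (by omega) b4)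
      rw [e', d', trace_one, Fintype.card_fin] at t
      norm_num at t
  exact ⟨fun P hP => (key P hP).2, fun P hP => ⟨(key P hP).1, (key P hP).2.2⟩⟩

theorem Mb.fam (M : Mb A ι S L l0 m r μ r' U) (h : Hy A ι S Z L l0 m r) (c : Rep r')
    (sk : ∀ l ∈ S, l ∉ Z → l ≠ q → Sk r r' l) : FamZ S Z l0 r' (A.AutR μ m S L r') :=
  fun U' T n o => by
    obtain ⟨H0, W0, T0, a1, a2, a3, a4, a5, a6, a7, a8, a9⟩ := h.fam U' T n o
    refine ⟨H0, W0, T0, a1, a2, a3, a4, a5, a6, a7, a8, fun X x1 ok sp => ?_⟩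
    have ok' : X.Ok S l0 r := ⟨ok.real, ok.even, ok.v0, ok.two, fun l hl P hP => by
      by_cases l2 : l ∈ Z
      · exact Or.inl (sp l l2 P hP)
      refine (ok.loc l hl P hP).elim Or.inl fun k => ?_
      by_cases lq : l = q
      · subst lq
        obtain ⟨x, b1, b2, b3⟩ := eps_ne l hP X.opn
        exact (b3 (by rw [← c.det, dt, k x ⟨b1, b2⟩, Units.val_one, det_one])).elim
      · exact Or.inr fun x hx => (sk l hl l2 lq P hP x hx.2).2 (k x hx)⟩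
    obtain ⟨b, c1, c2⟩ := a9 X x1 ok' sp
    have g : Gx A ι S L l0 m r X b := ⟨ok', c1, c2⟩
    obtain ⟨ρ, k⟩ := h.rep X m S L b c1 q μ
    refine ⟨b, c1, insert q S, fun l hl P w φ hP f => ?_⟩
    exact (M.eq X b ρ g k φ).symm.trans ((k.2.2 l P w hP (fun e => hl (by simp [e])) f.2.1
      (h.sph g (fun e => hl (by simp [e])) hP)).2 φ f)

theorem Hy.neis (h : Hy A ι S Z L l0 m r) (hm : A.RAM) {a : ℕ → Qb} {W : Subgroup GQ}
    (v : Vl A ι S L l0 m r a W) : NE S a := fun l hl l1 => by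
  obtain ⟨P, hP⟩ := ex_ov l1
  obtain ⟨X, b, -, c, d, g⟩ := h.ex W v.1 v.2.1 {l}
  obtain ⟨w, hw⟩ := exists_below X.j hP
  have e := c l (by simp) P hP
  rw [← v.2.2 X b g d l hl P w hP e hw]
  exact hm X m S L b g.aut l P w hP hw (h.sph g hl hP) e

/-- the representation attached to a form which matches `r` has the traces of `r` -/
theorem tr_of_mt {ρ : X.H →* GL (Fin 2) (Cp p)} (c : Continuous r) (t : Mt ι X b r)
    (k : Thy.Lg ι X S b ρ) (x : X.H) : tr ρ x = tr r x := by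
  obtain ⟨S', hS⟩ := t
  have f : {l : ℕ | ∃ P, Ov l P ∧ below X.j P = X.v0.asIdeal}.Finite :=
    Set.Subsingleton.finite fun l ⟨P, a, b⟩ l' ⟨Q, c, d⟩ =>
      by_contra fun n => below_ne X a c n (b.trans d.symm)
  refine congrFun (ext_fr X.opn (f := tr ρ) (f' := fun x => tr r x) (cont_mat k.1).matrix_trace
    ((cont_mat c).comp continuous_subtype_val).matrix_trace (S' ∪ f.toFinset ∪ insert p S)
    fun l φ h1 h2 ⟨P, a, c, d⟩ => ?_) x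
  have hP : Ov l P := ⟨h1, a, c⟩
  obtain ⟨w, hw⟩ := exists_below X.j hP
  simp only [Finset.mem_union, not_or, Set.Finite.mem_toFinset, Finset.mem_insert] at h2
  have fr := fri_one X hP d φ.2 hw
  exact ((k.2.2 l P w hP h2.2.1 hw ⟨fun e => h2.1.2 ⟨P, hP, e⟩, Or.inl h2.2.2⟩).2 φ fr).trans
    (hS l h2.1.1 P w φ hP fr).symm

end

end Sy

open Sy

theorem syb (A : Thy) (hr : A.REP) (hs : A.THE) (hb : A.BND) (hm : A.RAM) : A.SYB := by
  intro p _ ι S Z L l0 m r hS hZ h0 rp _ hp fn fam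
  have h : Hy A ι S Z L l0 m r := ⟨hr, hb, hS, hZ, h0, rp.cont, fam⟩
  obtain ⟨a, W, v⟩ := h.val
  refine ⟨a, h.alg v, h.neis hm v, h.sys v h.self, fun q _ μ => ?_⟩
  obtain ⟨r', W', c, s, ss⟩ := h.mem' μ
  have s := h.sys v s
  obtain ⟨U, u1, u2, u3⟩ := ex_ss c.cont ss
  have M : Mb A ι S L l0 m r μ r' U := ⟨u1, u2, fun X b ρ g k => h.rst v c.cont s g k, u3⟩
  have sk : ∀ l ∈ S, l ∉ Z → l ≠ q → Sk r r' l := fun l a b c =>
    M.sk h a b (fun e => b (e ▸ hp (e ▸ a))) c (fn l a b)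
  exact ⟨r', c, M.unr h, s, sk, M.the h c hs, M.fam h c sk⟩

/-- the first clause of `SEED` -/
theorem seed1 (A : Thy) (hr : A.REP) {p : ℕ} [Fact p.Prime] {ι : Qb →+* Cp p} {S : Finset ℕ}
    {L : Lv} {r : GQ →* GL (Fin 2) (Cp p)} {X : Fd} (c : Rep r) (m : ℕ)
    (h : A.AutR ι m S L r X) : A.AutS ι S L r X := by
  obtain ⟨b, a, t⟩ := h
  obtain ⟨ρ, k⟩ := hr X m S L b a p ι
  have e := tr_of_mt c.cont t k
  refine ⟨m, b, ρ, a, k, fun g => by simp [e g], fun l _ _ P _ s g _ d => ?_⟩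
  rw [e, e, tr, Subgroup.coe_mul, map_mul, d, one_mul, tr]

end Vale.Agent.P022K.CH
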